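import Crest.Agent.R242.KantBase
import Crest.Agent.R242.Defs
import Crest.Agent.R242.CurveTop

/-!
Row 242, transport block (owner helper475): Kantorovich potentials in the form `IsPot`, weak
duality, existence of optimal couplings, lower semicontinuity of `w2sq`, compactness of the set of
optimal geodesic plans.
-/

set_option autoImplicit false
set_option linter.unusedSectionVars false

open MeasureTheory Filter Set Topology
open scoped ENNReal NNReal
open Crest.GeometryTopology.SyntheticRicci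

noncomputable section

namespace Crest.Agent.R242

variable {X : Type*} [MetricSpace X] [ProperSpace X] [MeasurableSpace X] [BorelSpace X]

theorem exists_pot {o : X} {R : ℝ} {μ₀ μ₁ : Measure X} [IsProbabilityMeasure μ₀]
    [IsProbabilityMeasure μ₁] (h₀ : μ₀ (Metric.closedBall o R)ᶜ = 0)
    (h₁ : μ₁ (Metric.closedBall o R)ᶜ = 0) : ∃ φ ψ : X → ℝ, IsPot o R μ₀ μ₁ φ ψ := by
  have hY : IsCompact (Metric.closedBall o R) := isCompact_closedBall o R
  obtain ⟨φ, ψ, hφc, hψc, hφl, hψl, hle1, hle2, hopt, -⟩ :=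
    kantorovich_potentials hY μ₀ μ₁ h₀ h₁
  have hlip : ∀ θ : X → ℝ, (∀ x x', ∃ y ∈ Metric.closedBall o R,
      |θ x - θ x'| ≤ dist x x' * ((dist x y + dist x' y) / 2)) →
      ∀ x x', |θ x - θ x'| ≤ dist x x' * ((dist x o + dist x' o) / 2 + R) := by
    intro θ hθ x x'
    obtain ⟨y, hy, h⟩ := hθ x x'
    refine h.trans (mul_le_mul_of_nonneg_left ?_ dist_nonneg)
    have h1 : dist o y ≤ R := by rwa [Metric.mem_closedBall, dist_comm] at hy
    have h2 := dist_triangle x o y
    have h3 := dist_triangle x' o y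
    linarith
  refine ⟨fun x => φ x - φ o, fun y => ψ y + φ o, ?_⟩
  constructor
  · intro x y hy
    have := hle1 x y hy
    linarith
  · intro x hx y
    have := hle2 x hx y
    linarith
  · intro q hq
    filter_upwards [(hopt q hq).1] with p hp
    linarith
  · intro x x'
    have := hlip φ hφl x x'
    simpa using this
  · intro x x'
    have := hlip ψ hψl x x'
    simpa using this
  · simp

lemma IsPot.continuous_left {o : X} {R : ℝ} {μ₀ μ₁ : Measure X} {φ ψ : X → ℝ}
    (h : IsPot o R μ₀ μ₁ φ ψ) : Continuous φ := by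
  rw [continuous_iff_continuousAt]
  intro x
  rw [ContinuousAt, tendsto_iff_dist_tendsto_zero]
  have h1 : Tendsto (fun x' => dist x' x * ((dist x' o + dist x o) / 2 + R)) (𝓝 x) (𝓝 0) := by
    have : Continuous (fun x' => dist x' x * ((dist x' o + dist x o) / 2 + R)) := by fun_prop
    have := this.tendsto x
    simpa using this
  refine squeeze_zero (fun _ => dist_nonneg) ?_ h1
  intro x'
  rw [Real.dist_eq]
  exact h.lipφ x' x

lemma IsPot.continuous_right {o : X} {R : ℝ} {μ₀ μ₁ : Measure X} {φ ψ : X → ℝ}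
    (h : IsPot o R μ₀ μ₁ φ ψ) : Continuous ψ := by
  rw [continuous_iff_continuousAt]
  intro x
  rw [ContinuousAt, tendsto_iff_dist_tendsto_zero]
  have h1 : Tendsto (fun x' => dist x' x * ((dist x' o + dist x o) / 2 + R)) (𝓝 x) (𝓝 0) := by
    have : Continuous (fun x' => dist x' x * ((dist x' o + dist x o) / 2 + R)) := by fun_prop
    have := this.tendsto x
    simpa using this
  refine squeeze_zero (fun _ => dist_nonneg) ?_ h1
  intro x'
  rw [Real.dist_eq]
  exact h.lipψ x' x


/-- weak duality. -/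
theorem weak_duality {o : X} {R : ℝ} {μ₀ μ₁ μ ν : Measure X} [IsProbabilityMeasure μ]
    [IsProbabilityMeasure ν] {φ ψ : X → ℝ} (hpot : IsPot o R μ₀ μ₁ φ ψ)
    (hμ : μ (Metric.closedBall o R)ᶜ = 0) (hν : ν (Metric.closedBall o R)ᶜ = 0) :
    ENNReal.ofReal (2 * (∫ x, φ x ∂μ + ∫ x, ψ x ∂ν)) ≤ w2sq μ ν := by
  have hY : IsCompact (Metric.closedBall o R) := isCompact_closedBall o R
  have hφc := hpot.continuous_left
  have hψc := hpot.continuous_right
  refine le_iInf₂ fun q hq => ?_
  have := coupling_isProb hq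
  have hm := coupling_ae_mem hY.measurableSet hq hμ hν
  rw [quadCost_eq hY hm]
  refine ENNReal.ofReal_le_ofReal ?_
  have h2 : ∫ x, φ x ∂μ = ∫ p, φ p.1 ∂q := by
    rw [← hq.1, integral_map measurable_fst.aemeasurable hφc.aestronglyMeasurable]
  have h3 : ∫ x, ψ x ∂ν = ∫ p, ψ p.2 ∂q := by
    rw [← hq.2, integral_map measurable_snd.aemeasurable hψc.aestronglyMeasurable]
  have hi1 : Integrable (fun p : X × X => φ p.1) q := by
    have h5 : Integrable φ (q.map Prod.fst) := by
      rw [hq.1]; exact integrable_of_carried hY hμ hφc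
    exact h5.comp_measurable measurable_fst
  have hi2 : Integrable (fun p : X × X => ψ p.2) q := by
    have h5 : Integrable ψ (q.map Prod.snd) := by
      rw [hq.2]; exact integrable_of_carried hY hν hψc
    exact h5.comp_measurable measurable_snd
  rw [h2, h3, ← integral_add hi1 hi2, ← integral_const_mul]
  refine integral_mono_ae ((hi1.add hi2).const_mul 2) (integrable_dist_sq hY hm) ?_
  filter_upwards [hm] with p hp
  have := hpot.le_left p.1 p.2 hp.2
  linarith

/-- strong duality. -/
theorem strong_duality {o : X} {R : ℝ} {μ₀ μ₁ : Measure X} [IsProbabilityMeasure μ₀]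
    [IsProbabilityMeasure μ₁] {φ ψ : X → ℝ} (hpot : IsPot o R μ₀ μ₁ φ ψ)
    (h₀ : μ₀ (Metric.closedBall o R)ᶜ = 0) (h₁ : μ₁ (Metric.closedBall o R)ᶜ = 0) :
    0 ≤ ∫ x, φ x ∂μ₀ + ∫ x, ψ x ∂μ₁ ∧
      w2sq μ₀ μ₁ = ENNReal.ofReal (2 * (∫ x, φ x ∂μ₀ + ∫ x, ψ x ∂μ₁)) := by
  have hY : IsCompact (Metric.closedBall o R) := isCompact_closedBall o R
  have hφc := hpot.continuous_left
  have hψc := hpot.continuous_right
  obtain ⟨-, -, -, -, -, -, -, -, -, q, hqo⟩ := kantorovich_potentials hY μ₀ μ₁ h₀ h₁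
  have hq := hqo.1
  have := coupling_isProb hq
  have hm := coupling_ae_mem hY.measurableSet hq h₀ h₁
  have h2 : ∫ x, φ x ∂μ₀ = ∫ p, φ p.1 ∂q := by
    rw [← hq.1, integral_map measurable_fst.aemeasurable hφc.aestronglyMeasurable]
  have h3 : ∫ x, ψ x ∂μ₁ = ∫ p, ψ p.2 ∂q := by
    rw [← hq.2, integral_map measurable_snd.aemeasurable hψc.aestronglyMeasurable]
  have hi1 : Integrable (fun p : X × X => φ p.1) q := by
    have h5 : Integrable φ (q.map Prod.fst) := by
      rw [hq.1]; exact integrable_of_carried hY h₀ hφc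
    exact h5.comp_measurable measurable_fst
  have hi2 : Integrable (fun p : X × X => ψ p.2) q := by
    have h5 : Integrable ψ (q.map Prod.snd) := by
      rw [hq.2]; exact integrable_of_carried hY h₁ hψc
    exact h5.comp_measurable measurable_snd
  have h4 : 2 * (∫ x, φ x ∂μ₀ + ∫ x, ψ x ∂μ₁) = ∫ p, dist p.1 p.2 ^ 2 ∂q := by
    rw [h2, h3, ← integral_add hi1 hi2, ← integral_const_mul]
    refine integral_congr_ae ?_
    filter_upwards [hpot.contact q hqo] with p hp
    linarith
  have h5 : 0 ≤ ∫ p, dist p.1 p.2 ^ 2 ∂q := integral_nonneg fun p => by positivity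
  refine ⟨by linarith, ?_⟩
  refine le_antisymm ?_ (weak_duality hpot h₀ h₁)
  rw [h4, ← quadCost_eq hY hm]
  exact iInf₂_le q hq

/-! ### weak convergence of couplings -/

section Weak

/-- marginals of bundled probability measures on a product. -/
lemma continuous_map_fst : Continuous (fun q : ProbabilityMeasure (X × X) =>
    q.map (measurable_fst (α := X) (β := X)).aemeasurable) :=
  ProbabilityMeasure.continuous_map continuous_fst

lemma continuous_map_snd : Continuous (fun q : ProbabilityMeasure (X × X) =>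
    q.map (measurable_snd (α := X) (β := X)).aemeasurable) :=
  ProbabilityMeasure.continuous_map continuous_snd

lemma isCouplingOf_iff (q : ProbabilityMeasure (X × X)) (μ ν : ProbabilityMeasure X) :
    IsCouplingOf (q : Measure (X × X)) μ ν ↔
      q.map (measurable_fst (α := X) (β := X)).aemeasurable = μ ∧
      q.map (measurable_snd (α := X) (β := X)).aemeasurable = ν := by
  unfold IsCouplingOf
  constructor
  · rintro ⟨h1, h2⟩
    exact ⟨Subtype.ext h1, Subtype.ext h2⟩
  · rintro ⟨h1, h2⟩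
    exact ⟨congrArg Subtype.val h1, congrArg Subtype.val h2⟩

lemma lsc_edist_sq : LowerSemicontinuous (fun p : X × X => edist p.1 p.2 ^ 2) := by
  have : Continuous (fun p : X × X => edist p.1 p.2 ^ 2) := by fun_prop
  exact this.lowerSemicontinuous

/-- tightness of a set of couplings of two tight sets of measures. -/
lemma tight_couplings {A B : Set (Measure X)} (hA : IsTightMeasureSet A)
    (hB : IsTightMeasureSet B) {S : Set (Measure (X × X))}
    (hS : ∀ q ∈ S, q.map Prod.fst ∈ A ∧ q.map Prod.snd ∈ B) : IsTightMeasureSet S := by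
  refine IsTightMeasureSet.prodMk (hA.subset ?_) (hB.subset ?_)
  · rintro _ ⟨q, hq, rfl⟩
    exact (hS q hq).1
  · rintro _ ⟨q, hq, rfl⟩
    exact (hS q hq).2

lemma lowerSemicontinuous_quadCost :
    LowerSemicontinuous (fun q : ProbabilityMeasure (X × X) => quadCost (q : Measure (X × X))) := by
  rw [lowerSemicontinuous_iff_isClosed_preimage]
  intro c
  exact isClosed_lintegral_le lsc_edist_sq c

theorem exists_optCoupling (μ₀ μ₁ : Measure X) [IsProbabilityMeasure μ₀]
    [IsProbabilityMeasure μ₁] : ∃ q, IsOptCouplingOf q μ₀ μ₁ := by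
  set S : Set (ProbabilityMeasure (X × X)) :=
    {q | IsCouplingOf (q : Measure (X × X)) μ₀ μ₁} with hS
  have hSc : IsClosed S := by
    have : S = {q | q.map (measurable_fst (α := X) (β := X)).aemeasurable = ⟨μ₀, ‹_›⟩} ∩
        {q | q.map (measurable_snd (α := X) (β := X)).aemeasurable = ⟨μ₁, ‹_›⟩} := by
      ext q
      exact isCouplingOf_iff q ⟨μ₀, ‹_›⟩ ⟨μ₁, ‹_›⟩
    rw [this]
    exact (isClosed_singleton.preimage continuous_map_fst).inter
      (isClosed_singleton.preimage continuous_map_snd)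
  have hSt : IsTightMeasureSet {x | ∃ q ∈ S, (q : Measure (X × X)) = x} := by
    refine tight_couplings (isTightMeasureSet_singleton (μ := μ₀))
      (isTightMeasureSet_singleton (μ := μ₁)) ?_
    rintro _ ⟨q, hq, rfl⟩
    exact ⟨hq.1, hq.2⟩
  have hScomp : IsCompact S := by
    have := isCompact_closure_of_isTightMeasureSet (S := S) hSt
    rwa [hSc.closure_eq] at this
  have hSne : S.Nonempty := by
    refine ⟨⟨μ₀.prod μ₁, inferInstance⟩, ?_, ?_⟩
    · simp
    · simp
  obtain ⟨q, hq, hmin⟩ := (lowerSemicontinuous_quadCost.lowerSemicontinuousOn S).exists_isMinOn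
    hSne hScomp
  refine ⟨q, hq, ?_⟩
  intro q' hq'
  have := coupling_isProb hq'
  exact hmin (show (⟨q', this⟩ : ProbabilityMeasure (X × X)) ∈ S from hq')

theorem quadCost_eq_w2sq {q : Measure (X × X)} {μ ν : Measure X}
    (h : IsOptCouplingOf q μ ν) : quadCost q = w2sq μ ν :=
  le_antisymm (le_iInf₂ fun q' hq' => h.2 q' hq') (iInf₂_le q h.1)

theorem isOptCouplingOf_of_le {q : Measure (X × X)} {μ ν : Measure X}
    (h : IsCouplingOf q μ ν) (hle : quadCost q ≤ w2sq μ ν) : IsOptCouplingOf q μ ν :=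
  ⟨h, fun q' hq' => hle.trans (iInf₂_le q' hq')⟩

/-- lower semicontinuity of the squared distance under weak convergence. -/
theorem w2sq_lsc {μ ν : ℕ → ProbabilityMeasure X} {μ' ν' : ProbabilityMeasure X}
    (hμ : Tendsto μ atTop (𝓝 μ')) (hν : Tendsto ν atTop (𝓝 ν')) {c : ℝ≥0∞}
    (h : ∀ᶠ n in atTop, w2sq (μ n : Measure X) (ν n) ≤ c) :
    w2sq (μ' : Measure X) (ν' : Measure X) ≤ c := by
  choose q hq using fun n => exists_optCoupling (μ n : Measure X) (ν n : Measure X)
  have hqp : ∀ n, IsProbabilityMeasure (q n) := fun n => coupling_isProb (hq n).1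
  set Q : ℕ → ProbabilityMeasure (X × X) := fun n => ⟨q n, hqp n⟩ with hQ
  have htight : ∀ {ρ : ℕ → ProbabilityMeasure X} {ρ' : ProbabilityMeasure X},
      Tendsto ρ atTop (𝓝 ρ') →
      IsTightMeasureSet {x | ∃ n, (ρ n : Measure X) = x} := by
    intro ρ ρ' hρ
    have hc : IsCompact (insert ρ' (range ρ)) := hρ.isCompact_insert_range
    have hc2 : IsCompact (closure (range ρ)) :=
      hc.closure_of_subset (subset_insert _ _)
    have := isTightMeasureSet_of_isCompact_closure hc2
    refine this.subset ?_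
    rintro _ ⟨n, rfl⟩
    exact ⟨ρ n, mem_range_self n, rfl⟩
  have hT : IsTightMeasureSet {x | ∃ P ∈ range Q, (P : Measure (X × X)) = x} := by
    refine tight_couplings (htight hμ) (htight hν) ?_
    rintro _ ⟨_, ⟨n, rfl⟩, rfl⟩
    exact ⟨⟨n, (hq n).1.1.symm⟩, ⟨n, (hq n).1.2.symm⟩⟩
  have hcomp : IsCompact (closure (range Q)) := isCompact_closure_of_isTightMeasureSet hT
  obtain ⟨Q', -, σ, hσ, hσt⟩ := hcomp.tendsto_subseq (x := Q) fun n => subset_closure
    (mem_range_self n)
  have hcoup : IsCouplingOf (Q' : Measure (X × X)) μ' ν' := by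
    rw [isCouplingOf_iff]
    constructor
    · have h1 : Tendsto (fun n => (Q (σ n)).map (measurable_fst (α := X) (β := X)).aemeasurable)
          atTop (𝓝 (Q'.map (measurable_fst (α := X) (β := X)).aemeasurable)) :=
        (continuous_map_fst.tendsto Q').comp hσt
      have h2 : ∀ n, (Q (σ n)).map (measurable_fst (α := X) (β := X)).aemeasurable = μ (σ n) :=
        fun n => Subtype.ext (hq (σ n)).1.1
      simp only [h2] at h1
      exact tendsto_nhds_unique h1 (hμ.comp hσ.tendsto_atTop)
    · have h1 : Tendsto (fun n => (Q (σ n)).map (measurable_snd (α := X) (β := X)).aemeasurable)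
          atTop (𝓝 (Q'.map (measurable_snd (α := X) (β := X)).aemeasurable)) :=
        (continuous_map_snd.tendsto Q').comp hσt
      have h2 : ∀ n, (Q (σ n)).map (measurable_snd (α := X) (β := X)).aemeasurable = ν (σ n) :=
        fun n => Subtype.ext (hq (σ n)).1.2
      simp only [h2] at h1
      exact tendsto_nhds_unique h1 (hν.comp hσ.tendsto_atTop)
  have hle : quadCost (Q' : Measure (X × X)) ≤ c := by
    have hcl : IsClosed {q : ProbabilityMeasure (X × X) | quadCost (q : Measure (X × X)) ≤ c} :=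
      isClosed_lintegral_le lsc_edist_sq c
    refine hcl.mem_of_tendsto hσt ?_
    filter_upwards [hσ.tendsto_atTop.eventually h] with n hn
    show quadCost (q (σ n)) ≤ c
    rw [quadCost_eq_w2sq (hq (σ n))]
    exact hn
  exact (iInf₂_le (Q' : Measure (X × X)) hcoup).trans hle

theorem isOptGeo_iff {P : Measure (UCurve X)} [IsProbabilityMeasure P] {μ₀ μ₁ : Measure X} :
    IsOptGeo P μ₀ μ₁ ↔ (∀ᵐ γ ∂P, IsCSGeodesic γ) ∧ timeMarginal P 0 = μ₀ ∧
      timeMarginal P 1 = μ₁ ∧ quadCost (endpointLaw P) ≤ w2sq μ₀ μ₁ := by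
  constructor
  · intro h
    refine ⟨h.geod, ?_, ?_, (quadCost_eq_w2sq h.opt).le⟩
    · rw [← map_fst_endpointLaw]; exact h.opt.1.1
    · rw [← map_snd_endpointLaw]; exact h.opt.1.2
  · rintro ⟨h1, h2, h3, h4⟩
    refine ⟨inferInstance, h1, isOptCouplingOf_of_le ⟨?_, ?_⟩ h4⟩
    · rw [map_fst_endpointLaw, h2]
    · rw [map_snd_endpointLaw, h3]

/-- [O5] -/
theorem isCompact_optGeo {o : X} {R : ℝ} {μ₀ μ₁ : Measure X} [IsProbabilityMeasure μ₀]
    [IsProbabilityMeasure μ₁] (h₀ : μ₀ (Metric.closedBall o R)ᶜ = 0)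
    (h₁ : μ₁ (Metric.closedBall o R)ᶜ = 0) :
    IsCompact {P : ProbabilityMeasure (UCurve X) | IsOptGeo (P : Measure (UCurve X)) μ₀ μ₁} := by
  have hK : IsCompact (Metric.closedBall o R) := isCompact_closedBall o R
  refine isCompact_of_ae_mem_compact ?_ (isCompact_csGeodesic hK hK) ?_
  · have : {P : ProbabilityMeasure (UCurve X) | IsOptGeo (P : Measure (UCurve X)) μ₀ μ₁} =
        {P : ProbabilityMeasure (UCurve X) |
          ∀ᵐ γ ∂(P : Measure (UCurve X)), γ ∈ {γ : UCurve X | IsCSGeodesic γ}} ∩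
        ({P | tmP 0 P = ⟨μ₀, ‹_›⟩} ∩ ({P | tmP 1 P = ⟨μ₁, ‹_›⟩} ∩
        (elP ⁻¹' {q : ProbabilityMeasure (X × X) |
          quadCost (q : Measure (X × X)) ≤ w2sq μ₀ μ₁}))) := by
      ext P
      simp only [mem_ofPred_eq, mem_inter_iff, mem_preimage, coe_elP]
      rw [isOptGeo_iff]
      refine and_congr Iff.rfl (and_congr ?_ (and_congr ?_ Iff.rfl))
      · exact ⟨fun h => Subtype.ext h, fun h => congrArg Subtype.val h⟩
      · exact ⟨fun h => Subtype.ext h, fun h => congrArg Subtype.val h⟩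
    rw [this]
    refine (isClosed_ae_mem isClosed_csGeodesic).inter
      ((isClosed_singleton.preimage (continuous_tmP 0)).inter
      ((isClosed_singleton.preimage (continuous_tmP 1)).inter ?_))
    exact (isClosed_lintegral_le lsc_edist_sq _).preimage continuous_elP
  · intro P hP
    have hP' : IsOptGeo (P : Measure (UCurve X)) μ₀ μ₁ := hP
    rw [isOptGeo_iff] at hP'
    obtain ⟨h1, h2, h3, -⟩ := hP'
    have h4 : ∀ᵐ γ ∂(P : Measure (UCurve X)), γ.toMap 0 ∈ Metric.closedBall o R := by
      have : ∀ᵐ x ∂(timeMarginal (P : Measure (UCurve X)) 0), x ∈ Metric.closedBall o R := by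
        rw [h2]; exact h₀
      exact ae_of_ae_map (measurable_ev 0).aemeasurable this
    have h5 : ∀ᵐ γ ∂(P : Measure (UCurve X)), γ.toMap 1 ∈ Metric.closedBall o R := by
      have : ∀ᵐ x ∂(timeMarginal (P : Measure (UCurve X)) 1), x ∈ Metric.closedBall o R := by
        rw [h3]; exact h₁
      exact ae_of_ae_map (measurable_ev 1).aemeasurable this
    filter_upwards [h1, h4, h5] with γ g1 g2 g3 using ⟨g2, g3, g1⟩

end Weak

end Crest.Agent.R242
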