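import Mathlib
import Crest.Agent.R242.Defs

-- ▼ part R242/HilbertLemmas
section
set_option autoImplicit false

open MeasureTheory Filter Set
open scoped ENNReal NNReal Topology

namespace Crest.Agent.R242

/-- A decreasing sequence of nonempty closed convex bounded subsets of a real Hilbert space has
nonempty intersection. -/
theorem nonempty_iInter_of_convex {H : Type*} [NormedAddCommGroup H] [InnerProductSpace ℝ H]
    [CompleteSpace H] (K : ℕ → Set H) (hne : ∀ n, (K n).Nonempty) (hcl : ∀ n, IsClosed (K n))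
    (hcv : ∀ n, Convex ℝ (K n)) (hdec : ∀ n, K (n + 1) ⊆ K n) {C : ℝ}
    (hb : ∀ n, ∃ x ∈ K n, ‖x‖ ≤ C) : ∃ p, (∀ n, p ∈ K n) ∧ ‖p‖ ≤ C := by
  have hanti : Antitone K := antitone_nat_of_succ_le hdec
  have hex : ∀ n, ∃ v ∈ K n, ‖(0:H) - v‖ = ⨅ w : K n, ‖(0:H) - w‖ := fun n =>
    exists_norm_eq_iInf_of_complete_convex (hne n) (hcl n).isComplete (hcv n) 0
  choose p hpK hp using hex
  have hmin : ∀ n, ∀ w ∈ K n, ‖p n‖ ≤ ‖w‖ := by
    intro n w hw
    have h1 : ⨅ w : K n, ‖(0:H) - w‖ ≤ ‖(0:H) - w‖ :=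
      ciInf_le ⟨0, by rintro _ ⟨y, rfl⟩; exact norm_nonneg _⟩ (⟨w, hw⟩ : K n)
    rw [← hp n, zero_sub, zero_sub, norm_neg, norm_neg] at h1
    exact h1
  have hbound : ∀ n, ‖p n‖ ≤ C := by
    intro n
    obtain ⟨x, hx, hxC⟩ := hb n
    exact (hmin n x hx).trans hxC
  have hmono : Monotone (fun n => ‖p n‖) := by
    intro n m hnm
    exact hmin n _ (hanti hnm (hpK m))
  have hC : 0 ≤ C := (norm_nonneg _).trans (hbound 0)
  have hmono2 : Monotone (fun n => ‖p n‖ ^ 2) := by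
    intro n m hnm
    exact pow_le_pow_left₀ (norm_nonneg _) (hmono hnm) 2
  have hbdd : BddAbove (Set.range fun n => ‖p n‖ ^ 2) := by
    refine ⟨C ^ 2, ?_⟩
    rintro _ ⟨n, rfl⟩
    exact pow_le_pow_left₀ (norm_nonneg _) (hbound n) 2
  have hlim := tendsto_atTop_ciSup hmono2 hbdd
  have hcauchy := hlim.cauchySeq
  have key : ∀ n m, n ≤ m → ‖p m - p n‖ ^ 2 ≤ 2 * (‖p m‖ ^ 2 - ‖p n‖ ^ 2) := by
    intro n m hnm
    have h1 : (1/2:ℝ) • p n + (1/2:ℝ) • p m ∈ K n :=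
      hcv n (hpK n) (hanti hnm (hpK m)) (by norm_num) (by norm_num) (by norm_num)
    have h2 := hmin n _ h1
    rw [← smul_add, norm_smul] at h2
    have h3 := parallelogram_law_with_norm ℝ (p m) (p n)
    have h4 : ‖p m + p n‖ = ‖p n + p m‖ := by rw [add_comm]
    rw [Real.norm_of_nonneg (by norm_num : (0:ℝ) ≤ 1/2)] at h2
    have h5 : 0 ≤ ‖p n‖ := norm_nonneg _
    have h6 : 2 * ‖p n‖ ≤ ‖p m + p n‖ := by rw [h4]; linarith
    nlinarith [norm_nonneg (p m + p n)]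
  have hc : CauchySeq p := by
    rw [Metric.cauchySeq_iff'] at hcauchy ⊢
    intro ε hε
    obtain ⟨N, hN⟩ := hcauchy (ε ^ 2 / 2) (by positivity)
    refine ⟨N, fun n hn => ?_⟩
    have h1 := hN n hn
    have h2 := key N n hn
    rw [Real.dist_eq] at h1
    have h3 : ‖p n‖ ^ 2 - ‖p N‖ ^ 2 < ε ^ 2 / 2 := (le_abs_self _).trans_lt h1
    rw [dist_eq_norm]
    have h4 : ‖p n - p N‖ ^ 2 < ε ^ 2 := by linarith
    exact lt_of_pow_lt_pow_left₀ 2 hε.le h4
  obtain ⟨q, hq⟩ := cauchySeq_tendsto_of_complete hc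
  refine ⟨q, fun n => ?_, ?_⟩
  · refine (hcl n).mem_of_tendsto hq ?_
    filter_upwards [eventually_ge_atTop n] with m hm
    exact hanti hm (hpK m)
  · exact le_of_tendsto hq.norm (Eventually.of_forall hbound)

end Crest.Agent.R242
end

-- ▼ part R242/Curve

/-!
Row 242, block SA: curves, upper metric speed, operations on test plans.
-/

set_option autoImplicit false

open MeasureTheory Filter Set
open scoped ENNReal NNReal Topology
open Crest.GeometryTopology.SyntheticRicci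

namespace Crest.Agent.R242

section Basic

variable {X : Type*} [MetricSpace X]

theorem cu_continuous_toMap : Continuous (UCurve.toMap : UCurve X → C(unitInterval, X)) :=
  continuous_induced_dom

theorem cu_continuous_ext (γ : UCurve X) : Continuous γ.ext :=
  γ.toMap.continuous.comp continuous_projIcc

theorem continuous_eval : Continuous (fun p : UCurve X × unitInterval => p.1.toMap p.2) :=
  ContinuousEval.continuous_eval.comp
    ((cu_continuous_toMap.comp continuous_fst).prodMk continuous_snd)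

theorem continuous_eval_left (t : unitInterval) : Continuous (fun γ : UCurve X => γ.toMap t) :=
  continuous_eval.comp (continuous_id.prodMk continuous_const)

theorem continuous_evalExt : Continuous (fun p : UCurve X × ℝ => p.1.ext p.2) := by
  have h : Continuous (fun p : UCurve X × ℝ =>
      ((p.1, projIcc (0:ℝ) 1 zero_le_one p.2) : UCurve X × unitInterval)) :=
    continuous_fst.prodMk (continuous_projIcc.comp continuous_snd)
  exact continuous_eval.comp h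

theorem cu_ext_coe (γ : UCurve X) (t : unitInterval) : γ.ext t = γ.toMap t := by
  unfold UCurve.ext; rw [projIcc_val]

theorem ext_of_mem (γ : UCurve X) {t : ℝ} (ht : t ∈ Icc (0:ℝ) 1) :
    γ.ext t = γ.toMap ⟨t, ht⟩ := by
  unfold UCurve.ext; rw [projIcc_of_mem _ ht]

theorem ext_zero (γ : UCurve X) : γ.ext 0 = γ.toMap 0 := cu_ext_coe γ 0

theorem ext_one (γ : UCurve X) : γ.ext 1 = γ.toMap 1 := cu_ext_coe γ 1



/-- The difference quotient. -/
noncomputable def dq (γ : UCurve X) (t r : ℝ) : ℝ≥0∞ :=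
  ENNReal.ofReal (dist (γ.ext (t + r)) (γ.ext t) / |r|)

theorem upperSpeed_eq_iInf (γ : UCurve X) (t : ℝ) :
    upperSpeed γ t = ⨅ n : ℕ, ⨆ q : ℚ,
      if 0 < |(q:ℝ)| ∧ |(q:ℝ)| < 1 / ((n:ℝ) + 1) then dq γ t q else 0 := by
  have hbasis : (𝓝[≠] t).HasBasis (fun _ : ℕ => True)
      (fun n => {s : ℝ | 0 < |s - t| ∧ |s - t| < 1 / ((n:ℝ) + 1)}) := by
    have h1 := (Metric.nhdsWithin_basis_ball (x := t) (s := ({t}ᶜ : Set ℝ))).to_hasBasis
      (p' := fun _ : ℕ => True)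
      (s' := fun n : ℕ => {s : ℝ | 0 < |s - t| ∧ |s - t| < 1 / ((n:ℝ) + 1)}) ?_ ?_
    · exact h1
    · intro ε hε
      obtain ⟨n, hn⟩ := exists_nat_one_div_lt hε
      refine ⟨n, trivial, fun s hs => ⟨?_, ?_⟩⟩
      · rw [Metric.mem_ball, Real.dist_eq]; exact lt_trans hs.2 hn
      · intro h
        have h' : s = t := h
        have := hs.1
        rw [h', sub_self, abs_zero] at this
        exact lt_irrefl _ this
    · intro n _
      refine ⟨1 / ((n:ℝ) + 1), by positivity, fun s hs => ⟨?_, ?_⟩⟩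
      · exact abs_pos.mpr (sub_ne_zero.mpr hs.2)
      · have := hs.1
        rwa [Metric.mem_ball, Real.dist_eq] at this
  unfold upperSpeed
  rw [hbasis.limsup_eq_iInf_iSup]
  simp only [iInf_true]
  congr 1
  ext n
  apply le_antisymm
  · refine iSup_le fun s => iSup_le fun hs => ?_
    -- approximate s by rationals
    set N := {r : ℝ | 0 < |r| ∧ |r| < 1 / ((n:ℝ) + 1)} with hN
    have hNopen : IsOpen N := by
      have h1 : IsOpen {r : ℝ | 0 < |r|} := isOpen_lt continuous_const continuous_abs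
      have h2 : IsOpen {r : ℝ | |r| < 1 / ((n:ℝ) + 1)} := isOpen_lt continuous_abs continuous_const
      exact h1.inter h2
    have hcont : ContinuousOn (fun r : ℝ => dq γ t r) N := by
      unfold dq
      apply ENNReal.continuous_ofReal.comp_continuousOn
      apply ContinuousOn.div
      · exact (((cu_continuous_ext γ).comp (continuous_const.add continuous_id)).dist
          continuous_const).continuousOn
      · exact continuous_abs.continuousOn
      · intro r hr; exact ne_of_gt hr.1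
    set g : ℝ≥0∞ := ⨆ q : ℚ, if 0 < |(q:ℝ)| ∧ |(q:ℝ)| < 1 / ((n:ℝ) + 1) then dq γ t q else 0
      with hg
    have hs' : s - t ∈ N := hs
    have key : ∀ r ∈ N, dq γ t r ≤ g := by
      intro r hr
      by_contra hcon
      rw [not_le] at hcon
      have hnb : {r' | g < dq γ t r'} ∈ 𝓝[N] r := (hcont r hr).eventually_const_lt hcon
      rw [hNopen.nhdsWithin_eq hr] at hnb
      have hnb2 : {r' | g < dq γ t r'} ∩ N ∈ 𝓝 r := Filter.inter_mem hnb (hNopen.mem_nhds hr)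
      obtain ⟨U, hUs, hUo, hrU⟩ := mem_nhds_iff.mp hnb2
      obtain ⟨y, hyU, q, hq⟩ := (Rat.denseRange_cast (𝕜 := ℝ)).inter_open_nonempty U hUo ⟨r, hrU⟩
      have hy := hUs hyU
      rw [← hq] at hy
      have h3 : dq γ t q ≤ g := by
        rw [hg]
        refine le_iSup_of_le q ?_
        have hy2 : 0 < |(q:ℝ)| ∧ |(q:ℝ)| < 1 / ((n:ℝ) + 1) := hy.2
        rw [if_pos hy2]
      exact absurd hy.1 (not_lt.mpr h3)
    have h4 := key (s - t) hs'
    have h5 : dq γ t (s - t) = ENNReal.ofReal (dist (γ.ext s) (γ.ext t) / |s - t|) := by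
      unfold dq; rw [add_sub_cancel]
    rw [← h5]; exact h4
  · refine iSup_le fun q => ?_
    split_ifs with hq
    · refine le_iSup_of_le (t + q) ?_
      refine le_iSup_of_le ?_ ?_
      · simpa using hq
      · unfold dq
        rw [add_sub_cancel_left]
    · exact bot_le

theorem measurable_upperSpeed :
    Measurable (fun p : UCurve X × ℝ => upperSpeed p.1 p.2) := by
  have h : (fun p : UCurve X × ℝ => upperSpeed p.1 p.2) = fun p => ⨅ n : ℕ, ⨆ q : ℚ,
      if 0 < |(q:ℝ)| ∧ |(q:ℝ)| < 1 / ((n:ℝ) + 1) then dq p.1 p.2 q else 0 := by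
    ext p; exact upperSpeed_eq_iInf p.1 p.2
  rw [h]
  refine Measurable.iInf fun n => Measurable.iSup fun q => ?_
  by_cases hq : 0 < |(q:ℝ)| ∧ |(q:ℝ)| < 1 / ((n:ℝ) + 1)
  · simp only [if_pos hq]
    unfold dq
    apply ENNReal.measurable_ofReal.comp
    apply Continuous.measurable
    apply Continuous.div_const
    apply Continuous.dist
    · exact continuous_evalExt.comp (continuous_fst.prodMk (continuous_snd.add continuous_const))
    · exact continuous_evalExt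
  · simp only [if_neg hq]
    exact measurable_const

theorem measurable_upperSpeed_right (γ : UCurve X) : Measurable (fun t : ℝ => upperSpeed γ t) := by
  have h : Measurable (fun t : ℝ => ((γ, t) : UCurve X × ℝ)) := measurable_prodMk_left
  have h2 := measurable_upperSpeed (X := X)
  generalize hf : (fun p : UCurve X × ℝ => upperSpeed p.1 p.2) = f at h2
  have h3 : (fun t : ℝ => upperSpeed γ t) = f ∘ (fun t : ℝ => ((γ, t) : UCurve X × ℝ)) := by
    rw [← hf]; rfl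
  rw [h3]
  exact h2.comp h


end Basic

/-! ### absolutely continuous real functions -/

theorem cu_ac_of_dist_le {u A : ℝ → ℝ} {a b : ℝ} (hA : AbsolutelyContinuousOnInterval A a b)
    (h : ∀ s ∈ uIcc a b, ∀ t ∈ uIcc a b, dist (u s) (u t) ≤ dist (A s) (A t)) :
    AbsolutelyContinuousOnInterval u a b := by
  unfold AbsolutelyContinuousOnInterval at hA ⊢
  refine squeeze_zero' ?_ ?_ hA
  · filter_upwards with E
    exact Finset.sum_nonneg fun i _ => dist_nonneg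
  · have hmem : AbsolutelyContinuousOnInterval.disjWithin a b ∈
        (AbsolutelyContinuousOnInterval.totalLengthFilter ⊓
          𝓟 (AbsolutelyContinuousOnInterval.disjWithin a b)) :=
      mem_inf_of_right (mem_principal_self _)
    filter_upwards [hmem] with E hE
    exact Finset.sum_le_sum fun i hi => h _ (hE.1 i hi).1 _ (hE.1 i hi).2

theorem abs_deriv_le_of_dist_le {u A : ℝ → ℝ} {t d : ℝ} {s : Set ℝ} (hs : s ∈ 𝓝 t)
    (hu : DifferentiableAt ℝ u t) (hA : HasDerivAt A d t)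
    (h : ∀ r ∈ s, |u r - u t| ≤ |A r - A t|) : |deriv u t| ≤ |d| := by
  have h1 := (hasDerivAt_iff_tendsto_slope.mp hu.hasDerivAt).abs
  have h2 := (hasDerivAt_iff_tendsto_slope.mp hA).abs
  refine le_of_tendsto_of_tendsto h1 h2 ?_
  filter_upwards [mem_nhdsWithin_of_mem_nhds hs] with r hr
  simp only [slope_def_field, abs_div]
  exact div_le_div_of_nonneg_right (h r hr) (abs_nonneg _)

theorem ac_of_bound {u : ℝ → ℝ} {ρ : ℝ → ℝ≥0∞} (hρm : Measurable ρ)
    (hρ : ∫⁻ r in Icc (0:ℝ) 1, ρ r < ⊤)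
    (h : ∀ a b : ℝ, 0 ≤ a → a ≤ b → b ≤ 1 → ENNReal.ofReal |u b - u a| ≤ ∫⁻ r in Icc a b, ρ r) :
    AbsolutelyContinuousOnInterval u 0 1 ∧
      ∀ᵐ t ∂(volume.restrict (Icc (0:ℝ) 1)), DifferentiableAt ℝ u t ∧
        ENNReal.ofReal |deriv u t| ≤ ρ t := by
  have hint : IntegrableOn (fun r => (ρ r).toReal) (Icc (0:ℝ) 1) :=
    integrable_toReal_of_lintegral_ne_top hρm.aemeasurable hρ.ne
  have hii : IntervalIntegrable (fun r => (ρ r).toReal) volume 0 1 := by
    rw [intervalIntegrable_iff_integrableOn_Icc_of_le zero_le_one]; exact hint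
  set A : ℝ → ℝ := fun x => ∫ r in (0:ℝ)..x, (ρ r).toReal with hAdef
  have hAac : AbsolutelyContinuousOnInterval A 0 1 :=
    hii.absolutelyContinuousOnInterval_intervalIntegral (by simp)
  have hsub : ∀ a b : ℝ, 0 ≤ a → a ≤ b → b ≤ 1 → |u b - u a| ≤ A b - A a := by
    intro a b ha hab hb
    have h1 := h a b ha hab hb
    have hia : IntervalIntegrable (fun r => (ρ r).toReal) volume 0 a :=
      hii.mono_set (by rw [uIcc_of_le ha, uIcc_of_le zero_le_one]; exact Icc_subset_Icc_right (hab.trans hb))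
    have hib : IntervalIntegrable (fun r => (ρ r).toReal) volume 0 b :=
      hii.mono_set (by rw [uIcc_of_le (ha.trans hab), uIcc_of_le zero_le_one]; exact Icc_subset_Icc_right hb)
    have h2 : A b - A a = ∫ r in a..b, (ρ r).toReal := by
      rw [hAdef]; exact intervalIntegral.integral_interval_sub_left hib hia
    have hfin : ∫⁻ r in Icc a b, ρ r < ⊤ :=
      lt_of_le_of_lt (lintegral_mono_set (Icc_subset_Icc ha hb)) hρ
    have h3 : ∫ r in a..b, (ρ r).toReal = (∫⁻ r in Icc a b, ρ r).toReal := by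
      rw [intervalIntegral.integral_of_le hab, ← integral_Icc_eq_integral_Ioc]
      rw [integral_toReal hρm.aemeasurable]
      exact ae_lt_top' hρm.aemeasurable hfin.ne
    rw [h2, h3]
    have h4 := ENNReal.toReal_mono hfin.ne h1
    rwa [ENNReal.toReal_ofReal (abs_nonneg _)] at h4
  have hdist : ∀ s ∈ uIcc (0:ℝ) 1, ∀ t ∈ uIcc (0:ℝ) 1, dist (u s) (u t) ≤ dist (A s) (A t) := by
    intro s hs t ht
    rw [uIcc_of_le zero_le_one] at hs ht
    rw [Real.dist_eq, Real.dist_eq]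
    rcases le_total s t with hst | hst
    · have := hsub s t hs.1 hst ht.2
      rw [abs_sub_comm (u s), abs_sub_comm (A s)]
      exact this.trans (le_abs_self _)
    · have := hsub t s ht.1 hst hs.2
      exact this.trans (le_abs_self _)
  have hu : AbsolutelyContinuousOnInterval u 0 1 := cu_ac_of_dist_le hAac hdist
  refine ⟨hu, ?_⟩
  have h1 := hu.ae_differentiableAt
  have h2 := hii.ae_hasDerivAt_integral
  have h3 : ∀ᵐ t ∂(volume.restrict (Icc (0:ℝ) 1)), ρ t < ⊤ := ae_lt_top hρm hρ.ne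
  have h4 : ∀ᵐ t ∂(volume.restrict (Icc (0:ℝ) 1)), t ∈ Ioo (0:ℝ) 1 := by
    rw [Measure.restrict_congr_set (Ioo_ae_eq_Icc (μ := volume) (a := (0:ℝ)) (b := 1)).symm]
    exact ae_restrict_mem measurableSet_Ioo
  filter_upwards [ae_restrict_of_ae h1, ae_restrict_of_ae h2, h3, h4] with t ht1 ht2 ht3 ht4
  have hmem : t ∈ uIcc (0:ℝ) 1 := by rw [uIcc_of_le zero_le_one]; exact ⟨ht4.1.le, ht4.2.le⟩
  have hd := ht2 hmem 0 (by simp)
  refine ⟨ht1 hmem, ?_⟩
  have hnb : Icc (0:ℝ) 1 ∈ 𝓝 t := Icc_mem_nhds ht4.1 ht4.2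
  have h5 := abs_deriv_le_of_dist_le (A := A) hnb (ht1 hmem) hd (by
    intro r hr
    have := hdist r (by rw [uIcc_of_le zero_le_one]; exact hr) t hmem
    rwa [Real.dist_eq, Real.dist_eq] at this)
  rw [abs_of_nonneg ENNReal.toReal_nonneg] at h5
  calc ENNReal.ofReal |deriv u t| ≤ ENNReal.ofReal (ρ t).toReal := ENNReal.ofReal_le_ofReal h5
    _ = ρ t := ENNReal.ofReal_toReal ht3.ne

theorem bound_of_ac {u : ℝ → ℝ} {ρ : ℝ → ℝ≥0∞} (hu : AbsolutelyContinuousOnInterval u 0 1)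
    (h : ∀ᵐ t ∂(volume.restrict (Icc (0:ℝ) 1)), ENNReal.ofReal |deriv u t| ≤ ρ t)
    {a b : ℝ} (ha : 0 ≤ a) (hab : a ≤ b) (hb : b ≤ 1) :
    ENNReal.ofReal |u b - u a| ≤ ∫⁻ r in Icc a b, ρ r := by
  have hu' : AbsolutelyContinuousOnInterval u a b := hu.mono (by
    rw [uIcc_of_le hab, uIcc_of_le zero_le_one]; exact Icc_subset_Icc ha hb)
  have h1 := hu'.integral_deriv_eq_sub
  rw [← h1, intervalIntegral.integral_of_le hab, ← integral_Icc_eq_integral_Ioc]
  calc ENNReal.ofReal |∫ x in Icc a b, deriv u x| = ‖∫ x in Icc a b, deriv u x‖ₑ := by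
        rw [Real.enorm_eq_ofReal_abs]
    _ ≤ ∫⁻ x in Icc a b, ‖deriv u x‖ₑ := enorm_integral_le_lintegral_enorm _
    _ ≤ ∫⁻ r in Icc a b, ρ r := by
        apply lintegral_mono_ae
        have h2 := ae_restrict_of_ae_restrict_of_subset (Icc_subset_Icc ha hb) h
        filter_upwards [h2] with t ht
        rwa [Real.enorm_eq_ofReal_abs]

/-! ### metric speed of a single curve -/

section Speed

variable {X : Type*} [MetricSpace X]

/-- dyadic energy at level `n`. -/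
noncomputable def actN (n : ℕ) (γ : UCurve X) : ℝ≥0∞ :=
  ∑ j ∈ Finset.range (2 ^ n),
    (2:ℝ≥0∞) ^ n * edist (γ.ext ((j:ℝ) / 2 ^ n)) (γ.ext (((j:ℝ) + 1) / 2 ^ n)) ^ 2

/-- dyadic energy (equal to the kinetic energy, see `act_eq`). -/
noncomputable def act (γ : UCurve X) : ℝ≥0∞ := ⨆ n, actN n γ

theorem ae_mem_Ioo01 : ∀ᵐ t ∂(volume.restrict (Icc (0:ℝ) 1)), t ∈ Ioo (0:ℝ) 1 := by
  rw [Measure.restrict_congr_set (Ioo_ae_eq_Icc (μ := volume) (a := (0:ℝ)) (b := 1)).symm]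
  exact ae_restrict_mem measurableSet_Ioo

theorem edist_ext_le {γ : UCurve X} {a : ℝ → ℝ≥0∞}
    (h : ∀ s t : unitInterval, (s : ℝ) ≤ (t : ℝ) →
      edist (γ.toMap s) (γ.toMap t) ≤ ∫⁻ r in Icc (s : ℝ) (t : ℝ), a r)
    {s t : ℝ} (hs : 0 ≤ s) (hst : s ≤ t) (ht : t ≤ 1) :
    edist (γ.ext s) (γ.ext t) ≤ ∫⁻ r in Icc s t, a r := by
  have h1 : s ∈ Icc (0:ℝ) 1 := ⟨hs, hst.trans ht⟩
  have h2 : t ∈ Icc (0:ℝ) 1 := ⟨hs.trans hst, ht⟩
  rw [ext_of_mem γ h1, ext_of_mem γ h2]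
  exact h ⟨s, h1⟩ ⟨t, h2⟩ hst

theorem upperSpeed_le_ae {γ : UCurve X} {a : ℝ → ℝ≥0∞} (ha : Measurable a)
    (hint : ∫⁻ r in Icc (0:ℝ) 1, a r < ⊤)
    (h : ∀ s t : unitInterval, (s : ℝ) ≤ (t : ℝ) →
      edist (γ.toMap s) (γ.toMap t) ≤ ∫⁻ r in Icc (s : ℝ) (t : ℝ), a r) :
    ∀ᵐ t ∂(volume.restrict (Icc (0:ℝ) 1)), upperSpeed γ t ≤ a t := by
  have hintr : IntegrableOn (fun r => (a r).toReal) (Icc (0:ℝ) 1) :=
    integrable_toReal_of_lintegral_ne_top ha.aemeasurable hint.ne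
  have hii : IntervalIntegrable (fun r => (a r).toReal) volume 0 1 := by
    rw [intervalIntegrable_iff_integrableOn_Icc_of_le zero_le_one]; exact hintr
  set A : ℝ → ℝ := fun x => ∫ r in (0:ℝ)..x, (a r).toReal with hAdef
  have hsub : ∀ s t : ℝ, 0 ≤ s → s ≤ t → t ≤ 1 → dist (γ.ext s) (γ.ext t) ≤ A t - A s := by
    intro s t hs hst ht
    have h1 := edist_ext_le h hs hst ht
    have hia : IntervalIntegrable (fun r => (a r).toReal) volume 0 s :=
      hii.mono_set (by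
        rw [uIcc_of_le hs, uIcc_of_le zero_le_one]; exact Icc_subset_Icc_right (hst.trans ht))
    have hib : IntervalIntegrable (fun r => (a r).toReal) volume 0 t :=
      hii.mono_set (by
        rw [uIcc_of_le (hs.trans hst), uIcc_of_le zero_le_one]; exact Icc_subset_Icc_right ht)
    have h2 : A t - A s = ∫ r in s..t, (a r).toReal := by
      rw [hAdef]; exact intervalIntegral.integral_interval_sub_left hib hia
    have hfin : ∫⁻ r in Icc s t, a r < ⊤ :=
      lt_of_le_of_lt (lintegral_mono_set (Icc_subset_Icc hs ht)) hint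
    have h3 : ∫ r in s..t, (a r).toReal = (∫⁻ r in Icc s t, a r).toReal := by
      rw [intervalIntegral.integral_of_le hst, ← integral_Icc_eq_integral_Ioc]
      rw [integral_toReal ha.aemeasurable]
      exact ae_lt_top' ha.aemeasurable hfin.ne
    rw [h2, h3, dist_edist]
    exact ENNReal.toReal_mono hfin.ne h1
  have hdist : ∀ s ∈ Icc (0:ℝ) 1, ∀ t ∈ Icc (0:ℝ) 1,
      dist (γ.ext s) (γ.ext t) ≤ |A s - A t| := by
    intro s hs t ht
    rcases le_total s t with hst | hst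
    · have := hsub s t hs.1 hst ht.2
      rw [abs_sub_comm]
      exact this.trans (le_abs_self _)
    · have := hsub t s ht.1 hst hs.2
      rw [dist_comm]
      exact this.trans (le_abs_self _)
  have h2 := hii.ae_hasDerivAt_integral
  have h3 : ∀ᵐ t ∂(volume.restrict (Icc (0:ℝ) 1)), a t < ⊤ := ae_lt_top ha hint.ne
  filter_upwards [ae_restrict_of_ae h2, h3, ae_mem_Ioo01] with t ht2 ht3 ht4
  have hmem : t ∈ uIcc (0:ℝ) 1 := by rw [uIcc_of_le zero_le_one]; exact ⟨ht4.1.le, ht4.2.le⟩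
  have hd := ht2 hmem 0 (by simp)
  have hnb : Icc (0:ℝ) 1 ∈ 𝓝 t := Icc_mem_nhds ht4.1 ht4.2
  have h5 := (hasDerivAt_iff_tendsto_slope.mp hd).abs
  rw [abs_of_nonneg ENNReal.toReal_nonneg] at h5
  have h6 := ENNReal.tendsto_ofReal h5
  rw [ENNReal.ofReal_toReal ht3.ne] at h6
  unfold upperSpeed
  rw [← h6.limsup_eq]
  refine Filter.limsup_le_limsup ?_
  filter_upwards [mem_nhdsWithin_of_mem_nhds hnb] with s hs
  apply ENNReal.ofReal_le_ofReal
  rw [slope_def_field, abs_div]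
  exact div_le_div_of_nonneg_right (hdist s hs t ⟨ht4.1.le, ht4.2.le⟩) (abs_nonneg _)

theorem lintegral_lt_top_of_sq {a : ℝ → ℝ≥0∞} (h : ∫⁻ r in Icc (0:ℝ) 1, a r ^ 2 < ⊤) :
    ∫⁻ r in Icc (0:ℝ) 1, a r < ⊤ := by
  have h1 : ∀ x : ℝ≥0∞, x ≤ 1 + x ^ 2 := by
    intro x
    rcases le_total x 1 with hx | hx
    · exact hx.trans le_self_add
    · calc x = x * 1 := (mul_one x).symm
        _ ≤ x * x := mul_le_mul_right hx x
        _ = x ^ 2 := (sq x).symm
        _ ≤ 1 + x ^ 2 := le_add_self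
  calc ∫⁻ r in Icc (0:ℝ) 1, a r ≤ ∫⁻ r in Icc (0:ℝ) 1, (1 + a r ^ 2) := lintegral_mono fun r => h1 _
    _ = (∫⁻ r in Icc (0:ℝ) 1, (1:ℝ≥0∞)) + ∫⁻ r in Icc (0:ℝ) 1, a r ^ 2 :=
        lintegral_add_left measurable_const _
    _ < ⊤ := by
        rw [ENNReal.add_lt_top]
        refine ⟨?_, h⟩
        simp

theorem hasL2Speed_data {γ : UCurve X} (h : HasL2Speed γ) :
    ∃ a : ℝ → ℝ≥0∞, Measurable a ∧ (∫⁻ r in Icc (0:ℝ) 1, a r ^ 2) < ⊤ ∧
      (∫⁻ r in Icc (0:ℝ) 1, a r) < ⊤ ∧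
      (∀ s t : ℝ, 0 ≤ s → s ≤ t → t ≤ 1 → edist (γ.ext s) (γ.ext t) ≤ ∫⁻ r in Icc s t, a r) ∧
      ∀ᵐ t ∂(volume.restrict (Icc (0:ℝ) 1)), upperSpeed γ t ≤ a t := by
  obtain ⟨a, ha, h2, h3⟩ := h
  have h4 := lintegral_lt_top_of_sq h2
  exact ⟨a, ha, h2, h4, fun s t hs hst ht => edist_ext_le h3 hs hst ht,
    upperSpeed_le_ae ha h4 h3⟩

theorem edist_le_lintegral_upperSpeed {γ : UCurve X} (h : HasL2Speed γ) {s t : ℝ}
    (hs : 0 ≤ s) (hst : s ≤ t) (ht : t ≤ 1) :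
    edist (γ.ext s) (γ.ext t) ≤ ∫⁻ r in Icc s t, upperSpeed γ r := by
  obtain ⟨a, ha, h2, h4, h5, h6⟩ := hasL2Speed_data h
  set F : ℝ → ℝ := fun r => dist (γ.ext s) (γ.ext r) with hF
  have hFd : ∀ x y, |F x - F y| ≤ dist (γ.ext x) (γ.ext y) := by
    intro x y
    have := abs_dist_sub_le (γ.ext x) (γ.ext y) (γ.ext s)
    rw [dist_comm (γ.ext x) (γ.ext s), dist_comm (γ.ext y) (γ.ext s)] at this
    exact this
  have hac := ac_of_bound ha h4 (u := F) (by
    intro x y hx hxy hy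
    calc ENNReal.ofReal |F y - F x| ≤ ENNReal.ofReal (dist (γ.ext y) (γ.ext x)) :=
          ENNReal.ofReal_le_ofReal (hFd y x)
      _ = edist (γ.ext x) (γ.ext y) := by rw [dist_comm, edist_dist]
      _ ≤ _ := h5 x y hx hxy hy)
  have hder : ∀ᵐ r ∂(volume.restrict (Icc (0:ℝ) 1)),
      ENNReal.ofReal |deriv F r| ≤ upperSpeed γ r := by
    filter_upwards [hac.2] with r hr
    have h7 := (hasDerivAt_iff_tendsto_slope.mp hr.1.hasDerivAt).abs
    have h8 := ENNReal.tendsto_ofReal h7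
    rw [← h8.limsup_eq]
    unfold upperSpeed
    refine Filter.limsup_le_limsup ?_
    refine Eventually.of_forall fun x => ?_
    apply ENNReal.ofReal_le_ofReal
    rw [slope_def_field, abs_div]
    exact div_le_div_of_nonneg_right (hFd x r) (abs_nonneg _)
  have h9 := bound_of_ac hac.1 hder hs hst ht
  have h10 : |F t - F s| = dist (γ.ext s) (γ.ext t) := by
    simp only [hF, dist_self, sub_zero, abs_of_nonneg dist_nonneg]
  rwa [h10, ← edist_dist] at h9

theorem lintegral_upperSpeed_sq_lt_top {γ : UCurve X} (h : HasL2Speed γ) :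
    ∫⁻ t in Icc (0:ℝ) 1, upperSpeed γ t ^ 2 < ⊤ := by
  obtain ⟨a, ha, h2, h4, h5, h6⟩ := hasL2Speed_data h
  refine lt_of_le_of_lt (lintegral_mono_ae ?_) h2
  filter_upwards [h6] with t ht
  exact pow_le_pow_left₀ zero_le ht 2

theorem lintegral_upperSpeed_lt_top {γ : UCurve X} (h : HasL2Speed γ) :
    ∫⁻ t in Icc (0:ℝ) 1, upperSpeed γ t < ⊤ :=
  lintegral_lt_top_of_sq (lintegral_upperSpeed_sq_lt_top h)








theorem continuous_ext_left (t : ℝ) : Continuous (fun γ : UCurve X => γ.ext t) :=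
  continuous_eval_left _

theorem continuous_actN (n : ℕ) : Continuous (fun γ : UCurve X => actN n γ) := by
  unfold actN
  refine continuous_finsetSum _ fun j _ => ?_
  refine (ENNReal.continuous_const_mul (by simp)).comp ?_
  refine (ENNReal.continuous_pow 2).comp ?_
  exact (continuous_ext_left _).edist (continuous_ext_left _)

theorem lowerSemicontinuous_act : LowerSemicontinuous (fun γ : UCurve X => act γ) := by
  unfold act
  exact lowerSemicontinuous_iSup fun n => (continuous_actN n).lowerSemicontinuous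

/-- Cauchy-Schwarz on an interval. -/
theorem lintegral_sq_le {a : ℝ → ℝ≥0∞} (ha : Measurable a) {s t : ℝ} :
    (∫⁻ r in Icc s t, a r) ^ 2 ≤ ENNReal.ofReal (t - s) * ∫⁻ r in Icc s t, a r ^ 2 := by
  have h := ENNReal.lintegral_mul_le_Lp_mul_Lq (volume.restrict (Icc s t)) (p := 2) (q := 2)
    (Real.HolderConjugate.two_two) (f := fun _ => 1) (g := a) aemeasurable_const ha.aemeasurable
  have e : ∫⁻ r in Icc s t, ((fun _ : ℝ => (1:ℝ≥0∞)) * a : ℝ → ℝ≥0∞) r = ∫⁻ r in Icc s t, a r := by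
    apply lintegral_congr; intro r; simp
  rw [e] at h
  simp only [lintegral_const, Measure.restrict_apply_univ, Real.volume_Icc,
    one_pow, one_mul, ENNReal.rpow_ofNat] at h
  calc (∫⁻ r in Icc s t, a r) ^ 2
      ≤ (ENNReal.ofReal (t - s) ^ (1 / 2 : ℝ) * (∫⁻ r in Icc s t, a r ^ 2) ^ (1 / 2 : ℝ)) ^ 2 := by
        gcongr
    _ = ENNReal.ofReal (t - s) * ∫⁻ r in Icc s t, a r ^ 2 := by
        rw [mul_pow, ← ENNReal.rpow_natCast, ← ENNReal.rpow_natCast, ← ENNReal.rpow_mul,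
          ← ENNReal.rpow_mul]
        norm_num

theorem cu_sum_lintegral_Icc (f : ℝ → ℝ≥0∞) {N : ℝ} (hN : 0 < N) (k : ℕ) :
    ∑ j ∈ Finset.range k, ∫⁻ r in Icc ((j:ℝ) / N) (((j:ℝ) + 1) / N), f r =
      ∫⁻ r in Icc 0 ((k:ℝ) / N), f r := by
  induction k with
  | zero => simp
  | succ k ih =>
    rw [Finset.sum_range_succ, ih]
    have h0 : (0:ℝ) ≤ (k:ℝ) / N := by positivity
    have h1 : (k:ℝ) / N ≤ ((k:ℝ) + 1) / N := by gcongr; linarith
    push_cast
    rw [← Measure.restrict_congr_set (Ioc_ae_eq_Icc (μ := volume) (a := (0:ℝ)) (b := (k:ℝ) / N)),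
      ← Measure.restrict_congr_set (Ioc_ae_eq_Icc (μ := volume) (a := (k:ℝ) / N)
        (b := ((k:ℝ) + 1) / N)),
      ← Measure.restrict_congr_set (Ioc_ae_eq_Icc (μ := volume) (a := (0:ℝ))
        (b := ((k:ℝ) + 1) / N)),
      ← Ioc_union_Ioc_eq_Ioc h0 h1, lintegral_union measurableSet_Ioc]
    exact Ioc_disjoint_Ioc_of_le le_rfl

theorem actN_le {γ : UCurve X} {a : ℝ → ℝ≥0∞} (ha : Measurable a)
    (h : ∀ s t : ℝ, 0 ≤ s → s ≤ t → t ≤ 1 → edist (γ.ext s) (γ.ext t) ≤ ∫⁻ r in Icc s t, a r)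
    (n : ℕ) : actN n γ ≤ ∫⁻ r in Icc (0:ℝ) 1, a r ^ 2 := by
  have hN : (0:ℝ) < 2 ^ n := by positivity
  have h1 := cu_sum_lintegral_Icc (fun r => a r ^ 2) hN (2 ^ n)
  have e : (((2 ^ n : ℕ) : ℝ)) / 2 ^ n = 1 := by push_cast; exact div_self hN.ne'
  rw [e] at h1
  rw [← h1]
  unfold actN
  apply Finset.sum_le_sum
  intro j hj
  rw [Finset.mem_range] at hj
  have hj' : ((j:ℝ) + 1) ≤ 2 ^ n := by exact_mod_cast hj
  have h2 : (0:ℝ) ≤ (j:ℝ) / 2 ^ n := by positivity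
  have h3 : (j:ℝ) / 2 ^ n ≤ ((j:ℝ) + 1) / 2 ^ n := by gcongr; linarith
  have h4 : ((j:ℝ) + 1) / 2 ^ n ≤ 1 := by rw [div_le_one hN]; exact hj'
  have h5 := h _ _ h2 h3 h4
  have h6 : edist (γ.ext ((j:ℝ) / 2 ^ n)) (γ.ext (((j:ℝ) + 1) / 2 ^ n)) ^ 2 ≤
      ENNReal.ofReal (1 / 2 ^ n) * ∫⁻ r in Icc ((j:ℝ) / 2 ^ n) (((j:ℝ) + 1) / 2 ^ n), a r ^ 2 := by
    refine (pow_le_pow_left₀ zero_le h5 2).trans ?_
    refine (lintegral_sq_le ha).trans (le_of_eq ?_)
    congr 2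
    ring
  calc (2:ℝ≥0∞) ^ n * edist (γ.ext ((j:ℝ) / 2 ^ n)) (γ.ext (((j:ℝ) + 1) / 2 ^ n)) ^ 2
      ≤ 2 ^ n * (ENNReal.ofReal (1 / 2 ^ n) *
        ∫⁻ r in Icc ((j:ℝ) / 2 ^ n) (((j:ℝ) + 1) / 2 ^ n), a r ^ 2) := by gcongr
    _ = ∫⁻ r in Icc ((j:ℝ) / 2 ^ n) (((j:ℝ) + 1) / 2 ^ n), a r ^ 2 := by
        rw [← mul_assoc]
        have : (2:ℝ≥0∞) ^ n * ENNReal.ofReal (1 / 2 ^ n) = 1 := by
          rw [one_div, ENNReal.ofReal_inv_of_pos hN, ENNReal.ofReal_pow (by norm_num),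
            ENNReal.ofReal_ofNat]
          exact ENNReal.mul_inv_cancel (by positivity) (by simp)
        rw [this, one_mul]

/-- the half-open dyadic interval. -/
def dI (n j : ℕ) : Set ℝ := Ioc ((j:ℝ) / 2 ^ n) (((j:ℝ) + 1) / 2 ^ n)

theorem measurableSet_dI (n j : ℕ) : MeasurableSet (dI n j) := measurableSet_Ioc

theorem volume_dI (n j : ℕ) : volume (dI n j) = ENNReal.ofReal (1 / 2 ^ n) := by
  unfold dI; rw [Real.volume_Ioc]; congr 1; ring

theorem volume_dI_ne_top (n j : ℕ) : volume (dI n j) ≠ ⊤ := by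
  rw [volume_dI]; exact ENNReal.ofReal_ne_top

theorem dI_disjoint (n : ℕ) {i j : ℕ} (hij : i ≠ j) : dI n i ∩ dI n j = ∅ := by
  have hN : (0:ℝ) < 2 ^ n := by positivity
  ext x
  simp only [dI, mem_inter_iff, mem_Ioc, mem_empty_iff_false, iff_false, not_and, not_le, and_imp]
  intro h1 h2 h3
  rw [div_lt_iff₀ hN] at h1 h3
  rw [le_div_iff₀ hN] at h2
  rw [div_lt_iff₀ hN]
  by_contra hcon
  rw [not_lt] at hcon
  have h5 : (i:ℝ) < (j:ℝ) + 1 := by linarith
  have h6 : (j:ℝ) < (i:ℝ) + 1 := by linarith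
  have h7 : i < j + 1 := by exact_mod_cast h5
  have h8 : j < i + 1 := by exact_mod_cast h6
  omega

theorem dI_split (n j : ℕ) : dI n j = dI (n + 1) (2 * j) ∪ dI (n + 1) (2 * j + 1) := by
  have hN : (0:ℝ) < 2 ^ n := by positivity
  unfold dI
  have e1 : (((2 * j : ℕ) : ℝ)) / 2 ^ (n + 1) = (j:ℝ) / 2 ^ n := by
    push_cast; rw [pow_succ]; field_simp
  have e2 : (((2 * j : ℕ) : ℝ) + 1) / 2 ^ (n + 1) = (((2 * j + 1 : ℕ) : ℝ)) / 2 ^ (n + 1) := by
    push_cast; ring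
  have e3 : (((2 * j + 1 : ℕ) : ℝ) + 1) / 2 ^ (n + 1) = ((j:ℝ) + 1) / 2 ^ n := by
    push_cast; rw [pow_succ]; field_simp; ring
  rw [e1, e2, e3, Ioc_union_Ioc_eq_Ioc]
  · rw [← e1]; gcongr; exact_mod_cast Nat.le_succ _
  · rw [← e3]; gcongr; linarith

/-- integral over a dyadic interval as a continuous linear functional on `L²`. -/
noncomputable def dF (n j : ℕ) (b : Lp ℝ 2 (volume : Measure ℝ)) : ℝ :=
  inner ℝ (indicatorConstLp 2 (measurableSet_dI n j) (volume_dI_ne_top n j) (1:ℝ)) b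

theorem dF_eq (n j : ℕ) (b : Lp ℝ 2 (volume : Measure ℝ)) : dF n j b = ∫ x in dI n j, b x := by
  unfold dF; exact L2.inner_indicatorConstLp_one (𝕜 := ℝ) _ _ _

theorem dF_split (n j : ℕ) (b : Lp ℝ 2 (volume : Measure ℝ)) :
    dF n j b = dF (n + 1) (2 * j) b + dF (n + 1) (2 * j + 1) b := by
  rw [dF_eq, dF_eq, dF_eq, dI_split]
  rw [setIntegral_union]
  · rw [Set.disjoint_iff_inter_eq_empty]
    exact dI_disjoint _ (by omega)
  · exact measurableSet_dI _ _
  · exact integrableOn_Lp_of_measure_ne_top b fact_one_le_two_ennreal.elim (volume_dI_ne_top _ _)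
  · exact integrableOn_Lp_of_measure_ne_top b fact_one_le_two_ennreal.elim (volume_dI_ne_top _ _)

/-- distance over a dyadic interval. -/
noncomputable def dD (γ : UCurve X) (n j : ℕ) : ℝ :=
  dist (γ.ext ((j:ℝ) / 2 ^ n)) (γ.ext (((j:ℝ) + 1) / 2 ^ n))

theorem dD_split (γ : UCurve X) (n j : ℕ) :
    dD γ n j ≤ dD γ (n + 1) (2 * j) + dD γ (n + 1) (2 * j + 1) := by
  unfold dD
  have e1 : (((2 * j : ℕ) : ℝ)) / 2 ^ (n + 1) = (j:ℝ) / 2 ^ n := by
    push_cast; rw [pow_succ]; field_simp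
  have e2 : (((2 * j : ℕ) : ℝ) + 1) / 2 ^ (n + 1) = (((2 * j + 1 : ℕ) : ℝ)) / 2 ^ (n + 1) := by
    push_cast; ring
  have e3 : (((2 * j + 1 : ℕ) : ℝ) + 1) / 2 ^ (n + 1) = ((j:ℝ) + 1) / 2 ^ n := by
    push_cast; rw [pow_succ]; field_simp; ring
  rw [e1, e2, e3]
  exact dist_triangle _ _ _

theorem exists_speed_of_act (γ : UCurve X) (h : act γ < ⊤) :
    ∃ p : Lp ℝ 2 (volume : Measure ℝ), (∀ n, ∀ j < 2 ^ n, dD γ n j ≤ dF n j p) ∧
      ‖p‖ ^ 2 ≤ (act γ).toReal := by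
  set K : ℕ → Set (Lp ℝ 2 (volume : Measure ℝ)) := fun n =>
    {b | ∀ j < 2 ^ n, dD γ n j ≤ dF n j b} with hK
  have hcont : ∀ n j, Continuous (dF n j) := fun n j => by
    unfold dF; exact continuous_const.inner continuous_id
  have hclosed : ∀ n, IsClosed (K n) := by
    intro n
    have : K n = ⋂ (j : ℕ) (_ : j < 2 ^ n), {b | dD γ n j ≤ dF n j b} := by
      ext b; simp [hK]
    rw [this]
    exact isClosed_iInter fun j => isClosed_iInter fun _ =>
      isClosed_le continuous_const (hcont n j)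
  have hconv : ∀ n, Convex ℝ (K n) := by
    intro n x hx y hy a b ha hb hab j hj
    have h1 := hx j hj
    have h2 := hy j hj
    have e : dF n j (a • x + b • y) = a * dF n j x + b * dF n j y := by
      unfold dF; rw [inner_add_right, inner_smul_right, inner_smul_right]
    rw [e]
    calc dD γ n j = a * dD γ n j + b * dD γ n j := by rw [← add_mul, hab, one_mul]
      _ ≤ _ := by gcongr
  have hdec : ∀ n, K (n + 1) ⊆ K n := by
    intro n b hb j hj
    have h1 := hb (2 * j) (by rw [pow_succ]; omega)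
    have h2 := hb (2 * j + 1) (by rw [pow_succ]; omega)
    rw [dF_split]
    exact (dD_split γ n j).trans (add_le_add h1 h2)
  have hstep : ∀ n, ∃ x ∈ K n, ‖x‖ ≤ Real.sqrt (act γ).toReal := by
    intro n
    set one : ℕ → Lp ℝ 2 (volume : Measure ℝ) := fun j =>
      indicatorConstLp 2 (measurableSet_dI n j) (volume_dI_ne_top n j) (1:ℝ) with hone
    have hinner : ∀ i j, (inner ℝ (one i) (one j) : ℝ) = if i = j then 1 / 2 ^ n else 0 := by
      intro i j
      rw [hone]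
      simp only
      rw [L2.real_inner_indicatorConstLp_one_indicatorConstLp_one (measurableSet_dI n i)
        (measurableSet_dI n j) (volume_dI_ne_top n i) (volume_dI_ne_top n j)]
      split_ifs with hij
      · subst hij
        rw [inter_self, Measure.real, volume_dI, ENNReal.toReal_ofReal (by positivity)]
      · rw [dI_disjoint n hij]; simp
    set a : Lp ℝ 2 (volume : Measure ℝ) :=
      ∑ j ∈ Finset.range (2 ^ n), (2 ^ n * dD γ n j) • one j with ha
    have hia : ∀ i < 2 ^ n, (inner ℝ (one i) a : ℝ) = dD γ n i := by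
      intro i hi
      rw [ha, inner_sum]
      simp only [inner_smul_right, hinner]
      rw [Finset.sum_eq_single i]
      · rw [if_pos rfl]; field_simp
      · intro j _ hj; rw [if_neg (Ne.symm hj), mul_zero]
      · intro h'; exact absurd (Finset.mem_range.mpr hi) h'
    refine ⟨a, fun j hj => ?_, ?_⟩
    · unfold dF; rw [hia j hj]
    · apply Real.le_sqrt_of_sq_le
      rw [← real_inner_self_eq_norm_sq]
      have h1 : (inner ℝ a a : ℝ) = ∑ j ∈ Finset.range (2 ^ n), 2 ^ n * dD γ n j ^ 2 := by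
        conv_lhs => rw [ha]
        rw [sum_inner]
        apply Finset.sum_congr rfl
        intro j hj
        rw [real_inner_smul_left, hia j (Finset.mem_range.mp hj)]
        ring
      have h2 : actN n γ = ENNReal.ofReal (∑ j ∈ Finset.range (2 ^ n), 2 ^ n * dD γ n j ^ 2) := by
        unfold actN dD
        rw [ENNReal.ofReal_sum_of_nonneg (fun j _ => by positivity)]
        apply Finset.sum_congr rfl
        intro j _
        rw [ENNReal.ofReal_mul (by positivity), ENNReal.ofReal_pow (by norm_num),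
          ENNReal.ofReal_pow dist_nonneg, edist_dist, ENNReal.ofReal_ofNat]
      have h3 : actN n γ ≤ act γ := le_iSup (fun n => actN n γ) n
      rw [h1]
      rw [h2] at h3
      rw [← ENNReal.toReal_ofReal (Finset.sum_nonneg fun j _ => by
        positivity : (0:ℝ) ≤ ∑ j ∈ Finset.range (2 ^ n), 2 ^ n * dD γ n j ^ 2)]
      exact ENNReal.toReal_mono h.ne h3
  obtain ⟨p, hp, hpn⟩ := nonempty_iInter_of_convex K
    (fun n => let ⟨x, hx, _⟩ := hstep n; ⟨x, hx⟩) hclosed hconv hdec hstep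
  refine ⟨p, fun n j hj => hp n j hj, ?_⟩
  calc ‖p‖ ^ 2 ≤ (Real.sqrt (act γ).toReal) ^ 2 := pow_le_pow_left₀ (norm_nonneg _) hpn 2
    _ = _ := Real.sq_sqrt ENNReal.toReal_nonneg

theorem edist_dyadic_le (γ : UCurve X) (p : Lp ℝ 2 (volume : Measure ℝ))
    (hp : ∀ n, ∀ j < 2 ^ n, dD γ n j ≤ dF n j p) (n i k : ℕ) (hk : i + k ≤ 2 ^ n) :
    edist (γ.ext ((i:ℝ) / 2 ^ n)) (γ.ext (((i + k : ℕ) : ℝ) / 2 ^ n)) ≤
      ∫⁻ r in Ioc ((i:ℝ) / 2 ^ n) (((i + k : ℕ) : ℝ) / 2 ^ n), ‖p r‖ₑ := by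
  induction k with
  | zero => simp
  | succ k ih =>
    have ih' := ih (by omega)
    have h1 := hp n (i + k) (by omega)
    have h2 : edist (γ.ext (((i + k : ℕ) : ℝ) / 2 ^ n)) (γ.ext (((i + (k + 1) : ℕ) : ℝ) / 2 ^ n)) ≤
        ∫⁻ r in Ioc (((i + k : ℕ) : ℝ) / 2 ^ n) (((i + (k + 1) : ℕ) : ℝ) / 2 ^ n), ‖p r‖ₑ := by
      have e : (((i + (k + 1) : ℕ) : ℝ)) = (((i + k : ℕ) : ℝ)) + 1 := by push_cast; ring
      rw [e, edist_dist]
      change ENNReal.ofReal (dD γ n (i + k)) ≤ ∫⁻ r in dI n (i + k), ‖p r‖ₑ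
      rw [dF_eq] at h1
      calc ENNReal.ofReal (dD γ n (i + k)) ≤ ENNReal.ofReal (∫ x in dI n (i + k), p x) :=
            ENNReal.ofReal_le_ofReal h1
        _ ≤ ENNReal.ofReal ‖∫ x in dI n (i + k), p x‖ :=
            ENNReal.ofReal_le_ofReal (le_abs_self _)
        _ = ‖∫ x in dI n (i + k), p x‖ₑ := by rw [ofReal_norm]
        _ ≤ _ := enorm_integral_le_lintegral_enorm _
    have h3 : ((i:ℝ)) / 2 ^ n ≤ ((i + k : ℕ) : ℝ) / 2 ^ n := by
      gcongr; push_cast; linarith [Nat.cast_nonneg (α := ℝ) k]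
    have h4 : ((i + k : ℕ) : ℝ) / 2 ^ n ≤ ((i + (k + 1) : ℕ) : ℝ) / 2 ^ n := by
      gcongr; push_cast; linarith
    rw [← Ioc_union_Ioc_eq_Ioc h3 h4, lintegral_union measurableSet_Ioc
      (Ioc_disjoint_Ioc_of_le le_rfl)]
    exact (edist_triangle _ _ _).trans (add_le_add ih' h2)

theorem edist_le_of_dyadic (γ : UCurve X) (p : Lp ℝ 2 (volume : Measure ℝ))
    (hp : ∀ n, ∀ j < 2 ^ n, dD γ n j ≤ dF n j p) {s t : ℝ} (hs : 0 ≤ s) (hst : s ≤ t)
    (ht : t ≤ 1) :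
    edist (γ.ext s) (γ.ext t) ≤ ∫⁻ r in Icc s t, ‖p r‖ₑ := by
  rcases hst.eq_or_lt with rfl | hlt
  · simp
  have ht0 : 0 ≤ t := hs.trans hst
  have hpow : Tendsto (fun n : ℕ => ((2:ℝ) ^ n)) atTop atTop :=
    tendsto_pow_atTop_atTop_of_one_lt (by norm_num)
  have h1 : Tendsto (fun n : ℕ => ((⌈s * 2 ^ n⌉₊ : ℝ)) / 2 ^ n) atTop (𝓝 s) :=
    (tendsto_nat_ceil_mul_div_atTop hs).comp hpow
  have h2 : Tendsto (fun n : ℕ => ((⌊t * 2 ^ n⌋₊ : ℝ)) / 2 ^ n) atTop (𝓝 t) :=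
    (tendsto_nat_floor_mul_div_atTop (hs.trans hst)).comp hpow
  have h3 : Tendsto (fun n : ℕ => edist (γ.ext (((⌈s * 2 ^ n⌉₊ : ℝ)) / 2 ^ n))
      (γ.ext (((⌊t * 2 ^ n⌋₊ : ℝ)) / 2 ^ n))) atTop (𝓝 (edist (γ.ext s) (γ.ext t))) :=
    ((cu_continuous_ext γ).tendsto s |>.comp h1).edist ((cu_continuous_ext γ).tendsto t |>.comp h2)
  refine le_of_tendsto h3 ?_
  have h4 : ∀ᶠ n : ℕ in atTop, ((⌈s * 2 ^ n⌉₊ : ℝ)) / 2 ^ n < ((⌊t * 2 ^ n⌋₊ : ℝ)) / 2 ^ n :=
    h1.eventually_lt h2 hlt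
  filter_upwards [h4] with n hn
  have hN : (0:ℝ) < 2 ^ n := by positivity
  have h5 : (⌈s * 2 ^ n⌉₊ : ℝ) < (⌊t * 2 ^ n⌋₊ : ℝ) := by
    rwa [div_lt_div_iff_of_pos_right hN] at hn
  have h6 : ⌈s * 2 ^ n⌉₊ < ⌊t * 2 ^ n⌋₊ := by exact_mod_cast h5
  obtain ⟨k, hk⟩ := Nat.exists_eq_add_of_lt h6
  have h7 : ⌊t * 2 ^ n⌋₊ = ⌈s * 2 ^ n⌉₊ + (k + 1) := by omega
  have h8 : ⌊t * 2 ^ n⌋₊ ≤ 2 ^ n := by
    have : (⌊t * 2 ^ n⌋₊ : ℝ) ≤ 2 ^ n := by
      calc (⌊t * 2 ^ n⌋₊ : ℝ) ≤ t * 2 ^ n := Nat.floor_le (mul_nonneg ht0 hN.le)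
        _ ≤ 1 * 2 ^ n := by gcongr
        _ = 2 ^ n := one_mul _
    exact_mod_cast this
  have h9 := edist_dyadic_le γ p hp n ⌈s * 2 ^ n⌉₊ (k + 1) (by omega)
  rw [← h7] at h9
  refine h9.trans ?_
  apply lintegral_mono_set
  intro x hx
  constructor
  · have : s ≤ (⌈s * 2 ^ n⌉₊ : ℝ) / 2 ^ n := by
      rw [le_div_iff₀ hN]; exact Nat.le_ceil _
    exact this.trans hx.1.le
  · have : (⌊t * 2 ^ n⌋₊ : ℝ) / 2 ^ n ≤ t := by
      rw [div_le_iff₀ hN]; exact Nat.floor_le (mul_nonneg ht0 hN.le)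
    exact hx.2.trans this

theorem exists_speed_of_act' (γ : UCurve X) (h : act γ < ⊤) :
    ∃ a : ℝ → ℝ≥0∞, Measurable a ∧ (∫⁻ r in Icc (0:ℝ) 1, a r ^ 2) ≤ act γ ∧
      ∀ s t : ℝ, 0 ≤ s → s ≤ t → t ≤ 1 → edist (γ.ext s) (γ.ext t) ≤ ∫⁻ r in Icc s t, a r := by
  obtain ⟨p, hp, hpn⟩ := exists_speed_of_act γ h
  refine ⟨fun r => ‖p r‖ₑ, (Lp.stronglyMeasurable p).enorm, ?_,
    fun s t hs hst ht => edist_le_of_dyadic γ p hp hs hst ht⟩
  have h1 : ∫⁻ r, ‖p r‖ₑ ^ 2 = ENNReal.ofReal (‖p‖ ^ 2) := by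
    have h2 : ‖p‖ₑ ^ 2 = ∫⁻ r, ‖p r‖ₑ ^ 2 := by
      rw [Lp.enorm_def, eLpNorm_eq_lintegral_rpow_enorm_toReal two_ne_zero ENNReal.ofNat_ne_top]
      rw [← ENNReal.rpow_natCast, ← ENNReal.rpow_mul]
      simp
    rw [← h2, ← ofReal_norm, ENNReal.ofReal_pow (norm_nonneg _)]
  calc ∫⁻ r in Icc (0:ℝ) 1, ‖p r‖ₑ ^ 2 ≤ ∫⁻ r, ‖p r‖ₑ ^ 2 := setLIntegral_le_lintegral _ _
    _ = ENNReal.ofReal (‖p‖ ^ 2) := h1
    _ ≤ ENNReal.ofReal (act γ).toReal := ENNReal.ofReal_le_ofReal hpn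
    _ = act γ := ENNReal.ofReal_toReal h.ne

theorem hasL2Speed_iff_act (γ : UCurve X) : HasL2Speed γ ↔ act γ < ⊤ := by
  constructor
  · intro h
    obtain ⟨a, ha, h2, h4, h5, h6⟩ := hasL2Speed_data h
    exact lt_of_le_of_lt (iSup_le fun n => actN_le ha h5 n) h2
  · intro h
    obtain ⟨a, ha, h2, h3⟩ := exists_speed_of_act' γ h
    refine ⟨a, ha, lt_of_le_of_lt h2 h, fun s t hst => ?_⟩
    have := h3 s t s.2.1 hst t.2.2
    rwa [cu_ext_coe, cu_ext_coe] at this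


theorem measurableSet_hasL2Speed : MeasurableSet {γ : UCurve X | HasL2Speed γ} := by
  have : {γ : UCurve X | HasL2Speed γ} = {γ | act γ < ⊤} := by
    ext γ; exact hasL2Speed_iff_act γ
  rw [this]
  exact measurableSet_lt (lowerSemicontinuous_act.measurable) measurable_const




theorem subCurve_toMap (a b : ℝ) (γ : UCurve X) (t : unitInterval) :
    (subCurve a b γ).toMap t = γ.ext (a + (t:ℝ) * (b - a)) := rfl

theorem subCurve_ext (a b : ℝ) (γ : UCurve X) {t : ℝ} (ht : t ∈ Icc (0:ℝ) 1) :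
    (subCurve a b γ).ext t = γ.ext (a + t * (b - a)) := by
  rw [ext_of_mem _ ht, subCurve_toMap]

theorem cu_continuous_subCurve (a b : ℝ) : Continuous (subCurve a b : UCurve X → UCurve X) := by
  rw [continuous_induced_rng]
  exact (ContinuousMap.continuous_precomp (subI a b)).comp cu_continuous_toMap

theorem affine_mem {a b : ℝ} (ha : a ∈ Icc (0:ℝ) 1) (hb : b ∈ Icc (0:ℝ) 1) {t : ℝ}
    (ht : t ∈ Icc (0:ℝ) 1) : a + t * (b - a) ∈ Icc (0:ℝ) 1 := by
  obtain ⟨h1, h2⟩ := ht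
  obtain ⟨h3, h4⟩ := ha
  obtain ⟨h5, h6⟩ := hb
  have e : a + t * (b - a) = (1 - t) * a + t * b := by ring
  rw [e]
  constructor
  · have := mul_nonneg (sub_nonneg.mpr h2) h3
    have := mul_nonneg h1 h5
    linarith
  · have := mul_le_mul_of_nonneg_left h4 (sub_nonneg.mpr h2)
    have := mul_le_mul_of_nonneg_left h6 h1
    linarith

theorem upperSpeed_subCurve' (a b : ℝ) (γ : UCurve X) {t : ℝ} (ht : t ∈ Ioo (0:ℝ) 1) :
    upperSpeed (subCurve a b γ) t = ENNReal.ofReal |b - a| * upperSpeed γ (a + t * (b - a)) := by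
  have hloc : (fun s : ℝ => ENNReal.ofReal
      (dist ((subCurve a b γ).ext s) ((subCurve a b γ).ext t) / |s - t|)) =ᶠ[𝓝[≠] t]
      (fun s : ℝ => ENNReal.ofReal
        (dist (γ.ext (a + s * (b - a))) (γ.ext (a + t * (b - a))) / |s - t|)) := by
    have hnb : Icc (0:ℝ) 1 ∈ 𝓝 t := Icc_mem_nhds ht.1 ht.2
    filter_upwards [mem_nhdsWithin_of_mem_nhds hnb] with s hs
    rw [subCurve_ext a b γ hs, subCurve_ext a b γ ⟨ht.1.le, ht.2.le⟩]
  rcases eq_or_ne a b with hab | hab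
  · subst hab
    unfold upperSpeed
    rw [Filter.limsup_congr hloc]
    simp
  · have hne : b - a ≠ 0 := sub_ne_zero.mpr hab.symm
    set φ : ℝ ≃ₜ ℝ := (Homeomorph.mulRight₀ (b - a) hne).trans (Homeomorph.addLeft a) with hφ
    have hφa : ∀ s, φ s = a + s * (b - a) := fun s => rfl
    have hmap : Filter.map φ (𝓝[≠] t) = 𝓝[≠] (φ t) := φ.map_punctured_nhds_eq t
    have h1 : upperSpeed γ (a + t * (b - a)) =
        Filter.limsup (fun s : ℝ => ENNReal.ofReal
          (dist (γ.ext (φ s)) (γ.ext (φ t)) / |φ s - φ t|)) (𝓝[≠] t) := by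
      rw [← hφa t]
      unfold upperSpeed
      rw [← hmap]
      rfl
    rw [h1]
    rw [← ENNReal.limsup_const_mul_of_ne_top ENNReal.ofReal_ne_top]
    · unfold upperSpeed
      rw [Filter.limsup_congr hloc]
      apply Filter.limsup_congr
      filter_upwards [self_mem_nhdsWithin] with s hs
      rw [← ENNReal.ofReal_mul (abs_nonneg _)]
      congr 1
      have e : φ s - φ t = (s - t) * (b - a) := by rw [hφa, hφa]; ring
      have hst : |s - t| ≠ 0 := abs_ne_zero.mpr (sub_ne_zero.mpr hs)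
      have hba : |b - a| ≠ 0 := abs_ne_zero.mpr hne
      rw [e, abs_mul, hφa, hφa]
      field_simp

theorem lintegral_affine (a b : ℝ) (G : ℝ → ℝ≥0∞) {s t : ℝ} (hst : s ≤ t) :
    ∫⁻ r in Icc s t, ENNReal.ofReal |b - a| * G (a + r * (b - a)) =
      ∫⁻ r in uIcc (a + s * (b - a)) (a + t * (b - a)), G r := by
  rcases eq_or_ne a b with hab | hab
  · subst hab
    simp
  · have hne : b - a ≠ 0 := sub_ne_zero.mpr hab.symm
    have himg : (fun r : ℝ => a + r * (b - a)) '' (Icc s t) =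
        uIcc (a + s * (b - a)) (a + t * (b - a)) := by
      have h1 : (fun r : ℝ => a + r * (b - a)) = (fun y => a + y) ∘ (fun r => r * (b - a)) := rfl
      rw [h1, image_comp, ← uIcc_of_le hst, Set.image_mul_const_uIcc, Set.image_const_add_uIcc]
    rw [← himg]
    have hd : ∀ x ∈ Icc s t, HasDerivWithinAt (fun r : ℝ => a + r * (b - a)) (b - a) (Icc s t) x := by
      intro x _
      have := ((hasDerivAt_id x).mul_const (b - a)).const_add a
      simpa using this.hasDerivWithinAt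
    have hinj : InjOn (fun r : ℝ => a + r * (b - a)) (Icc s t) := by
      intro x _ y _ hxy
      have : x * (b - a) = y * (b - a) := by
        have h' : a + x * (b - a) = a + y * (b - a) := hxy
        linarith
      exact mul_right_cancel₀ hne this
    rw [lintegral_image_eq_lintegral_abs_deriv_mul measurableSet_Icc hd hinj G]

theorem ae_Ioo_congr {f g : ℝ → ℝ≥0∞} (h : ∀ t ∈ Ioo (0:ℝ) 1, f t = g t) :
    ∫⁻ t in Icc (0:ℝ) 1, f t = ∫⁻ t in Icc (0:ℝ) 1, g t := by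
  rw [Measure.restrict_congr_set (Ioo_ae_eq_Icc (μ := volume) (a := (0:ℝ)) (b := 1)).symm]
  exact setLIntegral_congr_fun measurableSet_Ioo h

theorem lintegral_subCurve_mul' (a b : ℝ) (γ : UCurve X) (g : X → ℝ≥0∞) :
    ∫⁻ t in Icc (0:ℝ) 1, g ((subCurve a b γ).ext t) * upperSpeed (subCurve a b γ) t =
      ∫⁻ r in uIcc a b, g (γ.ext r) * upperSpeed γ r := by
  have h1 := lintegral_affine a b (fun r => g (γ.ext r) * upperSpeed γ r) zero_le_one
  have e1 : a + 0 * (b - a) = a := by ring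
  have e2 : a + 1 * (b - a) = b := by ring
  rw [e1, e2] at h1
  rw [← h1]
  apply ae_Ioo_congr
  intro t ht
  rw [upperSpeed_subCurve' a b γ ht, subCurve_ext a b γ ⟨ht.1.le, ht.2.le⟩]
  ring

theorem lintegral_subCurve_sq' (a b : ℝ) (γ : UCurve X) :
    ∫⁻ t in Icc (0:ℝ) 1, upperSpeed (subCurve a b γ) t ^ 2 =
      ENNReal.ofReal |b - a| * ∫⁻ r in uIcc a b, upperSpeed γ r ^ 2 := by
  have h1 := lintegral_affine a b (fun r => upperSpeed γ r ^ 2) zero_le_one
  have e1 : a + 0 * (b - a) = a := by ring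
  have e2 : a + 1 * (b - a) = b := by ring
  rw [e1, e2] at h1
  rw [← h1, ← lintegral_const_mul' _ _ ENNReal.ofReal_ne_top]
  apply ae_Ioo_congr
  intro t ht
  rw [upperSpeed_subCurve' a b γ ht]
  ring

theorem lintegral_subCurve_ext' (a b : ℝ) (γ : UCurve X) (g : X → ℝ≥0∞) :
    ENNReal.ofReal |b - a| * ∫⁻ t in Icc (0:ℝ) 1, g ((subCurve a b γ).ext t) =
      ∫⁻ r in uIcc a b, g (γ.ext r) := by
  have h1 := lintegral_affine a b (fun r => g (γ.ext r)) zero_le_one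
  have e1 : a + 0 * (b - a) = a := by ring
  have e2 : a + 1 * (b - a) = b := by ring
  rw [e1, e2] at h1
  rw [← h1, ← lintegral_const_mul' _ _ ENNReal.ofReal_ne_top]
  apply ae_Ioo_congr
  intro t ht
  rw [subCurve_ext a b γ ⟨ht.1.le, ht.2.le⟩]

theorem hasL2Speed_subCurve (a b : ℝ) (ha : a ∈ Icc (0:ℝ) 1) (hb : b ∈ Icc (0:ℝ) 1)
    {γ : UCurve X} (h : HasL2Speed γ) : HasL2Speed (subCurve a b γ) := by
  obtain ⟨c, hc, h2, h3⟩ := h
  refine ⟨fun t => ENNReal.ofReal |b - a| * c (a + t * (b - a)), ?_, ?_, ?_⟩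
  · exact (hc.comp (measurable_const.add (measurable_id.mul_const _))).const_mul _
  · have h1 := lintegral_affine a b (fun r => c r ^ 2) zero_le_one
    have e1 : a + 0 * (b - a) = a := by ring
    have e2 : a + 1 * (b - a) = b := by ring
    rw [e1, e2] at h1
    calc ∫⁻ t in Icc (0:ℝ) 1, (ENNReal.ofReal |b - a| * c (a + t * (b - a))) ^ 2
        = ∫⁻ t in Icc (0:ℝ) 1, ENNReal.ofReal |b - a| *
            (ENNReal.ofReal |b - a| * c (a + t * (b - a)) ^ 2) := by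
          apply lintegral_congr; intro t; ring
      _ = ENNReal.ofReal |b - a| * ∫⁻ r in uIcc a b, c r ^ 2 := by
          rw [lintegral_const_mul' _ _ ENNReal.ofReal_ne_top, h1]
      _ ≤ ENNReal.ofReal |b - a| * ∫⁻ r in Icc (0:ℝ) 1, c r ^ 2 := by
          gcongr
          exact uIcc_subset_Icc ha hb
      _ < ⊤ := ENNReal.mul_lt_top ENNReal.ofReal_lt_top h2
  · intro s t hst
    rw [lintegral_affine a b c hst, subCurve_toMap, subCurve_toMap]
    have hs' := affine_mem ha hb s.2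
    have ht' := affine_mem ha hb t.2
    rw [ext_of_mem γ hs', ext_of_mem γ ht']
    rcases le_total (a + (s:ℝ) * (b - a)) (a + (t:ℝ) * (b - a)) with hle | hle
    · rw [uIcc_of_le hle]
      exact h3 ⟨_, hs'⟩ ⟨_, ht'⟩ hle
    · rw [uIcc_of_ge hle, edist_comm]
      exact h3 ⟨_, ht'⟩ ⟨_, hs'⟩ hle



/-- change of variables for the sub-curve (also for reversed curves, `b < a`). -/
theorem lintegral_subCurve_mul (a b : ℝ) (_ha : a ∈ Icc (0:ℝ) 1) (_hb : b ∈ Icc (0:ℝ) 1)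
    (γ : UCurve X) (g : X → ℝ≥0∞) :
    ∫⁻ t in Icc (0:ℝ) 1, g ((subCurve a b γ).ext t) * upperSpeed (subCurve a b γ) t =
      ∫⁻ r in uIcc a b, g (γ.ext r) * upperSpeed γ r :=
  lintegral_subCurve_mul' a b γ g

theorem lintegral_subCurve_sq (a b : ℝ) (_ha : a ∈ Icc (0:ℝ) 1) (_hb : b ∈ Icc (0:ℝ) 1)
    (γ : UCurve X) :
    ∫⁻ t in Icc (0:ℝ) 1, upperSpeed (subCurve a b γ) t ^ 2 =
      ENNReal.ofReal |b - a| * ∫⁻ r in uIcc a b, upperSpeed γ r ^ 2 :=
  lintegral_subCurve_sq' a b γ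

/-- `∫_0^1 g(γ_{a+t(b-a)}) dt = (1/(b-a)) ∫_a^b g(γ_r) dr`, multiplied out. -/
theorem lintegral_subCurve_ext (a b : ℝ) (_ha : a ∈ Icc (0:ℝ) 1) (_hb : b ∈ Icc (0:ℝ) 1)
    (γ : UCurve X) (g : X → ℝ≥0∞) :
    ENNReal.ofReal |b - a| * ∫⁻ t in Icc (0:ℝ) 1, g ((subCurve a b γ).ext t) =
      ∫⁻ r in uIcc a b, g (γ.ext r) :=
  lintegral_subCurve_ext' a b γ g

end Speed

/-! ### plans -/

section Plans

set_option linter.unusedSectionVars false

variable {X : Type*} [MetricSpace X] [MeasurableSpace X] [BorelSpace X] {m : Measure X}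
  {P : Measure (UCurve X)}

theorem measurable_eval (t : unitInterval) : Measurable (fun γ : UCurve X => γ.toMap t) :=
  (continuous_eval_left t).measurable

theorem measurable_evalExt' :
    Measurable (fun p : UCurve X × ℝ => p.1.ext p.2) :=
  continuous_evalExt.measurable

theorem measurable_lintegral_upperSpeed_sq :
    Measurable (fun γ : UCurve X => ∫⁻ t in Icc (0:ℝ) 1, upperSpeed γ t ^ 2) := by
  have h := (measurable_upperSpeed (X := X)).pow_const 2
  exact h.lintegral_prod_right'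

theorem isTestPlan2_cond (hP : IsTestPlan2 m P) {A : Set (UCurve X)} (hA : P A ≠ 0) :
    IsTestPlan2 m ((P A)⁻¹ • P.restrict A) := by
  obtain ⟨hprob, ⟨C, hC⟩, hsp, hen⟩ := hP
  have hfin : P A ≠ ⊤ := measure_ne_top P A
  have hinv : (P A)⁻¹ ≠ ⊤ := ENNReal.inv_ne_top.mpr hA
  refine ⟨⟨?_⟩, ⟨(P A)⁻¹.toNNReal * C, fun t => ?_⟩, ?_, ?_⟩
  · simp [ENNReal.inv_mul_cancel hA hfin]
  · unfold timeMarginal
    rw [Measure.map_smul]
    have h1 : Measure.map (fun γ : UCurve X => γ.toMap t) (P.restrict A) ≤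
        Measure.map (fun γ : UCurve X => γ.toMap t) P :=
      Measure.map_mono Measure.restrict_le_self (measurable_eval t)
    have h2 := h1.trans (hC t)
    rw [ENNReal.coe_mul, ENNReal.coe_toNNReal hinv, mul_smul]
    refine Measure.le_iff'.mpr fun s => ?_
    simp only [Measure.smul_apply, smul_eq_mul]
    gcongr
    simpa [Measure.smul_apply, smul_eq_mul] using Measure.le_iff'.mp h2 s
  · exact Measure.ae_smul_measure (ae_restrict_of_ae hsp) _
  · rw [lintegral_smul_measure]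
    refine ENNReal.mul_lt_top hinv.lt_top ?_
    exact lt_of_le_of_lt (lintegral_mono' Measure.restrict_le_self le_rfl) hen

theorem hasBoundedTracks_cond (hP : HasBoundedTracks P) (A : Set (UCurve X)) (c : ℝ≥0∞) :
    HasBoundedTracks (c • P.restrict A) := by
  obtain ⟨o, R, h⟩ := hP
  exact ⟨o, R, Measure.ae_smul_measure (ae_restrict_of_ae h) _⟩

theorem timeMarginal_map_subCurve (a b : ℝ) (t : unitInterval) :
    timeMarginal (P.map (subCurve a b)) t = timeMarginal P (subI a b t) := by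
  unfold timeMarginal
  rw [Measure.map_map (measurable_eval t) (cu_continuous_subCurve a b).measurable]
  rfl

theorem isTestPlan2_map_subCurve (hP : IsTestPlan2 m P) (a b : ℝ) (ha : a ∈ Icc (0:ℝ) 1)
    (hb : b ∈ Icc (0:ℝ) 1) : IsTestPlan2 m (P.map (subCurve a b)) := by
  obtain ⟨hprob, ⟨C, hC⟩, hsp, hen⟩ := hP
  have hm : Measurable (subCurve a b : UCurve X → UCurve X) := (cu_continuous_subCurve a b).measurable
  refine ⟨Measure.isProbabilityMeasure_map hm.aemeasurable, ⟨C, fun t => ?_⟩, ?_, ?_⟩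
  · rw [timeMarginal_map_subCurve]; exact hC _
  · rw [ae_map_iff hm.aemeasurable measurableSet_hasL2Speed]
    filter_upwards [hsp] with γ hγ
    exact hasL2Speed_subCurve a b ha hb hγ
  · rw [lintegral_map measurable_lintegral_upperSpeed_sq hm]
    refine lt_of_le_of_lt (lintegral_mono (g := fun γ => ∫⁻ t in Icc (0:ℝ) 1, upperSpeed γ t ^ 2)
      fun γ => ?_) hen
    simp only
    rw [lintegral_subCurve_sq a b ha hb]
    calc ENNReal.ofReal |b - a| * ∫⁻ r in uIcc a b, upperSpeed γ r ^ 2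
        ≤ 1 * ∫⁻ r in Icc (0:ℝ) 1, upperSpeed γ r ^ 2 := by
          gcongr
          · rw [ENNReal.ofReal_le_one, abs_le]
            obtain ⟨h1, h2⟩ := ha
            obtain ⟨h3, h4⟩ := hb
            constructor <;> linarith
          · exact uIcc_subset_Icc ha hb
      _ = _ := one_mul _

theorem isClosed_tracks (o : X) (R : ℝ) :
    IsClosed {γ : UCurve X | ∀ t : unitInterval, γ.toMap t ∈ Metric.closedBall o R} := by
  rw [Set.ofPred_forall]
  exact isClosed_iInter fun t => Metric.isClosed_closedBall.preimage (continuous_eval_left t)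

theorem hasBoundedTracks_map_subCurve (hP : HasBoundedTracks P) (a b : ℝ) :
    HasBoundedTracks (P.map (subCurve a b)) := by
  obtain ⟨o, R, h⟩ := hP
  refine ⟨o, R, ?_⟩
  have hm : Measurable (subCurve a b : UCurve X → UCurve X) := (cu_continuous_subCurve a b).measurable
  rw [ae_map_iff hm.aemeasurable (isClosed_tracks o R).measurableSet]
  filter_upwards [h] with γ hγ t
  exact hγ (subI a b t)

theorem timeMarginal_ac {C : ℝ≥0} (hC : ∀ t : unitInterval, timeMarginal P t ≤ (C : ℝ≥0∞) • m)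
    (t : unitInterval) : timeMarginal P t ≪ m :=
  Measure.absolutelyContinuous_of_le_smul (hC t)

theorem ae_toMap_of_ae {C : ℝ≥0} (hC : ∀ t : unitInterval, timeMarginal P t ≤ (C : ℝ≥0∞) • m)
    {p : X → Prop} (h : ∀ᵐ x ∂m, p x) (t : unitInterval) : ∀ᵐ γ ∂P, p (γ.toMap t) :=
  ae_of_ae_map (measurable_eval t).aemeasurable ((timeMarginal_ac hC t).ae_le h)

theorem ae_ae_ext_of_ae' [SFinite P] {C : ℝ≥0}
    (hC : ∀ t : unitInterval, timeMarginal P t ≤ (C : ℝ≥0∞) • m)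
    {p : X → Prop} (h : ∀ᵐ x ∂m, p x) :
    ∀ᵐ γ ∂P, ∀ᵐ t ∂(volume.restrict (Icc (0:ℝ) 1)), p (γ.ext t) := by
  set N := toMeasurable m {x | ¬ p x} with hN
  have hNm : MeasurableSet N := measurableSet_toMeasurable _ _
  have hN0 : m N = 0 := by rw [hN, measure_toMeasurable]; exact h
  set S : Set (UCurve X × ℝ) := {q | q.1.ext q.2 ∈ N} with hS
  have hSm : MeasurableSet S := measurable_evalExt' hNm
  have hS0 : (P.prod (volume.restrict (Icc (0:ℝ) 1))) S = 0 := by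
    rw [Measure.prod_apply_symm hSm]
    rw [lintegral_eq_zero_iff' (measurable_measure_prodMk_right hSm).aemeasurable]
    filter_upwards [ae_restrict_mem measurableSet_Icc] with t ht
    have h1 : (fun γ : UCurve X => (γ, t)) ⁻¹' S = (fun γ : UCurve X => γ.toMap ⟨t, ht⟩) ⁻¹' N := by
      ext γ
      simp only [hS, mem_preimage, mem_ofPred_eq]
      rw [ext_of_mem γ ht]
    rw [h1]
    have h2 : P ((fun γ : UCurve X => γ.toMap ⟨t, ht⟩) ⁻¹' N) = timeMarginal P ⟨t, ht⟩ N := by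
      unfold timeMarginal
      rw [Measure.map_apply (measurable_eval _) hNm]
    rw [h2]
    exact timeMarginal_ac hC _ hN0
  have h3 := Measure.measure_ae_null_of_prod_null hS0
  filter_upwards [h3] with γ hγ
  have h4 : ∀ᵐ t ∂(volume.restrict (Icc (0:ℝ) 1)), ¬ (γ.ext t ∈ N) := by
    rw [ae_iff]
    simp only [not_not]
    exact hγ
  filter_upwards [h4] with t ht
  by_contra hcon
  exact ht (subset_toMeasurable m {x | ¬ p x} hcon)

theorem ae_ae_ext_of_ae_ball [SFinite P] {C : ℝ≥0}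
    (hC : ∀ t : unitInterval, timeMarginal P t ≤ (C : ℝ≥0∞) • m) {o : X} {R : ℝ}
    (hR : ∀ᵐ γ ∂P, ∀ t : unitInterval, γ.toMap t ∈ Metric.closedBall o R)
    {p : X → Prop} (h : ∀ᵐ x ∂(m.restrict (Metric.closedBall o R)), p x) :
    ∀ᵐ γ ∂P, ∀ᵐ t ∂(volume.restrict (Icc (0:ℝ) 1)), p (γ.ext t) := by
  rw [ae_restrict_iff' Metric.isClosed_closedBall.measurableSet] at h
  filter_upwards [ae_ae_ext_of_ae' hC h, hR] with γ h1 h2
  filter_upwards [h1] with t ht
  exact ht (h2 _)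


theorem lintegral_toMap_le {C : ℝ≥0}
    (hC : ∀ t : unitInterval, timeMarginal P t ≤ (C : ℝ≥0∞) • m)
    {g : X → ℝ≥0∞} (hg : AEMeasurable g m) (t : unitInterval) :
    ∫⁻ γ, g (γ.toMap t) ∂P ≤ C * ∫⁻ x, g x ∂m := by
  have h1 : ∫⁻ x, g x ∂(timeMarginal P t) = ∫⁻ γ, g (γ.toMap t) ∂P := by
    unfold timeMarginal
    rw [lintegral_map' _ (measurable_eval t).aemeasurable]
    exact hg.mono_ac (timeMarginal_ac hC t)
  rw [← h1]
  calc ∫⁻ x, g x ∂(timeMarginal P t) ≤ ∫⁻ x, g x ∂((C : ℝ≥0∞) • m) := lintegral_mono' (hC t) le_rfl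
    _ = _ := by rw [lintegral_smul_measure]; rfl

theorem lintegral_toMap_le_ball {C : ℝ≥0}
    (hC : ∀ t : unitInterval, timeMarginal P t ≤ (C : ℝ≥0∞) • m) {o : X} {R : ℝ}
    (hR : ∀ᵐ γ ∂P, ∀ t : unitInterval, γ.toMap t ∈ Metric.closedBall o R)
    {g : X → ℝ≥0∞} (hg : AEMeasurable g (m.restrict (Metric.closedBall o R)))
    (t : unitInterval) :
    ∫⁻ γ, g (γ.toMap t) ∂P ≤ C * ∫⁻ x in Metric.closedBall o R, g x ∂m := by
  have hB : MeasurableSet (Metric.closedBall o R) := Metric.isClosed_closedBall.measurableSet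
  rw [← lintegral_indicator hB]
  have h1 : AEMeasurable ((Metric.closedBall o R).indicator g) m :=
    (aemeasurable_indicator_iff hB).mpr hg
  refine le_trans (le_of_eq (lintegral_congr_ae ?_)) (lintegral_toMap_le hC h1 t)
  filter_upwards [hR] with γ hγ
  rw [indicator_of_mem (hγ t)]

theorem lintegral_lintegral_ext_le' [SFinite P] {C : ℝ≥0}
    (hC : ∀ t : unitInterval, timeMarginal P t ≤ (C : ℝ≥0∞) • m)
    {g : X → ℝ≥0∞} (hg : AEMeasurable g m) :
    ∫⁻ γ, (∫⁻ t in Icc (0:ℝ) 1, g (γ.ext t)) ∂P ≤ C * ∫⁻ x, g x ∂m := by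
  have h1 : ∫⁻ γ, (∫⁻ t in Icc (0:ℝ) 1, g (γ.ext t)) ∂P =
      ∫⁻ γ, (∫⁻ t in Icc (0:ℝ) 1, hg.mk g (γ.ext t)) ∂P := by
    apply lintegral_congr_ae
    filter_upwards [ae_ae_ext_of_ae' hC hg.ae_eq_mk] with γ hγ
    exact lintegral_congr_ae hγ
  have hmeas : Measurable (fun p : UCurve X × ℝ => hg.mk g (p.1.ext p.2)) :=
    hg.measurable_mk.comp measurable_evalExt'
  rw [h1, lintegral_lintegral_swap hmeas.aemeasurable]
  calc ∫⁻ t in Icc (0:ℝ) 1, (∫⁻ γ, hg.mk g (γ.ext t) ∂P)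
      ≤ ∫⁻ t in Icc (0:ℝ) 1, C * ∫⁻ x, g x ∂m := by
        apply lintegral_mono_ae
        filter_upwards [ae_restrict_mem measurableSet_Icc] with t ht
        have h2 := lintegral_toMap_le hC hg.measurable_mk.aemeasurable ⟨t, ht⟩
        rw [← lintegral_congr_ae hg.ae_eq_mk] at h2
        refine le_trans (le_of_eq ?_) h2
        apply lintegral_congr
        intro γ
        rw [ext_of_mem γ ht]
    _ = C * ∫⁻ x, g x ∂m := by simp

theorem lintegral_lintegral_ext_le_ball' [SFinite P] {C : ℝ≥0}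
    (hC : ∀ t : unitInterval, timeMarginal P t ≤ (C : ℝ≥0∞) • m) {o : X} {R : ℝ}
    (hR : ∀ᵐ γ ∂P, ∀ t : unitInterval, γ.toMap t ∈ Metric.closedBall o R)
    {g : X → ℝ≥0∞} (hg : AEMeasurable g (m.restrict (Metric.closedBall o R))) :
    ∫⁻ γ, (∫⁻ t in Icc (0:ℝ) 1, g (γ.ext t)) ∂P ≤
      C * ∫⁻ x in Metric.closedBall o R, g x ∂m := by
  have hB : MeasurableSet (Metric.closedBall o R) := Metric.isClosed_closedBall.measurableSet
  rw [← lintegral_indicator hB]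
  have h1 : AEMeasurable ((Metric.closedBall o R).indicator g) m :=
    (aemeasurable_indicator_iff hB).mpr hg
  refine le_trans (le_of_eq (lintegral_congr_ae ?_)) (lintegral_lintegral_ext_le' hC h1)
  filter_upwards [hR] with γ hγ
  apply lintegral_congr
  intro t
  rw [indicator_of_mem]
  exact hγ _

/-- Cauchy-Schwarz for the right-hand side of the weak upper gradient inequality. -/
theorem lintegral_mul_upperSpeed_le' [SFinite P] {C : ℝ≥0}
    (hC : ∀ t : unitInterval, timeMarginal P t ≤ (C : ℝ≥0∞) • m) {o : X} {R : ℝ}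
    (hR : ∀ᵐ γ ∂P, ∀ t : unitInterval, γ.toMap t ∈ Metric.closedBall o R)
    {g : X → ℝ≥0∞} (hg : AEMeasurable g (m.restrict (Metric.closedBall o R))) :
    (∫⁻ γ, (∫⁻ t in Icc (0:ℝ) 1, g (γ.ext t) * upperSpeed γ t) ∂P) ≤
      (C * ∫⁻ x in Metric.closedBall o R, g x ^ 2 ∂m) ^ (1 / 2 : ℝ) *
        (∫⁻ γ, (∫⁻ t in Icc (0:ℝ) 1, upperSpeed γ t ^ 2) ∂P) ^ (1 / 2 : ℝ) := by
  set g0 := hg.mk g with hg0
  have hg0m : Measurable g0 := hg.measurable_mk
  have h1 : (∫⁻ γ, (∫⁻ t in Icc (0:ℝ) 1, g (γ.ext t) * upperSpeed γ t) ∂P) =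
      ∫⁻ γ, (∫⁻ t in Icc (0:ℝ) 1, g0 (γ.ext t) * upperSpeed γ t) ∂P := by
    apply lintegral_congr_ae
    filter_upwards [ae_ae_ext_of_ae_ball hC hR hg.ae_eq_mk] with γ hγ
    apply lintegral_congr_ae
    filter_upwards [hγ] with t ht
    rw [ht]
  set Q := P.prod (volume.restrict (Icc (0:ℝ) 1)) with hQ
  have hm1 : Measurable (fun p : UCurve X × ℝ => g0 (p.1.ext p.2)) := hg0m.comp measurable_evalExt'
  have hm2 : Measurable (fun p : UCurve X × ℝ => upperSpeed p.1 p.2) := measurable_upperSpeed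
  have h2 : ∫⁻ γ, (∫⁻ t in Icc (0:ℝ) 1, g0 (γ.ext t) * upperSpeed γ t) ∂P =
      ∫⁻ p, g0 (p.1.ext p.2) * upperSpeed p.1 p.2 ∂Q := by
    rw [hQ]
    exact (lintegral_prod (fun p : UCurve X × ℝ => g0 (p.1.ext p.2) * upperSpeed p.1 p.2)
      (hm1.mul hm2).aemeasurable).symm
  have h3 := ENNReal.lintegral_mul_le_Lp_mul_Lq Q (p := 2) (q := 2)
    (Real.HolderConjugate.two_two) hm1.aemeasurable hm2.aemeasurable
  have h4 : ∫⁻ p, g0 (p.1.ext p.2) ^ (2:ℝ) ∂Q ≤ C * ∫⁻ x in Metric.closedBall o R, g x ^ 2 ∂m := by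
    have e : ∫⁻ p, g0 (p.1.ext p.2) ^ (2:ℝ) ∂Q =
        ∫⁻ γ, (∫⁻ t in Icc (0:ℝ) 1, g0 (γ.ext t) ^ 2) ∂P := by
      rw [hQ, lintegral_prod _ (hm1.pow_const _).aemeasurable]
      simp only [ENNReal.rpow_ofNat]
    rw [e]
    refine (lintegral_lintegral_ext_le_ball' hC hR (hg0m.pow_const 2).aemeasurable).trans ?_
    refine mul_le_mul' le_rfl (le_of_eq ?_)
    apply lintegral_congr_ae
    filter_upwards [hg.ae_eq_mk] with x hx
    rw [hx]
  have h5 : ∫⁻ p, upperSpeed p.1 p.2 ^ (2:ℝ) ∂Q =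
      ∫⁻ γ, (∫⁻ t in Icc (0:ℝ) 1, upperSpeed γ t ^ 2) ∂P := by
    rw [hQ, lintegral_prod _ (hm2.pow_const _).aemeasurable]
    simp only [ENNReal.rpow_ofNat]
  rw [h1, h2]
  refine h3.trans ?_
  rw [h5]
  gcongr

theorem lintegral_closedBall_sq_lt_top {D : X → ℝ} (hD : IsL2OnBalls m D) (o : X) (R : ℝ) :
    ∫⁻ x in Metric.closedBall o R, ENNReal.ofReal (D x) ^ 2 ∂m < ⊤ := by
  have h1 := (hD o (R + 1)).eLpNorm_lt_top
  have h2 : ∫⁻ x in Metric.ball o (R + 1), ‖D x‖ₑ ^ 2 ∂m < ⊤ := by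
    have h3 := (hD o (R + 1))
    have := (eLpNorm_lt_top_iff_lintegral_rpow_enorm_lt_top (μ := m.restrict (Metric.ball o (R+1)))
      (f := D) (p := 2) two_ne_zero ENNReal.ofNat_ne_top).mp h1
    simpa using this
  refine lt_of_le_of_lt ?_ h2
  calc ∫⁻ x in Metric.closedBall o R, ENNReal.ofReal (D x) ^ 2 ∂m
      ≤ ∫⁻ x in Metric.ball o (R + 1), ENNReal.ofReal (D x) ^ 2 ∂m :=
        lintegral_mono_set (Metric.closedBall_subset_ball (by linarith))
    _ ≤ _ := by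
        apply lintegral_mono
        intro x
        simp only
        rw [Real.enorm_eq_ofReal_abs]
        exact pow_le_pow_left₀ zero_le (ENNReal.ofReal_le_ofReal (le_abs_self _)) 2

theorem aemeasurable_closedBall {D : X → ℝ} (hD : IsL2OnBalls m D) (o : X) (R : ℝ) :
    AEMeasurable D (m.restrict (Metric.closedBall o R)) :=
  ((hD o (R + 1)).aestronglyMeasurable.aemeasurable).mono_measure
    (Measure.restrict_mono (Metric.closedBall_subset_ball (by linarith)) le_rfl)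

theorem lintegral_mul_upperSpeed_lt_top'
    (hP : IsTestPlan2 m P) (hb : HasBoundedTracks P) {D : X → ℝ} (hD : IsL2OnBalls m D) :
    (∫⁻ γ, (∫⁻ t in Icc (0:ℝ) 1, ENNReal.ofReal (D (γ.ext t)) * upperSpeed γ t) ∂P) < ⊤ := by
  obtain ⟨hprob, ⟨C, hC⟩, hsp, hen⟩ := hP
  obtain ⟨o, R, hR⟩ := hb
  have h1 := lintegral_mul_upperSpeed_le' hC hR (g := fun x => ENNReal.ofReal (D x))
    (aemeasurable_closedBall hD o R).ennreal_ofReal
  refine lt_of_le_of_lt h1 ?_
  apply ENNReal.mul_lt_top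
  · apply ENNReal.rpow_lt_top_of_nonneg (by norm_num)
    exact (ENNReal.mul_lt_top ENNReal.coe_lt_top (lintegral_closedBall_sq_lt_top hD o R)).ne
  · exact ENNReal.rpow_lt_top_of_nonneg (by norm_num) hen.ne

theorem ae_lintegral_mul_upperSpeed_lt_top'
    (hP : IsTestPlan2 m P) (hb : HasBoundedTracks P) {D : X → ℝ} (hD : IsL2OnBalls m D) :
    ∀ᵐ γ ∂P, (∫⁻ t in Icc (0:ℝ) 1, ENNReal.ofReal (D (γ.ext t)) * upperSpeed γ t) < ⊤ := by
  have hfin := lintegral_mul_upperSpeed_lt_top' hP hb hD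
  obtain ⟨hprob, ⟨C, hC⟩, hsp, hen⟩ := hP
  obtain ⟨o, R, hR⟩ := hb
  have hDm := aemeasurable_closedBall hD o R
  have hae : ∀ᵐ γ ∂P, (∫⁻ t in Icc (0:ℝ) 1, ENNReal.ofReal (D (γ.ext t)) * upperSpeed γ t) =
      ∫⁻ t in Icc (0:ℝ) 1, ENNReal.ofReal (hDm.mk D (γ.ext t)) * upperSpeed γ t := by
    filter_upwards [ae_ae_ext_of_ae_ball hC hR hDm.ae_eq_mk] with γ hγ
    apply lintegral_congr_ae
    filter_upwards [hγ] with t ht
    rw [ht]
  have hmeas : Measurable (fun γ : UCurve X =>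
      ∫⁻ t in Icc (0:ℝ) 1, ENNReal.ofReal (hDm.mk D (γ.ext t)) * upperSpeed γ t) := by
    have h1 : Measurable (fun p : UCurve X × ℝ =>
        ENNReal.ofReal (hDm.mk D (p.1.ext p.2)) * upperSpeed p.1 p.2) :=
      ((hDm.measurable_mk.comp measurable_evalExt').ennreal_ofReal).mul measurable_upperSpeed
    exact h1.lintegral_prod_right'
  rw [lintegral_congr_ae hae] at hfin
  filter_upwards [hae, ae_lt_top hmeas hfin.ne] with γ h1 h2
  rw [h1]; exact h2


theorem measurable_evalExt [SecondCountableTopology X] :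
    Measurable (fun p : UCurve X × ℝ => p.1.ext p.2) := measurable_evalExt'

theorem ae_ae_ext_of_ae [SecondCountableTopology X] [SFinite P] {C : ℝ≥0}
    (hC : ∀ t : unitInterval, timeMarginal P t ≤ (C : ℝ≥0∞) • m)
    {p : X → Prop} (h : ∀ᵐ x ∂m, p x) :
    ∀ᵐ γ ∂P, ∀ᵐ t ∂(volume.restrict (Icc (0:ℝ) 1)), p (γ.ext t) := ae_ae_ext_of_ae' hC h


theorem lintegral_lintegral_ext_le_ball [SecondCountableTopology X] [SFinite P] {C : ℝ≥0}
    (hC : ∀ t : unitInterval, timeMarginal P t ≤ (C : ℝ≥0∞) • m) {o : X} {R : ℝ}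
    (hR : ∀ᵐ γ ∂P, ∀ t : unitInterval, γ.toMap t ∈ Metric.closedBall o R)
    {g : X → ℝ≥0∞} (hg : AEMeasurable g (m.restrict (Metric.closedBall o R))) :
    ∫⁻ γ, (∫⁻ t in Icc (0:ℝ) 1, g (γ.ext t)) ∂P ≤
      C * ∫⁻ x in Metric.closedBall o R, g x ∂m :=
  lintegral_lintegral_ext_le_ball' hC hR hg

/-- Cauchy-Schwarz for the right-hand side of the weak upper gradient inequality. -/
theorem lintegral_mul_upperSpeed_le [SecondCountableTopology X] [SFinite P] {C : ℝ≥0}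
    (hC : ∀ t : unitInterval, timeMarginal P t ≤ (C : ℝ≥0∞) • m) {o : X} {R : ℝ}
    (hR : ∀ᵐ γ ∂P, ∀ t : unitInterval, γ.toMap t ∈ Metric.closedBall o R)
    {g : X → ℝ≥0∞} (hg : AEMeasurable g (m.restrict (Metric.closedBall o R))) :
    (∫⁻ γ, (∫⁻ t in Icc (0:ℝ) 1, g (γ.ext t) * upperSpeed γ t) ∂P) ≤
      (C * ∫⁻ x in Metric.closedBall o R, g x ^ 2 ∂m) ^ (1 / 2 : ℝ) *
        (∫⁻ γ, (∫⁻ t in Icc (0:ℝ) 1, upperSpeed γ t ^ 2) ∂P) ^ (1 / 2 : ℝ) :=
  lintegral_mul_upperSpeed_le' hC hR hg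


/-- almost every curve: `∫_0^1 D(γ_t) |γ'_t| dt < ∞`. -/
theorem ae_lintegral_mul_upperSpeed_lt_top [SecondCountableTopology X]
    (hP : IsTestPlan2 m P) (hb : HasBoundedTracks P) {D : X → ℝ} (hD : IsL2OnBalls m D) :
    ∀ᵐ γ ∂P, (∫⁻ t in Icc (0:ℝ) 1, ENNReal.ofReal (D (γ.ext t)) * upperSpeed γ t) < ⊤ :=
  ae_lintegral_mul_upperSpeed_lt_top' hP hb hD

end Plans

end Crest.Agent.R242
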