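import Mathlib
import Crest.Prelude.Def_SyntheticRicci
import Crest.Agent.R242.Defs
import Crest.Agent.R242.Curve

-- ▼ part R242/SDefs
section

/-!
Row 242, part S: definitions for the Sobolev calculus (shared by all parts).
-/

set_option autoImplicit false

open MeasureTheory Filter Set
open Crest.GeometryTopology.SyntheticRicci
open scoped ENNReal NNReal Topology

namespace Crest.Agent.R242

section Defs

variable {X : Type*} [MetricSpace X] [MeasurableSpace X]

/-- `f` has, along the curve `γ`, an absolutely continuous representative with the same end values,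
whose derivative is bounded almost everywhere by `D (γ t)` times the metric speed. -/
def CurveUG (f D : X → ℝ) (γ : UCurve X) : Prop :=
  ∃ u : ℝ → ℝ, AbsolutelyContinuousOnInterval u 0 1 ∧
    u 0 = f (γ.toMap 0) ∧ u 1 = f (γ.toMap 1) ∧
    (∀ᵐ t ∂(volume.restrict (Icc (0 : ℝ) 1)), u t = f (γ.ext t)) ∧
    (∀ᵐ t ∂(volume.restrict (Icc (0 : ℝ) 1)),
      ENNReal.ofReal |deriv u t| ≤ ENNReal.ofReal (D (γ.ext t)) * upperSpeed γ t)

/-- Lipschitz on every ball. -/
def LipOnBalls (f : X → ℝ) : Prop :=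
  ∀ (o : X) (R : ℝ), ∃ L : ℝ≥0, LipschitzOnWith L f (Metric.ball o R)

end Defs

end Crest.Agent.R242
end

-- ▼ part R242/SobAC
section

/-!
Row 242, part S: absolutely continuous functions of one real variable.
-/

set_option autoImplicit false

open MeasureTheory Filter Set
open scoped ENNReal NNReal Topology

namespace Crest.Agent.R242

theorem AC_of_dist_le {u v : ℝ → ℝ} {a b : ℝ} (C : ℝ) (hv : AbsolutelyContinuousOnInterval v a b)
    (h : ∀ s ∈ uIcc a b, ∀ t ∈ uIcc a b, |u s - u t| ≤ C * |v s - v t|) :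
    AbsolutelyContinuousOnInterval u a b := by
  have h0 := hv.const_mul C
  have hC := h0
  unfold AbsolutelyContinuousOnInterval at h0 ⊢
  refine squeeze_zero' ?_ ?_ h0
  · filter_upwards with E
    exact Finset.sum_nonneg (fun _ _ => dist_nonneg)
  · have hE : ∀ᶠ E in AbsolutelyContinuousOnInterval.totalLengthFilter ⊓
        𝓟 (AbsolutelyContinuousOnInterval.disjWithin a b),
        E ∈ AbsolutelyContinuousOnInterval.disjWithin a b :=
      eventually_inf_principal.mpr (by simp)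
    filter_upwards [hE] with E hE
    refine Finset.sum_le_sum fun i hi => ?_
    obtain ⟨h1, h2⟩ := hE.1 i hi
    rw [Real.dist_eq, Real.dist_eq, ← mul_sub, abs_mul]
    exact (h _ h1 _ h2).trans (mul_le_mul_of_nonneg_right (le_abs_self C) (abs_nonneg _))

theorem AC_comp_lipschitz {u : ℝ → ℝ} {a b : ℝ} (hu : AbsolutelyContinuousOnInterval u a b)
    {φ : ℝ → ℝ} {L : ℝ≥0} (hφ : LipschitzWith L φ) :
    AbsolutelyContinuousOnInterval (fun t => φ (u t)) a b := by
  refine AC_of_dist_le (L : ℝ) hu fun s _ t _ => ?_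
  have := hφ.dist_le_mul (u s) (u t)
  simpa [Real.dist_eq] using this



theorem AC_ae_differentiableAt {u : ℝ → ℝ} (hu : AbsolutelyContinuousOnInterval u 0 1) :
    ∀ᵐ t ∂(volume.restrict (Icc (0 : ℝ) 1)), DifferentiableAt ℝ u t := by
  rw [ae_restrict_iff' measurableSet_Icc]
  have := hu.ae_differentiableAt
  rwa [uIcc_of_le zero_le_one] at this

theorem AC_ofReal_abs_sub_le {u : ℝ → ℝ} (hu : AbsolutelyContinuousOnInterval u 0 1) {a b : ℝ}
    (ha : 0 ≤ a) (hab : a ≤ b) (hb : b ≤ 1) :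
    ENNReal.ofReal |u b - u a| ≤ ∫⁻ t in Icc a b, ENNReal.ofReal |deriv u t| := by
  have hsub : uIcc a b ⊆ uIcc (0 : ℝ) 1 := by
    rw [uIcc_of_le hab, uIcc_of_le zero_le_one]
    exact Icc_subset_Icc ha hb
  have hu' := hu.mono hsub
  have h1 := hu'.integral_deriv_eq_sub
  rw [← h1]
  rw [intervalIntegral.integral_of_le hab]
  have h2 : ENNReal.ofReal |∫ t in Ioc a b, deriv u t| = ‖∫ t in Ioc a b, deriv u t‖ₑ := by
    rw [← Real.norm_eq_abs, ofReal_norm]
  rw [h2]
  refine (enorm_integral_le_lintegral_enorm _).trans ?_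
  rw [setLIntegral_congr (Ioc_ae_eq_Icc (μ := (volume : Measure ℝ)))]
  refine lintegral_mono fun t => ?_
  rw [← Real.norm_eq_abs, ofReal_norm]

/-- Extension of a function given on a subset of `[0,1]` whose increments are bounded by an
integral. -/
theorem exists_AC_of_lintegral_bound {ρ : ℝ → ℝ≥0∞}
    (hρm : AEMeasurable ρ (volume.restrict (Icc (0 : ℝ) 1)))
    (hρ : ∫⁻ t in Icc (0 : ℝ) 1, ρ t ≠ ⊤) {S : Set ℝ} (hS : S ⊆ Icc 0 1) {g : ℝ → ℝ}
    (hg : ∀ s ∈ S, ∀ t ∈ S, s ≤ t → ENNReal.ofReal |g t - g s| ≤ ∫⁻ r in Icc s t, ρ r) :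
    ∃ u : ℝ → ℝ, AbsolutelyContinuousOnInterval u 0 1 ∧ (∀ s ∈ S, u s = g s) ∧
      (∀ᵐ t ∂(volume.restrict (Icc (0 : ℝ) 1)), ENNReal.ofReal |deriv u t| ≤ ρ t) := by
  classical
  set r : ℝ → ℝ := fun t => (ρ t).toReal with hr
  have hfin : ∀ᵐ t ∂(volume.restrict (Icc (0 : ℝ) 1)), ρ t < ⊤ := ae_lt_top' hρm hρ
  have hrint : IntegrableOn r (Icc 0 1) := integrable_toReal_of_lintegral_ne_top hρm hρ
  have hrii : IntervalIntegrable r volume 0 1 := by
    rw [intervalIntegrable_iff_integrableOn_Icc_of_le zero_le_one]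
    exact hrint
  set G : ℝ → ℝ := fun x => ∫ v in (0 : ℝ)..x, r v with hG
  have hGAC : AbsolutelyContinuousOnInterval G 0 1 :=
    hrii.absolutelyContinuousOnInterval_intervalIntegral (by simp)
  have hsubint : ∀ s t : ℝ, 0 ≤ s → s ≤ t → t ≤ 1 → IntervalIntegrable r volume s t := by
    intro s t hs hst ht
    rw [intervalIntegrable_iff_integrableOn_Icc_of_le hst]
    exact hrint.mono_set (Icc_subset_Icc hs ht)
  have hGdiff : ∀ s t : ℝ, 0 ≤ s → s ≤ t → t ≤ 1 →
      ENNReal.ofReal (G t - G s) = ∫⁻ r in Icc s t, ρ r := by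
    intro s t hs hst ht
    have h1 : G t - G s = ∫ v in s..t, r v := by
      rw [hG]
      exact intervalIntegral.integral_interval_sub_left (hsubint 0 t le_rfl (hs.trans hst) ht)
        (hsubint 0 s le_rfl hs (hst.trans ht))
    rw [h1, intervalIntegral.integral_of_le hst, ← integral_Icc_eq_integral_Ioc]
    have hsub : Icc s t ⊆ Icc (0 : ℝ) 1 := Icc_subset_Icc hs ht
    rw [hr]
    have hfin' : ∀ᵐ t ∂(volume.restrict (Icc s t)), ρ t < ⊤ :=
      ae_restrict_of_ae_restrict_of_subset hsub hfin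
    rw [integral_toReal (hρm.mono_set hsub) hfin', ENNReal.ofReal_toReal]
    exact ((lintegral_mono_set hsub).trans_lt (lt_top_iff_ne_top.mpr hρ)).ne
  have hGmono : ∀ s t : ℝ, 0 ≤ s → s ≤ t → t ≤ 1 → 0 ≤ G t - G s := by
    intro s t hs hst ht
    have h1 : G t - G s = ∫ v in s..t, r v := by
      rw [hG]
      exact intervalIntegral.integral_interval_sub_left (hsubint 0 t le_rfl (hs.trans hst) ht)
        (hsubint 0 s le_rfl hs (hst.trans ht))
    rw [h1]
    exact intervalIntegral.integral_nonneg hst (fun _ _ => ENNReal.toReal_nonneg)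
  -- increments of g in terms of G
  have hgG : ∀ s ∈ S, ∀ t ∈ S, |g t - g s| ≤ |G t - G s| := by
    have key : ∀ s ∈ S, ∀ t ∈ S, s ≤ t → |g t - g s| ≤ |G t - G s| := by
      intro s hs t ht hst
      have h1 := hg s hs t ht hst
      rw [← hGdiff s t (hS hs).1 hst (hS ht).2] at h1
      have h2 := hGmono s t (hS hs).1 hst (hS ht).2
      rw [ENNReal.ofReal_le_ofReal_iff h2] at h1
      rwa [abs_of_nonneg h2]
    intro s hs t ht
    rcases le_total s t with h | h
    · exact key s hs t ht h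
    · rw [abs_sub_comm, abs_sub_comm (G t)]
      exact key t ht s hs h
  -- transport to a Lipschitz function of G
  let sec : ℝ → ℝ := fun y => if h : ∃ s ∈ S, G s = y then Classical.choose h else 0
  have hsec : ∀ y ∈ G '' S, sec y ∈ S ∧ G (sec y) = y := by
    rintro y ⟨s, hs, rfl⟩
    have h : ∃ s' ∈ S, G s' = G s := ⟨s, hs, rfl⟩
    simp only [sec, dif_pos h]
    exact Classical.choose_spec h
  have hLip : LipschitzOnWith 1 (fun y => g (sec y)) (G '' S) := by
    refine LipschitzOnWith.of_dist_le_mul fun x hx y hy => ?_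
    have h1 := hgG _ (hsec y hy).1 _ (hsec x hx).1
    rw [(hsec x hx).2, (hsec y hy).2] at h1
    simpa [Real.dist_eq] using h1
  obtain ⟨k, hk, hkeq⟩ := hLip.extend_real
  refine ⟨fun t => k (G t), AC_comp_lipschitz hGAC hk, ?_, ?_⟩
  · intro s hs
    have h1 : G s ∈ G '' S := ⟨s, hs, rfl⟩
    have h2 : k (G s) = g (sec (G s)) := (hkeq h1).symm
    have h3 := hgG _ (hsec _ h1).1 _ hs
    rw [(hsec _ h1).2, sub_self, abs_zero] at h3
    have h4 : g s - g (sec (G s)) = 0 := abs_eq_zero.mp (le_antisymm h3 (abs_nonneg _))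
    simp only
    rw [h2]
    linarith
  · have hLDT := hrii.ae_hasDerivAt_integral
    rw [uIcc_of_le zero_le_one] at hLDT
    have hLDT' : ∀ᵐ t ∂(volume.restrict (Icc (0 : ℝ) 1)), HasDerivAt G (r t) t := by
      rw [ae_restrict_iff' measurableSet_Icc]
      filter_upwards [hLDT] with t ht htm
      exact ht htm 0 (by simp)
    have hdiff := AC_ae_differentiableAt (AC_comp_lipschitz hGAC hk)
    filter_upwards [hLDT', hdiff, hfin] with t ht hd htop
    have hslope1 := hasDerivAt_iff_tendsto_slope.mp hd.hasDerivAt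
    have hslope2 := hasDerivAt_iff_tendsto_slope.mp ht
    have hle : |deriv (fun t => k (G t)) t| ≤ |r t| := by
      refine le_of_tendsto_of_tendsto hslope1.abs hslope2.abs ?_
      filter_upwards [self_mem_nhdsWithin] with y hy
      simp only [slope, vsub_eq_sub, smul_eq_mul, abs_mul]
      refine mul_le_mul_of_nonneg_left ?_ (abs_nonneg _)
      have := hk.dist_le_mul (G y) (G t)
      simpa [Real.dist_eq] using this
    calc ENNReal.ofReal |deriv (fun t => k (G t)) t| ≤ ENNReal.ofReal |r t| :=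
          ENNReal.ofReal_le_ofReal hle
      _ = ρ t := by
          rw [hr, abs_of_nonneg ENNReal.toReal_nonneg, ENNReal.ofReal_toReal htop.ne]




/-- two a.e. equal absolutely continuous functions on `[0,1]` agree, with their derivatives -/
theorem AC_eqOn_of_ae_eq {u v : ℝ → ℝ} (hu : AbsolutelyContinuousOnInterval u 0 1)
    (hv : AbsolutelyContinuousOnInterval v 0 1)
    (h : ∀ᵐ t ∂(volume.restrict (Icc (0 : ℝ) 1)), u t = v t) :
    EqOn u v (Icc 0 1) ∧
      ∀ᵐ t ∂(volume.restrict (Icc (0 : ℝ) 1)), deriv u t = deriv v t := by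
  have hcu : ContinuousOn u (Icc 0 1) := by
    have := hu.continuousOn
    rwa [uIcc_of_le zero_le_one] at this
  have hcv : ContinuousOn v (Icc 0 1) := by
    have := hv.continuousOn
    rwa [uIcc_of_le zero_le_one] at this
  have heq : EqOn u v (Icc 0 1) :=
    MeasureTheory.Measure.eqOn_Icc_of_ae_eq volume zero_ne_one h hcu hcv
  refine ⟨heq, ?_⟩
  have h01 : ∀ᵐ t ∂(volume.restrict (Icc (0 : ℝ) 1)), t ∈ Ioo (0 : ℝ) 1 := by
    rw [← restrict_Ioo_eq_restrict_Icc]
    exact ae_restrict_mem measurableSet_Ioo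
  filter_upwards [h01] with t ht
  have : u =ᶠ[𝓝 t] v := by
    filter_upwards [Icc_mem_nhds ht.1 ht.2] with y hy
    exact heq hy
  exact this.deriv_eq

end Crest.Agent.R242
end

-- ▼ part R242/SobRep
section

/-!
Row 242, part S: construction of the absolutely continuous representative along almost every curve.
-/

set_option autoImplicit false

open MeasureTheory Filter Set
open Crest.GeometryTopology.SyntheticRicci
open scoped ENNReal NNReal Topology

namespace Crest.Agent.R242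

section Rep

variable {X : Type*} [MetricSpace X] [SecondCountableTopology X] [MeasurableSpace X] [BorelSpace X]

theorem lintegral_Icc_add_Icc (ρ : ℝ → ℝ≥0∞) {a p b : ℝ} (h1 : a ≤ p) (h2 : p ≤ b) :
    ∫⁻ r in Icc a b, ρ r = (∫⁻ r in Icc a p, ρ r) + ∫⁻ r in Icc p b, ρ r := by
  rw [← setLIntegral_congr (Ioc_ae_eq_Icc (a := a) (b := b) (μ := (volume : Measure ℝ))),
    ← setLIntegral_congr (Ioc_ae_eq_Icc (a := a) (b := p) (μ := (volume : Measure ℝ))),
    ← setLIntegral_congr (Ioc_ae_eq_Icc (a := p) (b := b) (μ := (volume : Measure ℝ))),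
    ← Ioc_union_Ioc_eq_Ioc h1 h2, lintegral_union measurableSet_Ioc]
  exact Ioc_disjoint_Ioc_of_le le_rfl

theorem measurable_lintegral_uIcc {G : UCurve X × ℝ → ℝ≥0∞} (hG : Measurable G) (p : ℝ) :
    Measurable (fun q : UCurve X × ℝ => ∫⁻ r in uIcc p q.2, G (q.1, r)) := by
  have h : (fun q : UCurve X × ℝ => ∫⁻ r in uIcc p q.2, G (q.1, r)) =
      fun q => ∫⁻ r, (fun z : (UCurve X × ℝ) × ℝ =>
        ({z : (UCurve X × ℝ) × ℝ | z.2 ∈ uIcc p z.1.2}).indicator
          (fun z => G (z.1.1, z.2)) z) (q, r) := by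
    ext q
    rw [← lintegral_indicator measurableSet_uIcc]
    rfl
  rw [h]
  apply Measurable.lintegral_prod_right'
  apply Measurable.indicator
  · exact hG.comp ((measurable_fst.comp measurable_fst).prodMk measurable_snd)
  · have h2 : {z : (UCurve X × ℝ) × ℝ | z.2 ∈ uIcc p z.1.2} =
        {z | min p z.1.2 ≤ z.2} ∩ {z | z.2 ≤ max p z.1.2} := by
      ext z; simp [uIcc, mem_Icc]
    rw [h2]
    apply MeasurableSet.inter
    · exact measurableSet_le (by fun_prop) (by fun_prop)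
    · exact measurableSet_le (by fun_prop) (by fun_prop)

/-- main lemma: absolutely continuous representative along almost every curve -/
theorem ae_exists_AC_rep {ι : Type*} [Countable ι] [Nonempty ι] {P : Measure (UCurve X)}
    [IsFiniteMeasure P] {f : X → ℝ} (hf : Measurable f) {G : ι → UCurve X × ℝ → ℝ≥0∞}
    (hG : ∀ i, Measurable (G i))
    (hfin : ∀ i, ∀ᵐ γ ∂P, ∫⁻ r in Icc (0 : ℝ) 1, G i (γ, r) < ⊤)
    (hb : ∀ i, ∀ s t : ℝ, 0 ≤ s → s ≤ t → t ≤ 1 →
      ∀ᵐ γ ∂P, ENNReal.ofReal |f (γ.ext t) - f (γ.ext s)| ≤ ∫⁻ r in Icc s t, G i (γ, r)) :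
    ∀ᵐ γ ∂P, ∃ u : ℝ → ℝ, AbsolutelyContinuousOnInterval u 0 1 ∧
      u 0 = f (γ.toMap 0) ∧ u 1 = f (γ.toMap 1) ∧
      (∀ᵐ t ∂(volume.restrict (Icc (0 : ℝ) 1)), u t = f (γ.ext t)) ∧
      ∀ i, ∀ᵐ t ∂(volume.restrict (Icc (0 : ℝ) 1)), ENNReal.ofReal |deriv u t| ≤ G i (γ, t) := by
  classical
  set T : Set ℝ := {p | p ∈ range ((↑) : ℚ → ℝ) ∧ 0 ≤ p ∧ p ≤ 1} with hT
  have hTc : T.Countable := (countable_range _).mono (fun p hp => hp.1)
  have hT0 : (0 : ℝ) ∈ T := ⟨⟨0, by simp⟩, le_rfl, zero_le_one⟩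
  have hT1 : (1 : ℝ) ∈ T := ⟨⟨1, by simp⟩, zero_le_one, le_rfl⟩
  have hb' : ∀ i, ∀ s t : ℝ, s ∈ Icc (0 : ℝ) 1 → t ∈ Icc (0 : ℝ) 1 →
      ∀ᵐ γ ∂P, ENNReal.ofReal |f (γ.ext t) - f (γ.ext s)| ≤ ∫⁻ r in uIcc s t, G i (γ, r) := by
    intro i s t hs ht
    rcases le_total s t with h | h
    · rw [uIcc_of_le h]
      exact hb i s t hs.1 h ht.2
    · rw [uIcc_of_ge h]
      filter_upwards [hb i t s ht.1 h hs.2] with γ hγ
      rwa [abs_sub_comm] at hγ
  -- pairs in T
  have h1 : ∀ᵐ γ ∂P, ∀ i, ∀ p ∈ T, ∀ q ∈ T,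
      ENNReal.ofReal |f (γ.ext q) - f (γ.ext p)| ≤ ∫⁻ r in uIcc p q, G i (γ, r) := by
    rw [ae_all_iff]; intro i
    rw [ae_ball_iff hTc]; intro p hp
    rw [ae_ball_iff hTc]; intro q hq
    exact hb' i p q hp.2 hq.2
  -- one time in T, the other arbitrary
  have h2 : ∀ᵐ γ ∂P, ∀ᵐ t ∂(volume.restrict (Icc (0 : ℝ) 1)), ∀ i, ∀ p ∈ T,
      ENNReal.ofReal |f (γ.ext t) - f (γ.ext p)| ≤ ∫⁻ r in uIcc p t, G i (γ, r) := by
    have h3 : ∀ i, ∀ p ∈ T, ∀ᵐ γ ∂P, ∀ᵐ t ∂(volume.restrict (Icc (0 : ℝ) 1)),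
        ENNReal.ofReal |f (γ.ext t) - f (γ.ext p)| ≤ ∫⁻ r in uIcc p t, G i (γ, r) := by
      intro i p hp
      rw [Measure.ae_ae_comm]
      · filter_upwards [ae_restrict_mem measurableSet_Icc] with t ht
        exact hb' i p t hp.2 ht
      · apply measurableSet_le
        · apply ENNReal.measurable_ofReal.comp
          have hm1 : Measurable (fun x : UCurve X × ℝ => f (x.1.ext x.2)) :=
            hf.comp measurable_evalExt
          have hm2 : Measurable (fun x : UCurve X × ℝ => f (x.1.ext p)) := by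
            have : Measurable (fun x : UCurve X × ℝ => (x.1, p)) :=
              measurable_fst.prodMk measurable_const
            exact hf.comp (measurable_evalExt.comp this)
          exact (hm1.sub hm2).abs
        · exact measurable_lintegral_uIcc (hG i) p
    have h4 : ∀ᵐ γ ∂P, ∀ i, ∀ p ∈ T, ∀ᵐ t ∂(volume.restrict (Icc (0 : ℝ) 1)),
        ENNReal.ofReal |f (γ.ext t) - f (γ.ext p)| ≤ ∫⁻ r in uIcc p t, G i (γ, r) := by
      rw [ae_all_iff]; intro i
      rw [ae_ball_iff hTc]; intro p hp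
      exact h3 i p hp
    filter_upwards [h4] with γ hγ
    rw [ae_all_iff]; intro i
    rw [ae_ball_iff hTc]; intro p hp
    exact hγ i p hp
  have h5 : ∀ᵐ γ ∂P, ∀ i, ∫⁻ r in Icc (0 : ℝ) 1, G i (γ, r) < ⊤ := ae_all_iff.mpr hfin
  filter_upwards [h1, h2, h5] with γ hγ1 hγ2 hγ3
  -- good times
  set S : Set ℝ := {t | t ∈ Icc (0 : ℝ) 1 ∧ ∀ i, ∀ p ∈ T,
    ENNReal.ofReal |f (γ.ext t) - f (γ.ext p)| ≤ ∫⁻ r in uIcc p t, G i (γ, r)} with hS
  have hSsub : S ⊆ Icc 0 1 := fun t ht => ht.1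
  have hTS : T ⊆ S := by
    intro t ht
    refine ⟨ht.2, fun i p hp => hγ1 i p hp t ht⟩
  have hSae : ∀ᵐ t ∂(volume.restrict (Icc (0 : ℝ) 1)), t ∈ S := by
    filter_upwards [hγ2, ae_restrict_mem measurableSet_Icc] with t ht htI
    exact ⟨htI, ht⟩
  have hinc : ∀ i, ∀ s ∈ S, ∀ t ∈ S, s ≤ t →
      ENNReal.ofReal |f (γ.ext t) - f (γ.ext s)| ≤ ∫⁻ r in Icc s t, G i (γ, r) := by
    intro i s hs t ht hst
    rcases eq_or_lt_of_le hst with h | h
    · subst h; simp
    obtain ⟨q, hq1, hq2⟩ := exists_rat_btwn h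
    have hqT : (q : ℝ) ∈ T := ⟨⟨q, rfl⟩, hs.1.1.trans hq1.le, hq2.le.trans ht.1.2⟩
    have e1 := hs.2 i q hqT
    have e2 := ht.2 i q hqT
    rw [uIcc_of_ge hq1.le] at e1
    rw [uIcc_of_le hq2.le] at e2
    rw [lintegral_Icc_add_Icc _ hq1.le hq2.le]
    calc ENNReal.ofReal |f (γ.ext t) - f (γ.ext s)|
        ≤ ENNReal.ofReal (|f (γ.ext s) - f (γ.ext q)| + |f (γ.ext t) - f (γ.ext q)|) := by
          apply ENNReal.ofReal_le_ofReal
          have : f (γ.ext t) - f (γ.ext s) =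
              (f (γ.ext t) - f (γ.ext q)) - (f (γ.ext s) - f (γ.ext q)) := by ring
          rw [this]
          exact (abs_sub _ _).trans (by rw [add_comm])
      _ = ENNReal.ofReal |f (γ.ext s) - f (γ.ext q)| +
          ENNReal.ofReal |f (γ.ext t) - f (γ.ext q)| :=
          ENNReal.ofReal_add (abs_nonneg _) (abs_nonneg _)
      _ ≤ _ := add_le_add e1 e2
  have hex : ∀ i, ∃ u : ℝ → ℝ, AbsolutelyContinuousOnInterval u 0 1 ∧
      (∀ s ∈ S, u s = f (γ.ext s)) ∧
      (∀ᵐ t ∂(volume.restrict (Icc (0 : ℝ) 1)), ENNReal.ofReal |deriv u t| ≤ G i (γ, t)) := by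
    intro i
    have hm : Measurable (fun t : ℝ => G i (γ, t)) := (hG i).comp measurable_prodMk_left
    exact exists_AC_of_lintegral_bound hm.aemeasurable (hγ3 i).ne hSsub
      (g := fun t => f (γ.ext t)) (hinc i)
  choose u hu1 hu2 hu3 using hex
  obtain ⟨i₀⟩ := (inferInstance : Nonempty ι)
  refine ⟨u i₀, hu1 i₀, ?_, ?_, ?_, fun i => ?_⟩
  · rw [hu2 i₀ 0 (hTS hT0), ext_zero]
  · rw [hu2 i₀ 1 (hTS hT1), ext_one]
  · filter_upwards [hSae] with t ht
    exact hu2 i₀ t ht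
  · have heq : ∀ᵐ t ∂(volume.restrict (Icc (0 : ℝ) 1)), u i₀ t = u i t := by
      filter_upwards [hSae] with t ht
      rw [hu2 i₀ t ht, hu2 i t ht]
    obtain ⟨_, hd⟩ := AC_eqOn_of_ae_eq (hu1 i₀) (hu1 i) heq
    filter_upwards [hd, hu3 i] with t ht1 ht2
    rw [ht1]; exact ht2

end Rep

end Crest.Agent.R242
end

-- ▼ part R242/SobBase
section

/-!
Row 242, part S: S1 (curvewise characterisation), S2 (minimal weak upper gradients exist),
S9 (no bounded tracks), S10 (weak upper gradients from a quadratic inequality).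
-/

set_option autoImplicit false

open MeasureTheory Filter Set
open Crest.GeometryTopology.SyntheticRicci
open scoped ENNReal NNReal Topology

namespace Crest.Agent.R242

section Basic

variable {X : Type*} [MetricSpace X] [MeasurableSpace X] [BorelSpace X] {m : Measure X}

theorem aestronglyMeasurable_of_forall_ball {f : X → ℝ}
    (hf : ∀ (o : X) (R : ℝ), AEStronglyMeasurable f (m.restrict (Metric.ball o R))) :
    AEStronglyMeasurable f m := by
  rcases isEmpty_or_nonempty X with hX | ⟨⟨o⟩⟩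
  · have : m = 0 := Measure.eq_zero_of_isEmpty m
    rw [this]
    exact aestronglyMeasurable_zero_measure f
  · have h1 : (⋃ n : ℕ, Metric.ball o (n : ℝ)) = univ := Metric.iUnion_ball_nat o
    rw [← Measure.restrict_univ (μ := m), ← h1]
    rw [aestronglyMeasurable_iUnion_iff]
    intro n
    exact hf o n

theorem isL2OnBalls_aestronglyMeasurable {f : X → ℝ} (hf : IsL2OnBalls m f) :
    AEStronglyMeasurable f m :=
  aestronglyMeasurable_of_forall_ball fun o R => (hf o R).1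

theorem sigmaFinite_of_isFiniteOnBalls (hfin : IsFiniteOnBalls m) : SigmaFinite m := by
  rcases isEmpty_or_nonempty X with hX | ⟨⟨o⟩⟩
  · have : m = 0 := Measure.eq_zero_of_isEmpty m
    rw [this]
    infer_instance
  · refine ⟨⟨⟨fun n => Metric.ball o n, fun _ => trivial, fun n => hfin o n,
      Metric.iUnion_ball_nat o⟩⟩⟩

theorem isL2OnBalls_congr {f g : X → ℝ} (h : f =ᵐ[m] g) (hf : IsL2OnBalls m f) :
    IsL2OnBalls m g :=
  fun o R => (memLp_congr_ae (ae_restrict_of_ae h)).1 (hf o R)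

end Basic

section Main

variable {X : Type*} [MetricSpace X] [SecondCountableTopology X] [MeasurableSpace X] [BorelSpace X]
variable {m : Measure X}

theorem IsWUGLoc.congr {f g D D' : X → ℝ} (hfg : f =ᵐ[m] g) (hD : D =ᵐ[m] D')
    (h : IsWUGLoc m f D) : IsWUGLoc m g D' := by
  obtain ⟨h1, h2, h3⟩ := h
  refine ⟨isL2OnBalls_congr hD h1, ?_, ?_⟩
  · filter_upwards [h2, hD] with x hx1 hx2
    rwa [← hx2]
  · intro P hP hb
    obtain ⟨hprob, ⟨C, hC⟩, hL2, hE⟩ := hP
    have e0 := ae_toMap_of_ae hC hfg 0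
    have e1 := ae_toMap_of_ae hC hfg 1
    have e2 := ae_ae_ext_of_ae hC hD
    have h4 := h3 P ⟨hprob, ⟨C, hC⟩, hL2, hE⟩ hb
    calc (∫⁻ γ, ENNReal.ofReal |g (γ.toMap 1) - g (γ.toMap 0)| ∂P)
        = ∫⁻ γ, ENNReal.ofReal |f (γ.toMap 1) - f (γ.toMap 0)| ∂P := by
          apply lintegral_congr_ae
          filter_upwards [e0, e1] with γ h0 h1
          rw [h0, h1]
      _ ≤ _ := h4
      _ = _ := by
          apply lintegral_congr_ae
          filter_upwards [e2] with γ h2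
          apply lintegral_congr_ae
          filter_upwards [h2] with t ht
          rw [ht]

theorem ae_curveUG_congr {f g D D' : X → ℝ} (hfg : f =ᵐ[m] g) (hD : D =ᵐ[m] D')
    {P : Measure (UCurve X)} (hP : IsTestPlan2 m P) (h : ∀ᵐ γ ∂P, CurveUG f D γ) :
    ∀ᵐ γ ∂P, CurveUG g D' γ := by
  obtain ⟨hprob, ⟨C, hC⟩, hL2, hE⟩ := hP
  have e0 := ae_toMap_of_ae hC hfg 0
  have e1 := ae_toMap_of_ae hC hfg 1
  have e2 := ae_ae_ext_of_ae hC hD
  have e3 := ae_ae_ext_of_ae hC hfg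
  filter_upwards [h, e0, e1, e2, e3] with γ hγ h0 h1 h2 h3
  obtain ⟨u, hu, hu0, hu1, hu2, hu3⟩ := hγ
  refine ⟨u, hu, ?_, ?_, ?_, ?_⟩
  · rw [hu0, h0]
  · rw [hu1, h1]
  · filter_upwards [hu2, h3] with t ht1 ht2
    rw [ht1, ht2]
  · filter_upwards [hu3, h2] with t ht1 ht2
    rwa [← ht2]

theorem exists_measurable_rep {f : X → ℝ} (hf : AEStronglyMeasurable f m) :
    ∃ g : X → ℝ, Measurable g ∧ f =ᵐ[m] g :=
  ⟨hf.mk f, hf.stronglyMeasurable_mk.measurable, hf.ae_eq_mk⟩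

/-- increments of `f` along almost every curve, between two fixed times. -/
theorem ae_increment_le {f D : X → ℝ} (hf : Measurable f) (hD : Measurable D)
    (h : IsWUGLoc m f D) {P : Measure (UCurve X)} (hP : IsTestPlan2 m P)
    (hb : HasBoundedTracks P) {a b : ℝ} (ha : 0 ≤ a) (hab : a ≤ b) (hb1 : b ≤ 1) :
    ∀ᵐ γ ∂P, ENNReal.ofReal |f (γ.ext b) - f (γ.ext a)| ≤
      ∫⁻ r in Icc a b, ENNReal.ofReal (D (γ.ext r)) * upperSpeed γ r := by
  have : IsProbabilityMeasure P := hP.1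
  have haI : a ∈ Icc (0 : ℝ) 1 := ⟨ha, hab.trans hb1⟩
  have hbI : b ∈ Icc (0 : ℝ) 1 := ⟨ha.trans hab, hb1⟩
  have hmeas1 : Measurable (fun γ : UCurve X => ENNReal.ofReal |f (γ.ext b) - f (γ.ext a)|) := by
    have hmb : Measurable (fun γ : UCurve X => γ.ext b) :=
      measurable_evalExt.comp (measurable_id.prodMk measurable_const)
    have hma : Measurable (fun γ : UCurve X => γ.ext a) :=
      measurable_evalExt.comp (measurable_id.prodMk measurable_const)
    exact ENNReal.measurable_ofReal.comp ((hf.comp hmb).sub (hf.comp hma)).abs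
  have hmeas2 : Measurable (fun γ : UCurve X =>
      ∫⁻ r in Icc (0 : ℝ) 1, ENNReal.ofReal (D (γ.ext r)) * upperSpeed γ r) := by
    apply Measurable.lintegral_prod_right'
      (f := fun p : UCurve X × ℝ => ENNReal.ofReal (D (p.1.ext p.2)) * upperSpeed p.1 p.2)
    exact (ENNReal.measurable_ofReal.comp (hD.comp measurable_evalExt)).mul measurable_upperSpeed
  refine ae_le_of_forall_setLIntegral_le_of_sigmaFinite₀ hmeas1.aemeasurable ?_
  intro A hA _
  by_cases hPA : P A = 0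
  · rw [Measure.restrict_eq_zero.mpr hPA]; simp
  have hPAtop : P A ≠ ⊤ := measure_ne_top P A
  have hcs : Measurable (subCurve a b : UCurve X → UCurve X) := (cu_continuous_subCurve a b).measurable
  have hQ := isTestPlan2_map_subCurve (isTestPlan2_cond hP hPA) a b haI hbI
  have hQb := hasBoundedTracks_map_subCurve (hasBoundedTracks_cond hb A (P A)⁻¹) a b
  have h1 := h.2.2 _ hQ hQb
  have hmeas1' : Measurable (fun γ : UCurve X =>
      ENNReal.ofReal |f (γ.toMap 1) - f (γ.toMap 0)|) :=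
    ENNReal.measurable_ofReal.comp
      ((hf.comp (measurable_eval 1)).sub (hf.comp (measurable_eval 0))).abs
  rw [lintegral_map hmeas1' hcs, lintegral_map hmeas2 hcs,
    lintegral_smul_measure, lintegral_smul_measure] at h1
  have h2 : ∀ γ : UCurve X, ENNReal.ofReal |f ((subCurve a b γ).toMap 1) -
      f ((subCurve a b γ).toMap 0)| = ENNReal.ofReal |f (γ.ext b) - f (γ.ext a)| := by
    intro γ
    rw [subCurve_toMap, subCurve_toMap]
    congr 4 <;> simp
  have h3 : ∀ γ : UCurve X, (∫⁻ r in Icc (0 : ℝ) 1, ENNReal.ofReal (D ((subCurve a b γ).ext r)) *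
      upperSpeed (subCurve a b γ) r) =
      ∫⁻ r in Icc a b, ENNReal.ofReal (D (γ.ext r)) * upperSpeed γ r := by
    intro γ
    rw [lintegral_subCurve_mul a b haI hbI γ (fun x => ENNReal.ofReal (D x)), uIcc_of_le hab]
  simp only [h2, h3, smul_eq_mul] at h1
  have hinv0 : (P A)⁻¹ ≠ 0 := ENNReal.inv_ne_zero.mpr hPAtop
  have hinvtop : (P A)⁻¹ ≠ ⊤ := ENNReal.inv_ne_top.mpr hPA
  exact (ENNReal.mul_le_mul_iff_right hinv0 hinvtop).mp h1

/-- S1, direct half, for Borel functions -/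
theorem ae_curveUG_of_measurable {f D : X → ℝ} (hf : Measurable f) (hD : Measurable D)
    (h : IsWUGLoc m f D) {P : Measure (UCurve X)} (hP : IsTestPlan2 m P)
    (hb : HasBoundedTracks P) : ∀ᵐ γ ∂P, CurveUG f D γ := by
  have : IsProbabilityMeasure P := hP.1
  have hG : Measurable (fun p : UCurve X × ℝ =>
      ENNReal.ofReal (D (p.1.ext p.2)) * upperSpeed p.1 p.2) :=
    (ENNReal.measurable_ofReal.comp (hD.comp measurable_evalExt)).mul measurable_upperSpeed
  have key := ae_exists_AC_rep (ι := Unit) (P := P) hf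
    (G := fun _ p => ENNReal.ofReal (D (p.1.ext p.2)) * upperSpeed p.1 p.2) (fun _ => hG)
    (fun _ => ae_lintegral_mul_upperSpeed_lt_top hP hb h.1)
    (fun _ s t hs hst ht => ae_increment_le hf hD h hP hb hs hst ht)
  filter_upwards [key] with γ hγ
  obtain ⟨u, hu, hu0, hu1, hu2, hu3⟩ := hγ
  exact ⟨u, hu, hu0, hu1, hu2, hu3 ()⟩

theorem ae_curveUG_of_boundedTracks {f D : X → ℝ} (hf : AEStronglyMeasurable f m)
    (h : IsWUGLoc m f D) {P : Measure (UCurve X)} (hP : IsTestPlan2 m P)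
    (hb : HasBoundedTracks P) : ∀ᵐ γ ∂P, CurveUG f D γ := by
  obtain ⟨f', hf'm, hff'⟩ := exists_measurable_rep hf
  obtain ⟨D', hD'm, hDD'⟩ := exists_measurable_rep (isL2OnBalls_aestronglyMeasurable h.1)
  have h' : IsWUGLoc m f' D' := IsWUGLoc.congr hff' hDD' h
  exact ae_curveUG_congr hff'.symm hDD'.symm hP (ae_curveUG_of_measurable hf'm hD'm h' hP hb)

theorem CurveUG.ofReal_abs_sub_le {f D : X → ℝ} {γ : UCurve X} (h : CurveUG f D γ) :
    ENNReal.ofReal |f (γ.toMap 1) - f (γ.toMap 0)| ≤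
      ∫⁻ t in Icc (0 : ℝ) 1, ENNReal.ofReal (D (γ.ext t)) * upperSpeed γ t := by
  obtain ⟨u, hu, hu0, hu1, -, hu3⟩ := h
  rw [← hu0, ← hu1]
  exact (AC_ofReal_abs_sub_le hu le_rfl zero_le_one le_rfl).trans (lintegral_mono_ae hu3)

/-- **S1** -/
theorem isWUGLoc_iff_curveUG' {f D : X → ℝ} (hf : AEStronglyMeasurable f m) :
    IsWUGLoc m f D ↔ IsL2OnBalls m D ∧ (∀ᵐ x ∂m, 0 ≤ D x) ∧
      ∀ P : Measure (UCurve X), IsTestPlan2 m P → HasBoundedTracks P → ∀ᵐ γ ∂P, CurveUG f D γ := by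
  constructor
  · intro h
    exact ⟨h.1, h.2.1, fun P hP hb => ae_curveUG_of_boundedTracks hf h hP hb⟩
  · rintro ⟨h1, h2, h3⟩
    refine ⟨h1, h2, fun P hP hb => ?_⟩
    apply lintegral_mono_ae
    filter_upwards [h3 P hP hb] with γ hγ
    exact hγ.ofReal_abs_sub_le

/-! ### S9 -/

theorem measurableSet_tracks (o : X) (R : ℝ) :
    MeasurableSet {γ : UCurve X | ∀ t : unitInterval, γ.toMap t ∈ Metric.closedBall o R} := by
  have : {γ : UCurve X | ∀ t : unitInterval, γ.toMap t ∈ Metric.closedBall o R} =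
      ⋂ t : unitInterval, (fun γ : UCurve X => γ.toMap t) ⁻¹' Metric.closedBall o R := by
    ext γ; simp
  rw [this]
  apply IsClosed.measurableSet
  exact isClosed_iInter fun t => Metric.isClosed_closedBall.preimage (continuous_eval_left t)

/-- S9: no bounded tracks -/
theorem ae_curveUG_of_testPlan {f D : X → ℝ} (hf : AEStronglyMeasurable f m)
    (h : IsWUGLoc m f D) {P : Measure (UCurve X)} (hP : IsTestPlan2 m P) :
    ∀ᵐ γ ∂P, CurveUG f D γ := by
  have : IsProbabilityMeasure P := hP.1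
  rcases isEmpty_or_nonempty (UCurve X) with hE | ⟨⟨γ₀⟩⟩
  · exact Eventually.of_forall fun γ => (hE.false γ).elim
  set o : X := γ₀.toMap 0
  set A : ℕ → Set (UCurve X) := fun n =>
    {γ : UCurve X | ∀ t : unitInterval, γ.toMap t ∈ Metric.closedBall o n} with hA
  have h1 : ∀ n : ℕ, ∀ᵐ γ ∂P, γ ∈ A n → CurveUG f D γ := by
    intro n
    by_cases hPA : P (A n) = 0
    · have : ∀ᵐ γ ∂P, γ ∉ A n := measure_eq_zero_iff_ae_notMem.mp hPA
      filter_upwards [this] with γ hγ hγ'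
      exact absurd hγ' hγ
    · have hQ := isTestPlan2_cond hP hPA
      have hmem : ∀ᵐ γ ∂((P (A n))⁻¹ • P.restrict (A n)), ∀ t : unitInterval,
          γ.toMap t ∈ Metric.closedBall o n := by
        apply Measure.ae_smul_measure
        exact ae_restrict_mem (measurableSet_tracks o n)
      have h2 := ae_curveUG_of_boundedTracks hf h hQ ⟨o, n, hmem⟩
      have hinv0 : (P (A n))⁻¹ ≠ 0 := ENNReal.inv_ne_zero.mpr (measure_ne_top P _)
      rw [Measure.ae_ennreal_smul_measure_iff hinv0] at h2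
      rwa [ae_restrict_iff' (measurableSet_tracks o n)] at h2
  have h2 := ae_all_iff.mpr h1
  filter_upwards [h2] with γ hγ
  have hcomp : IsCompact (range γ.toMap) := isCompact_range γ.toMap.continuous
  obtain ⟨R, hR⟩ := hcomp.isBounded.subset_closedBall o
  obtain ⟨n, hn⟩ := exists_nat_ge R
  refine hγ n fun t => ?_
  exact Metric.closedBall_subset_closedBall hn (hR (mem_range_self t))

/-- **S1**, interface form -/
theorem isWUGLoc_iff_curveUG (_hfin : IsFiniteOnBalls m) {f D : X → ℝ} (hf : IsL2OnBalls m f) :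
    IsWUGLoc m f D ↔ IsL2OnBalls m D ∧ (∀ᵐ x ∂m, 0 ≤ D x) ∧
      ∀ P : Measure (UCurve X), IsTestPlan2 m P → HasBoundedTracks P → ∀ᵐ γ ∂P, CurveUG f D γ :=
  isWUGLoc_iff_curveUG' (isL2OnBalls_aestronglyMeasurable hf)

/-- **S9**, interface form -/
theorem IsWUGLoc.ae_curveUG (_hfin : IsFiniteOnBalls m) {f D : X → ℝ} (hf : IsL2OnBalls m f)
    (h : IsWUGLoc m f D) {P : Measure (UCurve X)} (hP : IsTestPlan2 m P) :
    ∀ᵐ γ ∂P, CurveUG f D γ :=
  ae_curveUG_of_testPlan (isL2OnBalls_aestronglyMeasurable hf) h hP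

theorem IsWUGLoc.lintegral_le (hfin : IsFiniteOnBalls m) {f D : X → ℝ} (hf : IsL2OnBalls m f)
    (h : IsWUGLoc m f D) {P : Measure (UCurve X)} (hP : IsTestPlan2 m P) :
    (∫⁻ γ, ENNReal.ofReal |f (γ.toMap 1) - f (γ.toMap 0)| ∂P) ≤
      ∫⁻ γ, (∫⁻ t in Set.Icc (0 : ℝ) 1, ENNReal.ofReal (D (γ.ext t)) * upperSpeed γ t) ∂P := by
  apply lintegral_mono_ae
  filter_upwards [IsWUGLoc.ae_curveUG hfin hf h hP] with γ hγ
  exact hγ.ofReal_abs_sub_le

theorem ofReal_mul_le_young {a : ℝ} (ha : 0 < a) {d : ℝ} (hd : 0 ≤ d) (s : ℝ≥0∞) :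
    ENNReal.ofReal d * s ≤
      ENNReal.ofReal (a / 2) * ENNReal.ofReal (d ^ 2) + ENNReal.ofReal (1 / (2 * a)) * s ^ 2 := by
  rcases eq_or_ne s ⊤ with h | h
  · subst h
    have h1 : ENNReal.ofReal (1 / (2 * a)) * (⊤ : ℝ≥0∞) ^ 2 = ⊤ := by
      rw [ENNReal.top_pow (by norm_num), ENNReal.mul_top]
      exact (ENNReal.ofReal_pos.mpr (by positivity)).ne'
    rw [h1]; simp
  · obtain ⟨r, hr⟩ : ∃ r : ℝ≥0, s = r := ⟨s.toNNReal, (ENNReal.coe_toNNReal h).symm⟩
    subst hr
    have hr0 : (0 : ℝ) ≤ r := r.2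
    have e1 : (r : ℝ≥0∞) = ENNReal.ofReal (r : ℝ) := (ENNReal.ofReal_coe_nnreal).symm
    rw [e1, ← ENNReal.ofReal_pow hr0, ← ENNReal.ofReal_mul hd,
      ← ENNReal.ofReal_mul (by positivity), ← ENNReal.ofReal_mul (by positivity),
      ← ENNReal.ofReal_add (by positivity) (by positivity)]
    apply ENNReal.ofReal_le_ofReal
    have h2 : a / 2 * d ^ 2 + 1 / (2 * a) * (r : ℝ) ^ 2 - d * r =
        (a * d - r) ^ 2 / (2 * a) := by
      field_simp
      ring
    have h3 : 0 ≤ (a * d - r) ^ 2 / (2 * a) := by positivity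
    linarith

theorem IsWUGLoc.lintegral_le_young (hfin : IsFiniteOnBalls m) {f D : X → ℝ} (hf : IsL2OnBalls m f)
    (h : IsWUGLoc m f D) {P : Measure (UCurve X)} (hP : IsTestPlan2 m P) {a : ℝ} (ha : 0 < a) :
    (∫⁻ γ, ENNReal.ofReal |f (γ.toMap 1) - f (γ.toMap 0)| ∂P) ≤
      ENNReal.ofReal (a / 2) *
        (∫⁻ γ, (∫⁻ t in Set.Icc (0 : ℝ) 1, ENNReal.ofReal (D (γ.ext t) ^ 2)) ∂P) +
      ENNReal.ofReal (1 / (2 * a)) *
        (∫⁻ γ, (∫⁻ t in Set.Icc (0 : ℝ) 1, upperSpeed γ t ^ 2) ∂P) := by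
  have hprob : IsProbabilityMeasure P := hP.1
  refine (IsWUGLoc.lintegral_le hfin hf h hP).trans ?_
  obtain ⟨C, hC⟩ := hP.2.1
  have hnn := ae_ae_ext_of_ae hC h.2.1
  have hsp : Measurable (fun γ : UCurve X => ∫⁻ t in Icc (0 : ℝ) 1, upperSpeed γ t ^ 2) := by
    apply Measurable.lintegral_prod_right' (f := fun p : UCurve X × ℝ => upperSpeed p.1 p.2 ^ 2)
    exact measurable_upperSpeed.pow_const 2
  have h1 : ∀ᵐ γ ∂P, (∫⁻ t in Set.Icc (0 : ℝ) 1, ENNReal.ofReal (D (γ.ext t)) * upperSpeed γ t) ≤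
      ENNReal.ofReal (a / 2) * (∫⁻ t in Set.Icc (0 : ℝ) 1, ENNReal.ofReal (D (γ.ext t) ^ 2)) +
        ENNReal.ofReal (1 / (2 * a)) * (∫⁻ t in Set.Icc (0 : ℝ) 1, upperSpeed γ t ^ 2) := by
    filter_upwards [hnn] with γ hγ
    have hm : Measurable (fun t => ENNReal.ofReal (1 / (2 * a)) * upperSpeed γ t ^ 2) :=
      ((measurable_upperSpeed_right γ).pow_const 2).const_mul _
    rw [← lintegral_const_mul' _ _ ENNReal.ofReal_ne_top,
      ← lintegral_const_mul' _ _ ENNReal.ofReal_ne_top, ← lintegral_add_right _ hm]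
    apply lintegral_mono_ae
    filter_upwards [hγ] with t ht
    exact ofReal_mul_le_young ha ht _
  refine (lintegral_mono_ae h1).trans ?_
  rw [lintegral_add_right _ (hsp.const_mul _), lintegral_const_mul' _ _ ENNReal.ofReal_ne_top,
    lintegral_const_mul' _ _ ENNReal.ofReal_ne_top]

end Main

end Crest.Agent.R242
end

-- ▼ part R242/SobMin

/-!
Row 242, part S: S2 (existence of the minimal weak upper gradient) and its consequences.
-/

set_option autoImplicit false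

open MeasureTheory Filter Set
open Crest.GeometryTopology.SyntheticRicci
open scoped ENNReal NNReal Topology

namespace Crest.Agent.R242

section Curve

variable {X : Type*} [MetricSpace X]

theorem CurveUG.min {f D D' : X → ℝ} {γ : UCurve X} (h : CurveUG f D γ) (h' : CurveUG f D' γ) :
    CurveUG f (fun x => min (D x) (D' x)) γ := by
  obtain ⟨u, hu, hu0, hu1, hu2, hu3⟩ := h
  obtain ⟨v, hv, hv0, hv1, hv2, hv3⟩ := h'
  have heq : ∀ᵐ t ∂(volume.restrict (Icc (0 : ℝ) 1)), u t = v t := by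
    filter_upwards [hu2, hv2] with t h1 h2
    rw [h1, h2]
  obtain ⟨_, hd⟩ := AC_eqOn_of_ae_eq hu hv heq
  refine ⟨u, hu, hu0, hu1, hu2, ?_⟩
  filter_upwards [hd, hu3, hv3] with t h1 h2 h3
  rcases le_total (D (γ.ext t)) (D' (γ.ext t)) with h | h
  · rw [min_eq_left h]; exact h2
  · rw [min_eq_right h, h1]; exact h3

theorem CurveUG.of_tendsto {f E : X → ℝ} {D : ℕ → X → ℝ} {γ : UCurve X}
    (h : ∀ n, CurveUG f (D n) γ)
    (hlim : ∀ᵐ t ∂(volume.restrict (Icc (0 : ℝ) 1)),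
      Tendsto (fun n => D n (γ.ext t)) atTop (𝓝 (E (γ.ext t))))
    (hsp : HasL2Speed γ) : CurveUG f E γ := by
  choose u hu hu0 hu1 hu2 hu3 using h
  have hsp' : ∀ᵐ t ∂(volume.restrict (Icc (0 : ℝ) 1)), upperSpeed γ t < ⊤ :=
    ae_lt_top (measurable_upperSpeed_right γ) (lintegral_upperSpeed_lt_top hsp).ne
  have hd : ∀ᵐ t ∂(volume.restrict (Icc (0 : ℝ) 1)), ∀ n, deriv (u 0) t = deriv (u n) t := by
    rw [ae_all_iff]
    intro n
    have heq : ∀ᵐ t ∂(volume.restrict (Icc (0 : ℝ) 1)), u 0 t = u n t := by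
      filter_upwards [hu2 0, hu2 n] with t h1 h2
      rw [h1, h2]
    exact (AC_eqOn_of_ae_eq (hu 0) (hu n) heq).2
  have hu3' : ∀ᵐ t ∂(volume.restrict (Icc (0 : ℝ) 1)), ∀ n,
      ENNReal.ofReal |deriv (u n) t| ≤ ENNReal.ofReal (D n (γ.ext t)) * upperSpeed γ t :=
    ae_all_iff.mpr hu3
  refine ⟨u 0, hu 0, hu0 0, hu1 0, hu2 0, ?_⟩
  filter_upwards [hd, hu3', hsp', hlim] with t h1 h2 h3 h4
  have h5 : Tendsto (fun n => ENNReal.ofReal (D n (γ.ext t)) * upperSpeed γ t) atTop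
      (𝓝 (ENNReal.ofReal (E (γ.ext t)) * upperSpeed γ t)) :=
    ENNReal.Tendsto.mul_const ((ENNReal.continuous_ofReal.tendsto _).comp h4) (Or.inr h3.ne)
  refine ge_of_tendsto h5 (Eventually.of_forall fun n => ?_)
  rw [h1 n]
  exact h2 n

theorem CurveUG.mono {f D D' : X → ℝ} {γ : UCurve X} (h : CurveUG f D γ)
    (hle : ∀ᵐ t ∂(volume.restrict (Icc (0 : ℝ) 1)), D (γ.ext t) ≤ D' (γ.ext t)) :
    CurveUG f D' γ := by
  obtain ⟨u, hu, hu0, hu1, hu2, hu3⟩ := h
  refine ⟨u, hu, hu0, hu1, hu2, ?_⟩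
  filter_upwards [hu3, hle] with t h1 h2
  exact h1.trans (mul_le_mul_left (ENNReal.ofReal_le_ofReal h2) _)

end Curve

section Main

variable {X : Type*} [MetricSpace X] [SecondCountableTopology X] [MeasurableSpace X] [BorelSpace X]
variable {m : Measure X}

theorem IsWUGLoc.min (_hfin : IsFiniteOnBalls m) {f D D' : X → ℝ} (hf : IsL2OnBalls m f)
    (h : IsWUGLoc m f D) (h' : IsWUGLoc m f D') : IsWUGLoc m f (fun x => min (D x) (D' x)) := by
  have hfm := isL2OnBalls_aestronglyMeasurable hf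
  rw [isWUGLoc_iff_curveUG' hfm] at h h' ⊢
  refine ⟨fun o R => (h.1 o R).inf (h'.1 o R), ?_, ?_⟩
  · filter_upwards [h.2.1, h'.2.1] with x h1 h2
    exact le_min h1 h2
  · intro P hP hb
    filter_upwards [h.2.2 P hP hb, h'.2.2 P hP hb] with γ h1 h2
    exact h1.min h2

/-- a decreasing limit of weak upper gradients is a weak upper gradient -/
theorem isWUGLoc_of_antitone {f E : X → ℝ} {D : ℕ → X → ℝ} (hf : IsL2OnBalls m f)
    (hD : ∀ n, IsWUGLoc m f (D n)) (hanti : ∀ x, Antitone (fun n => D n x))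
    (hE0 : ∀ x, 0 ≤ E x) (hlim : ∀ x, Tendsto (fun n => D n x) atTop (𝓝 (E x))) :
    IsWUGLoc m f E := by
  have hfm := isL2OnBalls_aestronglyMeasurable hf
  have hEm : AEStronglyMeasurable E m := by
    refine aestronglyMeasurable_of_tendsto_ae atTop
      (fun n => isL2OnBalls_aestronglyMeasurable (hD n).1) (Eventually.of_forall hlim)
  rw [isWUGLoc_iff_curveUG' hfm]
  refine ⟨?_, Eventually.of_forall hE0, ?_⟩
  · intro o R
    refine ((hD 0).1 o R).mono hEm.restrict ?_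
    refine Eventually.of_forall fun x => ?_
    rw [Real.norm_eq_abs, Real.norm_eq_abs, abs_of_nonneg (hE0 x)]
    have h1 : E x ≤ D 0 x := (hanti x).le_of_tendsto (hlim x) 0
    exact h1.trans (le_abs_self _)
  · intro P hP hb
    have h1 : ∀ᵐ γ ∂P, ∀ n, CurveUG f (D n) γ :=
      ae_all_iff.mpr fun n => ae_curveUG_of_boundedTracks hfm (hD n) hP hb
    filter_upwards [h1, hP.2.2.1] with γ h1 h2
    exact CurveUG.of_tendsto h1 (Eventually.of_forall fun t => hlim _) h2

theorem exists_isMinWUGLoc (hfin : IsFiniteOnBalls m) {f D : X → ℝ} (hf : IsL2OnBalls m f)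
    (hD : IsWUGLoc m f D) : ∃ D₀ : X → ℝ, IsMinWUGLoc m f D₀ := by
  have : SigmaFinite m := sigmaFinite_of_isFiniteOnBalls hfin
  set ν := m.toFinite with hν
  set I : (X → ℝ) → ℝ≥0∞ := fun D => ∫⁻ x, ENNReal.ofReal (Real.arctan (D x)) ∂ν with hI
  set S : Set ℝ≥0∞ := {a | ∃ D : X → ℝ, IsWUGLoc m f D ∧ I D = a} with hS
  have hSne : S.Nonempty := ⟨I D, D, hD, rfl⟩
  obtain ⟨a, -, ha, haS⟩ := exists_seq_tendsto_sInf hSne (OrderBot.bddBelow S)
  choose D₁ hD₁ hID₁ using haS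
  -- nonnegative versions
  set D₂ : ℕ → X → ℝ := fun n x => max (D₁ n x) 0 with hD₂
  have hD₂eq : ∀ n, D₁ n =ᵐ[m] D₂ n := by
    intro n
    filter_upwards [(hD₁ n).2.1] with x hx
    simp [hD₂, hx]
  have hD₂w : ∀ n, IsWUGLoc m f (D₂ n) := fun n =>
    IsWUGLoc.congr (Filter.EventuallyEq.refl _ f) (hD₂eq n) (hD₁ n)
  have hν1 : ν ≪ m := toFinite_absolutelyContinuous m
  have hν2 : m ≪ ν := absolutelyContinuous_toFinite m
  have hID₂ : ∀ n, I (D₂ n) = a n := by
    intro n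
    rw [← hID₁ n, hI]
    apply lintegral_congr_ae
    filter_upwards [hν1.ae_le (hD₂eq n)] with x hx
    rw [hx]
  -- decreasing sequence of minima
  let E : ℕ → X → ℝ := fun n => Nat.rec (D₂ 0) (fun k F x => min (F x) (D₂ (k + 1) x)) n
  have hE0 : E 0 = D₂ 0 := rfl
  have hEs : ∀ n, E (n + 1) = fun x => min (E n x) (D₂ (n + 1) x) := fun n => rfl
  have hEw : ∀ n, IsWUGLoc m f (E n) := by
    intro n
    induction n with
    | zero => rw [hE0]; exact hD₂w 0
    | succ k ih => rw [hEs]; exact IsWUGLoc.min hfin hf ih (hD₂w (k + 1))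
  have hEnn : ∀ n x, 0 ≤ E n x := by
    intro n x
    induction n with
    | zero => rw [hE0]; exact le_max_right _ _
    | succ k ih => rw [hEs]; exact le_min ih (le_max_right _ _)
  have hEanti : ∀ x, Antitone (fun n => E n x) := by
    intro x
    apply antitone_nat_of_succ_le
    intro n
    rw [hEs]
    exact min_le_left _ _
  have hEle : ∀ n x, E n x ≤ D₂ n x := by
    intro n x
    cases n with
    | zero => rw [hE0]
    | succ k => rw [hEs]; exact min_le_right _ _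
  set F : X → ℝ := fun x => ⨅ n, E n x with hF
  have hbdd : ∀ x, BddBelow (range fun n => E n x) := fun x => ⟨0, by
    rintro _ ⟨n, rfl⟩; exact hEnn n x⟩
  have hFlim : ∀ x, Tendsto (fun n => E n x) atTop (𝓝 (F x)) := fun x =>
    tendsto_atTop_ciInf (hEanti x) (hbdd x)
  have hFnn : ∀ x, 0 ≤ F x := fun x => le_ciInf fun n => hEnn n x
  have hFw : IsWUGLoc m f F := isWUGLoc_of_antitone hf hEw hEanti hFnn hFlim
  have hFle : ∀ n x, F x ≤ D₂ n x := fun n x => (ciInf_le (hbdd x) n).trans (hEle n x)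
  have hIF : I F ≤ sInf S := by
    refine ge_of_tendsto ha (Eventually.of_forall fun n => ?_)
    rw [← hID₂ n]
    apply lintegral_mono
    intro x
    exact ENNReal.ofReal_le_ofReal (Real.arctan_mono (hFle n x))
  refine ⟨F, hFw, ?_⟩
  intro D' hD'
  have hM := IsWUGLoc.min hfin hf hFw hD'
  have h1 : I F ≤ I (fun x => Min.min (F x) (D' x)) := hIF.trans (sInf_le ⟨_, hM, rfl⟩)
  have hle : (fun x => ENNReal.ofReal (Real.arctan (Min.min (F x) (D' x)))) ≤ᵐ[ν]
      fun x => ENNReal.ofReal (Real.arctan (F x)) :=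
    Eventually.of_forall fun x =>
      ENNReal.ofReal_le_ofReal (Real.arctan_mono (min_le_left _ _))
  have hfinI : (∫⁻ x, ENNReal.ofReal (Real.arctan (Min.min (F x) (D' x))) ∂ν) ≠ ⊤ := by
    have h2 : (∫⁻ x, ENNReal.ofReal (Real.arctan (Min.min (F x) (D' x))) ∂ν) ≤
        ∫⁻ _x, ENNReal.ofReal (Real.pi / 2) ∂ν := by
      apply lintegral_mono
      intro x
      exact ENNReal.ofReal_le_ofReal (Real.arctan_lt_pi_div_two _).le
    rw [lintegral_const] at h2
    refine (h2.trans_lt ?_).ne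
    exact ENNReal.mul_lt_top ENNReal.ofReal_lt_top (measure_lt_top ν _)
  have hFm : AEMeasurable (fun x => ENNReal.ofReal (Real.arctan (F x))) ν := by
    have h3 : AEMeasurable F ν :=
      (isL2OnBalls_aestronglyMeasurable hFw.1).aemeasurable.mono_ac hν1
    exact (Real.measurable_arctan.comp_aemeasurable h3).ennreal_ofReal
  have heq := ae_eq_of_ae_le_of_lintegral_le hle hfinI hFm h1
  have heq' := hν2.ae_le heq
  filter_upwards [heq', hD'.2.1] with x hx hx'
  have h4 : 0 ≤ Real.arctan (Min.min (F x) (D' x)) :=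
    Real.arctan_nonneg.mpr (le_min (hFnn x) hx')
  have h5 : 0 ≤ Real.arctan (F x) := Real.arctan_nonneg.mpr (hFnn x)
  rw [ENNReal.ofReal_eq_ofReal_iff h4 h5] at hx
  have h6 := Real.arctan_injective hx
  rw [← h6]
  exact min_le_right _ _

theorem IsSobolevLoc.isMin {f : X → ℝ} (hf : IsSobolevLoc m f) :
    IsMinWUGLoc m f (minWeakGrad m f) := by
  obtain ⟨_, h⟩ := hf
  unfold minWeakGrad
  rw [dif_pos h]
  exact Classical.choose_spec h

theorem IsSobolevLoc.isWUG {f : X → ℝ} (hf : IsSobolevLoc m f) :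
    IsWUGLoc m f (minWeakGrad m f) := (IsSobolevLoc.isMin hf).1

theorem isSobolevLoc_iff (hfin : IsFiniteOnBalls m) {f : X → ℝ} :
    IsSobolevLoc m f ↔ IsL2OnBalls m f ∧ ∃ D : X → ℝ, IsWUGLoc m f D := by
  constructor
  · rintro ⟨h1, D, hD⟩
    exact ⟨h1, D, hD.1⟩
  · rintro ⟨h1, D, hD⟩
    exact ⟨h1, exists_isMinWUGLoc hfin h1 hD⟩

/-- either a minimal weak upper gradient, or the zero function. -/
theorem minWeakGrad_cases (f : X → ℝ) :
    IsMinWUGLoc m f (minWeakGrad m f) ∨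
      ((¬ ∃ D : X → ℝ, IsMinWUGLoc m f D) ∧ minWeakGrad m f = 0) := by
  by_cases h : ∃ D : X → ℝ, IsMinWUGLoc m f D
  · left
    unfold minWeakGrad
    rw [dif_pos h]
    exact Classical.choose_spec h
  · right
    refine ⟨h, ?_⟩
    unfold minWeakGrad
    rw [dif_neg h]

theorem minWeakGrad_nonneg (f : X → ℝ) : ∀ᵐ x ∂m, 0 ≤ minWeakGrad m f x := by
  rcases minWeakGrad_cases (m := m) f with h | ⟨-, h⟩
  · exact h.1.2.1
  · rw [h]; exact Eventually.of_forall fun _ => le_rfl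

theorem minWeakGrad_isL2OnBalls (f : X → ℝ) : IsL2OnBalls m (minWeakGrad m f) := by
  rcases minWeakGrad_cases (m := m) f with h | ⟨-, h⟩
  · exact h.1.1
  · rw [h]; exact fun o R => MemLp.zero

theorem minWeakGrad_aestronglyMeasurable (_hfin : IsFiniteOnBalls m) (f : X → ℝ) :
    AEStronglyMeasurable (minWeakGrad m f) m :=
  isL2OnBalls_aestronglyMeasurable (minWeakGrad_isL2OnBalls f)

theorem minWeakGrad_le_of_isWUGLoc (hfin : IsFiniteOnBalls m) {f D : X → ℝ}
    (hf : IsL2OnBalls m f) (hD : IsWUGLoc m f D) : ∀ᵐ x ∂m, minWeakGrad m f x ≤ D x :=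
  (IsSobolevLoc.isMin ((isSobolevLoc_iff hfin).mpr ⟨hf, D, hD⟩)).2 D hD

theorem isL2OnBalls_of_memLp {f : X → ℝ} (hf : MemLp f 2 m) : IsL2OnBalls m f :=
  fun _ _ => hf.restrict _

theorem isSobolev_iff (hfin : IsFiniteOnBalls m) {f : X → ℝ} :
    IsSobolev m f ↔ MemLp f 2 m ∧ ∃ D : X → ℝ, IsWUGLoc m f D ∧ MemLp D 2 m := by
  constructor
  · rintro ⟨h1, h2, h3⟩
    exact ⟨h1, minWeakGrad m f, IsSobolevLoc.isWUG h2, h3⟩
  · rintro ⟨h1, D, hD, hD2⟩
    have hl2 := isL2OnBalls_of_memLp h1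
    refine ⟨h1, (isSobolevLoc_iff hfin).mpr ⟨hl2, D, hD⟩, ?_⟩
    refine hD2.mono (minWeakGrad_aestronglyMeasurable hfin f) ?_
    filter_upwards [minWeakGrad_nonneg (m := m) f, minWeakGrad_le_of_isWUGLoc hfin hl2 hD]
      with x h3 h4
    rw [Real.norm_eq_abs, Real.norm_eq_abs, abs_of_nonneg h3]
    exact h4.trans (le_abs_self _)

end Main

end Crest.Agent.R242
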