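import Mathlib
import Crest.Agent.R242.Defs
import Crest.Agent.R242.SobMin
import Crest.Agent.R242.Slope
import Crest.Agent.R242.Curve

-- ▼ part R242/ACCurve
section

/-!
Row 242: one-curve lemmas (absolutely continuous representatives along a curve).
No plans and no minimal gradients here.
-/

set_option autoImplicit false

open MeasureTheory Filter Set
open scoped ENNReal NNReal Topology
open Crest.GeometryTopology.SyntheticRicci

noncomputable section

namespace Crest.Agent.R242

/-! ### real-variable lemmas -/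

theorem ac_of_dist_le {u v : ℝ → ℝ} {a b : ℝ} {C : ℝ}
    (hC : ∀ x ∈ uIcc a b, ∀ y ∈ uIcc a b, dist (v x) (v y) ≤ C * dist (u x) (u y))
    (hu : AbsolutelyContinuousOnInterval u a b) : AbsolutelyContinuousOnInterval v a b := by
  unfold AbsolutelyContinuousOnInterval at hu ⊢
  have h1 := hu.const_mul C
  rw [mul_zero] at h1
  refine squeeze_zero' (Eventually.of_forall fun E => Finset.sum_nonneg fun _ _ => dist_nonneg)
    ?_ h1
  have : ∀ᶠ (E : ℕ × (ℕ → ℝ × ℝ)) in AbsolutelyContinuousOnInterval.totalLengthFilter ⊓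
      𝓟 (AbsolutelyContinuousOnInterval.disjWithin a b),
      E ∈ AbsolutelyContinuousOnInterval.disjWithin a b :=
    eventually_inf_principal.mpr (by simp)
  filter_upwards [this] with E hE
  rw [Finset.mul_sum]
  refine Finset.sum_le_sum fun i hi => hC _ (hE.1 i hi).1 _ (hE.1 i hi).2

/-- a function with finite lower integral has a measurable minorant with the same integral on all
measurable sets. -/
theorem exists_measurable_minorant {α : Type*} [MeasurableSpace α] {μ : Measure α} (g : α → ℝ≥0∞)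
    (hfin : ∫⁻ x, g x ∂μ ≠ ⊤) : ∃ g' : α → ℝ≥0∞, Measurable g' ∧ (∀ x, g' x ≤ g x) ∧
      ∀ s, MeasurableSet s → ∫⁻ x in s, g x ∂μ = ∫⁻ x in s, g' x ∂μ := by
  obtain ⟨g', hm, hle, heq⟩ := exists_measurable_le_lintegral_eq μ g
  refine ⟨g', hm, hle, fun s hs => ?_⟩
  refine le_antisymm ?_ (lintegral_mono hle)
  obtain ⟨g'', hm'', hle'', heq''⟩ := exists_measurable_le_lintegral_eq (μ.restrict s) g
  rw [heq'']
  -- the function g'' on s and g' outside
  have h1 : ∫⁻ x, (s.indicator g'' x + sᶜ.indicator g' x) ∂μ ≤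
      ∫⁻ x in s, g' x ∂μ + ∫⁻ x in sᶜ, g' x ∂μ := by
    rw [lintegral_add_compl g' hs, ← heq]
    refine lintegral_mono fun x => ?_
    by_cases hx : x ∈ s
    · simp [hx, hle'' x]
    · simp [hx, hle x]
  rw [lintegral_add_left (hm''.indicator hs), lintegral_indicator hs,
    lintegral_indicator hs.compl] at h1
  have h2 : ∫⁻ x in sᶜ, g' x ∂μ ≠ ⊤ := by
    refine ne_top_of_le_ne_top hfin ?_
    calc ∫⁻ x in sᶜ, g' x ∂μ ≤ ∫⁻ x, g' x ∂μ := setLIntegral_le_lintegral _ _
      _ ≤ ∫⁻ x, g x ∂μ := lintegral_mono hle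
  exact (ENNReal.add_le_add_iff_right h2).1 h1

theorem ac_and_deriv_of_bound {u : ℝ → ℝ} {g : ℝ → ℝ≥0∞}
    (hfin : (∫⁻ t in Icc (0 : ℝ) 1, g t) < ⊤)
    (hb : ∀ a b : ℝ, 0 ≤ a → a ≤ b → b ≤ 1 → ENNReal.ofReal |u b - u a| ≤ ∫⁻ t in Icc a b, g t) :
    AbsolutelyContinuousOnInterval u 0 1 ∧
      ∀ᵐ t ∂(volume.restrict (Icc (0 : ℝ) 1)), ENNReal.ofReal |deriv u t| ≤ g t := by
  obtain ⟨g', hm, hle, heq⟩ := exists_measurable_minorant g hfin.ne
  have hfin' : (∫⁻ t in Icc (0 : ℝ) 1, g' t) < ⊤ := lt_of_le_of_lt (lintegral_mono hle) hfin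
  have hsub : ∀ a b : ℝ, 0 ≤ a → a ≤ b → b ≤ 1 → (∫⁻ t in Icc a b, g t) = ∫⁻ t in Icc a b, g' t := by
    intro a b ha hab hb1
    have h := heq (Icc a b) measurableSet_Icc
    rwa [Measure.restrict_restrict measurableSet_Icc,
      inter_eq_left.2 (Icc_subset_Icc ha hb1)] at h
  set G : ℝ → ℝ := fun x => ∫ t in (0 : ℝ)..x, (g' t).toReal with hG
  have hint : IntervalIntegrable (fun t => (g' t).toReal) volume 0 1 := by
    rw [intervalIntegrable_iff_integrableOn_Icc_of_le zero_le_one]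
    exact integrable_toReal_of_lintegral_ne_top hm.aemeasurable hfin'.ne
  have hGac : AbsolutelyContinuousOnInterval G 0 1 :=
    hint.absolutelyContinuousOnInterval_intervalIntegral (by simp)
  have hint' : ∀ a b : ℝ, 0 ≤ a → a ≤ b → b ≤ 1 →
      IntervalIntegrable (fun t => (g' t).toReal) volume a b := by
    intro a b ha hab hb1
    refine hint.mono_set ?_
    rw [uIcc_of_le hab, uIcc_of_le zero_le_one]
    exact Icc_subset_Icc ha hb1
  have hGb : ∀ a b : ℝ, 0 ≤ a → a ≤ b → b ≤ 1 → |u b - u a| ≤ G b - G a := by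
    intro a b ha hab hb1
    have h1 := hb a b ha hab hb1
    rw [hsub a b ha hab hb1] at h1
    have hfinab : (∫⁻ t in Icc a b, g' t) < ⊤ :=
      lt_of_le_of_lt (lintegral_mono_set (Icc_subset_Icc ha hb1)) hfin'
    have h2 : G b - G a = (∫⁻ t in Icc a b, g' t).toReal := by
      have h3 : G b - G a = ∫ t in a..b, (g' t).toReal := by
        rw [hG]
        exact intervalIntegral.integral_interval_sub_left (hint' 0 b le_rfl (ha.trans hab) hb1)
          (hint' 0 a le_rfl ha (hab.trans hb1))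
      rw [h3, intervalIntegral.integral_of_le hab, ← integral_Icc_eq_integral_Ioc,
        integral_toReal hm.aemeasurable]
      exact ae_lt_top hm hfinab.ne
    rw [h2]
    exact (ENNReal.ofReal_le_iff_le_toReal hfinab.ne).1 h1
  refine ⟨?_, ?_⟩
  · refine ac_of_dist_le (C := 1) ?_ hGac
    intro x hx y hy
    rw [uIcc_of_le zero_le_one] at hx hy
    rw [one_mul, Real.dist_eq, Real.dist_eq]
    rcases le_total x y with h | h
    · rw [abs_sub_comm, abs_sub_comm (G x)]
      exact (hGb x y hx.1 h hy.2).trans (le_abs_self _)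
    · exact (hGb y x hy.1 h hx.2).trans (le_abs_self _)
  · have h1 := hint.ae_hasDerivAt_integral
    have h0 : ∀ᵐ x : ℝ, x ≠ 0 := by simp [ae_iff, measure_singleton]
    have h11 : ∀ᵐ x : ℝ, x ≠ 1 := by simp [ae_iff, measure_singleton]
    have hlt := ae_lt_top hm hfin'.ne
    filter_upwards [ae_restrict_of_ae h1, ae_restrict_of_ae h0, ae_restrict_of_ae h11,
      ae_restrict_mem measurableSet_Icc, hlt] with t ht ht0 ht1 htI htfin
    have hGd : HasDerivAt G (g' t).toReal t := by
      refine ht ?_ 0 (by simp)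
      rw [uIcc_of_le zero_le_one]; exact htI
    have htIoo : t ∈ Ioo (0 : ℝ) 1 :=
      ⟨lt_of_le_of_ne htI.1 (Ne.symm ht0), lt_of_le_of_ne htI.2 ht1⟩
    by_cases hd : DifferentiableAt ℝ u t
    · have hle2 : |deriv u t| ≤ (g' t).toReal := by
        have h3 : Tendsto (fun y => |slope u t y|) (𝓝[>] t) (𝓝 |deriv u t|) :=
          ((hasDerivAt_iff_tendsto_slope.1 hd.hasDerivAt).mono_left
            (nhdsWithin_mono _ (fun y hy => ne_of_gt hy))).abs
        have h4 : Tendsto (fun y => slope G t y) (𝓝[>] t) (𝓝 (g' t).toReal) :=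
          (hasDerivAt_iff_tendsto_slope.1 hGd).mono_left
            (nhdsWithin_mono _ (fun y hy => ne_of_gt hy))
        refine le_of_tendsto_of_tendsto h3 h4 ?_
        have h5 : ∀ᶠ y in 𝓝[>] t, y < 1 :=
          mem_nhdsWithin_of_mem_nhds (Iio_mem_nhds htIoo.2)
        filter_upwards [h5, self_mem_nhdsWithin] with y hy1 hy2
        have hy2' : t < y := hy2
        rw [slope_def_field, slope_def_field, abs_div, abs_of_pos (sub_pos.2 hy2')]
        exact div_le_div_of_nonneg_right (hGb t y htI.1 hy2'.le hy1.le) (sub_pos.2 hy2').le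
      calc ENNReal.ofReal |deriv u t| ≤ ENNReal.ofReal (g' t).toReal := ENNReal.ofReal_le_ofReal hle2
        _ = g' t := ENNReal.ofReal_toReal htfin.ne
        _ ≤ g t := hle t
    · rw [deriv_zero_of_not_differentiableAt hd]
      simp


/-- at almost every time at which `u` takes the value `c`, the derivative vanishes (where it
exists). -/
theorem countable_level_deriv_ne_zero (u : ℝ → ℝ) (c : ℝ) :
    {t : ℝ | u t = c ∧ deriv u t ≠ 0}.Countable := by
  set S := {t : ℝ | u t = c ∧ deriv u t ≠ 0} with hS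
  have key : ∀ t ∈ S, ∃ p q : ℚ, (p : ℝ) < t ∧ t < (q : ℝ) ∧
      ∀ s, (p : ℝ) < s → s < (q : ℝ) → s ≠ t → u s ≠ c := by
    intro t ht
    have hd : DifferentiableAt ℝ u t := by
      by_contra hnd
      exact ht.2 (deriv_zero_of_not_differentiableAt hnd)
    have h1 := hd.hasDerivAt.eventually_ne (c := c) ht.2
    rw [eventually_nhdsWithin_iff, Metric.eventually_nhds_iff] at h1
    obtain ⟨ε, hε, h2⟩ := h1
    obtain ⟨p, hp1, hp2⟩ := exists_rat_btwn (show t - ε < t by linarith)
    obtain ⟨q, hq1, hq2⟩ := exists_rat_btwn (show t < t + ε by linarith)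
    refine ⟨p, q, hp2, hq1, fun s hs1 hs2 hst => h2 ?_ hst⟩
    rw [Real.dist_eq, abs_lt]
    constructor <;> linarith
  choose! p q hp hq hpq using key
  refine Set.MapsTo.countable_of_injOn (f := fun t => (p t, q t)) (t := univ)
    (fun _ _ => mem_univ _) ?_ (Set.countable_univ)
  intro s hs t ht hst
  by_contra hne
  simp only [Prod.mk.injEq] at hst
  refine hpq t ht s ?_ ?_ hne hs.1
  · rw [← hst.1]; exact hp s hs
  · rw [← hst.2]; exact hq s hs

theorem ae_deriv_eq_zero_of_mem_countable (u : ℝ → ℝ) {Z : Set ℝ} (hZ : Z.Countable) :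
    ∀ᵐ t : ℝ, u t ∈ Z → deriv u t = 0 := by
  have h : {t : ℝ | ¬ (u t ∈ Z → deriv u t = 0)} ⊆ ⋃ c ∈ Z, {t : ℝ | u t = c ∧ deriv u t ≠ 0} := by
    intro t ht
    simp only [Set.mem_ofPred_eq, Classical.not_imp] at ht
    simp only [mem_iUnion]
    exact ⟨u t, ht.1, rfl, ht.2⟩
  rw [ae_iff]
  exact ((hZ.biUnion fun c _ => countable_level_deriv_ne_zero u c).mono h).measure_zero volume

end Crest.Agent.R242
end
end

-- ▼ part R242/SobChain
section

/-!
Row 242, PART S5, S6: chain rule and Leibniz rule for the minimal weak upper gradient.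
-/

set_option autoImplicit false
set_option linter.unusedSectionVars false

open MeasureTheory Filter Set
open Crest.GeometryTopology.SyntheticRicci
open scoped ENNReal NNReal Topology

namespace Crest.Agent.R242

/-! ### one-curve operations -/

section OneCurve

variable {X : Type*} [MetricSpace X]

theorem ae_restrict_Ioo_mem :
    ∀ᵐ t ∂(volume.restrict (Icc (0 : ℝ) 1)), t ∈ Ioo (0 : ℝ) 1 := by
  have h0 : ∀ᵐ x : ℝ, x ≠ 0 := by simp [ae_iff, measure_singleton]
  have h11 : ∀ᵐ x : ℝ, x ≠ 1 := by simp [ae_iff, measure_singleton]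
  filter_upwards [ae_restrict_of_ae h0, ae_restrict_of_ae h11,
    ae_restrict_mem measurableSet_Icc] with t ht0 ht1 htI
  exact ⟨lt_of_le_of_ne htI.1 (Ne.symm ht0), lt_of_le_of_ne htI.2 ht1⟩

theorem ac_ae_differentiableAt {u : ℝ → ℝ} (hu : AbsolutelyContinuousOnInterval u 0 1) :
    ∀ᵐ t ∂(volume.restrict (Icc (0 : ℝ) 1)), DifferentiableAt ℝ u t := by
  have h := hu.ae_differentiableAt
  rw [uIcc_of_le zero_le_one] at h
  exact (ae_restrict_iff' measurableSet_Icc).2 h

/-- two continuous representatives along the same curve agree. -/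
theorem rep_unique {f : X → ℝ} {γ : UCurve X} {u v : ℝ → ℝ}
    (hu : AbsolutelyContinuousOnInterval u 0 1) (hv : AbsolutelyContinuousOnInterval v 0 1)
    (hu2 : ∀ᵐ t ∂(volume.restrict (Icc (0 : ℝ) 1)), u t = f (γ.ext t))
    (hv2 : ∀ᵐ t ∂(volume.restrict (Icc (0 : ℝ) 1)), v t = f (γ.ext t)) :
    EqOn u v (Icc 0 1) := by
  have hcu := hu.continuousOn
  have hcv := hv.continuousOn
  rw [uIcc_of_le zero_le_one] at hcu hcv
  have h : u =ᵐ[volume.restrict (Icc (0 : ℝ) 1)] v := by
    filter_upwards [hu2, hv2] with t h1 h2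
    rw [h1, h2]
  exact Measure.eqOn_Icc_of_ae_eq volume (by norm_num) h hcu hcv

theorem rep_deriv_eq {u v : ℝ → ℝ} (h : EqOn u v (Icc 0 1)) :
    ∀ᵐ t ∂(volume.restrict (Icc (0 : ℝ) 1)), deriv u t = deriv v t := by
  filter_upwards [ae_restrict_Ioo_mem] with t ht
  refine Filter.EventuallyEq.deriv_eq ?_
  filter_upwards [Icc_mem_nhds ht.1 ht.2] with s hs using h hs


/-- locally Lipschitz function on the line, in the form used here. -/
def LipLine (φ : ℝ → ℝ) : Prop := ∀ R : ℝ, ∃ L : ℝ≥0, LipschitzOnWith L φ (Icc (-R) R)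

theorem LipLine.of_lipschitz {φ : ℝ → ℝ} {L : ℝ≥0} (h : LipschitzWith L φ) : LipLine φ :=
  fun _ => ⟨L, h.lipschitzOnWith⟩

theorem LipLine.of_contDiff {φ : ℝ → ℝ} (h : ContDiff ℝ 1 φ) : LipLine φ := by
  intro R
  exact h.locallyLipschitz.locallyLipschitzOn.exists_lipschitzOnWith_of_compact isCompact_Icc

theorem LipLine.ac_comp {φ u : ℝ → ℝ} (hφ : LipLine φ)
    (hu : AbsolutelyContinuousOnInterval u 0 1) :
    AbsolutelyContinuousOnInterval (fun t => φ (u t)) 0 1 := by
  obtain ⟨C, hC⟩ := hu.exists_bound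
  obtain ⟨L, hL⟩ := hφ C
  refine ac_of_dist_le (C := L) ?_ hu
  intro x hx y hy
  have h1 := hC x hx
  have h2 := hC y hy
  rw [Real.norm_eq_abs] at h1 h2
  exact hL.dist_le_mul _ (abs_le.1 h1) _ (abs_le.1 h2)

/-- derivative of `φ ∘ u` at almost every time -/
theorem LipLine.deriv_comp {φ u : ℝ → ℝ} (hφ : LipLine φ)
    (hu : AbsolutelyContinuousOnInterval u 0 1) {N : Set ℝ} (hN : N.Countable)
    (hd : ∀ t ∉ N, DifferentiableAt ℝ φ t) :
    ∀ᵐ t ∂(volume.restrict (Icc (0 : ℝ) 1)),
      (u t ∈ N → deriv u t = 0 ∧ deriv (fun t => φ (u t)) t = 0) ∧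
      (u t ∉ N → deriv (fun t => φ (u t)) t = deriv φ (u t) * deriv u t) := by
  obtain ⟨C, hC⟩ := hu.exists_bound
  obtain ⟨L, hL⟩ := hφ C
  filter_upwards [ae_restrict_Ioo_mem, ac_ae_differentiableAt hu,
    ae_restrict_of_ae (ae_deriv_eq_zero_of_mem_countable u hN)] with t htI htd ht0
  refine ⟨fun h => ⟨ht0 h, ?_⟩, fun h => ?_⟩
  · have h0 := ht0 h
    have hdu : HasDerivAt u 0 t := by rw [← h0]; exact htd.hasDerivAt
    have hbd : ∀ s ∈ Icc (0 : ℝ) 1, |u s| ≤ C := by
      intro s hs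
      have := hC s (by rw [uIcc_of_le zero_le_one]; exact hs)
      rwa [Real.norm_eq_abs] at this
    have hdv : HasDerivAt (fun t => φ (u t)) 0 t := by
      rw [hasDerivAt_iff_isLittleO] at hdu ⊢
      simp only [smul_zero, sub_zero] at hdu ⊢
      refine Asymptotics.IsBigO.trans_isLittleO ?_ hdu
      refine Asymptotics.IsBigO.of_bound L ?_
      filter_upwards [Icc_mem_nhds htI.1 htI.2] with s hs
      have := hL.dist_le_mul _ (abs_le.1 (hbd s hs)) _ (abs_le.1 (hbd t (Ioo_subset_Icc_self htI)))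
      simpa [Real.dist_eq, Real.norm_eq_abs] using this
    exact hdv.deriv
  · exact ((hd _ h).hasDerivAt.comp t htd.hasDerivAt).deriv

theorem CurveUG.comp {f D : X → ℝ} {γ : UCurve X} (h : CurveUG f D γ) {φ : ℝ → ℝ}
    (hφ : LipLine φ) {N : Set ℝ} (hN : N.Countable) (hd : ∀ t ∉ N, DifferentiableAt ℝ φ t) :
    CurveUG (fun x => φ (f x)) (fun x => |deriv φ (f x)| * D x) γ := by
  obtain ⟨u, h1, h2, h3, h4, h5⟩ := h
  refine ⟨fun t => φ (u t), hφ.ac_comp h1, by simp only [h2], by simp only [h3], ?_, ?_⟩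
  · filter_upwards [h4] with t ht
    rw [ht]
  · filter_upwards [h4, h5, hφ.deriv_comp h1 hN hd] with t ht4 ht5 htd
    by_cases hu : u t ∈ N
    · rw [(htd.1 hu).2]; simp
    · rw [htd.2 hu, abs_mul, ENNReal.ofReal_mul (abs_nonneg _), ← ht4,
        ENNReal.ofReal_mul (abs_nonneg _), mul_assoc, ht4]
      gcongr

/-- lower bound in the chain rule, on one curve -/
theorem CurveUG.of_comp {f D D' : X → ℝ} {γ : UCurve X} (h : CurveUG f D γ) {φ : ℝ → ℝ}
    (hφ : LipLine φ) {N : Set ℝ} (hN : N.Countable) (hd : ∀ t ∉ N, DifferentiableAt ℝ φ t)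
    (h' : CurveUG (fun x => φ (f x)) D' γ) {D'' : X → ℝ}
    (h1 : ∀ x, f x ∉ N → deriv φ (f x) ≠ 0 → D'' x = Min.min (D x) (D' x / |deriv φ (f x)|))
    (h2 : ∀ x, f x ∉ N → deriv φ (f x) = 0 → D'' x = D x) :
    CurveUG f D'' γ := by
  obtain ⟨u, hu1, hu2, hu3, hu4, hu5⟩ := h
  obtain ⟨w, hw1, hw2, hw3, hw4, hw5⟩ := h'
  refine ⟨u, hu1, hu2, hu3, hu4, ?_⟩
  have heq : EqOn w (fun t => φ (u t)) (Icc 0 1) := by
    refine rep_unique (f := fun x => φ (f x)) (γ := γ) hw1 (hφ.ac_comp hu1) hw4 ?_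
    filter_upwards [hu4] with t ht
    rw [ht]
  filter_upwards [hu4, hu5, hw5, hφ.deriv_comp hu1 hN hd, rep_deriv_eq heq] with t ht4 ht5 htw htd hte
  by_cases hu : u t ∈ N
  · rw [(htd.1 hu).1]; simp
  · rw [hte, htd.2 hu, abs_mul] at htw
    rw [ht4] at hu
    by_cases h0 : deriv φ (f (γ.ext t)) = 0
    · rw [h2 _ hu h0]; exact ht5
    · rw [h1 _ hu h0]
      have hpos : 0 < |deriv φ (f (γ.ext t))| := abs_pos.2 h0
      rw [ht4] at htw
      rcases le_total (D (γ.ext t)) (D' (γ.ext t) / |deriv φ (f (γ.ext t))|) with hle | hle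
      · rw [min_eq_left hle]; exact ht5
      · rw [min_eq_right hle]
        rw [div_eq_inv_mul, ENNReal.ofReal_mul (inv_nonneg.2 hpos.le), mul_assoc]
        calc ENNReal.ofReal |deriv u t|
            = ENNReal.ofReal (|deriv φ (f (γ.ext t))|)⁻¹ *
              ENNReal.ofReal (|deriv φ (f (γ.ext t))| * |deriv u t|) := by
              rw [← ENNReal.ofReal_mul (inv_nonneg.2 hpos.le)]
              congr 1
              field_simp
          _ ≤ _ := by gcongr

theorem CurveUG.mul {f g D D' : X → ℝ} {γ : UCurve X} (h : CurveUG f D γ) (h' : CurveUG g D' γ) :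
    CurveUG (fun x => f x * g x) (fun x => |f x| * max (D' x) 0 + |g x| * max (D x) 0) γ := by
  obtain ⟨u, hu1, hu2, hu3, hu4, hu5⟩ := h
  obtain ⟨w, hw1, hw2, hw3, hw4, hw5⟩ := h'
  refine ⟨fun t => u t * w t, hu1.fun_mul hw1, by simp only [hu2, hw2], by simp only [hu3, hw3],
    ?_, ?_⟩
  · filter_upwards [hu4, hw4] with t h1 h2
    rw [h1, h2]
  · filter_upwards [hu4, hw4, hu5, hw5, ac_ae_differentiableAt hu1, ac_ae_differentiableAt hw1]
      with t h1 h2 h3 h4 h5 h6
    have hder : deriv (fun t => u t * w t) t = deriv u t * w t + u t * deriv w t :=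
      (h5.hasDerivAt.fun_mul h6.hasDerivAt).deriv
    rw [hder]
    rw [ENNReal.ofReal_add (mul_nonneg (abs_nonneg _) (le_max_right _ _))
      (mul_nonneg (abs_nonneg _) (le_max_right _ _)), add_mul, ENNReal.ofReal_mul (abs_nonneg _),
      ENNReal.ofReal_mul (abs_nonneg _), mul_assoc, mul_assoc, ← h1, ← h2]
    calc ENNReal.ofReal |deriv u t * w t + u t * deriv w t|
        ≤ ENNReal.ofReal (|deriv u t| * |w t| + |u t| * |deriv w t|) := by
          apply ENNReal.ofReal_le_ofReal
          calc |deriv u t * w t + u t * deriv w t| ≤ |deriv u t * w t| + |u t * deriv w t| :=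
                abs_add_le _ _
            _ = _ := by rw [abs_mul, abs_mul]
      _ = ENNReal.ofReal |u t| * ENNReal.ofReal |deriv w t| +
          ENNReal.ofReal |w t| * ENNReal.ofReal |deriv u t| := by
          rw [ENNReal.ofReal_add (by positivity) (by positivity),
            ENNReal.ofReal_mul (abs_nonneg _), ENNReal.ofReal_mul (abs_nonneg _), add_comm,
            mul_comm (ENNReal.ofReal |deriv u t|)]
      _ ≤ _ := by
          gcongr
          · exact h4.trans (by gcongr; exact le_max_left _ _)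
          · exact h3.trans (by gcongr; exact le_max_left _ _)

theorem ac_comp₂ {u v : ℝ → ℝ} {Φ : ℝ → ℝ → ℝ}
    (hΦ : ∀ a b c d, |Φ a b - Φ c d| ≤ |a - c| + |b - d|)
    (hu : AbsolutelyContinuousOnInterval u 0 1) (hv : AbsolutelyContinuousOnInterval v 0 1) :
    AbsolutelyContinuousOnInterval (fun t => Φ (u t) (v t)) 0 1 := by
  unfold AbsolutelyContinuousOnInterval at hu hv ⊢
  have h1 := hu.add hv
  rw [add_zero] at h1
  refine squeeze_zero' (Eventually.of_forall fun E => Finset.sum_nonneg fun _ _ => dist_nonneg)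
    (Eventually.of_forall fun E => ?_) h1
  rw [← Finset.sum_add_distrib]
  refine Finset.sum_le_sum fun i _ => ?_
  rw [Real.dist_eq, Real.dist_eq, Real.dist_eq]
  exact hΦ _ _ _ _

theorem CurveUG.comp₂ {f g D D' : X → ℝ} {γ : UCurve X} (h : CurveUG f D γ) (h' : CurveUG g D' γ)
    {Φ : ℝ → ℝ → ℝ} (hΦ : ∀ a b c d, |Φ a b - Φ c d| ≤ |a - c| + |b - d|) :
    CurveUG (fun x => Φ (f x) (g x)) (fun x => max (D x) 0 + max (D' x) 0) γ := by
  obtain ⟨u, hu1, hu2, hu3, hu4, hu5⟩ := h
  obtain ⟨w, hw1, hw2, hw3, hw4, hw5⟩ := h'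
  refine ⟨fun t => Φ (u t) (w t), ac_comp₂ hΦ hu1 hw1, by simp only [hu2, hw2],
    by simp only [hu3, hw3], ?_, ?_⟩
  · filter_upwards [hu4, hw4] with t h1 h2
    rw [h1, h2]
  · filter_upwards [hu5, hw5, ac_ae_differentiableAt hu1, ac_ae_differentiableAt hw1]
      with t h3 h4 h5 h6
    have hle : |deriv (fun t => Φ (u t) (w t)) t| ≤ |deriv u t| + |deriv w t| := by
      by_cases hd : DifferentiableAt ℝ (fun t => Φ (u t) (w t)) t
      · have h7 : Tendsto (fun y => |slope (fun t => Φ (u t) (w t)) t y|) (𝓝[≠] t)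
            (𝓝 |deriv (fun t => Φ (u t) (w t)) t|) :=
          (hasDerivAt_iff_tendsto_slope.1 hd.hasDerivAt).abs
        have h8 : Tendsto (fun y => |slope u t y| + |slope w t y|) (𝓝[≠] t)
            (𝓝 (|deriv u t| + |deriv w t|)) :=
          ((hasDerivAt_iff_tendsto_slope.1 h5.hasDerivAt).abs).add
            ((hasDerivAt_iff_tendsto_slope.1 h6.hasDerivAt).abs)
        refine le_of_tendsto_of_tendsto' h7 h8 fun y => ?_
        rw [slope_def_field, slope_def_field, slope_def_field, abs_div, abs_div, abs_div,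
          ← add_div]
        exact div_le_div_of_nonneg_right (hΦ _ _ _ _) (abs_nonneg _)
      · rw [deriv_zero_of_not_differentiableAt hd, abs_zero]; positivity
    rw [ENNReal.ofReal_add (le_max_right _ _) (le_max_right _ _), add_mul]
    calc ENNReal.ofReal |deriv (fun t => Φ (u t) (w t)) t|
        ≤ ENNReal.ofReal (|deriv u t| + |deriv w t|) := ENNReal.ofReal_le_ofReal hle
      _ = ENNReal.ofReal |deriv u t| + ENNReal.ofReal |deriv w t| :=
          ENNReal.ofReal_add (abs_nonneg _) (abs_nonneg _)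
      _ ≤ _ := by
          refine add_le_add (h3.trans ?_) (h4.trans ?_)
          · gcongr; exact le_max_left _ _
          · gcongr; exact le_max_left _ _

/-- the derivative vanishes where the value lies in a countable set: `D` may be put to zero there. -/
theorem CurveUG.zero_on {f D D' : X → ℝ} {γ : UCurve X} (h : CurveUG f D γ) {N : Set ℝ}
    (hN : N.Countable) (h' : ∀ x, f x ∉ N → D' x = D x) : CurveUG f D' γ := by
  obtain ⟨u, hu1, hu2, hu3, hu4, hu5⟩ := h
  refine ⟨u, hu1, hu2, hu3, hu4, ?_⟩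
  filter_upwards [hu4, hu5, ae_restrict_of_ae (ae_deriv_eq_zero_of_mem_countable u hN)]
    with t h4 h5 h0
  by_cases hu : u t ∈ N
  · rw [h0 hu]; simp
  · rw [h' _ (by rw [← h4]; exact hu)]; exact h5

end OneCurve

/-! ### chain rule -/

section Chain

variable {X : Type*} [MetricSpace X] [ProperSpace X] [MeasurableSpace X] [BorelSpace X]
variable {m : Measure X}

theorem isL2OnBalls_of_le_mul {f g : X → ℝ} (hg : IsL2OnBalls m g)
    (hf : ∀ (o : X) (R : ℝ), AEStronglyMeasurable f (m.restrict (Metric.ball o R)))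
    (h : ∀ (o : X) (R : ℝ), ∃ c : ℝ, ∀ᵐ x ∂(m.restrict (Metric.ball o R)), |f x| ≤ c * |g x|) :
    IsL2OnBalls m f := by
  intro o R
  obtain ⟨c, hc⟩ := h o R
  exact (hg o R).of_le_mul (hf o R) hc

/-- The chain rule in its general form: `φ` locally Lipschitz, differentiable outside a countable
set, provided the functions that occur are locally square integrable. -/
theorem isWUGLoc_comp (hfin : IsFiniteOnBalls m) {f D : X → ℝ} (hf : IsL2OnBalls m f)
    (hD : IsWUGLoc m f D) {φ : ℝ → ℝ} (hφ : LipLine φ)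
    {N : Set ℝ} (hN : N.Countable) (hd : ∀ t ∉ N, DifferentiableAt ℝ φ t)
    (h1 : IsL2OnBalls m (fun x => φ (f x))) (h2 : IsL2OnBalls m (fun x => |deriv φ (f x)| * D x)) :
    IsWUGLoc m (fun x => φ (f x)) (fun x => |deriv φ (f x)| * D x) := by
  rw [isWUGLoc_iff_curveUG hfin hf] at hD
  rw [isWUGLoc_iff_curveUG hfin h1]
  refine ⟨h2, ?_, ?_⟩
  · filter_upwards [hD.2.1] with x hx
    positivity
  · intro P hP hPb
    filter_upwards [hD.2.2 P hP hPb] with γ hγ
    exact hγ.comp hφ hN hd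

theorem minWeakGrad_ae_zero_of_mem_countable (hfin : IsFiniteOnBalls m) {f : X → ℝ}
    (hf : IsSobolevLoc m f) {N : Set ℝ} (hN : N.Countable) :
    ∀ᵐ x ∂m, f x ∈ N → minWeakGrad m f x = 0 := by
  classical
  have hW := (IsSobolevLoc.isWUG hf)
  have hfm : ∀ (o : X) (R : ℝ), AEMeasurable f (m.restrict (Metric.ball o R)) :=
    fun o R => (hf.1 o R).aestronglyMeasurable.aemeasurable
  set D' : X → ℝ := fun x => if f x ∈ N then 0 else minWeakGrad m f x with hD'
  have hL2 : IsL2OnBalls m D' := by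
    refine isL2OnBalls_of_le_mul hW.1 ?_ (fun o R => ⟨1, ?_⟩)
    · intro o R
      have hmeas : NullMeasurableSet {x | f x ∈ N} (m.restrict (Metric.ball o R)) :=
        (hfm o R).nullMeasurable hN.measurableSet
      have h1 : AEStronglyMeasurable (fun x => minWeakGrad m f x)
        (m.restrict (Metric.ball o R)) := (hW.1 o R).aestronglyMeasurable
      have h2 : D' = {x | f x ∈ N}ᶜ.indicator (fun x => minWeakGrad m f x) := by
        ext x
        by_cases hx : f x ∈ N
        · simp [hD', hx]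
        · simp [hD', hx]
      rw [h2]
      exact (aestronglyMeasurable_indicator_iff₀ hmeas.compl).2 h1.restrict
    · refine Eventually.of_forall fun x => ?_
      simp only [hD', one_mul]
      split_ifs
      · simp
      · exact le_rfl
  have hWUG : IsWUGLoc m f D' := by
    have h0 := (isWUGLoc_iff_curveUG hfin hf.1).1 hW
    refine (isWUGLoc_iff_curveUG hfin hf.1).2 ⟨hL2, ?_, ?_⟩
    · filter_upwards [h0.2.1] with x hx
      simp only [hD']
      split_ifs
      · exact le_rfl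
      · exact hx
    · intro P hP hPb
      filter_upwards [h0.2.2 P hP hPb] with γ hγ
      exact hγ.zero_on hN (fun x hx => by simp [hD', hx])
  filter_upwards [minWeakGrad_le_of_isWUGLoc hfin hf.1 hWUG, minWeakGrad_nonneg (m := m) f]
    with x h1 h2 hx
  simp only [hD', hx, if_true] at h1
  exact le_antisymm h1 h2

theorem minWeakGrad_comp_general (hfin : IsFiniteOnBalls m) {f : X → ℝ} (hf : IsSobolevLoc m f)
    {φ : ℝ → ℝ} (hφ : LipLine φ)
    {N : Set ℝ} (hN : N.Countable) (hd : ∀ t ∉ N, DifferentiableAt ℝ φ t)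
    (h1 : IsL2OnBalls m (fun x => φ (f x)))
    (h2 : IsL2OnBalls m (fun x => |deriv φ (f x)| * minWeakGrad m f x)) :
    IsSobolevLoc m (fun x => φ (f x)) ∧
    ∀ᵐ x ∂m, minWeakGrad m (fun y => φ (f y)) x = |deriv φ (f x)| * minWeakGrad m f x := by
  classical
  have hW := (IsSobolevLoc.isWUG hf)
  have hWc := isWUGLoc_comp hfin hf.1 hW hφ hN hd h1 h2
  have hS : IsSobolevLoc m (fun x => φ (f x)) := (isSobolevLoc_iff hfin).2 ⟨h1, _, hWc⟩
  refine ⟨hS, ?_⟩
  have hWφ := (IsSobolevLoc.isWUG hS)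
  set D := minWeakGrad m f with hDdef
  set Dφ := minWeakGrad m (fun y => φ (f y)) with hDφ
  set D'' : X → ℝ := fun x => if f x ∉ N ∧ deriv φ (f x) ≠ 0 then
    min (D x) (Dφ x / |deriv φ (f x)|) else D x with hD''
  have hfm : ∀ (o : X) (R : ℝ), AEMeasurable f (m.restrict (Metric.ball o R)) :=
    fun o R => (hf.1 o R).aestronglyMeasurable.aemeasurable
  have hL2 : IsL2OnBalls m D'' := by
    refine isL2OnBalls_of_le_mul hW.1 ?_ (fun o R => ⟨1, ?_⟩)
    · intro o R
      have hmeas : NullMeasurableSet {x | f x ∉ N ∧ deriv φ (f x) ≠ 0}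
          (m.restrict (Metric.ball o R)) := by
        have : MeasurableSet {t : ℝ | t ∉ N ∧ deriv φ t ≠ 0} :=
          hN.measurableSet.compl.inter
            ((measurable_deriv φ) (measurableSet_singleton (0 : ℝ)).compl)
        exact (hfm o R).nullMeasurable this
      have hm1 : AEMeasurable D (m.restrict (Metric.ball o R)) :=
        (hW.1 o R).aestronglyMeasurable.aemeasurable
      have hm2 : AEMeasurable Dφ (m.restrict (Metric.ball o R)) :=
        (hWφ.1 o R).aestronglyMeasurable.aemeasurable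
      have hm3 : AEMeasurable (fun x => |deriv φ (f x)|) (m.restrict (Metric.ball o R)) :=
        ((measurable_deriv φ).comp_aemeasurable (hfm o R)).abs
      have hm4 : AEMeasurable (fun x => min (D x) (Dφ x / |deriv φ (f x)|))
          (m.restrict (Metric.ball o R)) := hm1.min (hm2.div hm3)
      have : D'' = {x | f x ∉ N ∧ deriv φ (f x) ≠ 0}.indicator
          (fun x => min (D x) (Dφ x / |deriv φ (f x)|)) +
          {x | f x ∉ N ∧ deriv φ (f x) ≠ 0}ᶜ.indicator D := by
        ext x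
        by_cases hx : f x ∉ N ∧ deriv φ (f x) ≠ 0
        · have hx' : x ∈ {x | f x ∉ N ∧ deriv φ (f x) ≠ 0} := hx
          rw [hD'']
          simp only [if_pos hx, Pi.add_apply, Set.indicator_of_mem hx',
            Set.indicator_of_notMem (fun h : x ∈ {x | f x ∉ N ∧ deriv φ (f x) ≠ 0}ᶜ => h hx'),
            add_zero]
        · have hx' : x ∈ {x | f x ∉ N ∧ deriv φ (f x) ≠ 0}ᶜ := hx
          rw [hD'']
          simp only [if_neg hx, Pi.add_apply, Set.indicator_of_mem hx',
            Set.indicator_of_notMem (show x ∉ {x | f x ∉ N ∧ deriv φ (f x) ≠ 0} from hx),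
            zero_add]
      rw [this]
      refine AEStronglyMeasurable.add ?_ ?_
      · exact (aestronglyMeasurable_indicator_iff₀ hmeas).2 hm4.aestronglyMeasurable.restrict
      · exact (aestronglyMeasurable_indicator_iff₀ hmeas.compl).2
          hm1.aestronglyMeasurable.restrict
    · have hn1 : ∀ᵐ x ∂(m.restrict (Metric.ball o R)), 0 ≤ D x := ae_restrict_of_ae hW.2.1
      have hn2 : ∀ᵐ x ∂(m.restrict (Metric.ball o R)), 0 ≤ Dφ x := ae_restrict_of_ae hWφ.2.1
      filter_upwards [hn1, hn2] with x hx1 hx2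
      simp only [hD'', one_mul]
      split_ifs with hx
      · rw [abs_of_nonneg hx1, abs_of_nonneg (le_min hx1 (by positivity))]
        exact min_le_left _ _
      · exact le_rfl
  have hWUG : IsWUGLoc m f D'' := by
    have h0 := (isWUGLoc_iff_curveUG hfin hf.1).1 hW
    have h0' := (isWUGLoc_iff_curveUG hfin h1).1 hWφ
    refine (isWUGLoc_iff_curveUG hfin hf.1).2 ⟨hL2, ?_, ?_⟩
    · filter_upwards [h0.2.1, h0'.2.1] with x hx hx'
      simp only [hD'']
      split_ifs
      · exact le_min hx (by positivity)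
      · exact hx
    · intro P hP hPb
      filter_upwards [h0.2.2 P hP hPb, h0'.2.2 P hP hPb] with γ hγ hγ'
      refine hγ.of_comp hφ hN hd hγ' (fun x hx1 hx2 => ?_) (fun x hx1 hx2 => ?_)
      · simp only [hD'', hx1, hx2, not_false_eq_true, ne_eq, and_self, if_true]
      · simp only [hD'', hx1, hx2, not_false_eq_true, ne_eq, not_true_eq_false, and_false,
          if_false]
  filter_upwards [minWeakGrad_le_of_isWUGLoc hfin hf.1 hWUG,
    minWeakGrad_le_of_isWUGLoc hfin h1 hWc, minWeakGrad_ae_zero_of_mem_countable hfin hf hN,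
    hWφ.2.1] with x hx1 hx2 hx3 hx4
  refine le_antisymm hx2 ?_
  by_cases hxN : f x ∈ N
  · rw [hDdef, hx3 hxN, mul_zero]; exact hx4
  · by_cases h0 : deriv φ (f x) = 0
    · rw [h0, abs_zero, zero_mul]; exact hx4
    · have hle : D x ≤ D'' x := hx1
      rw [hD''] at hle
      simp only [hxN, h0, not_false_eq_true, ne_eq, and_self, if_true] at hle
      have hle' := hle.trans (min_le_right _ _)
      rw [le_div_iff₀ (abs_pos.2 h0)] at hle'
      rw [mul_comm]; exact hle'

theorem isL2OnBalls_const (hfin : IsFiniteOnBalls m) (c : ℝ) :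
    IsL2OnBalls m (fun _ => c) := by
  intro o R
  have : IsFiniteMeasure (m.restrict (Metric.ball o R)) :=
    ⟨by rw [Measure.restrict_apply_univ]; exact hfin o R⟩
  exact memLp_const c

theorem isL2OnBalls_add {f g : X → ℝ} (hf : IsL2OnBalls m f) (hg : IsL2OnBalls m g) :
    IsL2OnBalls m (fun x => f x + g x) := fun o R => (hf o R).add (hg o R)

theorem isL2OnBalls_comp_lipschitz (hfin : IsFiniteOnBalls m) {f : X → ℝ} (hf : IsL2OnBalls m f)
    {φ : ℝ → ℝ} {L : ℝ≥0} (hφ : LipschitzWith L φ) : IsL2OnBalls m (fun x => φ (f x)) := by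
  have h1 : IsL2OnBalls m (fun x => |φ 0| + L * |f x|) := by
    refine isL2OnBalls_add (isL2OnBalls_const hfin _) ?_
    intro o R
    exact (hf o R).abs.const_mul _
  refine isL2OnBalls_of_le_mul h1 (fun o R => ?_) (fun o R => ⟨1, Eventually.of_forall fun x => ?_⟩)
  · exact hφ.continuous.comp_aestronglyMeasurable (hf o R).aestronglyMeasurable
  · rw [one_mul, abs_of_nonneg (a := |φ 0| + L * |f x|) (by positivity)]
    have h2 := hφ.dist_le_mul (f x) 0
    rw [Real.dist_eq, Real.dist_eq, sub_zero] at h2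
    calc |φ (f x)| = |φ 0 + (φ (f x) - φ 0)| := by ring_nf
      _ ≤ |φ 0| + |φ (f x) - φ 0| := abs_add_le _ _
      _ ≤ _ := by linarith

theorem abs_deriv_le_of_lipschitz {φ : ℝ → ℝ} {L : ℝ≥0} (hφ : LipschitzWith L φ) (t : ℝ) :
    |deriv φ t| ≤ L := by
  have h := norm_deriv_le_of_lipschitz (x₀ := t) hφ
  rwa [Real.norm_eq_abs] at h

/-- a Lipschitz function on the line composed with a local Sobolev function: upper bound. Here no
differentiability is needed. -/
theorem CurveUG.comp_lipschitz {X : Type*} [MetricSpace X] {f D : X → ℝ} {γ : UCurve X}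
    (h : CurveUG f D γ) {φ : ℝ → ℝ} {L : ℝ≥0} (hφ : LipschitzWith L φ) :
    CurveUG (fun x => φ (f x)) (fun x => L * D x) γ := by
  obtain ⟨u, h1, h2, h3, h4, h5⟩ := h
  refine ⟨fun t => φ (u t), (LipLine.of_lipschitz hφ).ac_comp h1, by simp only [h2],
    by simp only [h3], ?_, ?_⟩
  · filter_upwards [h4] with t ht
    rw [ht]
  · filter_upwards [h5, ac_ae_differentiableAt h1] with t ht5 htd
    rw [ENNReal.ofReal_mul (NNReal.coe_nonneg L), mul_assoc]
    have hle : |deriv (fun t => φ (u t)) t| ≤ L * |deriv u t| := by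
      by_cases hd : DifferentiableAt ℝ (fun t => φ (u t)) t
      · have h6 : Tendsto (fun y => |slope (fun t => φ (u t)) t y|) (𝓝[≠] t)
            (𝓝 |deriv (fun t => φ (u t)) t|) := (hasDerivAt_iff_tendsto_slope.1 hd.hasDerivAt).abs
        have h7 : Tendsto (fun y => L * |slope u t y|) (𝓝[≠] t) (𝓝 (L * |deriv u t|)) :=
          ((hasDerivAt_iff_tendsto_slope.1 htd.hasDerivAt).abs).const_mul _
        refine le_of_tendsto_of_tendsto' h6 h7 fun y => ?_
        rw [slope_def_field, slope_def_field, abs_div, abs_div, ← mul_div_assoc]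
        refine div_le_div_of_nonneg_right ?_ (abs_nonneg _)
        have := hφ.dist_le_mul (u y) (u t)
        rwa [Real.dist_eq, Real.dist_eq] at this
      · rw [deriv_zero_of_not_differentiableAt hd, abs_zero]; positivity
    calc ENNReal.ofReal |deriv (fun t => φ (u t)) t| ≤ ENNReal.ofReal (L * |deriv u t|) :=
          ENNReal.ofReal_le_ofReal hle
      _ = ENNReal.ofReal L * ENNReal.ofReal |deriv u t| := ENNReal.ofReal_mul (NNReal.coe_nonneg L)
      _ ≤ _ := by gcongr

theorem IsSobolevLoc.comp_lipschitz_aux (hfin : IsFiniteOnBalls m) {f : X → ℝ}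
    (hf : IsSobolevLoc m f) {φ : ℝ → ℝ} {L : ℝ≥0} (hφ : LipschitzWith L φ) :
    IsSobolevLoc m (fun x => φ (f x)) ∧
      ∀ᵐ x ∂m, minWeakGrad m (fun y => φ (f y)) x ≤ L * minWeakGrad m f x := by
  have h1 := isL2OnBalls_comp_lipschitz hfin hf.1 hφ
  have hW := (IsSobolevLoc.isWUG hf)
  have h0 := (isWUGLoc_iff_curveUG hfin hf.1).1 hW
  have hWφ : IsWUGLoc m (fun x => φ (f x)) (fun x => L * minWeakGrad m f x) := by
    refine (isWUGLoc_iff_curveUG hfin h1).2 ⟨fun o R => (h0.1 o R).const_mul _, ?_, ?_⟩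
    · filter_upwards [h0.2.1] with x hx
      positivity
    · intro P hP hPb
      filter_upwards [h0.2.2 P hP hPb] with γ hγ
      exact hγ.comp_lipschitz hφ
  exact ⟨(isSobolevLoc_iff hfin).2 ⟨h1, _, hWφ⟩, minWeakGrad_le_of_isWUGLoc hfin h1 hWφ⟩

theorem IsSobolevLoc.comp_lipschitz (hfin : IsFiniteOnBalls m) {f : X → ℝ}
    (hf : IsSobolevLoc m f) {φ : ℝ → ℝ} {L : ℝ≥0} (hφ : LipschitzWith L φ) :
    IsSobolevLoc m (fun x => φ (f x)) := (IsSobolevLoc.comp_lipschitz_aux hfin hf hφ).1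


/-- chain rule for a Lipschitz `φ` differentiable outside a countable set -/
theorem minWeakGrad_comp (hfin : IsFiniteOnBalls m) {f : X → ℝ}
    (hf : IsSobolevLoc m f) {φ ψ : ℝ → ℝ} {L : ℝ≥0} (hφ : LipschitzWith L φ)
    {N : Set ℝ} (hN : N.Countable) (hd : ∀ t ∉ N, HasDerivAt φ (ψ t) t) :
    ∀ᵐ x ∂m, minWeakGrad m (fun y => φ (f y)) x = |ψ (f x)| * minWeakGrad m f x := by
  have h2 : IsL2OnBalls m (fun x => |deriv φ (f x)| * minWeakGrad m f x) := by
    refine isL2OnBalls_of_le_mul (IsSobolevLoc.isWUG hf).1 (fun o R => ?_)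
      (fun o R => ⟨L, Eventually.of_forall fun x => ?_⟩)
    · exact (((measurable_deriv φ).comp_aemeasurable
        (hf.1 o R).aestronglyMeasurable.aemeasurable).abs.aestronglyMeasurable).mul
        ((IsSobolevLoc.isWUG hf).1 o R).aestronglyMeasurable
    · rw [abs_mul, abs_abs]
      exact mul_le_mul_of_nonneg_right (abs_deriv_le_of_lipschitz hφ _) (abs_nonneg _)
  filter_upwards [(minWeakGrad_comp_general hfin hf (LipLine.of_lipschitz hφ) hN
    (fun t ht => (hd t ht).differentiableAt) (isL2OnBalls_comp_lipschitz hfin hf.1 hφ) h2).2,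
    minWeakGrad_ae_zero_of_mem_countable hfin hf hN] with x hx h0
  rw [hx]
  by_cases hxN : f x ∈ N
  · rw [h0 hxN, mul_zero, mul_zero]
  · rw [(hd _ hxN).deriv]

theorem isL2OnBalls_of_locBdd (hfin : IsFiniteOnBalls m) {f : X → ℝ}
    (hm : ∀ (o : X) (R : ℝ), AEStronglyMeasurable f (m.restrict (Metric.ball o R)))
    (hb : LocBdd m f) : IsL2OnBalls m f := by
  refine isL2OnBalls_of_le_mul (isL2OnBalls_const hfin 1) hm (fun o R => ?_)
  obtain ⟨B, hB⟩ := hb o R
  exact ⟨B, by filter_upwards [hB] with x hx; simpa using hx⟩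

theorem LocBdd.comp_continuous {f : X → ℝ} (hb : LocBdd m f) {φ : ℝ → ℝ} (hφ : Continuous φ) :
    LocBdd m (fun x => φ (f x)) := by
  intro o R
  obtain ⟨B, hB⟩ := hb o R
  obtain ⟨C, hC⟩ := (isCompact_Icc (a := -B) (b := B)).exists_bound_of_continuousOn
    (f := φ) hφ.continuousOn
  refine ⟨C, ?_⟩
  filter_upwards [hB] with x hx
  have := hC (f x) (abs_le.1 hx)
  rwa [Real.norm_eq_abs] at this

theorem comp_contDiff_aux (hfin : IsFiniteOnBalls m) {f : X → ℝ}
    (hf : IsSobolevLoc m f) (hb : LocBdd m f) {φ : ℝ → ℝ} (hφ : ContDiff ℝ 1 φ) :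
    IsSobolevLoc m (fun x => φ (f x)) ∧
    ∀ᵐ x ∂m, minWeakGrad m (fun y => φ (f y)) x = |deriv φ (f x)| * minWeakGrad m f x := by
  have hcd : Continuous (deriv φ) := hφ.continuous_deriv le_rfl
  have h1 : IsL2OnBalls m (fun x => φ (f x)) :=
    isL2OnBalls_of_locBdd hfin
      (fun o R => hφ.continuous.comp_aestronglyMeasurable (hf.1 o R).aestronglyMeasurable)
      (hb.comp_continuous hφ.continuous)
  have h2 : IsL2OnBalls m (fun x => |deriv φ (f x)| * minWeakGrad m f x) := by
    refine isL2OnBalls_of_le_mul (IsSobolevLoc.isWUG hf).1 (fun o R => ?_) (fun o R => ?_)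
    · exact (hcd.abs.comp_aestronglyMeasurable (hf.1 o R).aestronglyMeasurable).mul
        ((IsSobolevLoc.isWUG hf).1 o R).aestronglyMeasurable
    · obtain ⟨B, hB⟩ := hb.comp_continuous hcd o R
      refine ⟨B, ?_⟩
      filter_upwards [hB] with x hx
      rw [abs_mul, abs_abs]
      exact mul_le_mul_of_nonneg_right hx (abs_nonneg _)
  exact minWeakGrad_comp_general hfin hf (LipLine.of_contDiff hφ) countable_empty
    (fun t _ => hφ.differentiable one_ne_zero t) h1 h2

/-- chain rule for a `C¹` function of a locally bounded local Sobolev function -/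
theorem IsSobolevLoc.comp_contDiff (hfin : IsFiniteOnBalls m) {f : X → ℝ}
    (hf : IsSobolevLoc m f) (hb : LocBdd m f) {φ : ℝ → ℝ} (hφ : ContDiff ℝ 1 φ) :
    IsSobolevLoc m (fun x => φ (f x)) := (comp_contDiff_aux hfin hf hb hφ).1


/-! ### S6: Leibniz rule -/

/-- general form: only the products need to be locally square integrable -/
theorem IsSobolevLoc.mul_of_isL2OnBalls (hfin : IsFiniteOnBalls m) {f g : X → ℝ}
    (hf : IsSobolevLoc m f) (hg : IsSobolevLoc m g) (hfg : IsL2OnBalls m (fun x => f x * g x))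
    (hD : IsL2OnBalls m (fun x => |f x| * minWeakGrad m g x + |g x| * minWeakGrad m f x)) :
    IsSobolevLoc m (fun x => f x * g x) ∧
      ∀ᵐ x ∂m, minWeakGrad m (fun y => f y * g y) x ≤
        |f x| * minWeakGrad m g x + |g x| * minWeakGrad m f x := by
  have h0f := (isWUGLoc_iff_curveUG hfin hf.1).1 (IsSobolevLoc.isWUG hf)
  have h0g := (isWUGLoc_iff_curveUG hfin hg.1).1 (IsSobolevLoc.isWUG hg)
  have hae : (fun x => |f x| * minWeakGrad m g x + |g x| * minWeakGrad m f x) =ᵐ[m]
      (fun x => |f x| * max (minWeakGrad m g x) 0 + |g x| * max (minWeakGrad m f x) 0) := by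
    filter_upwards [h0f.2.1, h0g.2.1] with x h1 h2
    rw [max_eq_left h1, max_eq_left h2]
  have hW : IsWUGLoc m (fun x => f x * g x)
      (fun x => |f x| * max (minWeakGrad m g x) 0 + |g x| * max (minWeakGrad m f x) 0) := by
    refine (isWUGLoc_iff_curveUG hfin hfg).2 ⟨?_, ?_, ?_⟩
    · intro o R
      exact (memLp_congr_ae (ae_restrict_of_ae hae)).1 (hD o R)
    · exact Eventually.of_forall fun x => by positivity
    · intro P hP hPb
      filter_upwards [h0f.2.2 P hP hPb, h0g.2.2 P hP hPb] with γ h1 h2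
      exact h1.mul h2
  refine ⟨(isSobolevLoc_iff hfin).2 ⟨hfg, _, hW⟩, ?_⟩
  filter_upwards [minWeakGrad_le_of_isWUGLoc hfin hfg hW, hae] with x h1 h2
  rw [h2]; exact h1

theorem mul_locBdd_aux (hfin : IsFiniteOnBalls m) {f g : X → ℝ} (hf : IsSobolevLoc m f)
    (hg : IsSobolevLoc m g) (hfb : LocBdd m f)
    (hgb : ∀ (o : X) (R : ℝ), ∃ B : ℝ, ∀ᵐ x ∂(m.restrict (Metric.ball o R)), |g x| ≤ B) :
    IsSobolevLoc m (fun x => f x * g x) ∧
      ∀ᵐ x ∂m, minWeakGrad m (fun y => f y * g y) x ≤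
        |f x| * minWeakGrad m g x + |g x| * minWeakGrad m f x := by
  refine IsSobolevLoc.mul_of_isL2OnBalls hfin hf hg ?_ ?_
  · refine isL2OnBalls_of_le_mul hg.1 (fun o R => (hf.1 o R).aestronglyMeasurable.mul
      (hg.1 o R).aestronglyMeasurable) (fun o R => ?_)
    obtain ⟨B, hB⟩ := hfb o R
    refine ⟨B, ?_⟩
    filter_upwards [hB] with x hx
    rw [abs_mul]
    exact mul_le_mul_of_nonneg_right hx (abs_nonneg _)
  · refine isL2OnBalls_add ?_ ?_
    · refine isL2OnBalls_of_le_mul (IsSobolevLoc.isWUG hg).1 (fun o R =>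
        (hf.1 o R).aestronglyMeasurable.aemeasurable.abs.aestronglyMeasurable.mul
        ((IsSobolevLoc.isWUG hg).1 o R).aestronglyMeasurable) (fun o R => ?_)
      obtain ⟨B, hB⟩ := hfb o R
      refine ⟨B, ?_⟩
      filter_upwards [hB] with x hx
      rw [abs_mul, abs_abs]
      exact mul_le_mul_of_nonneg_right hx (abs_nonneg _)
    · refine isL2OnBalls_of_le_mul (IsSobolevLoc.isWUG hf).1 (fun o R =>
        (hg.1 o R).aestronglyMeasurable.aemeasurable.abs.aestronglyMeasurable.mul
        ((IsSobolevLoc.isWUG hf).1 o R).aestronglyMeasurable) (fun o R => ?_)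
      obtain ⟨B, hB⟩ := hgb o R
      refine ⟨B, ?_⟩
      filter_upwards [hB] with x hx
      rw [abs_mul, abs_abs]
      exact mul_le_mul_of_nonneg_right hx (abs_nonneg _)

theorem IsSobolevLoc.mul (hfin : IsFiniteOnBalls m) {f g : X → ℝ} (hf : IsSobolevLoc m f)
    (hg : IsSobolevLoc m g) (hfb : LocBdd m f) (hgb : LocBdd m g) :
    IsSobolevLoc m (fun x => f x * g x) := (mul_locBdd_aux hfin hf hg hfb hgb).1


/-! ### functions of two Sobolev functions -/

theorem isSobolevLoc_comp₂ (hfin : IsFiniteOnBalls m) {f g : X → ℝ} (hf : IsSobolevLoc m f)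
    (hg : IsSobolevLoc m g) {Φ : ℝ → ℝ → ℝ}
    (hΦ : ∀ a b c d, |Φ a b - Φ c d| ≤ |a - c| + |b - d|) :
    IsSobolevLoc m (fun x => Φ (f x) (g x)) ∧
      ∀ᵐ x ∂m, minWeakGrad m (fun y => Φ (f y) (g y)) x ≤
        minWeakGrad m f x + minWeakGrad m g x := by
  have h0f := (isWUGLoc_iff_curveUG hfin hf.1).1 (IsSobolevLoc.isWUG hf)
  have h0g := (isWUGLoc_iff_curveUG hfin hg.1).1 (IsSobolevLoc.isWUG hg)
  have hcont : Continuous (fun p : ℝ × ℝ => Φ p.1 p.2) := by
    refine (LipschitzWith.of_dist_le_mul (K := 2) fun p q => ?_).continuous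
    rw [Real.dist_eq, Prod.dist_eq, Real.dist_eq, Real.dist_eq]
    refine (hΦ _ _ _ _).trans ?_
    have h1 := le_max_left |p.1 - q.1| |p.2 - q.2|
    have h2 := le_max_right |p.1 - q.1| |p.2 - q.2|
    push_cast
    linarith
  have hL2 : IsL2OnBalls m (fun x => Φ (f x) (g x)) := by
    have h1 : IsL2OnBalls m (fun x => |Φ 0 0| + (|f x| + |g x|)) :=
      isL2OnBalls_add (isL2OnBalls_const hfin _)
        (isL2OnBalls_add (fun o R => (hf.1 o R).abs) (fun o R => (hg.1 o R).abs))
    refine isL2OnBalls_of_le_mul h1 (fun o R => ?_)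
      (fun o R => ⟨1, Eventually.of_forall fun x => ?_⟩)
    · exact hcont.comp_aestronglyMeasurable
        ((hf.1 o R).aestronglyMeasurable.prodMk (hg.1 o R).aestronglyMeasurable)
    · rw [one_mul, abs_of_nonneg (a := |Φ 0 0| + (|f x| + |g x|)) (by positivity)]
      have h2 := hΦ (f x) (g x) 0 0
      rw [sub_zero, sub_zero] at h2
      calc |Φ (f x) (g x)| = |Φ 0 0 + (Φ (f x) (g x) - Φ 0 0)| := by ring_nf
        _ ≤ |Φ 0 0| + |Φ (f x) (g x) - Φ 0 0| := abs_add_le _ _
        _ ≤ _ := by linarith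
  have hae : (fun x => minWeakGrad m f x + minWeakGrad m g x) =ᵐ[m]
      (fun x => max (minWeakGrad m f x) 0 + max (minWeakGrad m g x) 0) := by
    filter_upwards [h0f.2.1, h0g.2.1] with x h1 h2
    rw [max_eq_left h1, max_eq_left h2]
  have hW : IsWUGLoc m (fun x => Φ (f x) (g x))
      (fun x => max (minWeakGrad m f x) 0 + max (minWeakGrad m g x) 0) := by
    refine (isWUGLoc_iff_curveUG hfin hL2).2 ⟨?_, ?_, ?_⟩
    · intro o R
      exact (memLp_congr_ae (ae_restrict_of_ae hae)).1 (isL2OnBalls_add h0f.1 h0g.1 o R)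
    · exact Eventually.of_forall fun x => by positivity
    · intro P hP hPb
      filter_upwards [h0f.2.2 P hP hPb, h0g.2.2 P hP hPb] with γ h1 h2
      exact h1.comp₂ h2 hΦ
  refine ⟨(isSobolevLoc_iff hfin).2 ⟨hL2, _, hW⟩, ?_⟩
  filter_upwards [minWeakGrad_le_of_isWUGLoc hfin hL2 hW, hae] with x h1 h2
  rw [h2]; exact h1

theorem abs_max_sub_max_le' (a b c d : ℝ) : |max a b - max c d| ≤ |a - c| + |b - d| :=
  (abs_max_sub_max_le_max a b c d).trans
    (max_le (le_add_of_nonneg_right (abs_nonneg _)) (le_add_of_nonneg_left (abs_nonneg _)))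

theorem abs_min_sub_min_le' (a b c d : ℝ) : |min a b - min c d| ≤ |a - c| + |b - d| :=
  (abs_min_sub_min_le_max a b c d).trans
    (max_le (le_add_of_nonneg_right (abs_nonneg _)) (le_add_of_nonneg_left (abs_nonneg _)))

/-- lattice operations -/
theorem IsSobolevLoc.max (hfin : IsFiniteOnBalls m) {f g : X → ℝ} (hf : IsSobolevLoc m f)
    (hg : IsSobolevLoc m g) : IsSobolevLoc m (fun x => max (f x) (g x)) :=
  (isSobolevLoc_comp₂ hfin hf hg (Φ := fun a b => Max.max a b) abs_max_sub_max_le').1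

theorem IsSobolevLoc.min (hfin : IsFiniteOnBalls m) {f g : X → ℝ} (hf : IsSobolevLoc m f)
    (hg : IsSobolevLoc m g) : IsSobolevLoc m (fun x => min (f x) (g x)) :=
  (isSobolevLoc_comp₂ hfin hf hg (Φ := fun a b => Min.min a b) abs_min_sub_min_le').1

end Chain

end Crest.Agent.R242
end

-- ▼ part R242/SobLip

/-!
Row 242, PART S7: Lipschitz functions, slopes, cut-offs, lattice operations.
-/

set_option autoImplicit false
set_option linter.unusedSectionVars false

open MeasureTheory Filter Set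
open Crest.GeometryTopology.SyntheticRicci
open scoped ENNReal NNReal Topology

namespace Crest.Agent.R242

section OneCurve

variable {X : Type*} [MetricSpace X]

/-- at a time of differentiability, the derivative of `f ∘ γ` is bounded by slope times speed. -/
theorem ofReal_abs_deriv_le_ascSlope {f : X → ℝ} {γ : UCurve X} {t : ℝ}
    (hd : DifferentiableAt ℝ (fun s => f (γ.ext s)) t)
    (hs : upperSpeed γ t ≠ ⊤) (ha : ascSlope f (γ.ext t) ≠ ⊤) :
    ENNReal.ofReal |deriv (fun s => f (γ.ext s)) t| ≤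
      ascSlope f (γ.ext t) * upperSpeed γ t := by
  set u : ℝ → ℝ := fun s => f (γ.ext s) with hu
  set a : ℝ := (ascSlope f (γ.ext t)).toReal with hadef
  set s : ℝ := (upperSpeed γ t).toReal with hsdef
  have ha0 : 0 ≤ a := ENNReal.toReal_nonneg
  have hs0 : 0 ≤ s := ENNReal.toReal_nonneg
  have hcont : Continuous γ.ext := cu_continuous_ext γ
  have key : ∀ ε : ℝ, 0 < ε → |deriv u t| ≤ (a + ε) * (s + ε) := by
    intro ε hε
    have h1 : ascSlope f (γ.ext t) < ENNReal.ofReal (a + ε) := by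
      rw [hadef, ENNReal.ofReal_add ENNReal.toReal_nonneg hε.le, ENNReal.ofReal_toReal ha]
      exact ENNReal.lt_add_right ha (by simpa using hε)
    have h2 : upperSpeed γ t < ENNReal.ofReal (s + ε) := by
      rw [hsdef, ENNReal.ofReal_add ENNReal.toReal_nonneg hε.le, ENNReal.ofReal_toReal hs]
      exact ENNReal.lt_add_right hs (by simpa using hε)
    have h3 : ∀ᶠ r in 𝓝 t, f (γ.ext r) - f (γ.ext t) ≤ (a + ε) * dist (γ.ext t) (γ.ext r) :=
      hcont.continuousAt.eventually (eventually_le_of_ascSlope_lt' h1)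
    have h4 : ∀ᶠ r in 𝓝[≠] t, dist (γ.ext r) (γ.ext t) ≤ (s + ε) * |r - t| := by
      have h5 := Filter.eventually_lt_of_limsup_lt (f := 𝓝[≠] t)
        (u := fun r : ℝ => ENNReal.ofReal (dist (γ.ext r) (γ.ext t) / |r - t|)) h2
      filter_upwards [h5, self_mem_nhdsWithin] with r hr hne
      have hpos : 0 < |r - t| := abs_pos.2 (sub_ne_zero.2 hne)
      have h6 := (ENNReal.ofReal_lt_ofReal_iff (by positivity)).1 hr
      rw [div_lt_iff₀ hpos] at h6
      exact h6.le
    have h5 : ∀ᶠ r in 𝓝[≠] t, u r - u t ≤ (a + ε) * (s + ε) * |r - t| := by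
      filter_upwards [h3.filter_mono nhdsWithin_le_nhds, h4] with r hr3 hr4
      calc u r - u t ≤ (a + ε) * dist (γ.ext t) (γ.ext r) := hr3
        _ ≤ (a + ε) * ((s + ε) * |r - t|) := by
            rw [dist_comm]; gcongr
        _ = _ := by ring
    have hslope := hasDerivAt_iff_tendsto_slope.1 hd.hasDerivAt
    rw [abs_le]
    constructor
    · have h6 : Tendsto (slope u t) (𝓝[<] t) (𝓝 (deriv u t)) :=
        hslope.mono_left (nhdsWithin_mono _ (fun y hy => ne_of_lt hy))
      refine ge_of_tendsto h6 ?_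
      filter_upwards [nhdsWithin_mono t (fun y (hy : y ∈ Iio t) => (ne_of_lt hy : y ≠ t)) h5,
        self_mem_nhdsWithin] with r hr hrt
      have hrt' : r < t := hrt
      rw [slope_def_field]
      rw [abs_of_neg (by linarith : r - t < 0)] at hr
      rw [le_div_iff_of_neg (by linarith)]
      linarith
    · have h6 : Tendsto (slope u t) (𝓝[>] t) (𝓝 (deriv u t)) :=
        hslope.mono_left (nhdsWithin_mono _ (fun y hy => ne_of_gt hy))
      refine le_of_tendsto h6 ?_
      filter_upwards [nhdsWithin_mono t (fun y (hy : y ∈ Ioi t) => (ne_of_gt hy : y ≠ t)) h5,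
        self_mem_nhdsWithin] with r hr hrt
      have hrt' : t < r := hrt
      rw [slope_def_field]
      rw [abs_of_pos (by linarith : 0 < r - t)] at hr
      rw [div_le_iff₀ (by linarith)]
      exact hr
  have hlim : |deriv u t| ≤ a * s := by
    have h1 : Tendsto (fun ε : ℝ => (a + ε) * (s + ε)) (𝓝[>] 0) (𝓝 ((a + 0) * (s + 0))) := by
      refine Tendsto.mono_left ?_ nhdsWithin_le_nhds
      exact ((continuous_const.add continuous_id).mul (continuous_const.add continuous_id)).tendsto 0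
    rw [add_zero, add_zero] at h1
    refine ge_of_tendsto h1 ?_
    filter_upwards [self_mem_nhdsWithin] with ε hε using key ε hε
  calc ENNReal.ofReal |deriv u t| ≤ ENNReal.ofReal (a * s) := ENNReal.ofReal_le_ofReal hlim
    _ = ascSlope f (γ.ext t) * upperSpeed γ t := by
      rw [ENNReal.ofReal_mul ha0, hadef, hsdef, ENNReal.ofReal_toReal ha, ENNReal.ofReal_toReal hs]

theorem upperSpeed_lt_top_ae {γ : UCurve X} (h : HasL2Speed γ) :
    ∀ᵐ t ∂(volume.restrict (Icc (0 : ℝ) 1)), upperSpeed γ t < ⊤ :=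
  ae_lt_top (measurable_upperSpeed_right γ) (lintegral_upperSpeed_lt_top h).ne

theorem ascSlope_le_of_lipschitzOnWith {f : X → ℝ} {U : Set X} (hU : IsOpen U) {L : ℝ≥0}
    (hL : LipschitzOnWith L f U) {x : X} (hx : x ∈ U) : ascSlope f x ≤ L := by
  have h := ascSlope_le_of_eventually (f := f) (x := x) (c := (L : ℝ)) (by
    filter_upwards [mem_nhdsWithin_of_mem_nhds (hU.mem_nhds hx)] with y hy
    have h1 := hL.dist_le_mul y hy x hx
    rw [Real.dist_eq, dist_comm] at h1
    exact (le_abs_self _).trans h1)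
  simpa using h

theorem LipOnBalls.continuous {f : X → ℝ} (hf : LipOnBalls f) : Continuous f := by
  rw [continuous_iff_continuousAt]
  intro x
  obtain ⟨L, hL⟩ := hf x 1
  exact hL.continuousOn.continuousAt (Metric.ball_mem_nhds x one_pos)

theorem LipOnBalls.ascSlope_ne_top {f : X → ℝ} (hf : LipOnBalls f) (x : X) :
    ascSlope f x ≠ ⊤ := by
  obtain ⟨L, hL⟩ := hf x 1
  exact ne_top_of_le_ne_top ENNReal.coe_ne_top
    (ascSlope_le_of_lipschitzOnWith Metric.isOpen_ball hL (Metric.mem_ball_self one_pos))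

theorem LipschitzWith.lipOnBalls {f : X → ℝ} {L : ℝ≥0} (hf : LipschitzWith L f) :
    LipOnBalls f := fun _ _ => ⟨L, hf.lipschitzOnWith⟩

theorem LipOnBalls.neg {f : X → ℝ} (hf : LipOnBalls f) : LipOnBalls (fun x => - f x) := by
  intro o R
  obtain ⟨L, hL⟩ := hf o R
  refine ⟨L, LipschitzOnWith.of_dist_le_mul fun x hx y hy => ?_⟩
  have := hL.dist_le_mul x hx y hy
  rwa [dist_neg_neg]

/-- `f ∘ γ` is absolutely continuous with derivative bounded by slope times speed. -/
theorem LipOnBalls.curveUG {f : X → ℝ} (hf : LipOnBalls f) {γ : UCurve X} (hγ : HasL2Speed γ) :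
    CurveUG f (fun x => (ascSlope f x).toReal) γ := by
  -- all points of the curve are in one ball
  have hcont : Continuous γ.ext := cu_continuous_ext γ
  obtain ⟨R, hR⟩ : ∃ R : ℝ, ∀ t ∈ Icc (0 : ℝ) 1, γ.ext t ∈ Metric.ball (γ.toMap 0) R := by
    have hcomp : IsCompact (γ.ext '' Icc (0 : ℝ) 1) := isCompact_Icc.image hcont
    obtain ⟨R, hR⟩ := hcomp.isBounded.subset_ball (γ.toMap 0)
    exact ⟨R, fun t ht => hR ⟨t, ht, rfl⟩⟩
  obtain ⟨L, hL⟩ := hf (γ.toMap 0) R
  have hb : ∀ a b : ℝ, 0 ≤ a → a ≤ b → b ≤ 1 →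
      ENNReal.ofReal |f (γ.ext b) - f (γ.ext a)| ≤
        ∫⁻ t in Icc a b, (L : ℝ≥0∞) * upperSpeed γ t := by
    intro a b ha hab hb
    have h1 := edist_le_lintegral_upperSpeed hγ ha hab hb
    have h2 := hL.dist_le_mul _ (hR b ⟨ha.trans hab, hb⟩) _ (hR a ⟨ha, hab.trans hb⟩)
    rw [Real.dist_eq] at h2
    rw [lintegral_const_mul _ (measurable_upperSpeed_right γ)]
    calc ENNReal.ofReal |f (γ.ext b) - f (γ.ext a)|
        ≤ ENNReal.ofReal (L * dist (γ.ext b) (γ.ext a)) := ENNReal.ofReal_le_ofReal h2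
      _ = (L : ℝ≥0∞) * edist (γ.ext a) (γ.ext b) := by
        rw [ENNReal.ofReal_mul (NNReal.coe_nonneg L), ENNReal.ofReal_coe_nnreal,
          edist_dist, dist_comm]
      _ ≤ _ := by gcongr
  have hfin : (∫⁻ t in Icc (0 : ℝ) 1, (L : ℝ≥0∞) * upperSpeed γ t) < ⊤ := by
    rw [lintegral_const_mul _ (measurable_upperSpeed_right γ)]
    exact ENNReal.mul_lt_top ENNReal.coe_lt_top (lintegral_upperSpeed_lt_top hγ)
  obtain ⟨hac, -⟩ := ac_and_deriv_of_bound (u := fun t => f (γ.ext t)) hfin hb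
  refine ⟨fun t => f (γ.ext t), hac, by simp only [ext_zero], by simp only [ext_one],
    Eventually.of_forall fun t => rfl, ?_⟩
  filter_upwards [ac_ae_differentiableAt hac, upperSpeed_lt_top_ae hγ] with t hd hs
  have ha := hf.ascSlope_ne_top (γ.ext t)
  rw [ENNReal.ofReal_toReal ha]
  exact ofReal_abs_deriv_le_ascSlope hd hs.ne ha

end OneCurve

section Lip

variable {X : Type*} [MetricSpace X] [ProperSpace X] [MeasurableSpace X] [BorelSpace X]
variable {m : Measure X}

theorem LipOnBalls.abs_le {f : X → ℝ} (hf : LipOnBalls f) (o : X) (R : ℝ) :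
    ∃ B : ℝ, ∀ x ∈ Metric.ball o R, |f x| ≤ B := by
  obtain ⟨C, hC⟩ := (isCompact_closedBall o R).exists_bound_of_continuousOn
    (f := f) hf.continuous.continuousOn
  exact ⟨C, fun x hx => by
    have := hC x (Metric.ball_subset_closedBall hx)
    rwa [Real.norm_eq_abs] at this⟩

theorem LipOnBalls.locBdd {f : X → ℝ} (hf : LipOnBalls f) : LocBdd m f := by
  intro o R
  obtain ⟨B, hB⟩ := hf.abs_le o R
  exact ⟨B, ae_restrict_of_forall_mem measurableSet_ball hB⟩

theorem LipOnBalls.isL2OnBalls (hfin : IsFiniteOnBalls m) {f : X → ℝ} (hf : LipOnBalls f) :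
    IsL2OnBalls m f :=
  isL2OnBalls_of_locBdd hfin (fun _ _ => hf.continuous.aestronglyMeasurable) hf.locBdd

theorem LipOnBalls.isL2OnBalls_ascSlope (hfin : IsFiniteOnBalls m) {f : X → ℝ}
    (hf : LipOnBalls f) : IsL2OnBalls m (fun x => (ascSlope f x).toReal) := by
  refine isL2OnBalls_of_locBdd hfin
    (fun _ _ => (measurable_ascSlope hf.continuous).ennreal_toReal.aestronglyMeasurable)
    (fun o R => ?_)
  obtain ⟨L, hL⟩ := hf o R
  refine ⟨L, ae_restrict_of_forall_mem measurableSet_ball fun x hx => ?_⟩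
  rw [abs_of_nonneg ENNReal.toReal_nonneg]
  have h1 := ascSlope_le_of_lipschitzOnWith Metric.isOpen_ball hL hx
  exact ENNReal.toReal_le_coe_of_le_coe h1

theorem LipOnBalls.isWUGLoc_ascSlope (hfin : IsFiniteOnBalls m) {f : X → ℝ}
    (hf : LipOnBalls f) : IsWUGLoc m f (fun x => (ascSlope f x).toReal) := by
  refine (isWUGLoc_iff_curveUG hfin (hf.isL2OnBalls hfin)).2
    ⟨hf.isL2OnBalls_ascSlope hfin, Eventually.of_forall fun x => ENNReal.toReal_nonneg, ?_⟩
  intro P hP _
  filter_upwards [hP.2.2.1] with γ hγ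
  exact hf.curveUG hγ

theorem LipOnBalls.isSobolevLoc (hfin : IsFiniteOnBalls m) {f : X → ℝ} (hf : LipOnBalls f) :
    IsSobolevLoc m f :=
  (isSobolevLoc_iff hfin).2 ⟨hf.isL2OnBalls hfin, _, hf.isWUGLoc_ascSlope hfin⟩

/-- S7: the minimal weak upper gradient is at most the ascending slope -/
theorem ofReal_minWeakGrad_le_ascSlope (hfin : IsFiniteOnBalls m) {f : X → ℝ}
    (hf : LipOnBalls f) : ∀ᵐ x ∂m, ENNReal.ofReal (minWeakGrad m f x) ≤ ascSlope f x := by
  filter_upwards [minWeakGrad_le_of_isWUGLoc hfin (hf.isL2OnBalls hfin)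
    (hf.isWUGLoc_ascSlope hfin)] with x hx
  exact ENNReal.ofReal_le_of_le_toReal hx

theorem isWUGLoc_neg {f D : X → ℝ} (h : IsWUGLoc m f D) : IsWUGLoc m (fun x => - f x) D := by
  refine ⟨h.1, h.2.1, fun P hP hPb => ?_⟩
  have := h.2.2 P hP hPb
  refine le_trans (le_of_eq ?_) this
  refine lintegral_congr fun γ => ?_
  congr 1
  rw [← abs_neg]
  congr 1
  ring

/-- S7: the minimal weak upper gradient is at most the descending slope -/
theorem ofReal_minWeakGrad_le_descSlope (hfin : IsFiniteOnBalls m) {f : X → ℝ}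
    (hf : LipOnBalls f) : ∀ᵐ x ∂m, ENNReal.ofReal (minWeakGrad m f x) ≤ descSlope f x := by
  have h1 := isWUGLoc_neg (hf.neg.isWUGLoc_ascSlope hfin)
  simp only [neg_neg] at h1
  filter_upwards [minWeakGrad_le_of_isWUGLoc hfin (hf.isL2OnBalls hfin) h1] with x hx
  rw [descSlope_eq_neg]
  exact ENNReal.ofReal_le_of_le_toReal hx

theorem minWeakGrad_le_of_lipschitzOnWith (hfin : IsFiniteOnBalls m) {f : X → ℝ}
    (hf : LipOnBalls f) {U : Set X} (hU : IsOpen U) {L : ℝ≥0} (hL : LipschitzOnWith L f U) :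
    ∀ᵐ x ∂m, x ∈ U → minWeakGrad m f x ≤ L := by
  filter_upwards [minWeakGrad_le_of_isWUGLoc hfin (hf.isL2OnBalls hfin)
    (hf.isWUGLoc_ascSlope hfin)] with x hx hxU
  exact hx.trans (ENNReal.toReal_le_coe_of_le_coe (ascSlope_le_of_lipschitzOnWith hU hL hxU))

/-- locally Lipschitz functions on a proper space are Lipschitz on balls -/
theorem LocallyLipschitz.lipOnBalls {f : X → ℝ} (hf : LocallyLipschitz f) : LipOnBalls f := by
  intro o R
  obtain ⟨L, hL⟩ := (hf.locallyLipschitzOn (s := Metric.closedBall o R)).exists_lipschitzOnWith_of_compact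
    (isCompact_closedBall o R)
  exact ⟨L, hL.mono Metric.ball_subset_closedBall⟩

theorem isFiniteMeasureOnCompacts_of_isFiniteOnBalls (hfin : IsFiniteOnBalls m) :
    IsFiniteMeasureOnCompacts m := by
  refine ⟨fun K hK => ?_⟩
  rcases K.eq_empty_or_nonempty with rfl | ⟨o, _⟩
  · simp
  · obtain ⟨R, hR⟩ := hK.isBounded.subset_ball o
    exact (measure_mono hR).trans_lt (hfin o R)

theorem isSobolev_of_lipschitz_hasCompactSupport (hfin : IsFiniteOnBalls m) {f : X → ℝ}
    {L : ℝ≥0} (hf : LipschitzWith L f) (hc : HasCompactSupport f) : IsSobolev m f := by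
  have hfl : LipOnBalls f := LipschitzWith.lipOnBalls hf
  have hfc := isFiniteMeasureOnCompacts_of_isFiniteOnBalls hfin
  refine (isSobolev_iff hfin).2 ⟨hf.continuous.memLp_of_hasCompactSupport hc, _,
    hfl.isWUGLoc_ascSlope hfin, ?_⟩
  have hm : Measurable (fun x => (ascSlope f x).toReal) :=
    (measurable_ascSlope hf.continuous).ennreal_toReal
  have hzero : ∀ x, x ∉ tsupport f → (ascSlope f x).toReal = 0 := by
    intro x hx
    have h0 : ascSlope f x ≤ ENNReal.ofReal 0 := by
      refine ascSlope_le_of_eventually ?_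
      have hopen : (tsupport f)ᶜ ∈ 𝓝 x := (isClosed_tsupport f).isOpen_compl.mem_nhds hx
      filter_upwards [mem_nhdsWithin_of_mem_nhds hopen] with y hy
      rw [image_eq_zero_of_notMem_tsupport hx, image_eq_zero_of_notMem_tsupport hy]
      simp
    rw [ENNReal.ofReal_zero, nonpos_iff_eq_zero] at h0
    rw [h0]; rfl
  have hind : (fun x => (ascSlope f x).toReal) =
      (tsupport f).indicator (fun x => (ascSlope f x).toReal) := by
    ext x
    by_cases hx : x ∈ tsupport f
    · rw [Set.indicator_of_mem hx]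
    · rw [Set.indicator_of_notMem hx, hzero x hx]
  rw [hind, memLp_indicator_iff_restrict (isClosed_tsupport f).measurableSet]
  have : IsFiniteMeasure (m.restrict (tsupport f)) :=
    ⟨by rw [Measure.restrict_apply_univ]; exact hc.measure_lt_top⟩
  refine MemLp.of_bound hm.aestronglyMeasurable L (Eventually.of_forall fun x => ?_)
  rw [Real.norm_eq_abs, abs_of_nonneg ENNReal.toReal_nonneg]
  exact ENNReal.toReal_le_coe_of_le_coe (ascSlope_le_of_lipschitz hf x)

/-- Lipschitz cut-off: `1` on `closedBall o R`, supported in `closedBall o (R + r)` -/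
theorem exists_cutoff (o : X) {R r : ℝ} (_hR : 0 ≤ R) (hr : 0 < r) :
    ∃ χ : X → ℝ, LipschitzWith (Real.toNNReal (1 / r)) χ ∧ HasCompactSupport χ ∧
      (∀ x, 0 ≤ χ x ∧ χ x ≤ 1) ∧ (∀ x ∈ Metric.closedBall o R, χ x = 1) ∧
      (∀ x, x ∉ Metric.closedBall o (R + r) → χ x = 0) := by
  set χ : X → ℝ := fun x => max 0 (min 1 ((R + r - dist x o) / r)) with hχ
  have hz : ∀ x, x ∉ Metric.closedBall o (R + r) → χ x = 0 := by
    intro x hx
    rw [Metric.mem_closedBall, not_le] at hx
    have h1 : (R + r - dist x o) / r ≤ 0 := div_nonpos_of_nonpos_of_nonneg (by linarith) hr.le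
    simp only [hχ]
    exact max_eq_left ((min_le_right _ _).trans h1)
  refine ⟨χ, ?_, ?_, ?_, ?_, hz⟩
  · have h1 : LipschitzWith (Real.toNNReal (1 / r)) (fun x : X => (R + r - dist x o) / r) := by
      refine LipschitzWith.of_dist_le_mul fun x y => ?_
      rw [Real.coe_toNNReal _ (by positivity), Real.dist_eq]
      have : (R + r - dist x o) / r - (R + r - dist y o) / r = (1 / r) * (dist y o - dist x o) := by
        field_simp; ring
      rw [this, abs_mul, abs_of_pos (by positivity : 0 < 1 / r)]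
      gcongr
      rw [abs_sub_comm]
      exact abs_dist_sub_le x y o
    exact (h1.const_min 1).const_max 0
  · exact HasCompactSupport.intro (isCompact_closedBall o (R + r)) hz
  · exact fun x => ⟨le_max_left _ _, max_le zero_le_one (min_le_left _ _)⟩
  · intro x hx
    rw [Metric.mem_closedBall] at hx
    have h1 : 1 ≤ (R + r - dist x o) / r := by rw [le_div_iff₀ hr]; linarith
    simp only [hχ]
    rw [min_eq_left h1]
    exact max_eq_right zero_le_one

/-- `f` local Sobolev (maybe unbounded), `g` Lipschitz on balls -/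
theorem IsSobolevLoc.mul_lipOnBalls (hfin : IsFiniteOnBalls m) {f g : X → ℝ}
    (hf : IsSobolevLoc m f) (hg : LipOnBalls g) :
    IsSobolevLoc m (fun x => f x * g x) ∧
      ∀ᵐ x ∂m, minWeakGrad m (fun y => f y * g y) x ≤
        |f x| * minWeakGrad m g x + |g x| * minWeakGrad m f x := by
  have hgS := hg.isSobolevLoc hfin
  refine IsSobolevLoc.mul_of_isL2OnBalls hfin hf hgS ?_ ?_
  · refine isL2OnBalls_of_le_mul hf.1 (fun o R => (hf.1 o R).aestronglyMeasurable.mul
      (hgS.1 o R).aestronglyMeasurable) (fun o R => ?_)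
    obtain ⟨B, hB⟩ := hg.locBdd (m := m) o R
    refine ⟨B, ?_⟩
    filter_upwards [hB] with x hx
    rw [abs_mul, mul_comm]
    exact mul_le_mul_of_nonneg_right hx (abs_nonneg _)
  · refine isL2OnBalls_add ?_ ?_
    · refine isL2OnBalls_of_le_mul hf.1 (fun o R =>
        (hf.1 o R).aestronglyMeasurable.aemeasurable.abs.aestronglyMeasurable.mul
        ((IsSobolevLoc.isWUG hgS).1 o R).aestronglyMeasurable) (fun o R => ?_)
      obtain ⟨L, hL⟩ := hg o R
      refine ⟨L, ?_⟩
      have h1 := minWeakGrad_le_of_lipschitzOnWith hfin hg Metric.isOpen_ball hL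
      filter_upwards [ae_restrict_of_ae h1, ae_restrict_mem measurableSet_ball,
        ae_restrict_of_ae (minWeakGrad_nonneg (m := m) g)] with x hx hxb hx0
      rw [abs_mul, abs_abs, abs_of_nonneg hx0, mul_comm]
      exact mul_le_mul_of_nonneg_right (hx hxb) (abs_nonneg _)
    · refine isL2OnBalls_of_le_mul (IsSobolevLoc.isWUG hf).1 (fun o R =>
        (hgS.1 o R).aestronglyMeasurable.aemeasurable.abs.aestronglyMeasurable.mul
        ((IsSobolevLoc.isWUG hf).1 o R).aestronglyMeasurable) (fun o R => ?_)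
      obtain ⟨B, hB⟩ := hg.locBdd (m := m) o R
      refine ⟨B, ?_⟩
      filter_upwards [hB] with x hx
      rw [abs_mul, abs_abs]
      exact mul_le_mul_of_nonneg_right hx (abs_nonneg _)

end Lip

end Crest.Agent.R242
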