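import Crest.Agent.R242.Defs
import Mathlib
import Crest.Agent.R242.SobLip

-- ▼ part R242/WgCalc
section

/-!
# Row 242: the calculus facts on `minWeakGrad` used for the pointwise parallelogram law

`WgCalc m` collects exactly the statements of S2-S6 used by `Par.lean` and `Pair.lean`
(functions `X → ℝ`, almost everywhere statements). It is instantiated from part S.
-/

set_option autoImplicit false

open MeasureTheory Filter Set
open scoped ENNReal NNReal Topology
open Crest.GeometryTopology.SyntheticRicci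

namespace Crest.Agent.R242

/-- Facts about the minimal weak upper gradient (part S, blocks S2-S7), with no reference to test
plans. -/
structure WgCalc {X : Type*} [MetricSpace X] [MeasurableSpace X] (m : Measure X) : Prop where
  /-- S3: dependence on the function only up to null sets. -/
  congr : ∀ f g : X → ℝ, IsSobolevLoc m f → f =ᵐ[m] g →
    IsSobolevLoc m g ∧ minWeakGrad m f =ᵐ[m] minWeakGrad m g
  /-- S3: sums. -/
  add : ∀ f g : X → ℝ, IsSobolevLoc m f → IsSobolevLoc m g →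
    IsSobolevLoc m (fun x => f x + g x) ∧
      ∀ᵐ x ∂m, minWeakGrad m (fun x => f x + g x) x ≤ minWeakGrad m f x + minWeakGrad m g x
  /-- S3: scalar multiples. -/
  smul : ∀ (c : ℝ) (f : X → ℝ), IsSobolevLoc m f →
    IsSobolevLoc m (fun x => c * f x) ∧
      ∀ᵐ x ∂m, minWeakGrad m (fun x => c * f x) x = |c| * minWeakGrad m f x
  /-- constants. -/
  const : ∀ c : ℝ, IsSobolevLoc m (fun _ : X => c) ∧
    ∀ᵐ x ∂m, minWeakGrad m (fun _ : X => c) x = 0
  /-- S4: locality. -/
  loc : ∀ f g : X → ℝ, IsSobolevLoc m f → IsSobolevLoc m g →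
    ∀ᵐ x ∂m, f x = g x → minWeakGrad m f x = minWeakGrad m g x
  /-- S5 (inequality): composition with a Lipschitz function. -/
  comp : ∀ (φ : ℝ → ℝ) (L : ℝ≥0) (f : X → ℝ), LipschitzWith L φ → IsSobolevLoc m f →
    IsSobolevLoc m (fun x => φ (f x)) ∧
      ∀ᵐ x ∂m, minWeakGrad m (fun x => φ (f x)) x ≤ L * minWeakGrad m f x
  /-- S6: Leibniz inequality for bounded functions. -/
  mul : ∀ f g : X → ℝ, IsSobolevLoc m f → IsSobolevLoc m g →
    (∃ B : ℝ, ∀ᵐ x ∂m, |f x| ≤ B) → (∃ B : ℝ, ∀ᵐ x ∂m, |g x| ≤ B) →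
    IsSobolevLoc m (fun x => f x * g x) ∧
      ∀ᵐ x ∂m, minWeakGrad m (fun x => f x * g x) x ≤
        |f x| * minWeakGrad m g x + |g x| * minWeakGrad m f x
  /-- S7: Lipschitz functions. -/
  lip : ∀ (L : ℝ≥0) (f : X → ℝ), LipschitzWith L f →
    IsSobolevLoc m f ∧ ∀ᵐ x ∂m, minWeakGrad m f x ≤ L
  /-- being locally Sobolev is a local property. -/
  glue : ∀ u : X → ℝ, (∀ (o : X) (R : ℝ), ∃ u' : X → ℝ, IsSobolevLoc m u' ∧
    ∀ᵐ x ∂(m.restrict (Metric.ball o R)), u x = u' x) → IsSobolevLoc m u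

end Crest.Agent.R242
end

-- ▼ part R242/ParBase
section

/-!
# Row 242, S11, part 1: elementary consequences of `WgCalc`; the classes `IsSobolevLoc`, `IsSobolev`
-/

set_option autoImplicit false

open MeasureTheory Filter Set
open scoped ENNReal NNReal Topology
open Crest.GeometryTopology.SyntheticRicci

namespace Crest.Agent.R242

variable {X : Type*} [MetricSpace X] [MeasurableSpace X] {m : Measure X}

theorem wg_isMin {f : X → ℝ} (hf : IsSobolevLoc m f) : IsMinWUGLoc m f (minWeakGrad m f) := by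
  unfold minWeakGrad
  rw [dif_pos hf.2]
  exact Classical.choose_spec hf.2

theorem wg_nonneg_ae {f : X → ℝ} (hf : IsSobolevLoc m f) : ∀ᵐ x ∂m, 0 ≤ minWeakGrad m f x :=
  (wg_isMin hf).1.2.1

theorem wg_l2OnBalls {f : X → ℝ} (hf : IsSobolevLoc m f) : IsL2OnBalls m (minWeakGrad m f) :=
  (wg_isMin hf).1.1

theorem aesm_of_l2OnBalls {f : X → ℝ} (hf : IsL2OnBalls m f) : AEStronglyMeasurable f m := by
  rcases isEmpty_or_nonempty X with hX | ⟨⟨o⟩⟩
  · have : m = 0 := Measure.eq_zero_of_isEmpty m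
    rw [this]
    exact aestronglyMeasurable_zero_measure f
  · have h1 : (⋃ n : ℕ, Metric.ball o n) = univ := Metric.iUnion_ball_nat o
    rw [← Measure.restrict_univ (μ := m), ← h1, aestronglyMeasurable_iUnion_iff]
    exact fun n => (hf o n).1

theorem aesm_wg_ae {f : X → ℝ} (hf : IsSobolevLoc m f) : AEStronglyMeasurable (minWeakGrad m f) m :=
  aesm_of_l2OnBalls (wg_l2OnBalls hf)



namespace WgCalc

theorem sub (C : WgCalc m) {f g : X → ℝ} (hf : IsSobolevLoc m f) (hg : IsSobolevLoc m g) :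
    IsSobolevLoc m (fun x => f x - g x) := by
  have h := (C.add f _ hf (C.smul (-1) g hg).1).1
  have e : (fun x => f x + -1 * g x) = fun x => f x - g x := by
    funext x; ring
  rwa [e] at h

theorem wg_sub_le (C : WgCalc m) {f g : X → ℝ} (hf : IsSobolevLoc m f) (hg : IsSobolevLoc m g) :
    ∀ᵐ x ∂m, minWeakGrad m (fun x => f x - g x) x ≤ minWeakGrad m f x + minWeakGrad m g x := by
  have h := (C.add f _ hf (C.smul (-1) g hg).1).2
  have e : (fun x => f x + -1 * g x) = fun x => f x - g x := by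
    funext x; ring
  rw [e] at h
  filter_upwards [h, (C.smul (-1) g hg).2] with x h1 h2
  rw [h2] at h1
  simpa using h1

theorem wg_add_const (C : WgCalc m) {f : X → ℝ} (hf : IsSobolevLoc m f) (c : ℝ) :
    IsSobolevLoc m (fun x => f x + c) ∧
      ∀ᵐ x ∂m, minWeakGrad m (fun x => f x + c) x = minWeakGrad m f x := by
  have h1 := C.add f _ hf (C.const c).1
  refine ⟨h1.1, ?_⟩
  have h2 := C.add _ _ h1.1 (C.const (-c)).1
  have e : (fun x => f x + c + -c) = f := by
    funext x; ring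
  rw [e] at h2
  filter_upwards [h1.2, h2.2, (C.const c).2, (C.const (-c)).2] with x a1 a2 a3 a4
  rw [a3] at a1
  rw [a4] at a2
  linarith

/-- the weak gradient vanishes where the function is constant. -/
theorem wg_zero_of_eq (C : WgCalc m) {f : X → ℝ} (hf : IsSobolevLoc m f) (c : ℝ) :
    ∀ᵐ x ∂m, f x = c → minWeakGrad m f x = 0 := by
  filter_upwards [C.loc f _ hf (C.const c).1, (C.const c).2] with x h1 h2 h3
  rw [h1 h3, h2]

/-- difference of the weak gradients. -/
theorem abs_wg_sub_le (C : WgCalc m) {f g : X → ℝ} (hf : IsSobolevLoc m f)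
    (hg : IsSobolevLoc m g) :
    ∀ᵐ x ∂m, |minWeakGrad m f x - minWeakGrad m g x| ≤ minWeakGrad m (fun x => f x - g x) x := by
  have h1 := (C.add _ _ (C.sub hf hg) hg).2
  have e1 : (fun x => f x - g x + g x) = f := by funext x; ring
  have h2 := (C.add _ _ (C.sub hg hf) hf).2
  have e2 : (fun x => g x - f x + f x) = g := by funext x; ring
  have h3 := (C.smul (-1) _ (C.sub hf hg)).2
  have e3 : (fun x => -1 * (f x - g x)) = fun x => g x - f x := by funext x; ring
  rw [e1] at h1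
  rw [e2] at h2
  rw [e3] at h3
  filter_upwards [h1, h2, h3] with x a1 a2 a3
  rw [a3] at a2
  simp only [abs_neg, abs_one, one_mul] at a2
  rw [abs_le]
  constructor <;> linarith

/-- convexity of the square of the weak gradient. -/
theorem sq_convex (C : WgCalc m) {u v : X → ℝ} (hu : IsSobolevLoc m u) (hv : IsSobolevLoc m v)
    {a b : ℝ} (ha : 0 ≤ a) (hb : 0 ≤ b) (hab : a + b = 1) :
    ∀ᵐ x ∂m, minWeakGrad m (fun y => a * u y + b * v y) x ^ 2 ≤
      a * minWeakGrad m u x ^ 2 + b * minWeakGrad m v x ^ 2 := by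
  have h := C.add _ _ (C.smul a u hu).1 (C.smul b v hv).1
  filter_upwards [h.2, (C.smul a u hu).2, (C.smul b v hv).2, wg_nonneg_ae h.1, wg_nonneg_ae hu,
    wg_nonneg_ae hv] with x h1 h2 h3 h4 h5 h6
  rw [h2, h3, abs_of_nonneg ha, abs_of_nonneg hb] at h1
  have hb' : b = 1 - a := by linarith
  have h7 : (a * minWeakGrad m u x + b * minWeakGrad m v x) ^ 2 ≤
      a * minWeakGrad m u x ^ 2 + b * minWeakGrad m v x ^ 2 := by
    have := mul_nonneg (mul_nonneg ha hb) (sq_nonneg (minWeakGrad m u x - minWeakGrad m v x))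
    subst hb'
    nlinarith
  refine le_trans ?_ h7
  exact pow_le_pow_left₀ h4 h1 2

end WgCalc

/-! ## The class `W^{1,2}` -/

theorem sob_int_sq {f : X → ℝ} (hf : IsSobolev m f) :
    Integrable (fun x => minWeakGrad m f x ^ 2) m := hf.2.2.integrable_sq

/-- criterion: `IsSobolevLoc` and domination of the weak gradient. -/
theorem isSobolev_of_le {f : X → ℝ} {w : X → ℝ} (h1 : MemLp f 2 m) (h2 : IsSobolevLoc m f)
    (hw : MemLp w 2 m) (h : ∀ᵐ x ∂m, minWeakGrad m f x ≤ w x) : IsSobolev m f := by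
  refine ⟨h1, h2, hw.mono (aesm_wg_ae h2) ?_⟩
  filter_upwards [h, wg_nonneg_ae h2] with x a1 a2
  rw [Real.norm_eq_abs, Real.norm_eq_abs, abs_of_nonneg a2]
  exact a1.trans (le_abs_self _)

namespace WgCalc

theorem sob_congr (C : WgCalc m) {f g : X → ℝ} (hf : IsSobolev m f) (h : f =ᵐ[m] g) :
    IsSobolev m g := by
  obtain ⟨h1, h2⟩ := C.congr f g hf.2.1 h
  exact ⟨hf.1.ae_eq h, h1, hf.2.2.ae_eq h2⟩

theorem sob_add (C : WgCalc m) {f g : X → ℝ} (hf : IsSobolev m f) (hg : IsSobolev m g) :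
    IsSobolev m (fun x => f x + g x) :=
  isSobolev_of_le (hf.1.add hg.1) (C.add f g hf.2.1 hg.2.1).1 (hf.2.2.add hg.2.2)
    (C.add f g hf.2.1 hg.2.1).2

theorem sob_smul (C : WgCalc m) (c : ℝ) {f : X → ℝ} (hf : IsSobolev m f) :
    IsSobolev m (fun x => c * f x) :=
  isSobolev_of_le (hf.1.const_mul c) (C.smul c f hf.2.1).1 (hf.2.2.const_mul |c|)
    (by filter_upwards [(C.smul c f hf.2.1).2] with x h using h.le)

theorem sob_sub (C : WgCalc m) {f g : X → ℝ} (hf : IsSobolev m f) (hg : IsSobolev m g) :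
    IsSobolev m (fun x => f x - g x) := by
  have h := C.sob_add hf (C.sob_smul (-1) hg)
  have e : (fun x => f x + -1 * g x) = fun x => f x - g x := by
    funext x; ring
  rwa [e] at h

theorem sob_zero (C : WgCalc m) : IsSobolev m (fun _ : X => (0 : ℝ)) :=
  isSobolev_of_le (w := fun _ => 0) MemLp.zero (C.const 0).1 MemLp.zero
    (by filter_upwards [(C.const 0).2] with x h using h.le)

theorem sob_mul (C : WgCalc m) {f g : X → ℝ} (hf : IsSobolev m f) (hg : IsSobolev m g)
    (hfb : ∃ B : ℝ, ∀ᵐ x ∂m, |f x| ≤ B) (hgb : ∃ B : ℝ, ∀ᵐ x ∂m, |g x| ≤ B) :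
    IsSobolev m (fun x => f x * g x) := by
  obtain ⟨h1, h2⟩ := C.mul f g hf.2.1 hg.2.1 hfb hgb
  obtain ⟨B, hB⟩ := hfb
  obtain ⟨B', hB'⟩ := hgb
  have hfm : AEStronglyMeasurable f m := hf.1.1
  have hgm : AEStronglyMeasurable g m := hg.1.1
  refine isSobolev_of_le (w := fun x => B * minWeakGrad m g x + B' * minWeakGrad m f x) ?_ h1
    ((hg.2.2.const_mul B).add (hf.2.2.const_mul B')) ?_
  · refine (hg.1.const_mul B).mono (hfm.mul hgm) ?_
    filter_upwards [hB] with x hx
    rw [norm_mul, norm_mul]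
    refine mul_le_mul_of_nonneg_right ?_ (norm_nonneg _)
    exact hx.trans (le_abs_self _)
  · filter_upwards [h2, hB, hB', wg_nonneg_ae hf.2.1, wg_nonneg_ae hg.2.1] with x a1 a2 a3 a4 a5
    exact a1.trans (add_le_add (mul_le_mul_of_nonneg_right a2 a5)
      (mul_le_mul_of_nonneg_right a3 a4))

theorem sob_comp (C : WgCalc m) {φ : ℝ → ℝ} {L : ℝ≥0} (hφ : LipschitzWith L φ) (h0 : φ 0 = 0)
    {f : X → ℝ} (hf : IsSobolev m f) : IsSobolev m (fun x => φ (f x)) := by
  obtain ⟨h1, h2⟩ := C.comp φ L f hφ hf.2.1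
  refine isSobolev_of_le ?_ h1 (hf.2.2.const_mul (L : ℝ)) h2
  refine (hf.1.const_mul (L : ℝ)).mono (hφ.continuous.comp_aestronglyMeasurable hf.1.1) ?_
  refine Eventually.of_forall fun x => ?_
  have := hφ.dist_le_mul (f x) 0
  rw [h0, dist_zero_right, dist_zero_right] at this
  rw [norm_mul]
  refine this.trans ?_
  exact mul_le_mul_of_nonneg_right (le_abs_self _) (norm_nonneg _)

/-- a locally Sobolev function vanishing outside a ball is in `W^{1,2}`. -/
theorem sob_of_bddSupp [OpensMeasurableSpace X] (C : WgCalc m) {f : X → ℝ}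
    (hf : IsSobolevLoc m f) (hs : BddSupp m f) : IsSobolev m f := by
  obtain ⟨o, R, hR⟩ := hs
  have key : ∀ g : X → ℝ, IsL2OnBalls m g →
      (∀ᵐ x ∂m, x ∉ Metric.closedBall o R → g x = 0) → MemLp g 2 m := by
    intro g hg h0
    have hg1 : MemLp ((Metric.ball o (R + 1)).indicator g) 2 m := by
      rw [memLp_indicator_iff_restrict Metric.isOpen_ball.measurableSet]
      exact hg o (R + 1)
    refine hg1.ae_eq ?_
    filter_upwards [h0] with x hx
    by_cases hxb : x ∈ Metric.ball o (R + 1)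
    · rw [indicator_of_mem hxb]
    · rw [indicator_of_notMem hxb, hx]
      intro hx'
      apply hxb
      rw [Metric.mem_closedBall] at hx'
      rw [Metric.mem_ball]
      linarith
  refine ⟨key f hf.1 hR, hf, key _ (wg_l2OnBalls hf) ?_⟩
  filter_upwards [hR, C.wg_zero_of_eq hf 0] with x h1 h2 h3 using h2 (h1 h3)

end WgCalc

end Crest.Agent.R242
end

-- ▼ part R242/ParD
section

/-!
# Row 242, S11, part 2: the one-sided derivatives of the energy density
-/

set_option autoImplicit false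

open MeasureTheory Filter Set
open scoped ENNReal NNReal Topology
open Crest.GeometryTopology.SyntheticRicci

noncomputable section

namespace Crest.Agent.R242

variable {X : Type*} [MetricSpace X] [MeasurableSpace X] {m : Measure X}

/-- difference quotient of `t ↦ wg(g + t f)²/2` at `0`. -/
def Aq (m : Measure X) (δ : ℝ) (f g : X → ℝ) (x : X) : ℝ :=
  (minWeakGrad m (fun y => g y + δ * f y) x ^ 2 - minWeakGrad m g x ^ 2) / (2 * δ)

/-- the derivative. -/
def Dq (m : Measure X) (f g : X → ℝ) (x : X) : ℝ := ⨅ n : ℕ, Aq m ((1 / 2) ^ n) f g x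

/-- the Dirichlet energy. -/
def Eg (m : Measure X) (f : X → ℝ) : ℝ := ∫ x, minWeakGrad m f x ^ 2 ∂m

theorem Aq_smul_left {c : ℝ} (hc : c ≠ 0) (δ : ℝ) (f g : X → ℝ) (x : X) :
    Aq m δ (fun y => c * f y) g x = c * Aq m (δ * c) f g x := by
  unfold Aq
  have e : (fun y => g y + δ * (c * f y)) = fun y => g y + δ * c * f y := by
    funext y; ring
  rw [e]
  rcases eq_or_ne δ 0 with rfl | hδ
  · simp
  · field_simp

namespace WgCalc

theorem sobLoc_lin (C : WgCalc m) {f g : X → ℝ} (hf : IsSobolevLoc m f) (hg : IsSobolevLoc m g)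
    (δ : ℝ) : IsSobolevLoc m (fun y => g y + δ * f y) :=
  (C.add _ _ hg (C.smul δ f hf).1).1

theorem sob_lin (C : WgCalc m) {f g : X → ℝ} (hf : IsSobolev m f) (hg : IsSobolev m g)
    (δ : ℝ) : IsSobolev m (fun y => g y + δ * f y) :=
  C.sob_add hg (C.sob_smul δ hf)

theorem Aq_mono (C : WgCalc m) {f g : X → ℝ} (hf : IsSobolevLoc m f) (hg : IsSobolevLoc m g)
    {δ δ' : ℝ} (hδ : 0 < δ) (h : δ ≤ δ') : ∀ᵐ x ∂m, Aq m δ f g x ≤ Aq m δ' f g x := by
  have hδ' : 0 < δ' := hδ.trans_le h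
  have hc := C.sq_convex (C.sobLoc_lin hf hg δ') hg (a := δ / δ') (b := 1 - δ / δ')
    (by positivity) (by rw [sub_nonneg, div_le_one hδ']; exact h) (by ring)
  have e : (fun y => δ / δ' * (g y + δ' * f y) + (1 - δ / δ') * g y) =
      fun y => g y + δ * f y := by
    funext y; field_simp; ring
  rw [e] at hc
  filter_upwards [hc] with x hx
  unfold Aq
  rw [div_le_div_iff₀ (by positivity) (by positivity)]
  have h2 : δ' * minWeakGrad m (fun y => g y + δ * f y) x ^ 2 ≤
      δ * minWeakGrad m (fun y => g y + δ' * f y) x ^ 2 + (δ' - δ) * minWeakGrad m g x ^ 2 := by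
    have := mul_le_mul_of_nonneg_left hx hδ'.le
    refine this.trans (le_of_eq ?_)
    field_simp
  nlinarith

theorem Aq_neg_le (C : WgCalc m) {f g : X → ℝ} (hf : IsSobolevLoc m f) (hg : IsSobolevLoc m g)
    {δ δ' : ℝ} (hδ : 0 < δ) (hδ' : 0 < δ') : ∀ᵐ x ∂m, Aq m (-δ) f g x ≤ Aq m δ' f g x := by
  have hc := C.sq_convex (C.sobLoc_lin hf hg (-δ)) (C.sobLoc_lin hf hg δ')
    (a := δ' / (δ + δ')) (b := δ / (δ + δ'))
    (by positivity) (by positivity) (by field_simp; ring)
  have e : (fun y => δ' / (δ + δ') * (g y + -δ * f y) + δ / (δ + δ') * (g y + δ' * f y)) = g := by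
    funext y; field_simp; ring
  rw [e] at hc
  filter_upwards [hc] with x hx
  unfold Aq
  have h2 : (δ + δ') * minWeakGrad m g x ^ 2 ≤
      δ' * minWeakGrad m (fun y => g y + -δ * f y) x ^ 2 +
        δ * minWeakGrad m (fun y => g y + δ' * f y) x ^ 2 := by
    have := mul_le_mul_of_nonneg_left hx (add_pos hδ hδ').le
    refine this.trans (le_of_eq ?_)
    field_simp
  have e2 : (minWeakGrad m (fun y => g y + -δ * f y) x ^ 2 - minWeakGrad m g x ^ 2) / (2 * -δ) =
      (minWeakGrad m g x ^ 2 - minWeakGrad m (fun y => g y + -δ * f y) x ^ 2) / (2 * δ) := by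
    rw [div_eq_div_iff (by linarith) (by linarith)]; ring
  rw [e2, div_le_div_iff₀ (by positivity) (by positivity)]
  nlinarith

theorem Dq_le (C : WgCalc m) {f g : X → ℝ} (hf : IsSobolevLoc m f) (hg : IsSobolevLoc m g)
    {δ : ℝ} (hδ : 0 < δ) : ∀ᵐ x ∂m, Dq m f g x ≤ Aq m δ f g x := by
  obtain ⟨n, hn⟩ := exists_pow_lt_of_lt_one hδ (show (1 / 2 : ℝ) < 1 by norm_num)
  have h1 : ∀ᵐ x ∂m, ∀ n : ℕ, Aq m (-1) f g x ≤ Aq m ((1 / 2) ^ n) f g x :=
    ae_all_iff.2 fun n => C.Aq_neg_le hf hg one_pos (by positivity)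
  filter_upwards [h1, C.Aq_mono hf hg (by positivity) hn.le] with x a1 a2
  refine (ciInf_le ?_ n).trans a2
  exact ⟨_, by rintro _ ⟨k, rfl⟩; exact a1 k⟩

theorem le_Dq (C : WgCalc m) {f g : X → ℝ} (hf : IsSobolevLoc m f) (hg : IsSobolevLoc m g)
    {δ : ℝ} (hδ : 0 < δ) : ∀ᵐ x ∂m, Aq m (-δ) f g x ≤ Dq m f g x := by
  have h1 : ∀ᵐ x ∂m, ∀ n : ℕ, Aq m (-δ) f g x ≤ Aq m ((1 / 2) ^ n) f g x :=
    ae_all_iff.2 fun n => C.Aq_neg_le hf hg hδ (by positivity)
  filter_upwards [h1] with x a1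
  exact le_ciInf a1

/-! ### energy -/

theorem Eg_smul (C : WgCalc m) (c : ℝ) {f : X → ℝ} (hf : IsSobolevLoc m f) :
    Eg m (fun x => c * f x) = c ^ 2 * Eg m f := by
  unfold Eg
  rw [← integral_const_mul]
  refine integral_congr_ae ?_
  filter_upwards [(C.smul c f hf).2] with x hx
  rw [hx, mul_pow, sq_abs]

theorem Eg_parallelogram (C : WgCalc m) (hH : IsInfHilbertian m) {f g : X → ℝ}
    (hf : IsSobolev m f) (hg : IsSobolev m g) :
    Eg m (fun x => f x + g x) + Eg m (fun x => f x - g x) = 2 * Eg m f + 2 * Eg m g := by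
  have key : ∀ u : X → ℝ, IsSobolev m u →
      (∫⁻ x, ENNReal.ofReal (minWeakGrad m u x ^ 2) ∂m) = ENNReal.ofReal (Eg m u) := by
    intro u hu
    rw [Eg, ofReal_integral_eq_lintegral_ofReal (sob_int_sq hu)
      (Eventually.of_forall fun x => sq_nonneg _)]
  have hn : ∀ u : X → ℝ, 0 ≤ Eg m u := fun u => integral_nonneg fun x => sq_nonneg _
  have h := hH f g hf hg
  rw [key _ (C.sob_add hf hg), key _ (C.sob_sub hf hg), key _ hf, key _ hg,
    ← ENNReal.ofReal_add (hn _) (hn _)] at h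
  rw [show (2 : ℝ≥0∞) = ENNReal.ofReal 2 by simp, ← ENNReal.ofReal_mul (by norm_num),
    ← ENNReal.ofReal_mul (by norm_num),
    ← ENNReal.ofReal_add (mul_nonneg (by norm_num) (hn _)) (mul_nonneg (by norm_num) (hn _))] at h
  rwa [ENNReal.ofReal_eq_ofReal_iff (add_nonneg (hn _) (hn _))
    (add_nonneg (mul_nonneg (by norm_num) (hn _)) (mul_nonneg (by norm_num) (hn _)))] at h

theorem Aq_gap_eq (δ : ℝ) (f g : X → ℝ) (x : X) :
    Aq m δ f g x - Aq m (-δ) f g x =
      (minWeakGrad m (fun y => g y + δ * f y) x ^ 2 +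
        minWeakGrad m (fun y => g y - δ * f y) x ^ 2 - 2 * minWeakGrad m g x ^ 2) / (2 * δ) := by
  unfold Aq
  have e : (fun y => g y + -δ * f y) = fun y => g y - δ * f y := by funext y; ring
  rw [e]
  rcases eq_or_ne δ 0 with rfl | hδ
  · simp
  · field_simp
    ring

theorem integrable_Aq (C : WgCalc m) {f g : X → ℝ} (hf : IsSobolev m f) (hg : IsSobolev m g)
    (δ : ℝ) : Integrable (Aq m δ f g) m :=
  ((sob_int_sq (C.sob_lin hf hg δ)).sub (sob_int_sq hg)).div_const _

theorem integral_gap (C : WgCalc m) (hH : IsInfHilbertian m) {f g : X → ℝ}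
    (hf : IsSobolev m f) (hg : IsSobolev m g) {δ : ℝ} (hδ : 0 < δ) :
    ∫ x, (Aq m δ f g x - Aq m (-δ) f g x) ∂m = δ * Eg m f := by
  simp_rw [Aq_gap_eq]
  have h1 := C.sob_add hg (C.sob_smul δ hf)
  have h2 := C.sob_sub hg (C.sob_smul δ hf)
  have e1 : ∫ a, (minWeakGrad m (fun y => g y + δ * f y) a ^ 2 +
      minWeakGrad m (fun y => g y - δ * f y) a ^ 2 - 2 * minWeakGrad m g a ^ 2) ∂m =
      (Eg m (fun y => g y + δ * f y) + Eg m (fun y => g y - δ * f y)) - 2 * Eg m g := by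
    have a1 := integral_add (sob_int_sq h1) (sob_int_sq h2)
    have a2 := integral_sub ((sob_int_sq h1).add (sob_int_sq h2)) ((sob_int_sq hg).const_mul 2)
    simp only [Pi.add_apply] at a2
    rw [a2, a1, integral_const_mul]
    rfl
  rw [integral_div, e1]
  have h3 := C.Eg_parallelogram hH hg (C.sob_smul δ hf)
  rw [C.Eg_smul δ hf.2.1] at h3
  rw [h3]
  field_simp
  ring

theorem gap_tendsto (C : WgCalc m) (hH : IsInfHilbertian m) {f g : X → ℝ}
    (hf : IsSobolev m f) (hg : IsSobolev m g) {c : ℝ} (hc : 0 < c) :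
    ∀ᵐ x ∂m, Tendsto (fun n : ℕ => Aq m (c * (1 / 2) ^ n) f g x -
      Aq m (-(c * (1 / 2) ^ n)) f g x) atTop (𝓝 0) := by
  set V : ℕ → X → ℝ := fun n x => Aq m (c * (1 / 2) ^ n) f g x -
      Aq m (-(c * (1 / 2) ^ n)) f g x with hV
  have hVi : ∀ n, Integrable (V n) m := fun n =>
    (C.integrable_Aq hf hg _).sub (C.integrable_Aq hf hg _)
  have hV0 : ∀ᵐ x ∂m, ∀ n, 0 ≤ V n x := ae_all_iff.2 fun n => by
    filter_upwards [C.Aq_neg_le hf.2.1 hg.2.1 (δ := c * (1 / 2) ^ n) (δ' := c * (1 / 2) ^ n)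
      (by positivity) (by positivity)] with x hx
    exact sub_nonneg.2 hx
  have hE : 0 ≤ Eg m f := integral_nonneg fun x => sq_nonneg _
  have hint : ∀ n, ∫⁻ x, ENNReal.ofReal (V n x) ∂m = ENNReal.ofReal (c * (1 / 2) ^ n * Eg m f) := by
    intro n
    rw [← ofReal_integral_eq_lintegral_ofReal (hVi n) (by
      filter_upwards [hV0] with x hx using hx n)]
    rw [hV, C.integral_gap hH hf hg (by positivity)]
  have hsum : ∫⁻ x, ∑' n, ENNReal.ofReal (V n x) ∂m ≠ ⊤ := by
    rw [lintegral_tsum fun n => (hVi n).1.aemeasurable.ennreal_ofReal]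
    simp_rw [hint]
    have hs : Summable fun n : ℕ => c * (1 / 2) ^ n * Eg m f := by
      have : Summable fun n : ℕ => (1 / 2 : ℝ) ^ n :=
        summable_geometric_of_lt_one (by norm_num) (by norm_num)
      simpa [mul_comm, mul_left_comm, mul_assoc] using (this.mul_left (c * Eg m f))
    rw [← ENNReal.ofReal_tsum_of_nonneg (fun n => by positivity) hs]
    exact ENNReal.ofReal_ne_top
  have hfin := ae_lt_top' (AEMeasurable.tsum fun n =>
    (hVi n).1.aemeasurable.ennreal_ofReal) hsum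
  filter_upwards [hfin, hV0] with x hx hx0
  have h1 := ENNReal.tendsto_atTop_zero_of_tsum_ne_top hx.ne
  have h2 := (ENNReal.tendsto_toReal (a := 0) (by simp)).comp h1
  simp only [ENNReal.toReal_zero] at h2
  refine h2.congr fun n => ?_
  simp only [Function.comp]
  rw [ENNReal.toReal_ofReal (hx0 n)]

theorem tendsto_Aq (C : WgCalc m) (hH : IsInfHilbertian m) {f g : X → ℝ}
    (hf : IsSobolev m f) (hg : IsSobolev m g) {c : ℝ} (hc : 0 < c) :
    ∀ᵐ x ∂m, Tendsto (fun n : ℕ => Aq m (c * (1 / 2) ^ n) f g x) atTop (𝓝 (Dq m f g x)) ∧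
      Tendsto (fun n : ℕ => Aq m (-(c * (1 / 2) ^ n)) f g x) atTop (𝓝 (Dq m f g x)) := by
  have h1 : ∀ᵐ x ∂m, ∀ n : ℕ, Dq m f g x ≤ Aq m (c * (1 / 2) ^ n) f g x :=
    ae_all_iff.2 fun n => C.Dq_le hf.2.1 hg.2.1 (by positivity)
  have h2 : ∀ᵐ x ∂m, ∀ n : ℕ, Aq m (-(c * (1 / 2) ^ n)) f g x ≤ Dq m f g x :=
    ae_all_iff.2 fun n => C.le_Dq hf.2.1 hg.2.1 (by positivity)
  filter_upwards [h1, h2, C.gap_tendsto hH hf hg hc] with x a1 a2 a3
  constructor
  · refine tendsto_of_tendsto_of_tendsto_of_le_of_le tendsto_const_nhds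
      (h := fun n => Dq m f g x + (Aq m (c * (1 / 2) ^ n) f g x -
        Aq m (-(c * (1 / 2) ^ n)) f g x)) ?_ a1 ?_
    · simpa using a3.const_add (Dq m f g x)
    · intro n
      have := a2 n
      simp only
      linarith
  · refine tendsto_of_tendsto_of_tendsto_of_le_of_le
      (g := fun n => Dq m f g x - (Aq m (c * (1 / 2) ^ n) f g x -
        Aq m (-(c * (1 / 2) ^ n)) f g x)) ?_ tendsto_const_nhds ?_ a2
    · simpa using a3.const_sub (Dq m f g x)
    · intro n
      have := a1 n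
      simp only
      linarith

theorem tendsto_Aq_one (C : WgCalc m) (hH : IsInfHilbertian m) {f g : X → ℝ}
    (hf : IsSobolev m f) (hg : IsSobolev m g) :
    ∀ᵐ x ∂m, Tendsto (fun n : ℕ => Aq m ((1 / 2) ^ n) f g x) atTop (𝓝 (Dq m f g x)) := by
  filter_upwards [C.tendsto_Aq hH hf hg one_pos] with x hx
  simpa using hx.1

theorem tendsto_Aq_neg_one (C : WgCalc m) (hH : IsInfHilbertian m) {f g : X → ℝ}
    (hf : IsSobolev m f) (hg : IsSobolev m g) :
    ∀ᵐ x ∂m, Tendsto (fun n : ℕ => Aq m (-(1 / 2) ^ n) f g x) atTop (𝓝 (Dq m f g x)) := by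
  filter_upwards [C.tendsto_Aq hH hf hg one_pos] with x hx
  simpa using hx.2

/-! ### first slot -/

theorem Dq_smul_left (C : WgCalc m) (hH : IsInfHilbertian m) {f g : X → ℝ}
    (hf : IsSobolev m f) (hg : IsSobolev m g) (c : ℝ) :
    ∀ᵐ x ∂m, Dq m (fun y => c * f y) g x = c * Dq m f g x := by
  rcases lt_trichotomy c 0 with hc | hc | hc
  · filter_upwards [C.tendsto_Aq_one hH (C.sob_smul c hf) hg,
      C.tendsto_Aq hH hf hg (neg_pos.2 hc)] with x a1 a2
    refine tendsto_nhds_unique a1 ((a2.2.const_mul c).congr fun n => ?_)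
    rw [Aq_smul_left hc.ne]
    congr 2
    ring
  · subst hc
    filter_upwards [C.tendsto_Aq_one hH (C.sob_smul 0 hf) hg] with x a1
    rw [zero_mul]
    refine tendsto_nhds_unique a1 (tendsto_const_nhds.congr fun n => ?_)
    unfold Aq
    simp
  · filter_upwards [C.tendsto_Aq_one hH (C.sob_smul c hf) hg,
      C.tendsto_Aq hH hf hg hc] with x a1 a2
    refine tendsto_nhds_unique a1 ((a2.1.const_mul c).congr fun n => ?_)
    rw [Aq_smul_left hc.ne', mul_comm ((1 / 2 : ℝ) ^ n) c]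

theorem Aq_add_aux (C : WgCalc m) {f f' g : X → ℝ}
    (hf : IsSobolevLoc m f) (hf' : IsSobolevLoc m f') (hg : IsSobolevLoc m g) (δ : ℝ) :
    ∀ᵐ x ∂m, minWeakGrad m (fun y => g y + δ * (f y + f' y)) x ^ 2 ≤
      (minWeakGrad m (fun y => g y + 2 * δ * f y) x ^ 2 +
        minWeakGrad m (fun y => g y + 2 * δ * f' y) x ^ 2) / 2 := by
  have hc := C.sq_convex (C.sobLoc_lin hf hg (2 * δ)) (C.sobLoc_lin hf' hg (2 * δ))
    (a := 1 / 2) (b := 1 / 2) (by norm_num) (by norm_num) (by norm_num)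
  have e : (fun y => 1 / 2 * (g y + 2 * δ * f y) + 1 / 2 * (g y + 2 * δ * f' y)) =
      fun y => g y + δ * (f y + f' y) := by
    funext y; ring
  rw [e] at hc
  filter_upwards [hc] with x hx
  linarith

theorem Dq_add_left (C : WgCalc m) (hH : IsInfHilbertian m) {f f' g : X → ℝ}
    (hf : IsSobolev m f) (hf' : IsSobolev m f') (hg : IsSobolev m g) :
    ∀ᵐ x ∂m, Dq m (fun y => f y + f' y) g x = Dq m f g x + Dq m f' g x := by
  have h1 : ∀ᵐ x ∂m, ∀ n : ℕ, Aq m ((1 / 2) ^ n) (fun y => f y + f' y) g x ≤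
      Aq m (2 * (1 / 2) ^ n) f g x + Aq m (2 * (1 / 2) ^ n) f' g x := ae_all_iff.2 fun n => by
    filter_upwards [C.Aq_add_aux hf.2.1 hf'.2.1 hg.2.1 ((1 / 2) ^ n)] with x hx
    unfold Aq
    rw [← add_div, div_le_div_iff₀ (by positivity) (by positivity)]
    have hp : (0 : ℝ) < (1 / 2) ^ n := by positivity
    nlinarith
  have h2 : ∀ᵐ x ∂m, ∀ n : ℕ, Aq m (-(2 * (1 / 2) ^ n)) f g x + Aq m (-(2 * (1 / 2) ^ n)) f' g x ≤
      Aq m (-(1 / 2) ^ n) (fun y => f y + f' y) g x := ae_all_iff.2 fun n => by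
    filter_upwards [C.Aq_add_aux hf.2.1 hf'.2.1 hg.2.1 (-(1 / 2) ^ n)] with x hx
    unfold Aq
    have hp : (0 : ℝ) < (1 / 2) ^ n := by positivity
    rw [show 2 * -(1 / 2 : ℝ) ^ n = -(2 * (1 / 2) ^ n) by ring] at hx ⊢
    rw [show 2 * -(2 * (1 / 2 : ℝ) ^ n) = -(4 * (1 / 2) ^ n) by ring]
    rw [div_neg, div_neg, div_neg, ← neg_add, neg_le_neg_iff, ← add_div,
      div_le_div_iff₀ (by positivity) (by positivity)]
    nlinarith
  filter_upwards [h1, h2, C.tendsto_Aq_one hH (C.sob_add hf hf') hg,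
    C.tendsto_Aq_neg_one hH (C.sob_add hf hf') hg, C.tendsto_Aq hH hf hg two_pos,
    C.tendsto_Aq hH hf' hg two_pos] with x a1 a2 a3 a4 a5 a6
  refine le_antisymm ?_ ?_
  · exact le_of_tendsto_of_tendsto' a3 (a5.1.add a6.1) a1
  · exact le_of_tendsto_of_tendsto' (a5.2.add a6.2) a4 a2

theorem Dq_sub_left (C : WgCalc m) (hH : IsInfHilbertian m) {f f' g : X → ℝ}
    (hf : IsSobolev m f) (hf' : IsSobolev m f') (hg : IsSobolev m g) :
    ∀ᵐ x ∂m, Dq m (fun y => f y - f' y) g x = Dq m f g x - Dq m f' g x := by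
  have e : (fun y => f y - f' y) = fun y => f y + (-1) * f' y := by funext y; ring
  rw [e]
  filter_upwards [C.Dq_add_left hH hf (C.sob_smul (-1) hf') hg, C.Dq_smul_left hH hf' hg (-1)]
    with x h1 h2
  rw [h1, h2]; ring

theorem Dq_self (C : WgCalc m) (hH : IsInfHilbertian m) {f : X → ℝ} (hf : IsSobolev m f) :
    ∀ᵐ x ∂m, Dq m f f x = minWeakGrad m f x ^ 2 := by
  have h1 : ∀ᵐ x ∂m, ∀ n : ℕ, Aq m ((1 / 2) ^ n) f f x =
      (1 + (1 / 2) ^ n / 2) * minWeakGrad m f x ^ 2 := ae_all_iff.2 fun n => by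
    filter_upwards [(C.smul (1 + (1 / 2) ^ n) f hf.2.1).2] with x hx
    unfold Aq
    have e : (fun y => f y + (1 / 2) ^ n * f y) = fun y => (1 + (1 / 2) ^ n) * f y := by
      funext y; ring
    rw [e, hx, mul_pow, sq_abs]
    have hp : (0 : ℝ) < (1 / 2) ^ n := by positivity
    field_simp
    ring
  filter_upwards [h1, C.tendsto_Aq_one hH hf hf] with x a1 a2
  refine tendsto_nhds_unique a2 ?_
  have h3 : Tendsto (fun n : ℕ => (1 + (1 / 2 : ℝ) ^ n / 2) * minWeakGrad m f x ^ 2) atTop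
      (𝓝 ((1 + 0 / 2) * minWeakGrad m f x ^ 2)) := by
    refine Tendsto.mul_const _ (Tendsto.const_add _ (Tendsto.div_const ?_ _))
    exact tendsto_pow_atTop_nhds_zero_of_lt_one (by norm_num) (by norm_num)
  simp only [zero_div, add_zero, one_mul] at h3
  exact h3.congr fun n => (a1 n).symm

theorem Dq_abs_le (C : WgCalc m) (hH : IsInfHilbertian m) {f g : X → ℝ}
    (hf : IsSobolev m f) (hg : IsSobolev m g) :
    ∀ᵐ x ∂m, |Dq m f g x| ≤ minWeakGrad m f x * minWeakGrad m g x := by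
  have key : ∀ᵐ x ∂m, ∀ n : ℕ,
      minWeakGrad m (fun y => g y + (1 / 2) ^ n * f y) x ^ 2 - minWeakGrad m g x ^ 2 ≤
        2 * (1 / 2) ^ n * (minWeakGrad m f x * minWeakGrad m g x) +
          ((1 / 2) ^ n) ^ 2 * minWeakGrad m f x ^ 2 ∧
      minWeakGrad m (fun y => g y + -(1 / 2) ^ n * f y) x ^ 2 - minWeakGrad m g x ^ 2 ≤
        2 * (1 / 2) ^ n * (minWeakGrad m f x * minWeakGrad m g x) +
          ((1 / 2) ^ n) ^ 2 * minWeakGrad m f x ^ 2 := ae_all_iff.2 fun n => by
    have hp : (0 : ℝ) < (1 / 2) ^ n := by positivity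
    have s1 := C.smul ((1 / 2) ^ n) f hf.2.1
    have s2 := C.smul (-(1 / 2) ^ n) f hf.2.1
    have t1 := C.add g _ hg.2.1 s1.1
    have t2 := C.add g _ hg.2.1 s2.1
    filter_upwards [s1.2, s2.2, t1.2, t2.2, wg_nonneg_ae t1.1, wg_nonneg_ae t2.1,
      wg_nonneg_ae hf.2.1, wg_nonneg_ae hg.2.1] with x b1 b2 b3 b4 b5 b6 b7 b8
    rw [b1, abs_of_pos hp] at b3
    rw [b2, abs_neg, abs_of_pos hp] at b4
    constructor
    · have := pow_le_pow_left₀ b5 b3 2
      nlinarith
    · have := pow_le_pow_left₀ b6 b4 2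
      nlinarith
  filter_upwards [key, C.tendsto_Aq_one hH hf hg, C.tendsto_Aq_neg_one hH hf hg] with x a1 a2 a3
  have hz : Tendsto (fun n : ℕ => (1 / 2 : ℝ) ^ n) atTop (𝓝 0) :=
    tendsto_pow_atTop_nhds_zero_of_lt_one (by norm_num) (by norm_num)
  rw [abs_le]
  constructor
  · have h3 : Tendsto (fun n : ℕ => -(minWeakGrad m f x * minWeakGrad m g x) -
        (1 / 2 : ℝ) ^ n / 2 * minWeakGrad m f x ^ 2) atTop
        (𝓝 (-(minWeakGrad m f x * minWeakGrad m g x) - 0 / 2 * minWeakGrad m f x ^ 2)) :=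
      (Tendsto.mul_const _ (hz.div_const _)).const_sub _
    rw [zero_div, zero_mul, sub_zero] at h3
    refine le_of_tendsto_of_tendsto' h3 a3 fun n => ?_
    have hp : (0 : ℝ) < (1 / 2) ^ n := by positivity
    have := (a1 n).2
    unfold Aq
    rw [show 2 * -(1 / 2 : ℝ) ^ n = -(2 * (1 / 2) ^ n) by ring, div_neg, le_neg,
      div_le_iff₀ (by positivity)]
    nlinarith
  · have h3 : Tendsto (fun n : ℕ => (minWeakGrad m f x * minWeakGrad m g x) +
        (1 / 2 : ℝ) ^ n / 2 * minWeakGrad m f x ^ 2) atTop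
        (𝓝 ((minWeakGrad m f x * minWeakGrad m g x) + 0 / 2 * minWeakGrad m f x ^ 2)) :=
      (Tendsto.mul_const _ (hz.div_const _)).const_add _
    rw [zero_div, zero_mul, add_zero] at h3
    refine le_of_tendsto_of_tendsto' a2 h3 fun n => ?_
    have hp : (0 : ℝ) < (1 / 2) ^ n := by positivity
    have := (a1 n).1
    unfold Aq
    rw [div_le_iff₀ (by positivity)]
    nlinarith

theorem aesm_Dq (C : WgCalc m) {f g : X → ℝ} (hf : IsSobolevLoc m f) (hg : IsSobolevLoc m g) :
    AEStronglyMeasurable (Dq m f g) m := by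
  have h : ∀ n : ℕ, AEMeasurable (Aq m ((1 / 2) ^ n) f g) m := fun n => by
    have h1 := (aesm_wg_ae (C.sobLoc_lin hf hg ((1 / 2) ^ n))).aemeasurable
    have h2 := (aesm_wg_ae hg).aemeasurable
    exact ((h1.pow_const 2).sub (h2.pow_const 2)).div_const _
  exact (AEMeasurable.iInf h).aestronglyMeasurable

theorem integrable_Dq (C : WgCalc m) (hH : IsInfHilbertian m) {f g : X → ℝ}
    (hf : IsSobolev m f) (hg : IsSobolev m g) : Integrable (Dq m f g) m := by
  refine Integrable.mono' (g := fun x => minWeakGrad m f x * minWeakGrad m g x) ?_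
    (C.aesm_Dq hf.2.1 hg.2.1) (C.Dq_abs_le hH hf hg)
  exact hf.2.2.integrable_mul hg.2.2

end WgCalc

end Crest.Agent.R242
end
end

-- ▼ part R242/ParE
section

/-!
# Row 242, S11, part 3: second slot, Leibniz rule, polarisation
-/

set_option autoImplicit false

open MeasureTheory Filter Set
open scoped ENNReal NNReal Topology
open Crest.GeometryTopology.SyntheticRicci

noncomputable section

namespace Crest.Agent.R242

variable {X : Type*} [MetricSpace X] [MeasurableSpace X] {m : Measure X}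

namespace WgCalc

/-! ### second slot -/

theorem Aq_smul_right (C : WgCalc m) {f g : X → ℝ}
    (hf : IsSobolevLoc m f) (hg : IsSobolevLoc m g) {c : ℝ} (hc : c ≠ 0) (δ : ℝ) :
    ∀ᵐ x ∂m, Aq m δ f (fun y => c * g y) x = c * Aq m (c⁻¹ * δ) f g x := by
  have e : (fun y => c * g y + δ * f y) = fun y => c * (g y + c⁻¹ * δ * f y) := by
    funext y; field_simp
  filter_upwards [(C.smul c g hg).2, (C.smul c _ (C.sobLoc_lin hf hg (c⁻¹ * δ))).2] with x h1 h2
  unfold Aq
  rw [e, h2, h1, mul_pow, mul_pow, sq_abs]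
  rcases eq_or_ne δ 0 with rfl | hδ
  · simp
  · field_simp

theorem Dq_smul_right (C : WgCalc m) (hH : IsInfHilbertian m) {f g : X → ℝ}
    (hf : IsSobolev m f) (hg : IsSobolev m g) (c : ℝ) :
    ∀ᵐ x ∂m, Dq m f (fun y => c * g y) x = c * Dq m f g x := by
  rcases lt_trichotomy c 0 with hc | hc | hc
  · have hc' : 0 < -c⁻¹ := by
      rw [neg_pos]; exact inv_lt_zero.2 hc
    have h1 : ∀ᵐ x ∂m, ∀ n : ℕ, Aq m ((1 / 2) ^ n) f (fun y => c * g y) x =
        c * Aq m (c⁻¹ * (1 / 2) ^ n) f g x :=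
      ae_all_iff.2 fun n => C.Aq_smul_right hf.2.1 hg.2.1 hc.ne _
    filter_upwards [h1, C.tendsto_Aq_one hH hf (C.sob_smul c hg),
      C.tendsto_Aq hH hf hg hc'] with x a0 a1 a2
    refine tendsto_nhds_unique a1 ((a2.2.const_mul c).congr fun n => ?_)
    rw [a0]
    congr 2
    ring
  · subst hc
    have h1 : ∀ᵐ x ∂m, ∀ n : ℕ, Aq m ((1 / 2) ^ n) f (fun y => 0 * g y) x =
        (1 / 2) ^ n / 2 * minWeakGrad m f x ^ 2 := ae_all_iff.2 fun n => by
      filter_upwards [(C.smul ((1 / 2) ^ n) f hf.2.1).2, (C.smul 0 g hg.2.1).2] with x h1 h2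
      unfold Aq
      have e : (fun y => 0 * g y + (1 / 2 : ℝ) ^ n * f y) = fun y => (1 / 2) ^ n * f y := by
        funext y; ring
      rw [e, h1, h2]
      have hp : (0 : ℝ) < (1 / 2) ^ n := by positivity
      rw [abs_of_pos hp]
      simp only [abs_zero, zero_mul]
      field_simp
      ring
    filter_upwards [h1, C.tendsto_Aq_one hH hf (C.sob_smul 0 hg)] with x a0 a1
    rw [zero_mul]
    refine tendsto_nhds_unique a1 ?_
    have h3 : Tendsto (fun n : ℕ => (1 / 2 : ℝ) ^ n / 2 * minWeakGrad m f x ^ 2) atTop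
        (𝓝 (0 / 2 * minWeakGrad m f x ^ 2)) := by
      refine Tendsto.mul_const _ (Tendsto.div_const ?_ _)
      exact tendsto_pow_atTop_nhds_zero_of_lt_one (by norm_num) (by norm_num)
    rw [zero_div, zero_mul] at h3
    exact h3.congr fun n => (a0 n).symm
  · have hc' : 0 < c⁻¹ := by positivity
    have h1 : ∀ᵐ x ∂m, ∀ n : ℕ, Aq m ((1 / 2) ^ n) f (fun y => c * g y) x =
        c * Aq m (c⁻¹ * (1 / 2) ^ n) f g x :=
      ae_all_iff.2 fun n => C.Aq_smul_right hf.2.1 hg.2.1 hc.ne' _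
    filter_upwards [h1, C.tendsto_Aq_one hH hf (C.sob_smul c hg),
      C.tendsto_Aq hH hf hg hc'] with x a0 a1 a2
    exact tendsto_nhds_unique a1 ((a2.1.const_mul c).congr fun n => (a0 n).symm)

/-- locality of the weak gradient up to constants. -/
theorem wg_eq_of_eq_add_const (C : WgCalc m) {u v : X → ℝ} (hu : IsSobolevLoc m u)
    (hv : IsSobolevLoc m v) (b : ℝ) :
    ∀ᵐ x ∂m, u x = v x + b → minWeakGrad m u x = minWeakGrad m v x := by
  filter_upwards [C.loc u _ hu (C.wg_add_const hv b).1, (C.wg_add_const hv b).2] with x h1 h2 h3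
  rw [h1 h3, h2]

/-- the derivative in the second slot only depends on the function locally, up to affine
changes. -/
theorem Dq_affine_right (C : WgCalc m) (hH : IsInfHilbertian m) {h f u : X → ℝ}
    (hh : IsSobolev m h) (hf : IsSobolev m f) (hu : IsSobolev m u) (s b : ℝ) :
    ∀ᵐ x ∂m, u x = s * f x + b → Dq m h u x = s * Dq m h f x := by
  have hsf := C.sob_smul s hf
  have h1 : ∀ᵐ x ∂m, ∀ n : ℕ, u x = s * f x + b →
      Aq m ((1 / 2) ^ n) h u x = Aq m ((1 / 2) ^ n) h (fun y => s * f y) x :=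
    ae_all_iff.2 fun n => by
      filter_upwards [C.wg_eq_of_eq_add_const hu.2.1 hsf.2.1 b,
        C.wg_eq_of_eq_add_const (C.sobLoc_lin hh.2.1 hu.2.1 ((1 / 2) ^ n))
          (C.sobLoc_lin hh.2.1 hsf.2.1 ((1 / 2) ^ n)) b] with x a1 a2 a3
      unfold Aq
      rw [a1 a3, a2 (by rw [a3]; ring)]
  filter_upwards [h1, C.tendsto_Aq_one hH hh hu, C.tendsto_Aq_one hH hh hsf,
    C.Dq_smul_right hH hh hf s] with x a1 a2 a3 a4 a5
  rw [← a4]
  exact tendsto_nhds_unique a2 (a3.congr fun n => (a1 n a5).symm)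

/-- continuity in the second slot along sequences that converge pointwise in gradient. -/
theorem Dq_tendsto_right (C : WgCalc m) (hH : IsInfHilbertian m) {h g : X → ℝ} {gs : ℕ → X → ℝ}
    (hh : IsSobolev m h) (hg : IsSobolev m g) (hgs : ∀ n, IsSobolev m (gs n))
    {w : X → ℝ} {c : ℕ → ℝ} (hc : Tendsto c atTop (𝓝 0))
    (hle : ∀ n, ∀ᵐ x ∂m, minWeakGrad m (fun y => gs n y - g y) x ≤ c n * w x) :
    ∀ᵐ x ∂m, Tendsto (fun n => Dq m h (gs n) x) atTop (𝓝 (Dq m h g x)) := by
  -- convergence of the difference quotients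
  have key : ∀ δ : ℝ, ∀ᵐ x ∂m, Tendsto (fun n => Aq m δ h (gs n) x) atTop (𝓝 (Aq m δ h g x)) := by
    intro δ
    have k1 : ∀ᵐ x ∂m, ∀ n, |minWeakGrad m (gs n) x - minWeakGrad m g x| ≤ c n * w x :=
      ae_all_iff.2 fun n => by
        filter_upwards [hle n, C.abs_wg_sub_le (hgs n).2.1 hg.2.1] with x a1 a2 using a2.trans a1
    have k2 : ∀ᵐ x ∂m, ∀ n, |minWeakGrad m (fun y => gs n y + δ * h y) x -
        minWeakGrad m (fun y => g y + δ * h y) x| ≤ c n * w x :=
      ae_all_iff.2 fun n => by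
        have e : (fun y => gs n y + δ * h y - (g y + δ * h y)) = fun y => gs n y - g y := by
          funext y; ring
        have := C.abs_wg_sub_le (C.sobLoc_lin hh.2.1 (hgs n).2.1 δ) (C.sobLoc_lin hh.2.1 hg.2.1 δ)
        rw [e] at this
        filter_upwards [hle n, this] with x a1 a2 using a2.trans a1
    filter_upwards [k1, k2] with x a1 a2
    have hz : Tendsto (fun n => c n * w x) atTop (𝓝 0) := by
      simpa using hc.mul_const (w x)
    have b1 : Tendsto (fun n => minWeakGrad m (gs n) x) atTop (𝓝 (minWeakGrad m g x)) := by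
      rw [tendsto_iff_dist_tendsto_zero]
      exact squeeze_zero (fun n => dist_nonneg) (fun n => by rw [Real.dist_eq]; exact a1 n) hz
    have b2 : Tendsto (fun n => minWeakGrad m (fun y => gs n y + δ * h y) x) atTop
        (𝓝 (minWeakGrad m (fun y => g y + δ * h y) x)) := by
      rw [tendsto_iff_dist_tendsto_zero]
      exact squeeze_zero (fun n => dist_nonneg) (fun n => by rw [Real.dist_eq]; exact a2 n) hz
    exact ((b2.pow 2).sub (b1.pow 2)).div_const _
  have K1 : ∀ᵐ x ∂m, ∀ k : ℕ, Tendsto (fun n => Aq m ((1 / 2) ^ k) h (gs n) x) atTop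
      (𝓝 (Aq m ((1 / 2) ^ k) h g x)) := ae_all_iff.2 fun k => key _
  have K2 : ∀ᵐ x ∂m, ∀ k : ℕ, Tendsto (fun n => Aq m (-(1 / 2) ^ k) h (gs n) x) atTop
      (𝓝 (Aq m (-(1 / 2) ^ k) h g x)) := ae_all_iff.2 fun k => key _
  have K3 : ∀ᵐ x ∂m, ∀ k n : ℕ, Dq m h (gs n) x ≤ Aq m ((1 / 2) ^ k) h (gs n) x :=
    ae_all_iff.2 fun k => ae_all_iff.2 fun n => C.Dq_le hh.2.1 (hgs n).2.1 (by positivity)
  have K4 : ∀ᵐ x ∂m, ∀ k n : ℕ, Aq m (-(1 / 2) ^ k) h (gs n) x ≤ Dq m h (gs n) x :=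
    ae_all_iff.2 fun k => ae_all_iff.2 fun n => C.le_Dq hh.2.1 (hgs n).2.1 (by positivity)
  filter_upwards [K1, K2, K3, K4, C.tendsto_Aq_one hH hh hg, C.tendsto_Aq_neg_one hH hh hg]
    with x a1 a2 a3 a4 a5 a6
  rw [tendsto_order]
  constructor
  · intro a ha
    obtain ⟨k, hk⟩ := ((tendsto_order.1 a6).1 a ha).exists
    filter_upwards [(tendsto_order.1 (a2 k)).1 a hk] with n hn
    exact hn.trans_le (a4 k n)
  · intro a ha
    obtain ⟨k, hk⟩ := ((tendsto_order.1 a5).2 a ha).exists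
    filter_upwards [(tendsto_order.1 (a1 k)).2 a hk] with n hn
    exact (a3 k n).trans_lt hn

/-! ### Leibniz rule in the first slot -/

theorem Dq_mul_left (C : WgCalc m) (hH : IsInfHilbertian m) {f h g : X → ℝ}
    (hf : IsSobolev m f) (hh : IsSobolev m h) (hg : IsSobolev m g)
    (hfb : ∃ B : ℝ, ∀ᵐ x ∂m, |f x| ≤ B) (hhb : ∃ B : ℝ, ∀ᵐ x ∂m, |h x| ≤ B) :
    ∀ᵐ x ∂m, Dq m (fun y => f y * h y) g x = f x * Dq m h g x + h x * Dq m f g x := by
  have hfh := C.sob_mul hf hh hfb hhb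
  have key : ∀ a b : ℝ, ∀ᵐ x ∂m,
      |Dq m (fun y => f y * h y) g x - a * Dq m h g x - b * Dq m f g x| ≤
        (|f x - a| * minWeakGrad m h x + |h x - b| * minWeakGrad m f x) * minWeakGrad m g x := by
    intro a b
    have hu := C.sob_sub (C.sob_sub hfh (C.sob_smul a hh)) (C.sob_smul b hf)
    have hf' := C.wg_add_const hf.2.1 (-a)
    have hh' := C.wg_add_const hh.2.1 (-b)
    have hfb' : ∃ B : ℝ, ∀ᵐ x ∂m, |f x + -a| ≤ B := by
      obtain ⟨B, hB⟩ := hfb
      refine ⟨B + |a|, ?_⟩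
      filter_upwards [hB] with x hx
      calc |f x + -a| ≤ |f x| + |-a| := abs_add_le _ _
        _ ≤ B + |a| := by rw [abs_neg]; linarith
    have hhb' : ∃ B : ℝ, ∀ᵐ x ∂m, |h x + -b| ≤ B := by
      obtain ⟨B, hB⟩ := hhb
      refine ⟨B + |b|, ?_⟩
      filter_upwards [hB] with x hx
      calc |h x + -b| ≤ |h x| + |-b| := abs_add_le _ _
        _ ≤ B + |b| := by rw [abs_neg]; linarith
    have hm := C.mul _ _ hf'.1 hh'.1 hfb' hhb'
    filter_upwards [C.Dq_sub_left hH (C.sob_sub hfh (C.sob_smul a hh)) (C.sob_smul b hf) hg,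
      C.Dq_sub_left hH hfh (C.sob_smul a hh) hg, C.Dq_smul_left hH hh hg a,
      C.Dq_smul_left hH hf hg b, C.Dq_abs_le hH hu hg, hf'.2, hh'.2, hm.2,
      C.wg_eq_of_eq_add_const hu.2.1 hm.1 (-(a * b)), wg_nonneg_ae hg.2.1]
      with x a1 a2 a3 a4 a5 a6 a7 a8 a9 a10
    rw [a1, a2, a3, a4] at a5
    refine a5.trans (mul_le_mul_of_nonneg_right ?_ a10)
    rw [a9 (by ring)]
    rw [a6, a7] at a8
    simpa [sub_eq_add_neg] using a8
  have key2 : ∀ᵐ x ∂m, ∀ a b : ℚ,
      |Dq m (fun y => f y * h y) g x - a * Dq m h g x - b * Dq m f g x| ≤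
        (|f x - a| * minWeakGrad m h x + |h x - b| * minWeakGrad m f x) * minWeakGrad m g x :=
    ae_all_iff.2 fun a => ae_all_iff.2 fun b => key a b
  filter_upwards [key2] with x hx
  have h3 : ∀ a b : ℝ, |Dq m (fun y => f y * h y) g x - a * Dq m h g x - b * Dq m f g x| ≤
        (|f x - a| * minWeakGrad m h x + |h x - b| * minWeakGrad m f x) * minWeakGrad m g x := by
    intro a b
    refine DenseRange.induction_on₂ (e := ((↑) : ℚ → ℝ))
      (p := fun a b => |Dq m (fun y => f y * h y) g x - a * Dq m h g x - b * Dq m f g x| ≤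
        (|f x - a| * minWeakGrad m h x + |h x - b| * minWeakGrad m f x) * minWeakGrad m g x)
      Rat.isDenseEmbedding_coe_real.dense ?_ hx a b
    exact isClosed_le (by fun_prop) (by fun_prop)
  have h4 := h3 (f x) (h x)
  simp only [sub_self, abs_zero, zero_mul, add_zero] at h4
  have h5 := abs_eq_zero.1 (le_antisymm h4 (abs_nonneg _))
  linarith

/-! ### the integral of the derivative -/

theorem integral_Dq (C : WgCalc m) (hH : IsInfHilbertian m) {u v : X → ℝ}
    (hu : IsSobolev m u) (hv : IsSobolev m v) :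
    ∫ x, Dq m u v x ∂m = (Eg m (fun x => v x + u x) - Eg m v - Eg m u) / 2 := by
  -- recursion
  have hrec : ∀ n : ℕ, Eg m (fun x => v x + (1 / 2) ^ n * u x) - Eg m v - ((1 / 2) ^ n) ^ 2 * Eg m u =
      (1 / 2) ^ n * (Eg m (fun x => v x + u x) - Eg m v - Eg m u) := by
    intro n
    induction n with
    | zero => simp
    | succ n ih =>
      have h1 := C.Eg_parallelogram hH (C.sob_lin hu hv ((1 / 2) ^ (n + 1)))
        (C.sob_smul ((1 / 2) ^ (n + 1)) hu)
      rw [C.Eg_smul _ hu.2.1] at h1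
      have e1 : (fun x => v x + (1 / 2 : ℝ) ^ (n + 1) * u x + (1 / 2) ^ (n + 1) * u x) =
          fun x => v x + (1 / 2) ^ n * u x := by
        funext x; rw [pow_succ]; ring
      have e2 : (fun x => v x + (1 / 2 : ℝ) ^ (n + 1) * u x - (1 / 2) ^ (n + 1) * u x) = v := by
        funext x; ring
      rw [e1, e2] at h1
      have hp : (1 / 2 : ℝ) ^ (n + 1) = (1 / 2) ^ n / 2 := by rw [pow_succ]; ring
      rw [hp] at h1 ⊢
      nlinarith
  set Bv := (Eg m (fun x => v x + u x) - Eg m v - Eg m u) / 2 with hB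
  have hA : ∀ n : ℕ, ∫ x, Aq m ((1 / 2) ^ n) u v x ∂m = Bv + (1 / 2) ^ n / 2 * Eg m u := by
    intro n
    unfold Aq
    rw [integral_div, integral_sub (sob_int_sq (C.sob_lin hu hv _)) (sob_int_sq hv)]
    have := hrec n
    unfold Eg at this hB ⊢
    have hp : (0 : ℝ) < (1 / 2) ^ n := by positivity
    rw [div_eq_iff (by positivity), hB]
    nlinarith
  have hgap : ∀ n : ℕ, |∫ x, Dq m u v x ∂m - ∫ x, Aq m ((1 / 2) ^ n) u v x ∂m| ≤
      (1 / 2) ^ n * Eg m u := by
    intro n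
    rw [← integral_sub (C.integrable_Dq hH hu hv) (C.integrable_Aq hu hv _)]
    refine (abs_integral_le_integral_abs).trans ?_
    rw [← C.integral_gap hH hu hv (by positivity : (0 : ℝ) < (1 / 2) ^ n)]
    refine integral_mono_ae ((C.integrable_Dq hH hu hv).sub (C.integrable_Aq hu hv _)).abs
      ((C.integrable_Aq hu hv _).sub (C.integrable_Aq hu hv _)) ?_
    filter_upwards [C.Dq_le hu.2.1 hv.2.1 (by positivity : (0 : ℝ) < (1 / 2) ^ n),
      C.le_Dq hu.2.1 hv.2.1 (by positivity : (0 : ℝ) < (1 / 2) ^ n)] with x a1 a2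
    rw [abs_le]
    constructor <;> linarith
  have hE : 0 ≤ Eg m u := integral_nonneg fun x => sq_nonneg _
  have hlim : ∀ n : ℕ, |∫ x, Dq m u v x ∂m - Bv| ≤ (1 / 2) ^ n * (2 * Eg m u) := by
    intro n
    have h1 := hgap n
    rw [hA] at h1
    have hp : (0 : ℝ) < (1 / 2) ^ n := by positivity
    have h2 : 0 ≤ (1 / 2 : ℝ) ^ n * Eg m u := by positivity
    rw [abs_le] at h1 ⊢
    constructor <;> nlinarith [h1.1, h1.2]
  have hz : Tendsto (fun n : ℕ => (1 / 2 : ℝ) ^ n * (2 * Eg m u)) atTop (𝓝 (0 * (2 * Eg m u))) :=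
    (tendsto_pow_atTop_nhds_zero_of_lt_one (by norm_num) (by norm_num)).mul_const _
  rw [zero_mul] at hz
  have h0 := ge_of_tendsto' hz hlim
  have := abs_eq_zero.1 (le_antisymm h0 (abs_nonneg _))
  linarith

/-- the polarised energy. -/
theorem integral_Dq_symm (C : WgCalc m) (hH : IsInfHilbertian m) {u v : X → ℝ}
    (hu : IsSobolev m u) (hv : IsSobolev m v) :
    ∫ x, Dq m u v x ∂m = ∫ x, Dq m v u x ∂m := by
  rw [C.integral_Dq hH hu hv, C.integral_Dq hH hv hu]
  have e : (fun x => v x + u x) = fun x => u x + v x := by funext x; ring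
  rw [e]; ring

theorem integral_Dq_add_left (C : WgCalc m) (hH : IsInfHilbertian m) {u u' v : X → ℝ}
    (hu : IsSobolev m u) (hu' : IsSobolev m u') (hv : IsSobolev m v) :
    ∫ x, Dq m (fun y => u y + u' y) v x ∂m = ∫ x, Dq m u v x ∂m + ∫ x, Dq m u' v x ∂m := by
  rw [← integral_add (C.integrable_Dq hH hu hv) (C.integrable_Dq hH hu' hv)]
  exact integral_congr_ae (C.Dq_add_left hH hu hu' hv)

theorem integral_Dq_sub_left (C : WgCalc m) (hH : IsInfHilbertian m) {u u' v : X → ℝ}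
    (hu : IsSobolev m u) (hu' : IsSobolev m u') (hv : IsSobolev m v) :
    ∫ x, Dq m (fun y => u y - u' y) v x ∂m = ∫ x, Dq m u v x ∂m - ∫ x, Dq m u' v x ∂m := by
  rw [← integral_sub (C.integrable_Dq hH hu hv) (C.integrable_Dq hH hu' hv)]
  exact integral_congr_ae (C.Dq_sub_left hH hu hu' hv)

theorem integral_Dq_add_right (C : WgCalc m) (hH : IsInfHilbertian m) {u v v' : X → ℝ}
    (hu : IsSobolev m u) (hv : IsSobolev m v) (hv' : IsSobolev m v') :
    ∫ x, Dq m u (fun y => v y + v' y) x ∂m = ∫ x, Dq m u v x ∂m + ∫ x, Dq m u v' x ∂m := by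
  rw [C.integral_Dq_symm hH hu (C.sob_add hv hv'), C.integral_Dq_add_left hH hv hv' hu,
    C.integral_Dq_symm hH hv hu, C.integral_Dq_symm hH hv' hu]

theorem integral_Dq_sub_right (C : WgCalc m) (hH : IsInfHilbertian m) {u v v' : X → ℝ}
    (hu : IsSobolev m u) (hv : IsSobolev m v) (hv' : IsSobolev m v') :
    ∫ x, Dq m u (fun y => v y - v' y) x ∂m = ∫ x, Dq m u v x ∂m - ∫ x, Dq m u v' x ∂m := by
  rw [C.integral_Dq_symm hH hu (C.sob_sub hv hv'), C.integral_Dq_sub_left hH hv hv' hu,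
    C.integral_Dq_symm hH hv hu, C.integral_Dq_symm hH hv' hu]

end WgCalc

end Crest.Agent.R242
end
end

-- ▼ part R242/ParF
section

/-!
# Row 242, S11, part 4: chain rule for the square in the second slot
-/

set_option autoImplicit false
set_option linter.unusedSectionVars false

open MeasureTheory Filter Set
open scoped ENNReal NNReal Topology
open Crest.GeometryTopology.SyntheticRicci

noncomputable section

namespace Crest.Agent.R242

/-! ### Piecewise affine approximation of `r²/2` -/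

namespace ParF

/-- clamp. -/
def cl (M t : ℝ) : ℝ := max (-M) (min M t)

theorem cl_mono (M : ℝ) : Monotone (cl M) := fun _ _ h =>
  max_le_max le_rfl (min_le_min le_rfl h)

theorem cl_cont (M : ℝ) : Continuous (cl M) := by
  unfold cl; fun_prop

theorem cl_abs_le {M : ℝ} (hM : 0 ≤ M) (t : ℝ) : |cl M t| ≤ M := by
  unfold cl
  rw [abs_le]
  exact ⟨le_max_left _ _, max_le (by linarith) (min_le_left _ _)⟩

theorem cl_eq {M t : ℝ} (h : |t| ≤ M) : cl M t = t := by
  unfold cl
  rw [abs_le] at h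
  rw [min_eq_right h.2, max_eq_right h.1]

/-- slopes. -/
def sl (M : ℝ) (n : ℕ) (t : ℝ) : ℝ := (⌊((n : ℝ) + 1) * cl M t⌋ : ℝ) / ((n : ℝ) + 1)

theorem sl_mono (M : ℝ) (n : ℕ) : Monotone (sl M n) := fun a b h => by
  unfold sl
  have hp : (0 : ℝ) < (n : ℝ) + 1 := by positivity
  refine div_le_div_of_nonneg_right ?_ hp.le
  exact_mod_cast Int.floor_le_floor (mul_le_mul_of_nonneg_left (cl_mono M h) hp.le)

theorem sl_sub_abs_le (M : ℝ) (n : ℕ) (t : ℝ) : |sl M n t - cl M t| ≤ 1 / ((n : ℝ) + 1) := by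
  unfold sl
  have hp : (0 : ℝ) < (n : ℝ) + 1 := by positivity
  have h1 := Int.floor_le (((n : ℝ) + 1) * cl M t)
  have h2 := Int.lt_floor_add_one (((n : ℝ) + 1) * cl M t)
  have e : (⌊((n : ℝ) + 1) * cl M t⌋ : ℝ) / ((n : ℝ) + 1) - cl M t =
      ((⌊((n : ℝ) + 1) * cl M t⌋ : ℝ) - ((n : ℝ) + 1) * cl M t) / ((n : ℝ) + 1) := by
    field_simp
  rw [e, abs_div, abs_of_pos hp]
  refine div_le_div_of_nonneg_right ?_ hp.le
  rw [abs_le]
  constructor <;> linarith

theorem sl_abs_le {M : ℝ} (hM : 0 ≤ M) (n : ℕ) (t : ℝ) : |sl M n t| ≤ M + 1 := by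
  have h1 := sl_sub_abs_le M n t
  have h2 := cl_abs_le hM t
  have h3 : 1 / ((n : ℝ) + 1) ≤ 1 := by
    rw [div_le_one (by positivity)]
    have : (0 : ℝ) ≤ n := Nat.cast_nonneg n
    linarith
  calc |sl M n t| = |(sl M n t - cl M t) + cl M t| := by ring_nf
    _ ≤ |sl M n t - cl M t| + |cl M t| := abs_add_le _ _
    _ ≤ M + 1 := by linarith

theorem sl_ii (M : ℝ) (n : ℕ) (a b : ℝ) : IntervalIntegrable (sl M n) volume a b :=
  (sl_mono M n).intervalIntegrable

theorem cl_ii (M : ℝ) (a b : ℝ) : IntervalIntegrable (cl M) volume a b :=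
  (cl_cont M).intervalIntegrable a b

/-- piecewise affine approximation. -/
def ph (M : ℝ) (n : ℕ) (r : ℝ) : ℝ := ∫ t in (0 : ℝ)..r, sl M n t

/-- truncated `r²/2`. -/
def th (M : ℝ) (r : ℝ) : ℝ := ∫ t in (0 : ℝ)..r, cl M t

theorem ph_zero (M : ℝ) (n : ℕ) : ph M n 0 = 0 := by simp [ph]

theorem th_zero (M : ℝ) : th M 0 = 0 := by simp [th]

theorem ph_sub (M : ℝ) (n : ℕ) (r r' : ℝ) : ph M n r - ph M n r' = ∫ t in r'..r, sl M n t := by
  unfold ph
  rw [intervalIntegral.integral_interval_sub_left (sl_ii M n 0 r) (sl_ii M n 0 r')]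

theorem th_sub (M : ℝ) (r r' : ℝ) : th M r - th M r' = ∫ t in r'..r, cl M t := by
  unfold th
  rw [intervalIntegral.integral_interval_sub_left (cl_ii M 0 r) (cl_ii M 0 r')]

theorem ph_lip {M : ℝ} (hM : 0 ≤ M) (n : ℕ) : LipschitzWith (M + 1).toNNReal (ph M n) := by
  refine LipschitzWith.of_dist_le_mul fun r r' => ?_
  rw [Real.dist_eq, Real.dist_eq, ph_sub, Real.coe_toNNReal _ (by linarith)]
  have := intervalIntegral.norm_integral_le_of_norm_le_const (a := r') (b := r)
    (f := sl M n) (C := M + 1) (fun t _ => sl_abs_le hM n t)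
  simpa using this

theorem th_lip {M : ℝ} (hM : 0 ≤ M) : LipschitzWith M.toNNReal (th M) := by
  refine LipschitzWith.of_dist_le_mul fun r r' => ?_
  rw [Real.dist_eq, Real.dist_eq, th_sub, Real.coe_toNNReal _ hM]
  have := intervalIntegral.norm_integral_le_of_norm_le_const (a := r') (b := r)
    (f := cl M) (C := M) (fun t _ => cl_abs_le hM t)
  simpa using this

theorem diff_lip (M : ℝ) (n : ℕ) :
    LipschitzWith (1 / ((n : ℝ) + 1)).toNNReal (fun r => ph M n r - th M r) := by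
  refine LipschitzWith.of_dist_le_mul fun r r' => ?_
  rw [Real.dist_eq, Real.dist_eq, Real.coe_toNNReal _ (by positivity)]
  have e : ph M n r - th M r - (ph M n r' - th M r') = ∫ t in r'..r, (sl M n t - cl M t) := by
    rw [intervalIntegral.integral_sub (sl_ii M n _ _) (cl_ii M _ _), ← ph_sub, ← th_sub]
    ring
  rw [e]
  have := intervalIntegral.norm_integral_le_of_norm_le_const (a := r') (b := r)
    (f := fun t => sl M n t - cl M t) (C := 1 / ((n : ℝ) + 1)) (fun t _ => sl_sub_abs_le M n t)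
  simpa using this

theorem th_eq {M r : ℝ} (h : |r| ≤ M) : th M r = r ^ 2 / 2 := by
  unfold th
  have : ∫ t in (0 : ℝ)..r, cl M t = ∫ t in (0 : ℝ)..r, t := by
    refine intervalIntegral.integral_congr fun t ht => ?_
    refine cl_eq (le_trans ?_ h)
    rw [uIcc] at ht
    rcases le_total 0 r with hr | hr
    · rw [min_eq_left hr, max_eq_right hr] at ht
      rw [abs_of_nonneg hr, abs_of_nonneg ht.1]; exact ht.2
    · rw [min_eq_right hr, max_eq_left hr] at ht
      rw [abs_of_nonpos hr, abs_of_nonpos ht.2]; linarith [ht.1]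
  rw [this, integral_id]; ring

theorem ph_affine (M : ℝ) (n : ℕ) (i : ℤ) :
    ∃ b : ℝ, ∀ r : ℝ, ⌊((n : ℝ) + 1) * cl M r⌋ = i → ph M n r = (i : ℝ) / ((n : ℝ) + 1) * r + b := by
  by_cases h : ∃ r0 : ℝ, ⌊((n : ℝ) + 1) * cl M r0⌋ = i
  · obtain ⟨r0, h0⟩ := h
    refine ⟨ph M n r0 - (i : ℝ) / ((n : ℝ) + 1) * r0, fun r hr => ?_⟩
    have h1 : ph M n r - ph M n r0 = (i : ℝ) / ((n : ℝ) + 1) * (r - r0) := by
      rw [ph_sub]
      have e : ∫ t in r0..r, sl M n t = ∫ _t in r0..r, (i : ℝ) / ((n : ℝ) + 1) := by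
        refine intervalIntegral.integral_congr fun t ht => ?_
        have s0 : sl M n r0 = (i : ℝ) / ((n : ℝ) + 1) := by unfold sl; rw [h0]
        have s1 : sl M n r = (i : ℝ) / ((n : ℝ) + 1) := by unfold sl; rw [hr]
        rw [uIcc] at ht
        rcases le_total r0 r with hh | hh
        · rw [min_eq_left hh, max_eq_right hh] at ht
          exact le_antisymm (s1 ▸ sl_mono M n ht.2) (s0 ▸ sl_mono M n ht.1)
        · rw [min_eq_right hh, max_eq_left hh] at ht
          exact le_antisymm (s0 ▸ sl_mono M n ht.2) (s1 ▸ sl_mono M n ht.1)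
      rw [e, intervalIntegral.integral_const, smul_eq_mul]
      ring
    linarith
  · exact ⟨0, fun r hr => absurd ⟨r, hr⟩ h⟩

end ParF

open ParF

variable {X : Type*} [MetricSpace X] [MeasurableSpace X] {m : Measure X}

namespace WgCalc

theorem Dq_sq_right (C : WgCalc m) (hH : IsInfHilbertian m) {h f : X → ℝ}
    (hh : IsSobolev m h) (hf : IsSobolev m f) (hfb : ∃ B : ℝ, ∀ᵐ x ∂m, |f x| ≤ B) :
    ∀ᵐ x ∂m, Dq m h (fun y => f y ^ 2 / 2) x = f x * Dq m h f x := by
  obtain ⟨B, hB⟩ := hfb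
  set M : ℝ := max B 0 with hM
  have hM0 : 0 ≤ M := le_max_right _ _
  have hBM : ∀ᵐ x ∂m, |f x| ≤ M := by
    filter_upwards [hB] with x hx using hx.trans (le_max_left _ _)
  have hus : ∀ n, IsSobolev m (fun x => ph M n (f x)) := fun n =>
    C.sob_comp (ph_lip hM0 n) (ph_zero M n) hf
  have hth : IsSobolev m (fun x => th M (f x)) := C.sob_comp (th_lip hM0) (th_zero M) hf
  have hae : (fun x => th M (f x)) =ᵐ[m] fun x => f x ^ 2 / 2 := by
    filter_upwards [hBM] with x hx using th_eq hx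
  have hsq : IsSobolev m (fun x => f x ^ 2 / 2) := C.sob_congr hth hae
  choose b hb using ph_affine M
  have h1 : ∀ᵐ x ∂m, ∀ (n : ℕ) (i : ℤ), ph M n (f x) = (i : ℝ) / ((n : ℝ) + 1) * f x + b n i →
      Dq m h (fun y => ph M n (f y)) x = (i : ℝ) / ((n : ℝ) + 1) * Dq m h f x :=
    ae_all_iff.2 fun n => ae_all_iff.2 fun i => C.Dq_affine_right hH hh hf (hus n) _ _
  have h2 : ∀ᵐ x ∂m, Tendsto (fun n => Dq m h (fun y => ph M n (f y)) x) atTop
      (𝓝 (Dq m h (fun y => th M (f y)) x)) := by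
    refine C.Dq_tendsto_right hH hh hth hus (w := minWeakGrad m f)
      (c := fun n => 1 / ((n : ℝ) + 1)) tendsto_one_div_add_atTop_nhds_zero_nat fun n => ?_
    have := (C.comp _ _ f (diff_lip M n) hf.2.1).2
    rw [Real.coe_toNNReal _ (by positivity)] at this
    exact this
  filter_upwards [h1, h2, C.Dq_affine_right hH hh hth hsq 1 0, hae, hBM] with x a1 a2 a3 a4 a5
  have h3 : Dq m h (fun y => f y ^ 2 / 2) x = Dq m h (fun y => th M (f y)) x := by
    rw [a3 (by simpa using a4.symm)]; ring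
  rw [h3]
  refine tendsto_nhds_unique a2 ?_
  have h4 : ∀ n : ℕ, Dq m h (fun y => ph M n (f y)) x = sl M n (f x) * Dq m h f x := fun n =>
    a1 n _ (hb n _ _ rfl)
  have h5 : Tendsto (fun n : ℕ => sl M n (f x)) atTop (𝓝 (f x)) := by
    rw [tendsto_iff_dist_tendsto_zero]
    refine squeeze_zero (fun n => dist_nonneg) (fun n => ?_)
      (tendsto_one_div_add_atTop_nhds_zero_nat (𝕜 := ℝ))
    rw [Real.dist_eq]
    have := sl_sub_abs_le M n (f x)
    rwa [cl_eq a5] at this
  exact (h5.mul_const _).congr fun n => (h4 n).symm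

theorem bdd_add {f g : X → ℝ} (hf : ∃ B : ℝ, ∀ᵐ x ∂m, |f x| ≤ B)
    (hg : ∃ B : ℝ, ∀ᵐ x ∂m, |g x| ≤ B) : ∃ B : ℝ, ∀ᵐ x ∂m, |f x + g x| ≤ B := by
  obtain ⟨B, hB⟩ := hf
  obtain ⟨B', hB'⟩ := hg
  refine ⟨B + B', ?_⟩
  filter_upwards [hB, hB'] with x h1 h2
  exact (abs_add_le _ _).trans (add_le_add h1 h2)

theorem bdd_sub {f g : X → ℝ} (hf : ∃ B : ℝ, ∀ᵐ x ∂m, |f x| ≤ B)
    (hg : ∃ B : ℝ, ∀ᵐ x ∂m, |g x| ≤ B) : ∃ B : ℝ, ∀ᵐ x ∂m, |f x - g x| ≤ B := by
  obtain ⟨B, hB⟩ := hf
  obtain ⟨B', hB'⟩ := hg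
  refine ⟨B + B', ?_⟩
  filter_upwards [hB, hB'] with x h1 h2
  exact (abs_sub _ _).trans (add_le_add h1 h2)

theorem sob_sq_half (C : WgCalc m) {f : X → ℝ} (hf : IsSobolev m f)
    (hfb : ∃ B : ℝ, ∀ᵐ x ∂m, |f x| ≤ B) : IsSobolev m (fun y => f y ^ 2 / 2) := by
  have h := C.sob_smul (1 / 2) (C.sob_mul hf hf hfb hfb)
  have e : (fun x => 1 / 2 * (f x * f x)) = fun y => f y ^ 2 / 2 := by funext x; ring
  rwa [e] at h

theorem integral_weight (C : WgCalc m) (hH : IsInfHilbertian m) {h f : X → ℝ}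
    (hh : IsSobolev m h) (hf : IsSobolev m f) (hhb : ∃ B : ℝ, ∀ᵐ x ∂m, |h x| ≤ B)
    (hfb : ∃ B : ℝ, ∀ᵐ x ∂m, |f x| ≤ B) :
    ∫ x, h x * minWeakGrad m f x ^ 2 ∂m =
      ∫ x, Dq m (fun y => f y * h y) f x ∂m - ∫ x, Dq m h (fun y => f y ^ 2 / 2) x ∂m := by
  rw [← integral_sub (C.integrable_Dq hH (C.sob_mul hf hh hfb hhb) hf)
    (C.integrable_Dq hH hh (C.sob_sq_half hf hfb))]
  refine integral_congr_ae ?_
  filter_upwards [C.Dq_mul_left hH hf hh hf hfb hhb, C.Dq_sq_right hH hh hf hfb,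
    C.Dq_self hH hf] with x a1 a2 a3
  rw [a1, a2, a3]; ring

theorem integral_weight_parallelogram (C : WgCalc m) (hH : IsInfHilbertian m) {h f g : X → ℝ}
    (hh : IsSobolev m h) (hf : IsSobolev m f) (hg : IsSobolev m g)
    (hhb : ∃ B : ℝ, ∀ᵐ x ∂m, |h x| ≤ B)
    (hfb : ∃ B : ℝ, ∀ᵐ x ∂m, |f x| ≤ B) (hgb : ∃ B : ℝ, ∀ᵐ x ∂m, |g x| ≤ B) :
    ∫ x, h x * minWeakGrad m (fun y => f y + g y) x ^ 2 ∂m +
      ∫ x, h x * minWeakGrad m (fun y => f y - g y) x ^ 2 ∂m =
      2 * ∫ x, h x * minWeakGrad m f x ^ 2 ∂m + 2 * ∫ x, h x * minWeakGrad m g x ^ 2 ∂m := by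
  have hp := C.sob_add hf hg
  have hs := C.sob_sub hf hg
  have hpb := bdd_add hfb hgb
  have hsb := bdd_sub hfb hgb
  rw [C.integral_weight hH hh hp hhb hpb, C.integral_weight hH hh hs hhb hsb,
    C.integral_weight hH hh hf hhb hfb, C.integral_weight hH hh hg hhb hgb]
  have hfh := C.sob_mul hf hh hfb hhb
  have hgh := C.sob_mul hg hh hgb hhb
  have e1 : (fun y => (f y + g y) * h y) = fun y => f y * h y + g y * h y := by funext y; ring
  have e2 : (fun y => (f y - g y) * h y) = fun y => f y * h y - g y * h y := by funext y; ring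
  rw [e1, e2, C.integral_Dq_add_left hH hfh hgh hp, C.integral_Dq_sub_left hH hfh hgh hs,
    C.integral_Dq_add_right hH hfh hf hg, C.integral_Dq_add_right hH hgh hf hg,
    C.integral_Dq_sub_right hH hfh hf hg, C.integral_Dq_sub_right hH hgh hf hg]
  have hps := C.sob_sq_half hp hpb
  have hss := C.sob_sq_half hs hsb
  have hfs := C.sob_sq_half hf hfb
  have hgs := C.sob_sq_half hg hgb
  have h3 := C.integral_Dq_add_right hH hh hps hss
  have e3 : (fun y => (f y + g y) ^ 2 / 2 + (f y - g y) ^ 2 / 2) =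
      fun y => (f y ^ 2 / 2 + f y ^ 2 / 2) + (g y ^ 2 / 2 + g y ^ 2 / 2) := by funext y; ring
  rw [e3, C.integral_Dq_add_right hH hh (C.sob_add hfs hfs) (C.sob_add hgs hgs),
    C.integral_Dq_add_right hH hh hfs hfs, C.integral_Dq_add_right hH hh hgs hgs] at h3
  linarith

end WgCalc

end Crest.Agent.R242
end
end

-- ▼ part R242/ParG
section

/-!
# Row 242, S11, part 5: the pointwise parallelogram law on `IsSobolevLoc`
-/

set_option autoImplicit false
set_option linter.unusedSectionVars false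

open MeasureTheory Filter Set
open scoped ENNReal NNReal Topology
open Crest.GeometryTopology.SyntheticRicci

noncomputable section

namespace Crest.Agent.R242

variable {X : Type*} [MetricSpace X] [MeasurableSpace X] {m : Measure X}

/-- cut-off function: `1` on `ball o n`, `0` outside `closedBall o (n+1)`, `1`-Lipschitz. -/
def cutf (o : X) (n : ℕ) (x : X) : ℝ := max 0 (min 1 ((n : ℝ) + 1 - dist x o))

theorem cutf_nonneg (o : X) (n : ℕ) (x : X) : 0 ≤ cutf o n x := le_max_left _ _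

theorem cutf_le_one (o : X) (n : ℕ) (x : X) : cutf o n x ≤ 1 :=
  max_le zero_le_one (min_le_left _ _)

theorem cutf_abs_le (o : X) (n : ℕ) (x : X) : |cutf o n x| ≤ 1 := by
  rw [abs_of_nonneg (cutf_nonneg o n x)]; exact cutf_le_one o n x

theorem cutf_eq_one {o : X} {n : ℕ} {x : X} (h : x ∈ Metric.ball o n) : cutf o n x = 1 := by
  unfold cutf
  rw [Metric.mem_ball] at h
  rw [min_eq_left (by linarith)]
  simp

theorem cutf_eq_zero {o : X} {n : ℕ} {x : X} (h : x ∉ Metric.closedBall o ((n : ℝ) + 1)) :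
    cutf o n x = 0 := by
  unfold cutf
  rw [Metric.mem_closedBall, not_le] at h
  rw [max_eq_left]
  exact (min_le_right _ _).trans (by linarith)

theorem cutf_lip (o : X) (n : ℕ) : LipschitzWith 1 (cutf o n) := by
  have h1 : LipschitzWith 1 (fun x : X => (n : ℝ) + 1 - dist x o) := by
    refine LipschitzWith.of_dist_le_mul fun x y => ?_
    rw [Real.dist_eq]
    have e : (n : ℝ) + 1 - dist x o - ((n : ℝ) + 1 - dist y o) = -(dist x o - dist y o) := by ring
    rw [e, abs_neg, NNReal.coe_one, one_mul]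
    exact abs_dist_sub_le x y o
  exact (h1.const_min 1).const_max 0

theorem cl_lip (M : ℝ) : LipschitzWith 1 (ParF.cl M) :=
  (LipschitzWith.id.const_min M).const_max (-M)

namespace WgCalc

/-- truncation and cut-off of a locally Sobolev function. -/
theorem sob_trunc [BorelSpace X] (C : WgCalc m) {f : X → ℝ} (hf : IsSobolevLoc m f) (o : X)
    (n : ℕ) : IsSobolev m (fun x => cutf o n x * ParF.cl n (f x)) := by
  have hc := C.lip 1 _ (cutf_lip o n)
  have ht := C.comp _ 1 f (cl_lip (n : ℝ)) hf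
  have h1 := C.mul _ _ hc.1 ht.1 ⟨1, Eventually.of_forall (cutf_abs_le o n)⟩
    ⟨n, Eventually.of_forall fun x => ParF.cl_abs_le (Nat.cast_nonneg n) _⟩
  refine C.sob_of_bddSupp h1.1 ⟨o, (n : ℝ) + 1, Eventually.of_forall fun x hx => ?_⟩
  simp only
  rw [cutf_eq_zero hx, zero_mul]

theorem trunc_bdd (f : X → ℝ) (o : X) (n : ℕ) :
    ∃ B : ℝ, ∀ᵐ x ∂m, |cutf o n x * ParF.cl n (f x)| ≤ B := by
  refine ⟨1 * n, Eventually.of_forall fun x => ?_⟩
  rw [abs_mul]
  exact mul_le_mul (cutf_abs_le o n x) (ParF.cl_abs_le (Nat.cast_nonneg n) _) (abs_nonneg _)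
    zero_le_one

theorem trunc_eq {f : X → ℝ} {o : X} {n : ℕ} {x : X} (hx : x ∈ Metric.ball o n)
    (h : |f x| ≤ n) : cutf o n x * ParF.cl n (f x) = f x := by
  rw [cutf_eq_one hx, ParF.cl_eq h, one_mul]

theorem parallelogram_bdd [ProperSpace X] [BorelSpace X] (C : WgCalc m)
    (hH : IsInfHilbertian m) {f g : X → ℝ} (hf : IsSobolev m f) (hg : IsSobolev m g)
    (hfb : ∃ B : ℝ, ∀ᵐ x ∂m, |f x| ≤ B) (hgb : ∃ B : ℝ, ∀ᵐ x ∂m, |g x| ≤ B) :
    ∀ᵐ x ∂m, minWeakGrad m (fun y => f y + g y) x ^ 2 + minWeakGrad m (fun y => f y - g y) x ^ 2 =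
      2 * minWeakGrad m f x ^ 2 + 2 * minWeakGrad m g x ^ 2 := by
  rcases isEmpty_or_nonempty X with hX | ⟨⟨o⟩⟩
  · have : m = 0 := Measure.eq_zero_of_isEmpty m
    subst this
    simp
  have hp := C.sob_add hf hg
  have hs := C.sob_sub hf hg
  set R : X → ℝ := fun x => minWeakGrad m (fun y => f y + g y) x ^ 2 +
    minWeakGrad m (fun y => f y - g y) x ^ 2 -
    (2 * minWeakGrad m f x ^ 2 + 2 * minWeakGrad m g x ^ 2) with hR
  have hRi : Integrable R m :=
    ((sob_int_sq hp).add (sob_int_sq hs)).sub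
      (((sob_int_sq hf).const_mul 2).add ((sob_int_sq hg).const_mul 2))
  -- weighted integrals vanish
  have hw : ∀ h : X → ℝ, IsSobolev m h → (∀ x, |h x| ≤ 1) → ∫ x, h x * R x ∂m = 0 := by
    intro h hh hb
    have hi : ∀ u : X → ℝ, IsSobolev m u → Integrable (fun x => h x * minWeakGrad m u x ^ 2) m := by
      intro u hu
      refine (sob_int_sq hu).bdd_mul (c := 1) hh.1.1 (Eventually.of_forall fun x => ?_)
      rw [Real.norm_eq_abs]; exact hb x
    have h1 := C.integral_weight_parallelogram hH hh hf hg ⟨1, Eventually.of_forall hb⟩ hfb hgb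
    have e : ∫ x, h x * R x ∂m =
        (∫ x, h x * minWeakGrad m (fun y => f y + g y) x ^ 2 ∂m +
          ∫ x, h x * minWeakGrad m (fun y => f y - g y) x ^ 2 ∂m) -
        (2 * ∫ x, h x * minWeakGrad m f x ^ 2 ∂m + 2 * ∫ x, h x * minWeakGrad m g x ^ 2 ∂m) := by
      have a1 := integral_add (hi _ hp) (hi _ hs)
      have a2 := integral_add ((hi _ hf).const_mul 2) ((hi _ hg).const_mul 2)
      have a3 := integral_sub ((hi _ hp).add (hi _ hs))
        (((hi _ hf).const_mul 2).add ((hi _ hg).const_mul 2))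
      simp only [Pi.add_apply] at a3
      rw [a1, a2, integral_const_mul, integral_const_mul] at a3
      rw [← a3]
      refine integral_congr_ae (Eventually.of_forall fun x => ?_)
      simp only [hR]
      ring
    rw [e, h1, sub_self]
  have hR0 : R =ᵐ[m] 0 := by
    refine ae_eq_zero_of_forall_setIntegral_isCompact_eq_zero hRi fun s hs' => ?_
    have hδ : ∀ n : ℕ, (0 : ℝ) < 1 / ((n : ℝ) + 1) := fun n => by positivity
    have hbdd : ∀ n : ℕ, IsSobolev m (fun x => ((thickenedIndicator (hδ n) s x : ℝ≥0) : ℝ)) := by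
      intro n
      obtain ⟨K, hK⟩ : ∃ K : ℝ≥0, LipschitzWith K
          (fun x => ((thickenedIndicator (hδ n) s x : ℝ≥0) : ℝ)) :=
        ⟨_, LipschitzWith.of_dist_le_mul fun x y =>
          (lipschitzWith_thickenedIndicator (hδ n) s).dist_le_mul x y⟩
      refine C.sob_of_bddSupp (C.lip _ _ hK).1 ?_
      obtain ⟨r, hr⟩ := (Metric.isBounded_iff_subset_closedBall o).1
        (hs'.isBounded.thickening (δ := 1 / ((n : ℝ) + 1)))
      refine ⟨o, r, Eventually.of_forall fun x hx => ?_⟩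
      simp only
      rw [thickenedIndicator_zero (hδ n) s fun hx' => hx (hr hx')]
      simp
    have hlim : Tendsto (fun n : ℕ => ∫ x, ((thickenedIndicator (hδ n) s x : ℝ≥0) : ℝ) * R x ∂m)
        atTop (𝓝 (∫ x, s.indicator (fun _ => (1 : ℝ)) x * R x ∂m)) := by
      refine tendsto_integral_of_dominated_convergence (fun x => ‖R x‖) ?_ hRi.norm ?_ ?_
      · intro n
        exact (hbdd n).1.1.mul hRi.1
      · intro n
        refine Eventually.of_forall fun x => ?_
        rw [norm_mul]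
        have h1 := thickenedIndicator_le_one (hδ n) s x
        have h2 : ‖((thickenedIndicator (hδ n) s x : ℝ≥0) : ℝ)‖ ≤ 1 := by
          rw [Real.norm_eq_abs, NNReal.abs_eq]; exact_mod_cast h1
        exact mul_le_of_le_one_left (norm_nonneg _) h2
      · refine Eventually.of_forall fun x => ?_
        refine Tendsto.mul_const _ ?_
        have h1 := thickenedIndicator_tendsto_indicator_closure hδ
          tendsto_one_div_add_atTop_nhds_zero_nat s
        rw [hs'.isClosed.closure_eq, tendsto_pi_nhds] at h1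
        have h2 := (NNReal.tendsto_coe.2 (h1 x))
        by_cases hx : x ∈ s
        · simpa [hx] using h2
        · simpa [hx] using h2
    have hz : ∀ n : ℕ, ∫ x, ((thickenedIndicator (hδ n) s x : ℝ≥0) : ℝ) * R x ∂m = 0 := fun n =>
      hw _ (hbdd n) fun x => by
        rw [NNReal.abs_eq]; exact_mod_cast thickenedIndicator_le_one (hδ n) s x
    simp_rw [hz] at hlim
    have h0 := tendsto_nhds_unique hlim tendsto_const_nhds
    rw [← integral_indicator hs'.isClosed.measurableSet, ← h0]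
    refine integral_congr_ae (Eventually.of_forall fun x => ?_)
    by_cases hx : x ∈ s
    · simp [hx]
    · simp [hx]
  filter_upwards [hR0] with x hx
  simp only [hR, Pi.zero_apply] at hx
  linarith

theorem parallelogram [ProperSpace X] [BorelSpace X] (C : WgCalc m)
    (hH : IsInfHilbertian m) {f g : X → ℝ} (hf : IsSobolevLoc m f) (hg : IsSobolevLoc m g) :
    ∀ᵐ x ∂m, minWeakGrad m (fun y => f y + g y) x ^ 2 + minWeakGrad m (fun y => f y - g y) x ^ 2 =
      2 * minWeakGrad m f x ^ 2 + 2 * minWeakGrad m g x ^ 2 := by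
  rcases isEmpty_or_nonempty X with hX | ⟨⟨o⟩⟩
  · have : m = 0 := Measure.eq_zero_of_isEmpty m
    subst this
    simp
  set F : ℕ → X → ℝ := fun n x => cutf o n x * ParF.cl n (f x) with hF
  set G : ℕ → X → ℝ := fun n x => cutf o n x * ParF.cl n (g x) with hG
  have hFn : ∀ n, IsSobolev m (F n) := fun n => C.sob_trunc hf o n
  have hGn : ∀ n, IsSobolev m (G n) := fun n => C.sob_trunc hg o n
  have h1 : ∀ᵐ x ∂m, ∀ n, minWeakGrad m (fun y => F n y + G n y) x ^ 2 +
      minWeakGrad m (fun y => F n y - G n y) x ^ 2 =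
      2 * minWeakGrad m (F n) x ^ 2 + 2 * minWeakGrad m (G n) x ^ 2 :=
    ae_all_iff.2 fun n => C.parallelogram_bdd hH (hFn n) (hGn n) (trunc_bdd f o n) (trunc_bdd g o n)
  have h2 : ∀ᵐ x ∂m, ∀ n, F n x = f x → minWeakGrad m (F n) x = minWeakGrad m f x :=
    ae_all_iff.2 fun n => C.loc _ _ (hFn n).2.1 hf
  have h3 : ∀ᵐ x ∂m, ∀ n, G n x = g x → minWeakGrad m (G n) x = minWeakGrad m g x :=
    ae_all_iff.2 fun n => C.loc _ _ (hGn n).2.1 hg
  have h4 : ∀ᵐ x ∂m, ∀ n, F n x + G n x = f x + g x →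
      minWeakGrad m (fun y => F n y + G n y) x = minWeakGrad m (fun y => f y + g y) x :=
    ae_all_iff.2 fun n => C.loc _ _ (C.sob_add (hFn n) (hGn n)).2.1 (C.add _ _ hf hg).1
  have h5 : ∀ᵐ x ∂m, ∀ n, F n x - G n x = f x - g x →
      minWeakGrad m (fun y => F n y - G n y) x = minWeakGrad m (fun y => f y - g y) x :=
    ae_all_iff.2 fun n => C.loc _ _ (C.sob_sub (hFn n) (hGn n)).2.1 (C.sub hf hg)
  filter_upwards [h1, h2, h3, h4, h5] with x a1 a2 a3 a4 a5
  obtain ⟨n, hn⟩ := exists_nat_gt (max (dist x o) (max |f x| |g x|))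
  have b0 : x ∈ Metric.ball o n := by
    rw [Metric.mem_ball]; exact (le_max_left _ _).trans_lt hn
  have b1 : |f x| ≤ n := ((le_max_left _ _).trans (le_max_right _ _)).trans hn.le
  have b2 : |g x| ≤ n := ((le_max_right _ _).trans (le_max_right _ _)).trans hn.le
  have c1 : F n x = f x := trunc_eq b0 b1
  have c2 : G n x = g x := trunc_eq b0 b2
  have := a1 n
  rwa [a2 n c1, a3 n c2, a4 n (by rw [c1, c2]), a5 n (by rw [c1, c2])] at this

end WgCalc

end Crest.Agent.R242
end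
end

-- ▼ part R242/PairCalc
section

/-!
# Row 242, S12: calculus of `gradPairing` from `WgCalc` and `IsInfHilbertian`
-/

set_option autoImplicit false
set_option linter.unusedSectionVars false

open MeasureTheory Filter Set
open scoped ENNReal NNReal Topology
open Crest.GeometryTopology.SyntheticRicci

noncomputable section

namespace Crest.Agent.R242

variable {X : Type*} [MetricSpace X] [MeasurableSpace X] {m : Measure X}

namespace WgCalc

/-! ### facts not using the parallelogram law -/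

theorem neg (C : WgCalc m) {f : X → ℝ} (hf : IsSobolevLoc m f) :
    IsSobolevLoc m (fun x => - f x) := by
  have h := (C.smul (-1) f hf).1
  have e : (fun x => -1 * f x) = fun x => - f x := by funext x; ring
  rwa [e] at h

theorem wg_neg (C : WgCalc m) {f : X → ℝ} (hf : IsSobolevLoc m f) :
    ∀ᵐ x ∂m, minWeakGrad m (fun x => - f x) x = minWeakGrad m f x := by
  have h := (C.smul (-1) f hf).2
  have e : (fun x => -1 * f x) = fun x => - f x := by funext x; ring
  rw [e] at h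
  simpa using h

theorem wg_sub_comm (C : WgCalc m) {f g : X → ℝ} (hf : IsSobolevLoc m f)
    (hg : IsSobolevLoc m g) :
    ∀ᵐ x ∂m, minWeakGrad m (fun x => f x - g x) x = minWeakGrad m (fun x => g x - f x) x := by
  have h := C.wg_neg (C.sub hg hf)
  have e : (fun x => -(g x - f x)) = fun x => f x - g x := by funext x; ring
  rwa [e] at h

theorem gp_congr (C : WgCalc m) {f f' g g' : X → ℝ} (hf : IsSobolevLoc m f)
    (hg : IsSobolevLoc m g) (hff : f =ᵐ[m] f') (hgg : g =ᵐ[m] g') :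
    gradPairing m f g =ᵐ[m] gradPairing m f' g' := by
  have h1 : (fun y => f y + g y) =ᵐ[m] fun y => f' y + g' y := by
    filter_upwards [hff, hgg] with x hx hy
    rw [hx, hy]
  have h2 : (fun y => f y - g y) =ᵐ[m] fun y => f' y - g' y := by
    filter_upwards [hff, hgg] with x hx hy
    rw [hx, hy]
  filter_upwards [(C.congr _ _ (C.add f g hf hg).1 h1).2, (C.congr _ _ (C.sub hf hg) h2).2]
    with x e1 e2
  simp only [gradPairing, e1, e2]

theorem gp_comm (C : WgCalc m) {f g : X → ℝ} (hf : IsSobolevLoc m f) (hg : IsSobolevLoc m g) :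
    gradPairing m f g =ᵐ[m] gradPairing m g f := by
  filter_upwards [C.wg_sub_comm hf hg] with x hx
  unfold gradPairing
  have e : (fun y => g y + f y) = fun y => f y + g y := by funext y; ring
  rw [e, hx]

theorem gp_self (C : WgCalc m) {f : X → ℝ} (hf : IsSobolevLoc m f) :
    gradPairing m f f =ᵐ[m] fun x => minWeakGrad m f x ^ 2 := by
  have e1 : (fun y => f y + f y) = fun y => 2 * f y := by funext y; ring
  have e2 : (fun y => f y - f y) = fun _ => 0 := by funext y; ring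
  filter_upwards [(C.smul 2 f hf).2, (C.const 0).2] with x h1 h2
  unfold gradPairing
  rw [e1, e2, h1, h2, mul_pow, sq_abs]
  ring

theorem gp_local_left (C : WgCalc m) {f f' g : X → ℝ} (hf : IsSobolevLoc m f)
    (hf' : IsSobolevLoc m f') (hg : IsSobolevLoc m g) :
    ∀ᵐ x ∂m, f x = f' x → gradPairing m f g x = gradPairing m f' g x := by
  filter_upwards [C.loc _ _ (C.add f g hf hg).1 (C.add f' g hf' hg).1,
    C.loc _ _ (C.sub hf hg) (C.sub hf' hg)] with x h1 h2 h3
  unfold gradPairing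
  rw [h1 (by rw [h3]), h2 (by rw [h3])]

theorem gp_local_right (C : WgCalc m) {f g g' : X → ℝ} (hf : IsSobolevLoc m f)
    (hg : IsSobolevLoc m g) (hg' : IsSobolevLoc m g') :
    ∀ᵐ x ∂m, g x = g' x → gradPairing m f g x = gradPairing m f g' x := by
  filter_upwards [C.loc _ _ (C.add f g hf hg).1 (C.add f g' hf hg').1,
    C.loc _ _ (C.sub hf hg) (C.sub hf hg')] with x h1 h2 h3
  unfold gradPairing
  rw [h1 (by rw [h3]), h2 (by rw [h3])]

theorem gp_const_left (C : WgCalc m) (c : ℝ) {g : X → ℝ} (hg : IsSobolevLoc m g) :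
    gradPairing m (fun _ => c) g =ᵐ[m] fun _ => 0 := by
  have e1 : (fun y => c + g y) = fun y => g y + c := by funext y; ring
  filter_upwards [(C.wg_add_const hg c).2, C.wg_sub_comm (C.const c).1 hg,
    (C.wg_add_const hg (-c)).2] with x h1 h2 h3
  have e2 : (fun y => g y - c) = fun y => g y + -c := by funext y; ring
  unfold gradPairing
  rw [e1, h1, h2, e2, h3]
  ring




/-- crude bound. -/
theorem gp_crude (C : WgCalc m) {f g : X → ℝ} (hf : IsSobolevLoc m f) (hg : IsSobolevLoc m g) :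
    ∀ᵐ x ∂m, |gradPairing m f g x| ≤
      minWeakGrad m f x * (minWeakGrad m f x + minWeakGrad m g x) := by
  have hp := C.add f g hf hg
  have hs := C.sub hf hg
  have h1 := C.abs_wg_sub_le hp.1 (C.sub hg hf)
  have e1 : (fun x => f x + g x - (g x - f x)) = fun x => 2 * f x := by funext x; ring
  rw [e1] at h1
  filter_upwards [h1, (C.smul 2 f hf).2, hp.2, C.wg_sub_le hf hg, C.wg_sub_comm hf hg,
    wg_nonneg_ae hp.1, wg_nonneg_ae hs, wg_nonneg_ae hf, wg_nonneg_ae hg]
    with x a1 a2 a3 a4 a5 a6 a7 a8 a9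
  rw [a2, ← a5] at a1
  unfold gradPairing
  set p := minWeakGrad m (fun x => f x + g x) x
  set q := minWeakGrad m (fun x => f x - g x) x
  set u := minWeakGrad m f x
  set v := minWeakGrad m g x
  have h2 : |(p ^ 2 - q ^ 2) / 4| = |p - q| * (p + q) / 4 := by
    rw [show p ^ 2 - q ^ 2 = (p - q) * (p + q) by ring, abs_div, abs_mul,
      abs_of_nonneg (add_nonneg a6 a7)]
    norm_num
  rw [h2]
  have h3 : |p - q| * (p + q) ≤ (|2| * u) * (2 * (u + v)) :=
    mul_le_mul a1 (by linarith) (by positivity) (by positivity)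
  rw [abs_of_pos (by norm_num : (0 : ℝ) < 2)] at h3
  nlinarith

theorem aesm_gp (C : WgCalc m) {f g : X → ℝ} (hf : IsSobolevLoc m f) (hg : IsSobolevLoc m g) :
    AEStronglyMeasurable (gradPairing m f g) m := by
  have h1 := (aesm_wg_ae (C.add f g hf hg).1).aemeasurable
  have h2 := (aesm_wg_ae (C.sub hf hg)).aemeasurable
  exact (((h1.pow_const 2).sub (h2.pow_const 2)).div_const _).aestronglyMeasurable

/-! ### bilinearity -/

section Hilb

variable [ProperSpace X] [BorelSpace X]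

theorem wg_add_sq (C : WgCalc m) (hH : IsInfHilbertian m) {f g : X → ℝ}
    (hf : IsSobolevLoc m f) (hg : IsSobolevLoc m g) :
    ∀ᵐ x ∂m, minWeakGrad m (fun y => f y + g y) x ^ 2 =
      minWeakGrad m f x ^ 2 + 2 * gradPairing m f g x + minWeakGrad m g x ^ 2 := by
  filter_upwards [C.parallelogram hH hf hg] with x hx
  unfold gradPairing
  linarith

theorem wg_sub_sq (C : WgCalc m) (hH : IsInfHilbertian m) {f g : X → ℝ}
    (hf : IsSobolevLoc m f) (hg : IsSobolevLoc m g) :
    ∀ᵐ x ∂m, minWeakGrad m (fun y => f y - g y) x ^ 2 =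
      minWeakGrad m f x ^ 2 - 2 * gradPairing m f g x + minWeakGrad m g x ^ 2 := by
  filter_upwards [C.parallelogram hH hf hg] with x hx
  unfold gradPairing
  linarith

theorem gp_add_left (C : WgCalc m) (hH : IsInfHilbertian m) {f f' g : X → ℝ}
    (hf : IsSobolevLoc m f) (hf' : IsSobolevLoc m f') (hg : IsSobolevLoc m g) :
    gradPairing m (fun x => f x + f' x) g =ᵐ[m]
      fun x => gradPairing m f g x + gradPairing m f' g x := by
  have hff := (C.add f f' hf hf').1
  have h1 := C.parallelogram hH (C.add f g hf hg).1 (C.add f' g hf' hg).1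
  have h2 := C.parallelogram hH (C.sub hf hg) (C.sub hf' hg)
  have h3 := C.parallelogram hH (C.add _ g hff hg).1 hg
  have h4 := C.parallelogram hH (C.sub hff hg) hg
  have e1 : (fun y => f y + g y + (f' y + g y)) = fun y => f y + f' y + 2 * g y := by
    funext y; ring
  have e2 : (fun y => f y + g y - (f' y + g y)) = fun y => f y - f' y := by funext y; ring
  have e3 : (fun y => f y - g y + (f' y - g y)) = fun y => f y + f' y - 2 * g y := by
    funext y; ring
  have e4 : (fun y => f y - g y - (f' y - g y)) = fun y => f y - f' y := by funext y; ring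
  have e5 : (fun y => f y + f' y + g y + g y) = fun y => f y + f' y + 2 * g y := by
    funext y; ring
  have e6 : (fun y => f y + f' y + g y - g y) = fun y => f y + f' y := by funext y; ring
  have e7 : (fun y => f y + f' y - g y + g y) = fun y => f y + f' y := by funext y; ring
  have e8 : (fun y => f y + f' y - g y - g y) = fun y => f y + f' y - 2 * g y := by
    funext y; ring
  rw [e1, e2] at h1
  rw [e3, e4] at h2
  rw [e5, e6] at h3
  rw [e7, e8] at h4
  filter_upwards [h1, h2, h3, h4] with x a1 a2 a3 a4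
  unfold gradPairing
  linarith

theorem gp_add_right (C : WgCalc m) (hH : IsInfHilbertian m) {f g g' : X → ℝ}
    (hf : IsSobolevLoc m f) (hg : IsSobolevLoc m g) (hg' : IsSobolevLoc m g') :
    gradPairing m f (fun x => g x + g' x) =ᵐ[m]
      fun x => gradPairing m f g x + gradPairing m f g' x := by
  filter_upwards [C.gp_comm hf (C.add g g' hg hg').1, C.gp_add_left hH hg hg' hf,
    C.gp_comm hf hg, C.gp_comm hf hg'] with x h1 h2 h3 h4
  rw [h1, h2, h3, h4]

/-- the set of scalars for which homogeneity holds. -/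
theorem gp_hom_nat (C : WgCalc m) (hH : IsInfHilbertian m) (n : ℕ) {f g : X → ℝ}
    (hf : IsSobolevLoc m f) (hg : IsSobolevLoc m g) :
    gradPairing m (fun x => (n : ℝ) * f x) g =ᵐ[m] fun x => (n : ℝ) * gradPairing m f g x := by
  induction n with
  | zero =>
    have e : (fun x => ((0 : ℕ) : ℝ) * f x) = fun _ => 0 := by funext x; simp
    rw [e]
    filter_upwards [C.gp_const_left 0 hg] with x hx
    rw [hx]; simp
  | succ n ih =>
    have e : (fun x => ((n + 1 : ℕ) : ℝ) * f x) = fun x => (n : ℝ) * f x + f x := by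
      funext x; push_cast; ring
    rw [e]
    filter_upwards [ih, C.gp_add_left hH (C.smul n f hf).1 hf hg] with x h1 h2
    rw [h2, h1]; push_cast; ring

theorem gp_neg_left (C : WgCalc m) (hH : IsInfHilbertian m) {f g : X → ℝ}
    (hf : IsSobolevLoc m f) (hg : IsSobolevLoc m g) :
    gradPairing m (fun x => - f x) g =ᵐ[m] fun x => - gradPairing m f g x := by
  have e : (fun x => f x + - f x) = fun _ => 0 := by funext x; ring
  have h := C.gp_add_left hH hf (C.neg hf) hg
  rw [e] at h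
  filter_upwards [h, C.gp_const_left 0 hg] with x h1 h2
  rw [h2] at h1
  linarith

theorem gp_hom_int (C : WgCalc m) (hH : IsInfHilbertian m) (n : ℤ) {f g : X → ℝ}
    (hf : IsSobolevLoc m f) (hg : IsSobolevLoc m g) :
    gradPairing m (fun x => (n : ℝ) * f x) g =ᵐ[m] fun x => (n : ℝ) * gradPairing m f g x := by
  obtain ⟨k, rfl | rfl⟩ := n.eq_nat_or_neg
  · simpa using C.gp_hom_nat hH k hf hg
  · have e : (fun x => ((-(k : ℤ) : ℤ) : ℝ) * f x) = fun x => - ((k : ℝ) * f x) := by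
      funext x; push_cast; ring
    rw [e]
    filter_upwards [C.gp_neg_left hH (C.smul k f hf).1 hg, C.gp_hom_nat hH k hf hg] with x h1 h2
    rw [h1, h2]; push_cast; ring

theorem gp_hom_rat (C : WgCalc m) (hH : IsInfHilbertian m) (r : ℚ) {f g : X → ℝ}
    (hf : IsSobolevLoc m f) (hg : IsSobolevLoc m g) :
    gradPairing m (fun x => (r : ℝ) * f x) g =ᵐ[m] fun x => (r : ℝ) * gradPairing m f g x := by
  have hd : ((r.den : ℕ) : ℝ) ≠ 0 := by exact_mod_cast r.den_nz
  have h1 := C.gp_hom_nat hH r.den (C.smul (r : ℝ) f hf).1 hg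
  have h2 := C.gp_hom_int hH r.num hf hg
  have e : (fun x => ((r.den : ℕ) : ℝ) * ((r : ℝ) * f x)) = fun x => (r.num : ℝ) * f x := by
    funext x
    have : (r : ℝ) = (r.num : ℝ) / (r.den : ℝ) := by exact_mod_cast (Rat.num_div_den r).symm
    rw [this]; field_simp
  rw [e] at h1
  filter_upwards [h1, h2] with x a1 a2
  rw [a2] at a1
  have h3 : (r : ℝ) = (r.num : ℝ) / (r.den : ℝ) := by exact_mod_cast (Rat.num_div_den r).symm
  refine mul_left_cancel₀ hd ?_
  rw [← a1]
  have h4 : (r.den : ℝ) * (r : ℝ) = r.num := by rw [h3]; field_simp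
  rw [← mul_assoc, h4]

theorem gp_smul_left (C : WgCalc m) (hH : IsInfHilbertian m) (c : ℝ) {f g : X → ℝ}
    (hf : IsSobolevLoc m f) (hg : IsSobolevLoc m g) :
    gradPairing m (fun x => c * f x) g =ᵐ[m] fun x => c * gradPairing m f g x := by
  have h1 : ∀ᵐ x ∂m, ∀ r : ℚ, |gradPairing m (fun x => c * f x) g x - r * gradPairing m f g x| ≤
      |c - r| * minWeakGrad m f x * (|c - r| * minWeakGrad m f x + minWeakGrad m g x) :=
    ae_all_iff.2 fun r => by
      have e : (fun x => (c - r) * f x + r * f x) = fun x => c * f x := by funext x; ring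
      have h2 := C.gp_add_left hH (C.smul (c - r) f hf).1 (C.smul (r : ℝ) f hf).1 hg
      rw [e] at h2
      filter_upwards [h2, C.gp_hom_rat hH r hf hg, C.gp_crude (C.smul (c - r) f hf).1 hg,
        (C.smul (c - r) f hf).2] with x a1 a2 a3 a4
      rw [a1, a2]
      rw [a4] at a3
      simpa using a3
  filter_upwards [h1] with x hx
  have h3 : ∀ r : ℝ, |gradPairing m (fun x => c * f x) g x - r * gradPairing m f g x| ≤
      |c - r| * minWeakGrad m f x * (|c - r| * minWeakGrad m f x + minWeakGrad m g x) := by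
    intro r
    refine Rat.isDenseEmbedding_coe_real.dense.induction_on (p := fun r : ℝ =>
      |gradPairing m (fun x => c * f x) g x - r * gradPairing m f g x| ≤
      |c - r| * minWeakGrad m f x * (|c - r| * minWeakGrad m f x + minWeakGrad m g x)) r ?_ hx
    exact isClosed_le (by fun_prop) (by fun_prop)
  have h4 := h3 c
  simp only [sub_self, abs_zero, zero_mul] at h4
  have := abs_eq_zero.1 (le_antisymm h4 (abs_nonneg _))
  linarith

theorem gp_smul_right (C : WgCalc m) (hH : IsInfHilbertian m) (c : ℝ) {f g : X → ℝ}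
    (hf : IsSobolevLoc m f) (hg : IsSobolevLoc m g) :
    gradPairing m f (fun x => c * g x) =ᵐ[m] fun x => c * gradPairing m f g x := by
  filter_upwards [C.gp_comm hf (C.smul c g hg).1, C.gp_smul_left hH c hg hf,
    C.gp_comm hf hg] with x h1 h2 h3
  rw [h1, h2, h3]

theorem gp_neg_right (C : WgCalc m) (hH : IsInfHilbertian m) {f g : X → ℝ}
    (hf : IsSobolevLoc m f) (hg : IsSobolevLoc m g) :
    gradPairing m f (fun x => - g x) =ᵐ[m] fun x => - gradPairing m f g x := by
  filter_upwards [C.gp_comm hf (C.neg hg), C.gp_neg_left hH hg hf, C.gp_comm hf hg]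
    with x h1 h2 h3
  rw [h1, h2, h3]

theorem gp_sub_left (C : WgCalc m) (hH : IsInfHilbertian m) {f f' g : X → ℝ}
    (hf : IsSobolevLoc m f) (hf' : IsSobolevLoc m f') (hg : IsSobolevLoc m g) :
    gradPairing m (fun x => f x - f' x) g =ᵐ[m]
      fun x => gradPairing m f g x - gradPairing m f' g x := by
  have e : (fun x => f x - f' x) = fun x => f x + - f' x := by funext x; ring
  rw [e]
  filter_upwards [C.gp_add_left hH hf (C.neg hf') hg, C.gp_neg_left hH hf' hg] with x h1 h2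
  rw [h1, h2]; ring

theorem gp_sub_right (C : WgCalc m) (hH : IsInfHilbertian m) {f g g' : X → ℝ}
    (hf : IsSobolevLoc m f) (hg : IsSobolevLoc m g) (hg' : IsSobolevLoc m g') :
    gradPairing m f (fun x => g x - g' x) =ᵐ[m]
      fun x => gradPairing m f g x - gradPairing m f g' x := by
  filter_upwards [C.gp_comm hf (C.sub hg hg'), C.gp_sub_left hH hg hg' hf,
    C.gp_comm hf hg, C.gp_comm hf hg'] with x h1 h2 h3 h4
  rw [h1, h2, h3, h4]

/-- Cauchy-Schwarz with real coefficients chosen at the point. -/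
theorem gp_lin_sq_le (C : WgCalc m) (hH : IsInfHilbertian m) {f f' g : X → ℝ}
    (hf : IsSobolevLoc m f) (hf' : IsSobolevLoc m f') (hg : IsSobolevLoc m g) :
    ∀ᵐ x ∂m, ∀ a b : ℝ, (a * gradPairing m f g x + b * gradPairing m f' g x) ^ 2 ≤
      (a ^ 2 * minWeakGrad m f x ^ 2 + 2 * a * b * gradPairing m f f' x +
        b ^ 2 * minWeakGrad m f' x ^ 2) * minWeakGrad m g x ^ 2 := by
  have key : ∀ᵐ x ∂m, ∀ a b t : ℚ, 0 ≤
      ((a : ℝ) ^ 2 * minWeakGrad m f x ^ 2 + 2 * a * b * gradPairing m f f' x +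
        (b : ℝ) ^ 2 * minWeakGrad m f' x ^ 2) +
      2 * t * (a * gradPairing m f g x + b * gradPairing m f' g x) +
      (t : ℝ) ^ 2 * minWeakGrad m g x ^ 2 :=
    ae_all_iff.2 fun a => ae_all_iff.2 fun b => ae_all_iff.2 fun t => by
      have ha := C.smul (a : ℝ) f hf
      have hb := C.smul (b : ℝ) f' hf'
      have ht := C.smul (t : ℝ) g hg
      have hab := C.add _ _ ha.1 hb.1
      filter_upwards [C.wg_add_sq hH hab.1 ht.1, C.wg_add_sq hH ha.1 hb.1, ha.2, hb.2, ht.2,
        C.gp_add_left hH ha.1 hb.1 ht.1, C.gp_smul_right hH (t : ℝ) ha.1 hg,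
        C.gp_smul_right hH (t : ℝ) hb.1 hg, C.gp_smul_left hH (a : ℝ) hf hg,
        C.gp_smul_left hH (b : ℝ) hf' hg, C.gp_smul_left hH (a : ℝ) hf hb.1,
        C.gp_smul_right hH (b : ℝ) hf hf'] with x a1 a2 a3 a4 a5 a6 a7 a8 a9 a10 a11 a12
      have h0 := sq_nonneg (minWeakGrad m (fun y => (a : ℝ) * f y + (b : ℝ) * f' y +
        (t : ℝ) * g y) x)
      rw [a1, a2, a3, a4, a5, a6, a7, a8, a9, a10, a11, a12] at h0
      simp only [mul_pow, sq_abs] at h0
      refine h0.trans (le_of_eq ?_)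
      ring
  filter_upwards [key] with x hx
  have h1 : ∀ a b t : ℝ, 0 ≤
      (a ^ 2 * minWeakGrad m f x ^ 2 + 2 * a * b * gradPairing m f f' x +
        b ^ 2 * minWeakGrad m f' x ^ 2) +
      2 * t * (a * gradPairing m f g x + b * gradPairing m f' g x) +
      t ^ 2 * minWeakGrad m g x ^ 2 := by
    intro a b t
    refine DenseRange.induction_on₂ (e := ((↑) : ℚ → ℝ))
      (p := fun a b => 0 ≤
      (a ^ 2 * minWeakGrad m f x ^ 2 + 2 * a * b * gradPairing m f f' x +
        b ^ 2 * minWeakGrad m f' x ^ 2) +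
      2 * t * (a * gradPairing m f g x + b * gradPairing m f' g x) +
      t ^ 2 * minWeakGrad m g x ^ 2)
      Rat.isDenseEmbedding_coe_real.dense ?_ ?_ a b
    · exact isClosed_le (by fun_prop) (by fun_prop)
    · intro a b
      refine Rat.isDenseEmbedding_coe_real.dense.induction_on (p := fun t : ℝ => 0 ≤
        ((a : ℝ) ^ 2 * minWeakGrad m f x ^ 2 + 2 * a * b * gradPairing m f f' x +
        (b : ℝ) ^ 2 * minWeakGrad m f' x ^ 2) +
        2 * t * (a * gradPairing m f g x + b * gradPairing m f' g x) +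
        t ^ 2 * minWeakGrad m g x ^ 2) t ?_ (hx a b)
      exact isClosed_le (by fun_prop) (by fun_prop)
  intro a b
  set A := a ^ 2 * minWeakGrad m f x ^ 2 + 2 * a * b * gradPairing m f f' x +
        b ^ 2 * minWeakGrad m f' x ^ 2
  set B := a * gradPairing m f g x + b * gradPairing m f' g x
  set D := minWeakGrad m g x ^ 2
  have h2 : ∀ t : ℝ, 0 ≤ D * (t * t) + (2 * B) * t + A := fun t => by
    have := h1 a b t
    refine this.trans (le_of_eq ?_)
    ring
  have h3 := discrim_le_zero h2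
  unfold discrim at h3
  nlinarith

/-- Cauchy-Schwarz. -/
theorem gp_abs_le (C : WgCalc m) (hH : IsInfHilbertian m) {f g : X → ℝ}
    (hf : IsSobolevLoc m f) (hg : IsSobolevLoc m g) :
    ∀ᵐ x ∂m, |gradPairing m f g x| ≤ minWeakGrad m f x * minWeakGrad m g x := by
  filter_upwards [C.gp_lin_sq_le hH hf hf hg, wg_nonneg_ae hf, wg_nonneg_ae hg] with x h1 h2 h3
  have h4 := h1 1 0
  refine abs_le_of_sq_le_sq ?_ (mul_nonneg h2 h3)
  rw [mul_pow]
  nlinarith

theorem gp_le (C : WgCalc m) (hH : IsInfHilbertian m) {f g : X → ℝ}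
    (hf : IsSobolevLoc m f) (hg : IsSobolevLoc m g) :
    ∀ᵐ x ∂m, gradPairing m f g x ≤ (minWeakGrad m f x ^ 2 + minWeakGrad m g x ^ 2) / 2 := by
  filter_upwards [C.gp_abs_le hH hf hg] with x h1
  have h2 := (le_abs_self _).trans h1
  nlinarith [sq_nonneg (minWeakGrad m f x - minWeakGrad m g x)]

theorem integrable_gp (C : WgCalc m) (hH : IsInfHilbertian m) {f g : X → ℝ}
    (hf : IsSobolev m f) (hg : IsSobolev m g) : Integrable (gradPairing m f g) m := by
  refine Integrable.mono' (g := fun x => minWeakGrad m f x * minWeakGrad m g x) ?_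
    (C.aesm_gp hf.2.1 hg.2.1) (C.gp_abs_le hH hf.2.1 hg.2.1)
  exact hf.2.2.integrable_mul hg.2.2

theorem integrableOn_gp (C : WgCalc m) (hH : IsInfHilbertian m) {f g : X → ℝ}
    (hf : IsSobolevLoc m f) (hg : IsSobolevLoc m g) (o : X) (R : ℝ) :
    IntegrableOn (gradPairing m f g) (Metric.ball o R) m := by
  refine Integrable.mono' (g := fun x => minWeakGrad m f x * minWeakGrad m g x) ?_
    (C.aesm_gp hf hg).restrict (ae_restrict_of_ae (C.gp_abs_le hH hf hg))
  exact (wg_l2OnBalls hf o R).integrable_mul (wg_l2OnBalls hg o R)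

/-! ### Leibniz rule -/

theorem gp_mul_left_bdd (C : WgCalc m) (hH : IsInfHilbertian m) {f h g : X → ℝ}
    (hf : IsSobolevLoc m f) (hh : IsSobolevLoc m h) (hg : IsSobolevLoc m g)
    (hfb : ∃ B : ℝ, ∀ᵐ x ∂m, |f x| ≤ B) (hhb : ∃ B : ℝ, ∀ᵐ x ∂m, |h x| ≤ B) :
    ∀ᵐ x ∂m, gradPairing m (fun y => f y * h y) g x =
      f x * gradPairing m h g x + h x * gradPairing m f g x := by
  have hfh := (C.mul f h hf hh hfb hhb).1
  have key : ∀ a b : ℝ, ∀ᵐ x ∂m,
      |gradPairing m (fun y => f y * h y) g x - a * gradPairing m h g x -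
        b * gradPairing m f g x| ≤
        (|f x - a| * minWeakGrad m h x + |h x - b| * minWeakGrad m f x) * minWeakGrad m g x := by
    intro a b
    have hah := (C.smul a h hh).1
    have hbf := (C.smul b f hf).1
    have hu := C.sub (C.sub hfh hah) hbf
    have hf' := C.wg_add_const hf (-a)
    have hh' := C.wg_add_const hh (-b)
    have hfb' : ∃ B : ℝ, ∀ᵐ x ∂m, |f x + -a| ≤ B :=
      bdd_add hfb ⟨|(-a)|, Eventually.of_forall fun _ => le_rfl⟩
    have hhb' : ∃ B : ℝ, ∀ᵐ x ∂m, |h x + -b| ≤ B :=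
      bdd_add hhb ⟨|(-b)|, Eventually.of_forall fun _ => le_rfl⟩
    have hm := C.mul _ _ hf'.1 hh'.1 hfb' hhb'
    filter_upwards [C.gp_sub_left hH (C.sub hfh hah) hbf hg,
      C.gp_sub_left hH hfh hah hg, C.gp_smul_left hH a hh hg,
      C.gp_smul_left hH b hf hg, C.gp_abs_le hH hu hg, hf'.2, hh'.2, hm.2,
      C.wg_eq_of_eq_add_const hu hm.1 (-(a * b)), wg_nonneg_ae hg]
      with x a1 a2 a3 a4 a5 a6 a7 a8 a9 a10
    rw [a1, a2, a3, a4] at a5
    refine a5.trans (mul_le_mul_of_nonneg_right ?_ a10)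
    rw [a9 (by ring)]
    rw [a6, a7] at a8
    simpa [sub_eq_add_neg] using a8
  have key2 : ∀ᵐ x ∂m, ∀ a b : ℚ,
      |gradPairing m (fun y => f y * h y) g x - a * gradPairing m h g x -
        b * gradPairing m f g x| ≤
        (|f x - a| * minWeakGrad m h x + |h x - b| * minWeakGrad m f x) * minWeakGrad m g x :=
    ae_all_iff.2 fun a => ae_all_iff.2 fun b => key a b
  filter_upwards [key2] with x hx
  have h3 : ∀ a b : ℝ, |gradPairing m (fun y => f y * h y) g x - a * gradPairing m h g x -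
        b * gradPairing m f g x| ≤
        (|f x - a| * minWeakGrad m h x + |h x - b| * minWeakGrad m f x) * minWeakGrad m g x := by
    intro a b
    refine DenseRange.induction_on₂ (e := ((↑) : ℚ → ℝ))
      (p := fun a b => |gradPairing m (fun y => f y * h y) g x - a * gradPairing m h g x -
        b * gradPairing m f g x| ≤
        (|f x - a| * minWeakGrad m h x + |h x - b| * minWeakGrad m f x) * minWeakGrad m g x)
      Rat.isDenseEmbedding_coe_real.dense ?_ hx a b
    exact isClosed_le (by fun_prop) (by fun_prop)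
  have h4 := h3 (f x) (h x)
  simp only [sub_self, abs_zero, zero_mul, add_zero] at h4
  have h5 := abs_eq_zero.1 (le_antisymm h4 (abs_nonneg _))
  linarith

/-- Leibniz rule, no boundedness. -/
theorem gp_mul_left (C : WgCalc m) (hH : IsInfHilbertian m) {f h g : X → ℝ}
    (hf : IsSobolevLoc m f) (hh : IsSobolevLoc m h) (hg : IsSobolevLoc m g)
    (hfh : IsSobolevLoc m (fun x => f x * h x)) :
    ∀ᵐ x ∂m, gradPairing m (fun y => f y * h y) g x =
      f x * gradPairing m h g x + h x * gradPairing m f g x := by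
  have hF : ∀ n : ℕ, IsSobolevLoc m (fun x => ParF.cl n (f x)) := fun n =>
    (C.comp _ 1 f (cl_lip (n : ℝ)) hf).1
  have hG : ∀ n : ℕ, IsSobolevLoc m (fun x => ParF.cl n (h x)) := fun n =>
    (C.comp _ 1 h (cl_lip (n : ℝ)) hh).1
  have hFb : ∀ n : ℕ, ∃ B : ℝ, ∀ᵐ x ∂m, |ParF.cl n (f x)| ≤ B := fun n =>
    ⟨n, Eventually.of_forall fun x => ParF.cl_abs_le (Nat.cast_nonneg n) _⟩
  have hGb : ∀ n : ℕ, ∃ B : ℝ, ∀ᵐ x ∂m, |ParF.cl n (h x)| ≤ B := fun n =>
    ⟨n, Eventually.of_forall fun x => ParF.cl_abs_le (Nat.cast_nonneg n) _⟩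
  have h1 := fun n : ℕ => C.gp_mul_left_bdd hH (hF n) (hG n) hg (hFb n) (hGb n)
  have h2 := fun n : ℕ => C.gp_local_left hfh (C.mul _ _ (hF n) (hG n) (hFb n) (hGb n)).1 hg
  have h3 := fun n : ℕ => C.gp_local_left (hF n) hf hg
  have h4 := fun n : ℕ => C.gp_local_left (hG n) hh hg
  filter_upwards [ae_all_iff.2 h1, ae_all_iff.2 h2, ae_all_iff.2 h3, ae_all_iff.2 h4]
    with x a1 a2 a3 a4
  obtain ⟨n, hn⟩ := exists_nat_gt (max |f x| |h x|)
  have b1 : ParF.cl n (f x) = f x := ParF.cl_eq ((le_max_left _ _).trans hn.le)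
  have b2 : ParF.cl n (h x) = h x := ParF.cl_eq ((le_max_right _ _).trans hn.le)
  rw [a2 n (by rw [b1, b2]), a1 n, a3 n b1, a4 n b2, b1, b2]

theorem gp_mul_right (C : WgCalc m) (hH : IsInfHilbertian m) {f g h : X → ℝ}
    (hf : IsSobolevLoc m f) (hg : IsSobolevLoc m g) (hh : IsSobolevLoc m h)
    (hgh : IsSobolevLoc m (fun x => g x * h x)) :
    ∀ᵐ x ∂m, gradPairing m f (fun y => g y * h y) x =
      g x * gradPairing m f h x + h x * gradPairing m f g x := by
  filter_upwards [C.gp_comm hf hgh, C.gp_mul_left hH hg hh hf hgh, C.gp_comm hf hh,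
    C.gp_comm hf hg] with x h1 h2 h3 h4
  rw [h1, h2, h3, h4]

/-! ### chain rule -/

/-- chain rule for the pairing from the chain rule for the weak gradient. -/
theorem gp_comp_of_wg (C : WgCalc m) (hH : IsInfHilbertian m) {f F g : X → ℝ} {d : X → ℝ}
    (hf : IsSobolevLoc m f) (hF : IsSobolevLoc m F) (hg : IsSobolevLoc m g)
    (h1 : ∀ᵐ x ∂m, minWeakGrad m F x = |d x| * minWeakGrad m f x)
    (h2 : ∀ᵐ x ∂m, minWeakGrad m (fun y => F y + f y) x = |d x + 1| * minWeakGrad m f x) :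
    ∀ᵐ x ∂m, gradPairing m F g x = d x * gradPairing m f g x := by
  filter_upwards [h1, h2, C.wg_add_sq hH hF hf, C.gp_lin_sq_le hH hF hf hg]
    with x a1 a2 a3 a4
  rw [a2, a1, mul_pow, mul_pow, sq_abs, sq_abs] at a3
  have h5 := a4 1 (-(d x))
  rw [a1, mul_pow, sq_abs] at h5
  have h6 : (1 : ℝ) ^ 2 * (d x ^ 2 * minWeakGrad m f x ^ 2) +
      2 * 1 * -(d x) * gradPairing m F f x + (-(d x)) ^ 2 * minWeakGrad m f x ^ 2 = 0 := by
    have h7 : gradPairing m F f x = d x * minWeakGrad m f x ^ 2 := by nlinarith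
    rw [h7]; ring
  rw [h6, zero_mul] at h5
  have h8 := pow_eq_zero_iff (two_ne_zero) |>.1 (le_antisymm h5 (sq_nonneg _))
  linarith

/-- chain rule from local linearisation, for `φ` of class `C¹`. -/
theorem gp_comp_C1 (C : WgCalc m) (hH : IsInfHilbertian m) {φ : ℝ → ℝ} (hφ : ContDiff ℝ 1 φ)
    {f g : X → ℝ} (hf : IsSobolevLoc m f) (hF : IsSobolevLoc m (fun x => φ (f x)))
    (hg : IsSobolevLoc m g) :
    ∀ᵐ x ∂m, gradPairing m (fun y => φ (f y)) g x = deriv φ (f x) * gradPairing m f g x := by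
  have hd : Differentiable ℝ φ := hφ.differentiable (by norm_num)
  have hc : Continuous (deriv φ) := hφ.continuous_deriv (by norm_num)
  have key : ∀ᵐ x ∂m, ∀ p q a w : ℚ, (∀ r ∈ Icc (p : ℝ) q, |deriv φ r - a| ≤ w) →
      f x ∈ Icc (p : ℝ) q →
      |gradPairing m (fun y => φ (f y)) g x - a * gradPairing m f g x| ≤
        w * minWeakGrad m f x * minWeakGrad m g x :=
    ae_all_iff.2 fun p => ae_all_iff.2 fun q => ae_all_iff.2 fun a => ae_all_iff.2 fun w => by
      by_cases hw : ∀ r ∈ Icc (p : ℝ) q, |deriv φ r - a| ≤ w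
      swap
      · exact Eventually.of_forall fun x h => absurd h hw
      by_cases hpq : (p : ℝ) ≤ q
      swap
      · exact Eventually.of_forall fun x _ h => absurd (h.1.trans h.2) hpq
      have hw0 : (0 : ℝ) ≤ w := (abs_nonneg _).trans (hw p ⟨le_rfl, hpq⟩)
      -- the modified function
      set ψ : ℝ → ℝ := fun r => φ (projIcc (p : ℝ) q hpq r) - a * (projIcc (p : ℝ) q hpq r : ℝ)
        with hψ
      have hL : LipschitzWith (w : ℝ).toNNReal ψ := by
        refine LipschitzWith.of_dist_le_mul fun r r' => ?_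
        rw [Real.coe_toNNReal _ hw0, Real.dist_eq, Real.dist_eq]
        set u : ℝ := (projIcc (p : ℝ) q hpq r : ℝ) with hu
        set v : ℝ := (projIcc (p : ℝ) q hpq r' : ℝ) with hv
        have hu' : u ∈ Icc (p : ℝ) q := (projIcc (p : ℝ) q hpq r).2
        have hv' : v ∈ Icc (p : ℝ) q := (projIcc (p : ℝ) q hpq r').2
        have h1 := (convex_Icc (p : ℝ) q).norm_image_sub_le_of_norm_deriv_le
          (f := fun t => φ t - a * t) (C := (w : ℝ)) (x := v) (y := u)
          (fun t _ => (hd t).sub ((differentiableAt_id).const_mul _))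
          (fun t ht => by
            have e : HasDerivAt (fun t => φ t - a * t) (deriv φ t - a * 1) t :=
              (hd t).hasDerivAt.sub ((hasDerivAt_id t).const_mul (a : ℝ))
            rw [e.deriv, mul_one]; exact hw t ht) hv' hu'
        have h2 : |u - v| ≤ |r - r'| := by
          have := (LipschitzWith.projIcc hpq).dist_le_mul r r'
          simpa [Subtype.dist_eq, Real.dist_eq] using this
        calc |ψ r - ψ r'| = ‖(φ u - a * u) - (φ v - a * v)‖ := by rw [Real.norm_eq_abs]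
          _ ≤ w * ‖u - v‖ := h1
          _ ≤ w * |r - r'| := mul_le_mul_of_nonneg_left h2 hw0
      have hψf := C.comp ψ _ f hL hf
      have haf := (C.smul (a : ℝ) f hf).1
      have hdiff := C.sub hF haf
      filter_upwards [hψf.2, C.loc _ _ hdiff hψf.1, C.gp_abs_le hH hdiff hg,
        C.gp_sub_left hH hF haf hg, C.gp_smul_left hH (a : ℝ) hf hg, wg_nonneg_ae hg]
        with x a1 a2 a3 a4 a5 a6 _ hx
      rw [a4, a5] at a3
      refine a3.trans (mul_le_mul_of_nonneg_right ?_ a6)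
      rw [a2 (by simp only [hψ]; rw [projIcc_of_mem hpq hx])]
      rw [Real.coe_toNNReal _ hw0] at a1
      exact a1
  filter_upwards [key] with x hx
  -- choose the rationals
  have h3 : ∀ ε : ℚ, 0 < ε →
      |gradPairing m (fun y => φ (f y)) g x - deriv φ (f x) * gradPairing m f g x| ≤
        ε * (minWeakGrad m f x * minWeakGrad m g x + |gradPairing m f g x|) := by
    intro ε hε
    have hε' : (0 : ℝ) < ε := by exact_mod_cast hε
    obtain ⟨a, ha1, ha2⟩ := exists_rat_btwn (show deriv φ (f x) < deriv φ (f x) + ε / 2 by linarith)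
    have hcont := (Metric.continuous_iff.1 hc) (f x) ((ε : ℝ) / 2) (by positivity)
    obtain ⟨δ, hδ, hδ2⟩ := hcont
    obtain ⟨p, hp1, hp2⟩ := exists_rat_btwn (show f x - δ < f x by linarith)
    obtain ⟨q, hq1, hq2⟩ := exists_rat_btwn (show f x < f x + δ by linarith)
    have h4 := hx p q a ε (fun r hr => by
      have h5 := hδ2 r (by
        rw [Real.dist_eq, abs_lt]
        constructor <;> linarith [hr.1, hr.2])
      rw [Real.dist_eq, abs_lt] at h5
      rw [abs_le]
      constructor <;> linarith [h5.1, h5.2]) ⟨hp2.le, hq1.le⟩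
    have h6 : |((a : ℝ) - deriv φ (f x)) * gradPairing m f g x| ≤ ε * |gradPairing m f g x| := by
      rw [abs_mul]
      refine mul_le_mul_of_nonneg_right ?_ (abs_nonneg _)
      rw [abs_le]
      constructor <;> linarith
    calc |gradPairing m (fun y => φ (f y)) g x - deriv φ (f x) * gradPairing m f g x|
        = |(gradPairing m (fun y => φ (f y)) g x - a * gradPairing m f g x) +
          ((a : ℝ) - deriv φ (f x)) * gradPairing m f g x| := by ring_nf
      _ ≤ _ := abs_add_le _ _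
      _ ≤ ε * (minWeakGrad m f x * minWeakGrad m g x + |gradPairing m f g x|) := by
          rw [mul_add, ← mul_assoc]; exact add_le_add h4 h6
  have h7 : |gradPairing m (fun y => φ (f y)) g x - deriv φ (f x) * gradPairing m f g x| ≤
      0 * (minWeakGrad m f x * minWeakGrad m g x + |gradPairing m f g x|) := by
    have hz : Tendsto (fun n : ℕ => ((1 / ((n : ℚ) + 1) : ℚ) : ℝ) *
        (minWeakGrad m f x * minWeakGrad m g x + |gradPairing m f g x|)) atTop
        (𝓝 (0 * (minWeakGrad m f x * minWeakGrad m g x + |gradPairing m f g x|))) := by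
      refine Tendsto.mul_const _ ?_
      have := tendsto_one_div_add_atTop_nhds_zero_nat (𝕜 := ℝ)
      refine this.congr fun n => ?_
      push_cast
      rfl
    exact ge_of_tendsto' hz fun n => h3 _ (by positivity)
  rw [zero_mul] at h7
  have h8 := abs_eq_zero.1 (le_antisymm h7 (abs_nonneg _))
  linarith


end Hilb

end WgCalc

end Crest.Agent.R242
end
end

-- ▼ part R242/SobLin
section

/-!
Row 242, PART S3, S4: almost everywhere invariance, vector space structure, locality; `wgCalc`.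
-/

set_option autoImplicit false
set_option linter.unusedSectionVars false

open MeasureTheory Filter Set
open Crest.GeometryTopology.SyntheticRicci
open scoped ENNReal NNReal Topology

namespace Crest.Agent.R242

variable {X : Type*} [MetricSpace X] [ProperSpace X] [MeasurableSpace X] [BorelSpace X]
variable {m : Measure X}

/-! ### S3 -/

/-- the minimal weak upper gradient depends only on the class of weak upper gradients -/
theorem minWeakGrad_eq_of_iff {f g : X → ℝ} (h : ∀ D, IsWUGLoc m f D ↔ IsWUGLoc m g D) :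
    minWeakGrad m f = minWeakGrad m g := by
  have h1 : (fun D => IsMinWUGLoc m f D) = fun D => IsMinWUGLoc m g D := by
    funext D
    apply propext
    unfold IsMinWUGLoc
    simp only [h]
  have key : ∀ p q : (X → ℝ) → Prop, p = q →
      (open Classical in if h : ∃ D, p D then Classical.choose h else (0 : X → ℝ)) =
      (open Classical in if h : ∃ D, q D then Classical.choose h else (0 : X → ℝ)) := by
    rintro p q rfl
    rfl
  exact key _ _ h1

theorem isSobolevLoc_of_iff {f g : X → ℝ} (h : ∀ D, IsWUGLoc m f D ↔ IsWUGLoc m g D)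
    (hg : IsL2OnBalls m g) (hf : IsSobolevLoc m f) : IsSobolevLoc m g := by
  refine ⟨hg, ?_⟩
  obtain ⟨D, hD, hmin⟩ := hf.2
  exact ⟨D, (h D).1 hD, fun D' hD' => hmin D' ((h D').2 hD')⟩

theorem isWUGLoc_congr_iff {f g : X → ℝ} (hfg : f =ᵐ[m] g) (D : X → ℝ) :
    IsWUGLoc m f D ↔ IsWUGLoc m g D :=
  ⟨fun h => IsWUGLoc.congr hfg (ae_eq_refl D) h, fun h => IsWUGLoc.congr hfg.symm (ae_eq_refl D) h⟩

/-- honest equality of the minimal weak upper gradients of a.e. equal functions -/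
theorem minWeakGrad_congr_eq {f g : X → ℝ} (hfg : f =ᵐ[m] g) :
    minWeakGrad m f = minWeakGrad m g := minWeakGrad_eq_of_iff (isWUGLoc_congr_iff hfg)

theorem minWeakGrad_congr {f g : X → ℝ} (hfg : f =ᵐ[m] g) :
    minWeakGrad m f =ᵐ[m] minWeakGrad m g := by
  rw [minWeakGrad_congr_eq hfg]

theorem IsSobolevLoc.congr {f g : X → ℝ} (hfg : f =ᵐ[m] g) (hf : IsSobolevLoc m f) :
    IsSobolevLoc m g :=
  isSobolevLoc_of_iff (isWUGLoc_congr_iff hfg)
    (fun o R => (memLp_congr_ae (ae_restrict_of_ae hfg)).1 (hf.1 o R)) hf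

theorem IsSobolev.congr {f g : X → ℝ} (hfg : f =ᵐ[m] g) (hf : IsSobolev m f) :
    IsSobolev m g :=
  ⟨(memLp_congr_ae hfg).1 hf.1, IsSobolevLoc.congr hfg hf.2.1, by
    rw [← minWeakGrad_congr_eq hfg]; exact hf.2.2⟩

theorem minWeakGrad_add_le' (hfin : IsFiniteOnBalls m) {f g : X → ℝ} (hf : IsSobolevLoc m f)
    (hg : IsSobolevLoc m g) :
    IsSobolevLoc m (fun x => f x + g x) ∧
    ∀ᵐ x ∂m, minWeakGrad m (fun y => f y + g y) x ≤ minWeakGrad m f x + minWeakGrad m g x :=
  isSobolevLoc_comp₂ hfin hf hg (Φ := fun a b => a + b) (fun a b c d => by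
    have : a + b - (c + d) = (a - c) + (b - d) := by ring
    rw [this]; exact abs_add_le _ _)

theorem minWeakGrad_sub_le' (hfin : IsFiniteOnBalls m) {f g : X → ℝ} (hf : IsSobolevLoc m f)
    (hg : IsSobolevLoc m g) :
    IsSobolevLoc m (fun x => f x - g x) ∧
    ∀ᵐ x ∂m, minWeakGrad m (fun y => f y - g y) x ≤ minWeakGrad m f x + minWeakGrad m g x :=
  isSobolevLoc_comp₂ hfin hf hg (Φ := fun a b => a - b) (fun a b c d => by
    have : a - b - (c - d) = (a - c) - (b - d) := by ring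
    rw [this]; exact abs_sub _ _)

theorem IsSobolevLoc.add (hfin : IsFiniteOnBalls m) {f g : X → ℝ} (hf : IsSobolevLoc m f)
    (hg : IsSobolevLoc m g) : IsSobolevLoc m (fun x => f x + g x) :=
  (minWeakGrad_add_le' hfin hf hg).1

theorem IsSobolevLoc.sub (hfin : IsFiniteOnBalls m) {f g : X → ℝ} (hf : IsSobolevLoc m f)
    (hg : IsSobolevLoc m g) : IsSobolevLoc m (fun x => f x - g x) :=
  (minWeakGrad_sub_le' hfin hf hg).1

theorem minWeakGrad_add_le (hfin : IsFiniteOnBalls m) {f g : X → ℝ} (hf : IsSobolevLoc m f)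
    (hg : IsSobolevLoc m g) :
    ∀ᵐ x ∂m, minWeakGrad m (fun y => f y + g y) x ≤ minWeakGrad m f x + minWeakGrad m g x :=
  (minWeakGrad_add_le' hfin hf hg).2

theorem minWeakGrad_sub_le (hfin : IsFiniteOnBalls m) {f g : X → ℝ} (hf : IsSobolevLoc m f)
    (hg : IsSobolevLoc m g) :
    ∀ᵐ x ∂m, minWeakGrad m (fun y => f y - g y) x ≤ minWeakGrad m f x + minWeakGrad m g x :=
  (minWeakGrad_sub_le' hfin hf hg).2

theorem lipschitzWith_const_mul (c : ℝ) : LipschitzWith ‖c‖₊ (fun t : ℝ => c * t) := by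
  refine LipschitzWith.of_dist_le_mul fun x y => ?_
  rw [Real.dist_eq, Real.dist_eq, ← mul_sub, abs_mul, coe_nnnorm, Real.norm_eq_abs]

theorem IsSobolevLoc.const_mul (hfin : IsFiniteOnBalls m) (c : ℝ) {f : X → ℝ}
    (hf : IsSobolevLoc m f) : IsSobolevLoc m (fun x => c * f x) :=
  IsSobolevLoc.comp_lipschitz hfin hf (lipschitzWith_const_mul c)

theorem minWeakGrad_const_mul (hfin : IsFiniteOnBalls m) (c : ℝ) {f : X → ℝ}
    (hf : IsSobolevLoc m f) :
    ∀ᵐ x ∂m, minWeakGrad m (fun y => c * f y) x = |c| * minWeakGrad m f x :=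
  minWeakGrad_comp hfin hf (φ := fun t => c * t) (ψ := fun _ => c) (lipschitzWith_const_mul c)
    countable_empty (fun t _ => by simpa using (hasDerivAt_id t).const_mul c)

theorem isWUGLoc_neg_iff (f : X → ℝ) (D : X → ℝ) :
    IsWUGLoc m f D ↔ IsWUGLoc m (fun x => - f x) D := by
  refine ⟨isWUGLoc_neg, fun h => ?_⟩
  have := isWUGLoc_neg h
  simpa only [neg_neg] using this

theorem minWeakGrad_neg_eq (f : X → ℝ) : minWeakGrad m (fun y => - f y) = minWeakGrad m f :=
  (minWeakGrad_eq_of_iff (isWUGLoc_neg_iff f)).symm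

theorem minWeakGrad_neg (f : X → ℝ) :
    ∀ᵐ x ∂m, minWeakGrad m (fun y => - f y) x = minWeakGrad m f x := by
  rw [minWeakGrad_neg_eq]
  exact Eventually.of_forall fun _ => rfl

theorem IsSobolevLoc.neg (_hfin : IsFiniteOnBalls m) {f : X → ℝ} (hf : IsSobolevLoc m f) :
    IsSobolevLoc m (fun x => - f x) :=
  isSobolevLoc_of_iff (isWUGLoc_neg_iff f) (fun o R => (hf.1 o R).neg) hf

theorem isSobolevLoc_const (hfin : IsFiniteOnBalls m) (c : ℝ) :
    IsSobolevLoc m (fun _ => c) :=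
  (LipschitzWith.lipOnBalls (LipschitzWith.const c)).isSobolevLoc hfin

theorem minWeakGrad_const (hfin : IsFiniteOnBalls m) (c : ℝ) :
    ∀ᵐ x ∂m, minWeakGrad m (fun _ => c) x = 0 := by
  filter_upwards [minWeakGrad_le_of_lipschitzOnWith hfin (f := fun _ : X => c)
    (LipschitzWith.lipOnBalls (LipschitzWith.const c)) isOpen_univ (L := 0)
    (LipschitzWith.const c).lipschitzOnWith, minWeakGrad_nonneg (m := m) (fun _ : X => c)]
    with x h1 h2
  exact le_antisymm (by simpa using h1 (mem_univ x)) h2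

theorem isWUGLoc_add_const_iff (f : X → ℝ) (c : ℝ) (D : X → ℝ) :
    IsWUGLoc m f D ↔ IsWUGLoc m (fun x => f x + c) D := by
  unfold IsWUGLoc
  simp only [add_sub_add_right_eq_sub]

theorem minWeakGrad_add_const_eq (c : ℝ) (f : X → ℝ) :
    minWeakGrad m (fun y => f y + c) = minWeakGrad m f :=
  (minWeakGrad_eq_of_iff (isWUGLoc_add_const_iff f c)).symm

theorem minWeakGrad_add_const (c : ℝ) (f : X → ℝ) (_hfin : IsFiniteOnBalls m) :
    ∀ᵐ x ∂m, minWeakGrad m (fun y => f y + c) x = minWeakGrad m f x := by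
  rw [minWeakGrad_add_const_eq]
  exact Eventually.of_forall fun _ => rfl

theorem memLp_minWeakGrad_of_le {f D : X → ℝ} (hm : AEStronglyMeasurable (minWeakGrad m f) m)
    (hD : MemLp D 2 m) (h : ∀ᵐ x ∂m, minWeakGrad m f x ≤ D x) : MemLp (minWeakGrad m f) 2 m := by
  refine hD.of_le hm ?_
  filter_upwards [h, minWeakGrad_nonneg (m := m) f] with x h1 h2
  rw [Real.norm_eq_abs, Real.norm_eq_abs, abs_of_nonneg h2]
  exact h1.trans (le_abs_self _)

theorem IsSobolev.add (hfin : IsFiniteOnBalls m) {f g : X → ℝ} (hf : IsSobolev m f)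
    (hg : IsSobolev m g) : IsSobolev m (fun x => f x + g x) :=
  ⟨hf.1.add hg.1, IsSobolevLoc.add hfin hf.2.1 hg.2.1,
    memLp_minWeakGrad_of_le (minWeakGrad_aestronglyMeasurable hfin _) (hf.2.2.add hg.2.2)
      (minWeakGrad_add_le hfin hf.2.1 hg.2.1)⟩

theorem IsSobolev.sub (hfin : IsFiniteOnBalls m) {f g : X → ℝ} (hf : IsSobolev m f)
    (hg : IsSobolev m g) : IsSobolev m (fun x => f x - g x) :=
  ⟨hf.1.sub hg.1, IsSobolevLoc.sub hfin hf.2.1 hg.2.1,
    memLp_minWeakGrad_of_le (minWeakGrad_aestronglyMeasurable hfin _) (hf.2.2.add hg.2.2)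
      (minWeakGrad_sub_le hfin hf.2.1 hg.2.1)⟩

theorem IsSobolev.const_mul (hfin : IsFiniteOnBalls m) (c : ℝ) {f : X → ℝ}
    (hf : IsSobolev m f) : IsSobolev m (fun x => c * f x) :=
  ⟨hf.1.const_mul c, IsSobolevLoc.const_mul hfin c hf.2.1,
    memLp_minWeakGrad_of_le (minWeakGrad_aestronglyMeasurable hfin _) (hf.2.2.const_mul |c|)
      (by filter_upwards [minWeakGrad_const_mul hfin c hf.2.1] with x hx using hx.le)⟩

theorem IsSobolev.neg (_hfin : IsFiniteOnBalls m) {f : X → ℝ}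
    (hf : IsSobolev m f) : IsSobolev m (fun x => - f x) :=
  ⟨hf.1.neg, IsSobolevLoc.neg _hfin hf.2.1, by rw [minWeakGrad_neg_eq]; exact hf.2.2⟩

/-! ### S4: locality -/

theorem minWeakGrad_ae_eq_zero_of_mem (hfin : IsFiniteOnBalls m) {f : X → ℝ}
    (hf : IsSobolevLoc m f) {N : Set ℝ} (hN : N.Countable) :
    ∀ᵐ x ∂m, f x ∈ N → minWeakGrad m f x = 0 := minWeakGrad_ae_zero_of_mem_countable hfin hf hN

theorem minWeakGrad_ae_eq_of_eq (hfin : IsFiniteOnBalls m) {f g : X → ℝ}
    (hf : IsSobolevLoc m f) (hg : IsSobolevLoc m g) :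
    ∀ᵐ x ∂m, f x = g x → minWeakGrad m f x = minWeakGrad m g x := by
  have hd := IsSobolevLoc.sub hfin hf hg
  have hd' := IsSobolevLoc.sub hfin hg hf
  have e1 : (fun x => (f x - g x) + g x) = f := by funext x; ring
  have e2 : (fun x => (g x - f x) + f x) = g := by funext x; ring
  have h1 := minWeakGrad_add_le hfin hd hg
  have h2 := minWeakGrad_add_le hfin hd' hf
  rw [e1] at h1
  rw [e2] at h2
  filter_upwards [h1, h2, minWeakGrad_ae_eq_zero_of_mem hfin hd (countable_singleton (0 : ℝ)),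
    minWeakGrad_ae_eq_zero_of_mem hfin hd' (countable_singleton (0 : ℝ))] with x h1 h2 h3 h4 hx
  have e3 := h3 (by rw [mem_singleton_iff, hx, sub_self])
  have e4 := h4 (by rw [mem_singleton_iff, hx, sub_self])
  rw [e3] at h1
  rw [e4] at h2
  linarith

/-- A function that coincides on every ball with some local Sobolev function is local Sobolev. -/
theorem isSobolevLoc_of_forall_ball (hfin : IsFiniteOnBalls m) {f : X → ℝ}
    (h : ∀ (o : X) (R : ℝ), ∃ g : X → ℝ, IsSobolevLoc m g ∧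
      ∀ᵐ x ∂(m.restrict (Metric.ball o R)), f x = g x) : IsSobolevLoc m f := by
  classical
  rcases isEmpty_or_nonempty X with hX | ⟨⟨o⟩⟩
  · have : f = fun _ => 0 := by funext x; exact (hX.false x).elim
    rw [this]; exact isSobolevLoc_const hfin 0
  have hL2 : IsL2OnBalls m f := by
    intro o' R
    obtain ⟨g, hg, hfg⟩ := h o' R
    exact (memLp_congr_ae hfg).2 (hg.1 o' R)
  choose g hg hfg using fun n : ℕ => h o n
  -- the gradients are compatible
  have hcomp : ∀ i j : ℕ, i ≤ j → ∀ᵐ x ∂m, x ∈ Metric.ball o (i : ℝ) →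
      minWeakGrad m (g i) x = minWeakGrad m (g j) x := by
    intro i j hij
    have h1 := (ae_restrict_iff' measurableSet_ball).1 (hfg i)
    have h2 := (ae_restrict_iff' measurableSet_ball).1 (hfg j)
    filter_upwards [h1, h2, minWeakGrad_ae_eq_of_eq hfin (hg i) (hg j)] with x h1 h2 h3 hx
    have hx' : x ∈ Metric.ball o (j : ℝ) :=
      Metric.ball_subset_ball (by exact_mod_cast hij) hx
    exact h3 (by rw [← h1 hx, ← h2 hx'])
  have hex : ∀ x : X, ∃ n : ℕ, x ∈ Metric.ball o (n : ℝ) := by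
    intro x
    obtain ⟨n, hn⟩ := exists_nat_gt (dist x o)
    exact ⟨n, hn⟩
  set D : X → ℝ := fun x => minWeakGrad m (g (Nat.find (hex x))) x with hD
  have hDj : ∀ j : ℕ, ∀ᵐ x ∂m, x ∈ Metric.ball o (j : ℝ) → D x = minWeakGrad m (g j) x := by
    intro j
    have h1 : ∀ᵐ x ∂m, ∀ i : ℕ, i ≤ j → x ∈ Metric.ball o (i : ℝ) →
        minWeakGrad m (g i) x = minWeakGrad m (g j) x := by
      rw [ae_all_iff]
      intro i
      by_cases hij : i ≤ j
      · filter_upwards [hcomp i j hij] with x hx _ using hx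
      · exact Eventually.of_forall fun x hij' => absurd hij' hij
    filter_upwards [h1] with x hx hxj
    exact hx _ (Nat.find_min' (hex x) hxj) (Nat.find_spec (hex x))
  have hDL2 : IsL2OnBalls m D := by
    intro o' R
    obtain ⟨j, hj⟩ := exists_nat_gt (dist o' o + R)
    have hsub : Metric.ball o' R ⊆ Metric.ball o (j : ℝ) := by
      intro x hx
      rw [Metric.mem_ball] at hx ⊢
      calc dist x o ≤ dist x o' + dist o' o := dist_triangle _ _ _
        _ < j := by linarith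
    have h1 : ∀ᵐ x ∂(m.restrict (Metric.ball o' R)), D x = minWeakGrad m (g j) x := by
      rw [ae_restrict_iff' measurableSet_ball]
      filter_upwards [hDj j] with x hx hxb using hx (hsub hxb)
    exact (memLp_congr_ae h1).2 (minWeakGrad_isL2OnBalls (g j) o' R)
  refine (isSobolevLoc_iff hfin).2 ⟨hL2, D, (isWUGLoc_iff_curveUG hfin hL2).2 ⟨hDL2, ?_, ?_⟩⟩
  · have h1 : ∀ᵐ x ∂m, ∀ n : ℕ, 0 ≤ minWeakGrad m (g n) x :=
      ae_all_iff.2 fun n => minWeakGrad_nonneg (g n)
    filter_upwards [h1] with x hx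
    exact hx _
  · intro P hP hPb
    obtain ⟨o', R, hR⟩ := hPb
    have hprob : IsProbabilityMeasure P := hP.1
    obtain ⟨C, hC⟩ := hP.2.1
    obtain ⟨j, hj⟩ := exists_nat_gt (dist o' o + R)
    have hsub : Metric.closedBall o' R ⊆ Metric.ball o (j : ℝ) := by
      intro x hx
      rw [Metric.mem_closedBall] at hx
      rw [Metric.mem_ball]
      calc dist x o ≤ dist x o' + dist o' o := dist_triangle _ _ _
        _ < j := by linarith
    have h1 : ∀ᵐ x ∂m, x ∈ Metric.closedBall o' R →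
        (f x = g j x ∧ D x = minWeakGrad m (g j) x) := by
      have h2 := (ae_restrict_iff' measurableSet_ball).1 (hfg j)
      filter_upwards [h2, hDj j] with x hx1 hx2 hx
      exact ⟨hx1 (hsub hx), hx2 (hsub hx)⟩
    have h2 := ((isWUGLoc_iff_curveUG hfin (hg j).1).1 (IsSobolevLoc.isWUG (hg j))).2.2 P hP
      ⟨o', R, hR⟩
    filter_upwards [h2, hR, ae_toMap_of_ae hC h1 0, ae_toMap_of_ae hC h1 1,
      ae_ae_ext_of_ae hC h1] with γ hγ hγR e0 e1 e2
    obtain ⟨u, hu1, hu2, hu3, hu4, hu5⟩ := hγ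
    refine ⟨u, hu1, ?_, ?_, ?_, ?_⟩
    · rw [hu2, (e0 (hγR 0)).1]
    · rw [hu3, (e1 (hγR 1)).1]
    · filter_upwards [hu4, e2] with t ht1 ht2
      rw [ht1, (ht2 (hγR _)).1]
    · filter_upwards [hu5, e2] with t ht1 ht2
      rw [(ht2 (hγR _)).2]; exact ht1

/-! ### the package used by `Pair.lean` -/

theorem wgCalc (hfin : IsFiniteOnBalls m) : WgCalc m where
  congr := fun f g hf hfg => ⟨IsSobolevLoc.congr hfg hf, minWeakGrad_congr hfg⟩
  add := fun f g hf hg => minWeakGrad_add_le' hfin hf hg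
  smul := fun c f hf => ⟨IsSobolevLoc.const_mul hfin c hf, minWeakGrad_const_mul hfin c hf⟩
  const := fun c => ⟨isSobolevLoc_const hfin c, minWeakGrad_const hfin c⟩
  loc := fun f g hf hg => minWeakGrad_ae_eq_of_eq hfin hf hg
  comp := fun φ L f hφ hf => IsSobolevLoc.comp_lipschitz_aux hfin hf hφ
  mul := fun f g hf hg hfb hgb => by
    obtain ⟨B, hB⟩ := hfb
    obtain ⟨B', hB'⟩ := hgb
    exact mul_locBdd_aux hfin hf hg (fun o R => ⟨B, ae_restrict_of_ae hB⟩)
      (fun o R => ⟨B', ae_restrict_of_ae hB'⟩)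
  lip := fun L f hf => ⟨(LipschitzWith.lipOnBalls hf).isSobolevLoc hfin, by
    filter_upwards [minWeakGrad_le_of_lipschitzOnWith hfin (LipschitzWith.lipOnBalls hf)
      isOpen_univ hf.lipschitzOnWith] with x hx using hx (mem_univ x)⟩
  glue := fun u hu => isSobolevLoc_of_forall_ball hfin hu

end Crest.Agent.R242
end

-- ▼ part R242/Pair

/-!
# Row 242, blocks S11 and S12: pointwise parallelogram law and the calculus of `gradPairing`

Everything is stated for genuine functions, almost everywhere.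
-/

set_option autoImplicit false
set_option linter.unusedSectionVars false

open MeasureTheory Filter Set
open scoped ENNReal NNReal Topology
open Crest.GeometryTopology.SyntheticRicci

namespace Crest.Agent.R242

variable {X : Type*} [MetricSpace X] [ProperSpace X] [MeasurableSpace X] [BorelSpace X]
  {m : Measure X} [IsLocallyFiniteMeasure m] [m.IsOpenPosMeasure] {k N : ℝ}

/-! ## S11 -/


/-! ## The classes -/

theorem sobLoc_add (H : Hyp m k N) {f g : X → ℝ} (hf : IsSobolevLoc m f)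
    (hg : IsSobolevLoc m g) : IsSobolevLoc m (fun x => f x + g x) :=
  ((wgCalc H.fin).add f g hf hg).1

theorem sobLoc_sub (H : Hyp m k N) {f g : X → ℝ} (hf : IsSobolevLoc m f)
    (hg : IsSobolevLoc m g) : IsSobolevLoc m (fun x => f x - g x) :=
  (wgCalc H.fin).sub hf hg

theorem sobLoc_smul (H : Hyp m k N) (c : ℝ) {f : X → ℝ} (hf : IsSobolevLoc m f) :
    IsSobolevLoc m (fun x => c * f x) :=
  ((wgCalc H.fin).smul c f hf).1


theorem sobLoc_const (H : Hyp m k N) (c : ℝ) : IsSobolevLoc m (fun _ : X => c) :=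
  ((wgCalc H.fin).const c).1


/-- products of locally bounded functions. -/
theorem sobLoc_mul (H : Hyp m k N) {f g : X → ℝ} (hf : IsSobolevLoc m f)
    (hg : IsSobolevLoc m g) (hfb : LocBdd m f) (hgb : LocBdd m g) :
    IsSobolevLoc m (fun x => f x * g x) :=
  IsSobolevLoc.mul H.fin hf hg hfb hgb

theorem sobLoc_of_lipschitz (H : Hyp m k N) {f : X → ℝ} {L : ℝ≥0} (hf : LipschitzWith L f) :
    IsSobolevLoc m f :=
  ((wgCalc H.fin).lip L f hf).1

theorem sob_congr (H : Hyp m k N) {f g : X → ℝ} (hf : IsSobolev m f) (h : f =ᵐ[m] g) :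
    IsSobolev m g :=
  (wgCalc H.fin).sob_congr hf h

theorem sob_add (H : Hyp m k N) {f g : X → ℝ} (hf : IsSobolev m f) (hg : IsSobolev m g) :
    IsSobolev m (fun x => f x + g x) :=
  (wgCalc H.fin).sob_add hf hg

theorem sob_sub (H : Hyp m k N) {f g : X → ℝ} (hf : IsSobolev m f) (hg : IsSobolev m g) :
    IsSobolev m (fun x => f x - g x) :=
  (wgCalc H.fin).sob_sub hf hg

theorem sob_smul (H : Hyp m k N) (c : ℝ) {f : X → ℝ} (hf : IsSobolev m f) :
    IsSobolev m (fun x => c * f x) :=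
  (wgCalc H.fin).sob_smul c hf


theorem sob_zero (H : Hyp m k N) : IsSobolev m (fun _ : X => (0 : ℝ)) :=
  (wgCalc H.fin).sob_zero

/-- bounded functions of `W^{1,2}` form an algebra. -/
theorem sob_mul (H : Hyp m k N) {f g : X → ℝ} (hf : IsSobolev m f) (hg : IsSobolev m g)
    (hfb : ∃ B : ℝ, ∀ᵐ x ∂m, |f x| ≤ B) (hgb : ∃ B : ℝ, ∀ᵐ x ∂m, |g x| ≤ B) :
    IsSobolev m (fun x => f x * g x) :=
  (wgCalc H.fin).sob_mul hf hg hfb hgb

/-- product of `f ∈ W^{1,2}` (bounded) with a bounded Lipschitz function. -/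
theorem sob_mul_lip (H : Hyp m k N) {f g : X → ℝ} (hf : IsSobolev m f) (hg : BddLip g)
    (hfb : ∃ B : ℝ, ∀ᵐ x ∂m, |f x| ≤ B) : IsSobolev m (fun x => f x * g x) := by
  obtain ⟨⟨B', hB'⟩, L, hL⟩ := hg
  obtain ⟨B, hB⟩ := hfb
  have hgl := (wgCalc H.fin).lip L g hL
  have hm := (wgCalc H.fin).mul f g hf.2.1 hgl.1 ⟨B, hB⟩ ⟨B', Eventually.of_forall hB'⟩
  refine isSobolev_of_le (w := fun x => (L : ℝ) * |f x| + B' * minWeakGrad m f x) ?_ hm.1
    ((hf.1.norm.const_mul (L : ℝ)).add (hf.2.2.const_mul B')) ?_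
  · refine (hf.1.const_mul B').mono (hf.1.1.mul hL.continuous.aestronglyMeasurable) ?_
    refine Eventually.of_forall fun x => ?_
    rw [norm_mul, norm_mul, mul_comm]
    refine mul_le_mul_of_nonneg_right ?_ (norm_nonneg _)
    exact (hB' x).trans (le_abs_self _)
  · filter_upwards [hm.2, hgl.2, wg_nonneg_ae hf.2.1] with x a1 a2 a3
    refine a1.trans (add_le_add ?_ (mul_le_mul_of_nonneg_right (hB' x) a3))
    rw [mul_comm (L : ℝ)]
    exact mul_le_mul_of_nonneg_left a2 (abs_nonneg _)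

/-- composition with a Lipschitz function vanishing at `0`. -/
theorem sob_comp (H : Hyp m k N) {φ : ℝ → ℝ} {L : ℝ≥0} (hφ : LipschitzWith L φ) (h0 : φ 0 = 0)
    {f : X → ℝ} (hf : IsSobolev m f) : IsSobolev m (fun x => φ (f x)) :=
  (wgCalc H.fin).sob_comp hφ h0 hf

/-- a locally Sobolev function vanishing outside a ball is in `W^{1,2}`. -/
theorem sob_of_sobLoc_bddSupp (H : Hyp m k N) {f : X → ℝ} (hf : IsSobolevLoc m f)
    (hs : BddSupp m f) : IsSobolev m f :=
  (wgCalc H.fin).sob_of_bddSupp hf hs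

/-- the weak gradient vanishes where the function is constant. -/
theorem wg_eq_zero_of_eq (H : Hyp m k N) {f : X → ℝ} (hf : IsSobolevLoc m f) (c : ℝ) :
    ∀ᵐ x ∂m, f x = c → minWeakGrad m f x = 0 :=
  (wgCalc H.fin).wg_zero_of_eq hf c

/-! ## S12: calculus of the pairing -/

theorem gp_congr (H : Hyp m k N) {f f' g g' : X → ℝ} (hf : IsSobolevLoc m f)
    (hg : IsSobolevLoc m g) (hff : f =ᵐ[m] f') (hgg : g =ᵐ[m] g') :
    gradPairing m f g =ᵐ[m] gradPairing m f' g' :=
  (wgCalc H.fin).gp_congr hf hg hff hgg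

theorem gp_comm (H : Hyp m k N) {f g : X → ℝ} (hf : IsSobolevLoc m f) (hg : IsSobolevLoc m g) :
    gradPairing m f g =ᵐ[m] gradPairing m g f :=
  (wgCalc H.fin).gp_comm hf hg

theorem gp_self (H : Hyp m k N) {f : X → ℝ} (hf : IsSobolevLoc m f) :
    gradPairing m f f =ᵐ[m] fun x => minWeakGrad m f x ^ 2 :=
  (wgCalc H.fin).gp_self hf

theorem gp_add_left (H : Hyp m k N) {f f' g : X → ℝ} (hf : IsSobolevLoc m f)
    (hf' : IsSobolevLoc m f') (hg : IsSobolevLoc m g) :
    gradPairing m (fun x => f x + f' x) g =ᵐ[m]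
      fun x => gradPairing m f g x + gradPairing m f' g x :=
  (wgCalc H.fin).gp_add_left H.hilb hf hf' hg

theorem gp_add_right (H : Hyp m k N) {f g g' : X → ℝ} (hf : IsSobolevLoc m f)
    (hg : IsSobolevLoc m g) (hg' : IsSobolevLoc m g') :
    gradPairing m f (fun x => g x + g' x) =ᵐ[m]
      fun x => gradPairing m f g x + gradPairing m f g' x :=
  (wgCalc H.fin).gp_add_right H.hilb hf hg hg'

theorem gp_sub_left (H : Hyp m k N) {f f' g : X → ℝ} (hf : IsSobolevLoc m f)
    (hf' : IsSobolevLoc m f') (hg : IsSobolevLoc m g) :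
    gradPairing m (fun x => f x - f' x) g =ᵐ[m]
      fun x => gradPairing m f g x - gradPairing m f' g x :=
  (wgCalc H.fin).gp_sub_left H.hilb hf hf' hg

theorem gp_sub_right (H : Hyp m k N) {f g g' : X → ℝ} (hf : IsSobolevLoc m f)
    (hg : IsSobolevLoc m g) (hg' : IsSobolevLoc m g') :
    gradPairing m f (fun x => g x - g' x) =ᵐ[m]
      fun x => gradPairing m f g x - gradPairing m f g' x :=
  (wgCalc H.fin).gp_sub_right H.hilb hf hg hg'

theorem gp_smul_left (H : Hyp m k N) (c : ℝ) {f g : X → ℝ} (hf : IsSobolevLoc m f)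
    (hg : IsSobolevLoc m g) :
    gradPairing m (fun x => c * f x) g =ᵐ[m] fun x => c * gradPairing m f g x :=
  (wgCalc H.fin).gp_smul_left H.hilb c hf hg

theorem gp_smul_right (H : Hyp m k N) (c : ℝ) {f g : X → ℝ} (hf : IsSobolevLoc m f)
    (hg : IsSobolevLoc m g) :
    gradPairing m f (fun x => c * g x) =ᵐ[m] fun x => c * gradPairing m f g x :=
  (wgCalc H.fin).gp_smul_right H.hilb c hf hg

theorem gp_neg_left (H : Hyp m k N) {f g : X → ℝ} (hf : IsSobolevLoc m f)
    (hg : IsSobolevLoc m g) :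
    gradPairing m (fun x => - f x) g =ᵐ[m] fun x => - gradPairing m f g x :=
  (wgCalc H.fin).gp_neg_left H.hilb hf hg

theorem gp_neg_right (H : Hyp m k N) {f g : X → ℝ} (hf : IsSobolevLoc m f)
    (hg : IsSobolevLoc m g) :
    gradPairing m f (fun x => - g x) =ᵐ[m] fun x => - gradPairing m f g x :=
  (wgCalc H.fin).gp_neg_right H.hilb hf hg



/-- `wg (f+g)² = wg f² + 2⟨f,g⟩ + wg g²`. -/
theorem wg_add_sq (H : Hyp m k N) {f g : X → ℝ} (hf : IsSobolevLoc m f) (hg : IsSobolevLoc m g) :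
    ∀ᵐ x ∂m, minWeakGrad m (fun y => f y + g y) x ^ 2 =
      minWeakGrad m f x ^ 2 + 2 * gradPairing m f g x + minWeakGrad m g x ^ 2 :=
  (wgCalc H.fin).wg_add_sq H.hilb hf hg

theorem wg_sub_sq (H : Hyp m k N) {f g : X → ℝ} (hf : IsSobolevLoc m f) (hg : IsSobolevLoc m g) :
    ∀ᵐ x ∂m, minWeakGrad m (fun y => f y - g y) x ^ 2 =
      minWeakGrad m f x ^ 2 - 2 * gradPairing m f g x + minWeakGrad m g x ^ 2 :=
  (wgCalc H.fin).wg_sub_sq H.hilb hf hg

/-- Cauchy-Schwarz. -/
theorem gp_abs_le (H : Hyp m k N) {f g : X → ℝ} (hf : IsSobolevLoc m f) (hg : IsSobolevLoc m g) :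
    ∀ᵐ x ∂m, |gradPairing m f g x| ≤ minWeakGrad m f x * minWeakGrad m g x :=
  (wgCalc H.fin).gp_abs_le H.hilb hf hg

theorem gp_le (H : Hyp m k N) {f g : X → ℝ} (hf : IsSobolevLoc m f) (hg : IsSobolevLoc m g) :
    ∀ᵐ x ∂m, gradPairing m f g x ≤ (minWeakGrad m f x ^ 2 + minWeakGrad m g x ^ 2) / 2 :=
  (wgCalc H.fin).gp_le H.hilb hf hg


/-- locality. -/
theorem gp_local_left (H : Hyp m k N) {f f' g : X → ℝ} (hf : IsSobolevLoc m f)
    (hf' : IsSobolevLoc m f') (hg : IsSobolevLoc m g) :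
    ∀ᵐ x ∂m, f x = f' x → gradPairing m f g x = gradPairing m f' g x :=
  (wgCalc H.fin).gp_local_left hf hf' hg

theorem gp_local_right (H : Hyp m k N) {f g g' : X → ℝ} (hf : IsSobolevLoc m f)
    (hg : IsSobolevLoc m g) (hg' : IsSobolevLoc m g') :
    ∀ᵐ x ∂m, g x = g' x → gradPairing m f g x = gradPairing m f g' x :=
  (wgCalc H.fin).gp_local_right hf hg hg'



/-- Leibniz rule. -/
theorem gp_mul_left (H : Hyp m k N) {f f' g : X → ℝ} (hf : IsSobolevLoc m f)
    (hf' : IsSobolevLoc m f') (hg : IsSobolevLoc m g) (hfb : LocBdd m f) (hfb' : LocBdd m f') :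
    gradPairing m (fun x => f x * f' x) g =ᵐ[m]
      fun x => f x * gradPairing m f' g x + f' x * gradPairing m f g x :=
  (wgCalc H.fin).gp_mul_left H.hilb hf hf' hg (sobLoc_mul H hf hf' hfb hfb')

theorem gp_mul_right (H : Hyp m k N) {f g g' : X → ℝ} (hf : IsSobolevLoc m f)
    (hg : IsSobolevLoc m g) (hg' : IsSobolevLoc m g') (hgb : LocBdd m g) (hgb' : LocBdd m g') :
    gradPairing m f (fun x => g x * g' x) =ᵐ[m]
      fun x => g x * gradPairing m f g' x + g' x * gradPairing m f g x :=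
  (wgCalc H.fin).gp_mul_right H.hilb hf hg hg' (sobLoc_mul H hg hg' hgb hgb')

/-- `sobLoc` for a `C¹` function of a locally bounded function. -/
theorem sobLoc_comp_of_locBdd (H : Hyp m k N) {φ : ℝ → ℝ} (hφ : ContDiff ℝ 1 φ) {f : X → ℝ}
    (hf : IsSobolevLoc m f) (hfb : LocBdd m f) : IsSobolevLoc m (fun x => φ (f x)) :=
  IsSobolevLoc.comp_contDiff H.fin hf hfb hφ

/-- chain rule, `φ` of class `C¹`, `f` locally bounded. -/
theorem gp_comp_left (H : Hyp m k N) {φ : ℝ → ℝ} (hφ : ContDiff ℝ 1 φ) {f g : X → ℝ}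
    (hf : IsSobolevLoc m f) (hfb : LocBdd m f) (hg : IsSobolevLoc m g) :
    gradPairing m (fun x => φ (f x)) g =ᵐ[m] fun x => deriv φ (f x) * gradPairing m f g x :=
  (wgCalc H.fin).gp_comp_C1 H.hilb hφ hf (sobLoc_comp_of_locBdd H hφ hf hfb) hg

theorem gp_comp_right (H : Hyp m k N) {φ : ℝ → ℝ} (hφ : ContDiff ℝ 1 φ) {f g : X → ℝ}
    (hf : IsSobolevLoc m f) (hg : IsSobolevLoc m g) (hgb : LocBdd m g) :
    gradPairing m f (fun x => φ (g x)) =ᵐ[m] fun x => deriv φ (g x) * gradPairing m f g x := by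
  filter_upwards [gp_comm H hf (sobLoc_comp_of_locBdd H hφ hg hgb), gp_comp_left H hφ hg hgb hf,
    gp_comm H hf hg] with x h1 h2 h3
  rw [h1, h2, h3]


/-- chain rule, `φ` Lipschitz and differentiable outside a countable set (no bound on `f`). -/
theorem gp_comp_left_lip (H : Hyp m k N) {φ : ℝ → ℝ} {L : ℝ≥0} (hφ : LipschitzWith L φ)
    {S : Set ℝ} (hS : S.Countable) (hd : ∀ r ∉ S, DifferentiableAt ℝ φ r) {f g : X → ℝ}
    (hf : IsSobolevLoc m f) (hg : IsSobolevLoc m g) :
    gradPairing m (fun x => φ (f x)) g =ᵐ[m] fun x => deriv φ (f x) * gradPairing m f g x := by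
  have h1 := minWeakGrad_comp H.fin hf hφ hS (ψ := deriv φ) fun t ht => (hd t ht).hasDerivAt
  have hφ2 : LipschitzWith (L + 1) (fun t => φ t + t) := hφ.add LipschitzWith.id
  have h2 := minWeakGrad_comp H.fin hf hφ2 hS (ψ := fun t => deriv φ t + 1)
    fun t ht => (hd t ht).hasDerivAt.add (hasDerivAt_id t)
  exact (wgCalc H.fin).gp_comp_of_wg H.hilb hf ((wgCalc H.fin).comp φ L f hφ hf).1 hg h1 h2

/-! ## Integrability -/

theorem aesm_of_sobLoc (H : Hyp m k N) {f : X → ℝ} (hf : IsSobolevLoc m f) :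
    AEStronglyMeasurable f m :=
  aesm_of_l2OnBalls hf.1

theorem aesm_wg (H : Hyp m k N) {f : X → ℝ} (hf : IsSobolevLoc m f) :
    AEStronglyMeasurable (minWeakGrad m f) m :=
  aesm_wg_ae hf

theorem wg_nonneg (H : Hyp m k N) {f : X → ℝ} (hf : IsSobolevLoc m f) :
    ∀ᵐ x ∂m, 0 ≤ minWeakGrad m f x :=
  wg_nonneg_ae hf

theorem aesm_gp (H : Hyp m k N) {f g : X → ℝ} (hf : IsSobolevLoc m f) (hg : IsSobolevLoc m g) :
    AEStronglyMeasurable (gradPairing m f g) m :=
  (wgCalc H.fin).aesm_gp hf hg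

theorem integrable_gp (H : Hyp m k N) {f g : X → ℝ} (hf : IsSobolev m f) (hg : IsSobolev m g) :
    Integrable (gradPairing m f g) m :=
  (wgCalc H.fin).integrable_gp H.hilb hf hg

theorem integrableOn_gp (H : Hyp m k N) {f g : X → ℝ} (hf : IsSobolevLoc m f)
    (hg : IsSobolevLoc m g) (o : X) (R : ℝ) :
    IntegrableOn (gradPairing m f g) (Metric.ball o R) m :=
  (wgCalc H.fin).integrableOn_gp H.hilb hf hg o R

theorem integrable_wg_sq (H : Hyp m k N) {f : X → ℝ} (hf : IsSobolev m f) :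
    Integrable (fun x => minWeakGrad m f x ^ 2) m :=
  sob_int_sq hf

end Crest.Agent.R242
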