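import Mathlib
import Crest.Agent.R242.Defs
import Crest.Agent.R242.Form2

set_option autoImplicit false
set_option linter.unusedSectionVars false

open MeasureTheory Filter Set
open scoped ENNReal NNReal Topology
open Crest.GeometryTopology.SyntheticRicci

noncomputable section

namespace Crest.Agent.R242

section

variable {X : Type*} [MetricSpace X] [MeasurableSpace X]

/-- Facts of PART S used in R1, R2. -/
structure Calc (m : Measure X) : Prop where
  sob_congr : ∀ {f g : X → ℝ}, IsSobolev m f → f =ᵐ[m] g → IsSobolev m g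
  sob_add : ∀ {f g : X → ℝ}, IsSobolev m f → IsSobolev m g → IsSobolev m (fun x => f x + g x)
  sob_smul : ∀ (c : ℝ) {f : X → ℝ}, IsSobolev m f → IsSobolev m (fun x => c * f x)
  sob_lip : ∀ {f : X → ℝ}, (∃ L : ℝ≥0, LipschitzWith L f) → HasCompactSupport f → IsSobolev m f
  gp_congr : ∀ {f f' g g' : X → ℝ}, f =ᵐ[m] f' → g =ᵐ[m] g' →
    gradPairing m f g =ᵐ[m] gradPairing m f' g'
  gp_int : ∀ {f g : X → ℝ}, IsSobolev m f → IsSobolev m g → Integrable (gradPairing m f g) m
  gp_symm : ∀ {f g : X → ℝ}, IsSobolev m f → IsSobolev m g →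
    gradPairing m f g =ᵐ[m] gradPairing m g f
  gp_add : ∀ {f g v : X → ℝ}, IsSobolev m f → IsSobolev m g → IsSobolev m v →
    gradPairing m (fun x => f x + g x) v =ᵐ[m] fun x => gradPairing m f v x + gradPairing m g v x
  gp_smul : ∀ (c : ℝ) {f v : X → ℝ}, IsSobolev m f → IsSobolev m v →
    gradPairing m (fun x => c * f x) v =ᵐ[m] fun x => c * gradPairing m f v x
  gp_self : ∀ {f : X → ℝ}, IsSobolev m f →
    gradPairing m f f =ᵐ[m] fun x => minWeakGrad m f x ^ 2
  /-- truncation -/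
  sob_pos : ∀ (c : ℝ), 0 ≤ c → ∀ {u : X → ℝ}, IsSobolev m u → IsSobolev m (fun x => max (u x - c) 0)
  gp_pos : ∀ (c : ℝ), 0 ≤ c → ∀ {u : X → ℝ}, IsSobolev m u →
    gradPairing m u (fun x => max (u x - c) 0) =ᵐ[m]
      gradPairing m (fun x => max (u x - c) 0) (fun x => max (u x - c) 0)
  /-- closedness and lower semicontinuity with a bounded weight (S8) -/
  closed : ∀ (u : ℕ → X → ℝ) (f w : X → ℝ) (A C : ℝ), (∀ n, IsSobolev m (u n)) → MemLp f 2 m →
    Tendsto (fun n => eLpNorm (fun x => u n x - f x) 2 m) atTop (𝓝 0) →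
    (∀ n, ∫ x, minWeakGrad m (u n) x ^ 2 ∂m ≤ A) →
    Measurable w → (∀ x, 0 ≤ w x) → (∃ B : ℝ, ∀ x, w x ≤ B) →
    (∀ n, ∫ x, w x * minWeakGrad m (u n) x ^ 2 ∂m ≤ C) →
    IsSobolev m f ∧ ∫ x, w x * minWeakGrad m f x ^ 2 ∂m ≤ C

/-- `V` is measurable and bounded. -/
def BddM (V : X → ℝ) : Prop := Measurable V ∧ ∃ B : ℝ, ∀ x, |V x| ≤ B

end

section

variable {X : Type*} [MetricSpace X] [ProperSpace X] [MeasurableSpace X] [BorelSpace X]
  {m : Measure X} [IsLocallyFiniteMeasure m] {V : X → ℝ} {h : ℝ} {f g u v : X → ℝ}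

/-! ### the weighted measure -/

omit [ProperSpace X] [BorelSpace X] [IsLocallyFiniteMeasure m] in
theorem wm_le {B : ℝ} (hB : ∀ x, |V x| ≤ B) : wm m V ≤ ENNReal.ofReal (Real.exp B) • m := by
  rw [← withDensity_const]
  exact withDensity_mono (ae_of_all _ fun x =>
    ENNReal.ofReal_le_ofReal (Real.exp_le_exp.mpr (le_of_abs_le (hB x))))

omit [ProperSpace X] [BorelSpace X] [IsLocallyFiniteMeasure m] in
theorem le_wm (hm : Measurable V) {B : ℝ} (hB : ∀ x, |V x| ≤ B) :
    m ≤ ENNReal.ofReal (Real.exp B) • wm m V := by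
  have h1 : ENNReal.ofReal (Real.exp B) • wm m V =
      m.withDensity (ENNReal.ofReal (Real.exp B) • fun x => ENNReal.ofReal (Real.exp (V x))) := by
    rw [wm, withDensity_smul _ (by fun_prop)]
  rw [h1]
  calc m = m.withDensity 1 := withDensity_one.symm
    _ ≤ _ := withDensity_mono (ae_of_all _ fun x => by
      simp only [Pi.one_apply, Pi.smul_apply, smul_eq_mul]
      rw [← ENNReal.ofReal_mul (Real.exp_pos _).le, ← Real.exp_add]
      rw [← ENNReal.ofReal_one]
      apply ENNReal.ofReal_le_ofReal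
      apply Real.one_le_exp
      have := neg_le_of_abs_le (hB x)
      linarith)

omit [ProperSpace X] [BorelSpace X] [IsLocallyFiniteMeasure m] in
theorem ae_wm (hV : BddM V) : ae (wm m V) = ae m := by
  obtain ⟨hm, B, hB⟩ := hV
  apply le_antisymm
  · exact (Measure.absolutelyContinuous_of_le_smul (wm_le hB)).ae_le
  · exact (Measure.absolutelyContinuous_of_le_smul (le_wm hm hB)).ae_le

omit [ProperSpace X] [BorelSpace X] [IsLocallyFiniteMeasure m] in
theorem integral_wm (hV : BddM V) (f : X → ℝ) :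
    ∫ x, f x ∂(wm m V) = ∫ x, Real.exp (V x) * f x ∂m := by
  rw [wm, integral_withDensity_eq_integral_toReal_smul (by have := hV.1; fun_prop)
    (ae_of_all _ fun x => ENNReal.ofReal_lt_top)]
  refine integral_congr_ae (ae_of_all _ fun x => ?_)
  simp only [smul_eq_mul]
  rw [ENNReal.toReal_ofReal (Real.exp_pos _).le]

omit [ProperSpace X] [BorelSpace X] [IsLocallyFiniteMeasure m] in
theorem memLp_wm_iff (hV : BddM V) (f : X → ℝ) (p : ℝ≥0∞) :
    MemLp f p (wm m V) ↔ MemLp f p m := by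
  obtain ⟨hm, B, hB⟩ := hV
  constructor
  · intro h
    exact (h.smul_measure ENNReal.ofReal_ne_top).mono_measure (le_wm hm hB)
  · intro h
    exact (h.smul_measure ENNReal.ofReal_ne_top).mono_measure (wm_le hB)

omit [ProperSpace X] [BorelSpace X] [IsLocallyFiniteMeasure m] in
theorem integrable_wm_iff (hV : BddM V) (f : X → ℝ) :
    Integrable f (wm m V) ↔ Integrable f m := by
  rw [← memLp_one_iff_integrable, ← memLp_one_iff_integrable, memLp_wm_iff hV]

omit [ProperSpace X] [BorelSpace X] [IsLocallyFiniteMeasure m] in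
theorem wm_zero : wm m (fun _ => 0) = m := by
  unfold wm
  simp only [Real.exp_zero, ENNReal.ofReal_one]
  exact withDensity_one

omit [ProperSpace X] [BorelSpace X] [IsLocallyFiniteMeasure m] in
/-- honest equality. -/
theorem Jr_congr' (hV : BddM V) (hfg : f =ᵐ[m] g) : Jr m V h f = Jr m V h g := by
  have h1 : IsRes m V h f = IsRes m V h g := by
    funext u
    unfold IsRes
    have h2 : ∀ v : X → ℝ, ∫ x, f x * v x ∂(wm m V) = ∫ x, g x * v x ∂(wm m V) := by
      intro v
      have hfg' : f =ᵐ[wm m V] g := by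
        have := ae_wm (m := m) hV
        unfold Filter.EventuallyEq at hfg ⊢
        rwa [this]
      exact integral_congr_ae (hfg'.mono fun x hx => by simp only [hx])
    simp only [h2]
  unfold Jr
  rw [h1]

omit [ProperSpace X] [BorelSpace X] [IsLocallyFiniteMeasure m] in
theorem isWLap_zero_iff : IsWLap m (fun _ => 0) u g ↔ IsWeakLaplacian m u g := by
  unfold IsWLap IsWeakLaplacian
  rw [wm_zero]

omit [ProperSpace X] [BorelSpace X] [IsLocallyFiniteMeasure m] in
theorem integrable_exp_mul (hV : BddM V) {f : X → ℝ} (hf : Integrable f m) :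
    Integrable (fun x => Real.exp (V x) * f x) m := by
  obtain ⟨hm, B, hB⟩ := hV
  refine hf.bdd_mul (c := Real.exp B) (by fun_prop) (ae_of_all _ fun x => ?_)
  rw [Real.norm_eq_abs, abs_of_pos (Real.exp_pos _)]
  exact Real.exp_le_exp.mpr (le_of_abs_le (hB x))

omit [ProperSpace X] [BorelSpace X] [IsLocallyFiniteMeasure m] in
theorem ae_wm_of_ae (hV : BddM V) {p : X → Prop} (h : ∀ᵐ x ∂m, p x) : ∀ᵐ x ∂(wm m V), p x := by
  rw [ae_wm hV]; exact h

omit [ProperSpace X] [BorelSpace X] [IsLocallyFiniteMeasure m] in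
theorem ae_of_ae_wm (hV : BddM V) {p : X → Prop} (h : ∀ᵐ x ∂(wm m V), p x) : ∀ᵐ x ∂m, p x := by
  rw [ae_wm hV] at h; exact h

omit [ProperSpace X] [BorelSpace X] [IsLocallyFiniteMeasure m] in
theorem eq_wm_of_eq (hV : BddM V) {f g : X → ℝ} (h : f =ᵐ[m] g) : f =ᵐ[wm m V] g :=
  ae_wm_of_ae hV h

omit [ProperSpace X] [BorelSpace X] [IsLocallyFiniteMeasure m] in
theorem eq_of_eq_wm (hV : BddM V) {f g : X → ℝ} (h : f =ᵐ[wm m V] g) : f =ᵐ[m] g :=
  ae_of_ae_wm hV h

/-! ### the energy -/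

namespace Calc

omit [ProperSpace X] [BorelSpace X] [IsLocallyFiniteMeasure m] in
theorem En_add_left (C : Calc m) (hV : BddM V) (hf : IsSobolev m f) (hg : IsSobolev m g)
    (hv : IsSobolev m v) : En m V (fun x => f x + g x) v = En m V f v + En m V g v := by
  unfold En
  rw [← integral_add ((integrable_wm_iff hV _).2 (C.gp_int hf hv))
    ((integrable_wm_iff hV _).2 (C.gp_int hg hv))]
  exact integral_congr_ae (eq_wm_of_eq hV (C.gp_add hf hg hv))

omit [ProperSpace X] [BorelSpace X] [IsLocallyFiniteMeasure m] in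
theorem En_smul_left (C : Calc m) (hV : BddM V) (c : ℝ) (hf : IsSobolev m f)
    (hv : IsSobolev m v) : En m V (fun x => c * f x) v = c * En m V f v := by
  unfold En
  rw [← integral_const_mul]
  exact integral_congr_ae (eq_wm_of_eq hV (C.gp_smul c hf hv))

omit [ProperSpace X] [BorelSpace X] [IsLocallyFiniteMeasure m] in
theorem En_symm (C : Calc m) (hV : BddM V) (hf : IsSobolev m f) (hv : IsSobolev m v) :
    En m V f v = En m V v f :=
  integral_congr_ae (eq_wm_of_eq hV (C.gp_symm hf hv))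

omit [ProperSpace X] [BorelSpace X] [IsLocallyFiniteMeasure m] in
theorem En_self (C : Calc m) (hV : BddM V) (hf : IsSobolev m f) :
    En m V f f = ∫ x, minWeakGrad m f x ^ 2 ∂(wm m V) :=
  integral_congr_ae (eq_wm_of_eq hV (C.gp_self hf))

omit [ProperSpace X] [BorelSpace X] [IsLocallyFiniteMeasure m] in
theorem En_nonneg (C : Calc m) (hV : BddM V) (hf : IsSobolev m f) : 0 ≤ En m V f f := by
  rw [C.En_self hV hf]
  exact integral_nonneg fun x => sq_nonneg _

omit [ProperSpace X] [BorelSpace X] [IsLocallyFiniteMeasure m] in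
theorem En_congr (C : Calc m) (hV : BddM V) {f' g' : X → ℝ} (h1 : f =ᵐ[m] f') (h2 : g =ᵐ[m] g') :
    En m V f g = En m V f' g' :=
  integral_congr_ae (eq_wm_of_eq hV (C.gp_congr h1 h2))

omit [ProperSpace X] [BorelSpace X] [IsLocallyFiniteMeasure m] in
theorem sob_zero (C : Calc m) : IsSobolev m (fun _ => (0 : ℝ)) :=
  C.sob_lip ⟨0, LipschitzWith.const 0⟩ (by
    have : (fun _ : X => (0 : ℝ)) = 0 := rfl
    rw [this]; exact HasCompactSupport.zero)

end Calc

/-! ### the closed form on `L²(e^V m)` -/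

lemma thick_sob (C : Calc m) {s : Set X} (hs : IsCompact s) {δ : ℝ} (hδ : 0 < δ) :
    IsSobolev m (fun x => ((thickenedIndicator hδ s x : ℝ≥0) : ℝ)) := by
  apply C.sob_lip
  · refine ⟨δ.toNNReal⁻¹, ?_⟩
    have h1 := lipschitzWith_thickenedIndicator hδ s
    intro x y
    exact h1 x y
  · apply HasCompactSupport.of_support_subset_isCompact (hs.cthickening (r := δ))
    intro x hx
    by_contra hcon
    apply hx
    have : x ∉ Metric.thickening δ s := fun h' => hcon (Metric.thickening_subset_cthickening _ _ h')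
    simp [thickenedIndicator_zero hδ s this]

lemma dense_aux (C : Calc m) (hV : BddM V) (D : Submodule ℝ (Lp ℝ 2 (wm m V)))
    (hD : ∀ F : Lp ℝ 2 (wm m V), IsSobolev m (F : X → ℝ) → F ∈ D) :
    Dense (D : Set (Lp ℝ 2 (wm m V))) := by
  rw [Submodule.dense_iff_topologicalClosure_eq_top, Submodule.topologicalClosure_eq_top_iff,
    Submodule.eq_bot_iff]
  intro F hF
  rw [Submodule.mem_orthogonal] at hF
  obtain ⟨hm, B, hB⟩ := id hV
  have hFm : MemLp (F : X → ℝ) 2 m := (memLp_wm_iff hV _ _).1 (Lp.memLp F)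
  set G : X → ℝ := fun x => Real.exp (V x) * F x with hG
  have hGm : MemLp G 2 m := by
    refine MemLp.of_le_mul (c := Real.exp B) hFm ?_ (ae_of_all _ fun x => ?_)
    · exact (by fun_prop : Measurable fun x => Real.exp (V x)).aestronglyMeasurable.mul hFm.1
    · simp only [hG, norm_mul]
      rw [Real.norm_eq_abs, abs_of_pos (Real.exp_pos _)]
      exact mul_le_mul_of_nonneg_right (Real.exp_le_exp.mpr (le_of_abs_le (hB x))) (norm_nonneg _)
  have hGloc : LocallyIntegrable G m := hGm.locallyIntegrable (by norm_num)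
  have key : ∀ s : Set X, IsCompact s → ∫ x in s, G x ∂m = 0 := by
    intro s hs
    have hδ : ∀ n : ℕ, (0 : ℝ) < 1 / ((n : ℝ) + 1) := fun n => by positivity
    set φ : ℕ → X → ℝ := fun n x => ((thickenedIndicator (hδ n) s x : ℝ≥0) : ℝ) with hφ
    have h0 : ∀ n, ∫ x, φ n x * G x ∂m = 0 := by
      intro n
      have hφs : IsSobolev m (φ n) := thick_sob C hs (hδ n)
      have hφm : MemLp (φ n) 2 (wm m V) := (memLp_wm_iff hV _ _).2 hφs.1
      have h1 : hφm.toLp (φ n) ∈ D := by
        apply hD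
        exact C.sob_congr hφs (eq_of_eq_wm hV hφm.coeFn_toLp.symm)
      have h2 := hF _ h1
      rw [L2.inner_def] at h2
      have h3 : ∫ x, inner ℝ ((hφm.toLp (φ n) : Lp ℝ 2 (wm m V)) x) (F x) ∂(wm m V) =
          ∫ x, φ n x * F x ∂(wm m V) := by
        refine integral_congr_ae (hφm.coeFn_toLp.mono fun x hx => ?_)
        simp only [hx]
        simp [mul_comm]
      rw [h3, integral_wm hV] at h2
      rw [← h2]
      refine integral_congr_ae (ae_of_all _ fun x => ?_)
      simp only [hG]; ring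
    have hlim : Tendsto (fun n => ∫ x, φ n x * G x ∂m) atTop
        (𝓝 (∫ x, s.indicator G x ∂m)) := by
      have hK : IsCompact (Metric.cthickening 1 s) := hs.cthickening
      apply tendsto_integral_of_dominated_convergence
        (fun x => (Metric.cthickening 1 s).indicator (fun x => ‖G x‖) x)
      · intro n
        apply AEStronglyMeasurable.mul _ hGm.1
        exact (thick_sob C hs (hδ n)).1.1
      · exact (integrable_indicator_iff hK.isClosed.measurableSet).2
          (hGloc.integrableOn_isCompact hK).norm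
      · intro n
        refine ae_of_all _ fun x => ?_
        have hle1 : ((thickenedIndicator (hδ n) s x : ℝ≥0) : ℝ) ≤ 1 := by
          exact_mod_cast thickenedIndicator_le_one (hδ n) s x
        by_cases hx : x ∈ Metric.cthickening 1 s
        · rw [Set.indicator_of_mem hx, norm_mul]
          have : ‖φ n x‖ ≤ 1 := by
            simp only [hφ]
            rw [Real.norm_eq_abs, abs_of_nonneg (NNReal.coe_nonneg _)]
            exact hle1
          calc ‖φ n x‖ * ‖G x‖ ≤ 1 * ‖G x‖ := mul_le_mul_of_nonneg_right this (norm_nonneg _)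
            _ = ‖G x‖ := one_mul _
        · rw [Set.indicator_of_notMem hx]
          have hx2 : x ∉ Metric.thickening (1 / ((n : ℝ) + 1)) s := by
            intro h'
            apply hx
            apply Metric.thickening_subset_cthickening
            apply Metric.thickening_mono _ _ h'
            rw [div_le_one (by positivity)]
            have : (0 : ℝ) ≤ n := Nat.cast_nonneg n
            linarith
          have : φ n x = 0 := by
            simp only [hφ]
            rw [thickenedIndicator_zero (hδ n) s hx2]; rfl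
          rw [this]; simp
      · refine ae_of_all _ fun x => ?_
        have h1 := thickenedIndicator_tendsto_indicator_closure hδ
          tendsto_one_div_add_atTop_nhds_zero_nat s
        have h2 := (tendsto_pi_nhds.1 h1) x
        rw [hs.isClosed.closure_eq] at h2
        have h3 : Tendsto (fun n => φ n x) atTop (𝓝 ((s.indicator (fun _ => (1 : ℝ≥0)) x : ℝ≥0) : ℝ)) :=
          (NNReal.tendsto_coe.2 h2)
        have h4 := h3.mul_const (G x)
        have h5 : ((s.indicator (fun _ => (1 : ℝ≥0)) x : ℝ≥0) : ℝ) * G x = s.indicator G x := by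
          by_cases hx : x ∈ s
          · simp [Set.indicator_of_mem hx]
          · simp [Set.indicator_of_notMem hx]
        rw [h5] at h4
        exact h4
    rw [integral_indicator hs.isClosed.measurableSet] at hlim
    have h1 : (fun n => ∫ x, φ n x * G x ∂m) = fun _ => (0 : ℝ) := by funext n; exact h0 n
    rw [h1] at hlim
    exact (tendsto_nhds_unique hlim tendsto_const_nhds)
  have hG0 : G =ᵐ[m] 0 := ae_eq_zero_of_forall_setIntegral_isCompact_eq_zero' hGloc key
  have hF0 : (F : X → ℝ) =ᵐ[wm m V] 0 := by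
    refine eq_wm_of_eq hV (hG0.mono fun x hx => ?_)
    simp only [hG, Pi.zero_apply] at hx ⊢
    rcases mul_eq_zero.1 hx with h' | h'
    · exact absurd h' (Real.exp_pos _).ne'
    · exact h'
  exact (Lp.eq_zero_iff_ae_eq_zero).2 hF0

/-- the closed form of the Dirichlet energy on `L²(e^V m)`. -/
def form (C : Calc m) (hV : BddM V) : CForm (Lp ℝ 2 (wm m V)) where
  dom :=
    { carrier := {F | IsSobolev m (F : X → ℝ)}
      zero_mem' := by
        have h0 : IsSobolev m (fun _ : X => (0 : ℝ)) :=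
          C.sob_lip ⟨0, LipschitzWith.const 0⟩ (by
            have : (fun _ : X => (0 : ℝ)) = 0 := rfl
            rw [this]; exact HasCompactSupport.zero)
        refine C.sob_congr h0 (eq_of_eq_wm hV ?_)
        exact (Lp.coeFn_zero ℝ 2 (wm m V)).symm
      add_mem' := by
        intro F G hF hG
        exact C.sob_congr (C.sob_add hF hG) (eq_of_eq_wm hV (Lp.coeFn_add F G).symm)
      smul_mem' := by
        intro c F hF
        exact C.sob_congr (C.sob_smul c hF) (eq_of_eq_wm hV (Lp.coeFn_smul c F).symm) }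
  E F G := En m V F G
  add_left' := by
    intro F G W hF hG hW
    have h1 := C.En_congr hV (f := ((F + G : Lp ℝ 2 (wm m V)) : X → ℝ))
      (f' := fun x => F x + G x) (g := W) (g' := W)
      (eq_of_eq_wm hV (Lp.coeFn_add F G)) (Filter.EventuallyEq.refl _ _)
    rw [h1]
    exact C.En_add_left hV hF hG hW
  smul_left' := by
    intro c F G hF hG
    have h1 := C.En_congr hV (f := ((c • F : Lp ℝ 2 (wm m V)) : X → ℝ))
      (f' := fun x => c * F x) (g := G) (g' := G)
      (eq_of_eq_wm hV (Lp.coeFn_smul c F)) (Filter.EventuallyEq.refl _ _)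
    rw [h1]
    exact C.En_smul_left hV c hF hG
  symm' := by
    intro F G hF hG
    exact C.En_symm hV hF hG
  nonneg' := by
    intro F hF
    exact C.En_nonneg hV hF
  closed' := by
    intro U F c hU hE hlim
    obtain ⟨hm, B, hB⟩ := id hV
    have hFm : MemLp (F : X → ℝ) 2 m := (memLp_wm_iff hV _ _).1 (Lp.memLp F)
    have hint : ∀ n, Integrable (fun x => minWeakGrad m (U n) x ^ 2) m := fun n =>
      (C.gp_int (hU n) (hU n)).congr (C.gp_self (hU n))
    have hlim' : Tendsto (fun n => eLpNorm (fun x => (U n : X → ℝ) x - (F : X → ℝ) x) 2 m)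
        atTop (𝓝 0) := by
      have h1 := (Lp.tendsto_Lp_iff_tendsto_eLpNorm' U F).1 hlim
      have h2 : ∀ n, eLpNorm (fun x => (U n : X → ℝ) x - (F : X → ℝ) x) 2 m ≤
          (ENNReal.ofReal (Real.exp B)) ^ (1 / (2 : ℝ≥0∞)).toReal *
            eLpNorm ((U n : X → ℝ) - (F : X → ℝ)) 2 (wm m V) := by
        intro n
        have h3 := eLpNorm_mono_measure (p := 2) (fun x => (U n : X → ℝ) x - (F : X → ℝ) x)
          (le_wm (m := m) hm hB)
        rw [eLpNorm_smul_measure_of_ne_top (by norm_num)] at h3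
        exact h3
      refine tendsto_of_tendsto_of_tendsto_of_le_of_le tendsto_const_nhds ?_
        (fun n => zero_le) h2
      have h4 := ENNReal.Tendsto.const_mul (a := (ENNReal.ofReal (Real.exp B)) ^ (1 / (2 : ℝ≥0∞)).toReal)
        h1 (Or.inr (ENNReal.rpow_ne_top_of_nonneg (by positivity) ENNReal.ofReal_ne_top))
      simpa using h4
    have hEn : ∀ n, ∫ x, Real.exp (V x) * minWeakGrad m (U n) x ^ 2 ∂m ≤ c := by
      intro n
      have := hE n
      rw [C.En_self hV (hU n), integral_wm hV] at this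
      exact this
    have hres := C.closed (fun n => (U n : X → ℝ)) F (fun x => Real.exp (V x))
      (Real.exp B * c) c hU hFm hlim' (fun n => ?_) (by fun_prop) (fun x => (Real.exp_pos _).le)
      ⟨Real.exp B, fun x => Real.exp_le_exp.mpr (le_of_abs_le (hB x))⟩ hEn
    · refine ⟨hres.1, ?_⟩
      rw [C.En_self hV hres.1, integral_wm hV]
      exact hres.2
    · -- unweighted bound
      refine le_trans ?_ (mul_le_mul_of_nonneg_left (hEn n) (Real.exp_pos B).le)
      rw [← integral_const_mul]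
      refine integral_mono (hint n) ?_ fun x => ?_
      · exact (integrable_exp_mul hV (hint n)).const_mul _
      · simp only
        rw [← mul_assoc, ← Real.exp_add]
        have h5 : 1 ≤ Real.exp (B + V x) := Real.one_le_exp (by
          have := neg_le_of_abs_le (hB x); linarith)
        nlinarith [sq_nonneg (minWeakGrad m (U n) x)]
  dense' := dense_aux C hV _ fun _ h => h

/-! ### functions as elements of `L²(e^V m)` -/

/-- a function as an element of `L²(e^V m)`. -/
def toF (hV : BddM V) (hf : MemLp f 2 m) : Lp ℝ 2 (wm m V) := ((memLp_wm_iff hV f 2).2 hf).toLp f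

lemma coe_toF (hV : BddM V) (hf : MemLp f 2 m) : (toF hV hf : X → ℝ) =ᵐ[m] f :=
  eq_of_eq_wm hV (MemLp.coeFn_toLp _)

lemma toF_eq_iff (hV : BddM V) (hf : MemLp f 2 m) (hg : MemLp g 2 m) :
    toF hV hf = toF hV hg ↔ f =ᵐ[m] g := by
  unfold toF
  rw [MemLp.toLp_eq_toLp_iff]
  exact ⟨eq_of_eq_wm hV, eq_wm_of_eq hV⟩


lemma toF_coe (hV : BddM V) (F : Lp ℝ 2 (wm m V)) (hF : MemLp (F : X → ℝ) 2 m) :
    toF hV hF = F := by
  unfold toF
  exact Lp.toLp_coeFn F _

lemma toF_add (hV : BddM V) (hf : MemLp f 2 m) (hg : MemLp g 2 m)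
    (hfg : MemLp (fun x => f x + g x) 2 m) : toF hV hfg = toF hV hf + toF hV hg := by
  unfold toF
  rw [← MemLp.toLp_add]; rfl

lemma toF_sub (hV : BddM V) (hf : MemLp f 2 m) (hg : MemLp g 2 m)
    (hfg : MemLp (fun x => f x - g x) 2 m) : toF hV hfg = toF hV hf - toF hV hg := by
  unfold toF
  rw [← MemLp.toLp_sub]; rfl

lemma toF_smul (hV : BddM V) (c : ℝ) (hf : MemLp f 2 m)
    (hfg : MemLp (fun x => c * f x) 2 m) : toF hV hfg = c • toF hV hf := by
  unfold toF
  rw [← MemLp.toLp_const_smul]; rfl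

lemma inner_toF (hV : BddM V) (hf : MemLp f 2 m) (hg : MemLp g 2 m) :
    (inner ℝ (toF hV hf) (toF hV hg) : ℝ) = ∫ x, f x * g x ∂(wm m V) := by
  rw [L2.inner_def]
  refine integral_congr_ae ?_
  filter_upwards [eq_wm_of_eq hV (coe_toF hV hf), eq_wm_of_eq hV (coe_toF hV hg)] with x hx hy
  rw [hx, hy]
  simp [mul_comm]


lemma norm_toF_sq (hV : BddM V) (hf : MemLp f 2 m) :
    ‖toF hV hf‖ ^ 2 = ∫ x, f x ^ 2 ∂(wm m V) := by
  rw [← real_inner_self_eq_norm_sq, inner_toF]
  simp only [sq]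

lemma form_mem_iff (C : Calc m) (hV : BddM V) (F : Lp ℝ 2 (wm m V)) :
    F ∈ (form C hV).dom ↔ IsSobolev m (F : X → ℝ) := Iff.rfl

lemma toF_mem_iff (C : Calc m) (hV : BddM V) (hf : MemLp f 2 m) :
    toF hV hf ∈ (form C hV).dom ↔ IsSobolev m f := by
  rw [form_mem_iff]
  exact ⟨fun h => C.sob_congr h (coe_toF hV hf), fun h => C.sob_congr h (coe_toF hV hf).symm⟩

lemma form_E (C : Calc m) (hV : BddM V) (F G : Lp ℝ 2 (wm m V)) :
    (form C hV).E F G = En m V F G := rfl

lemma E_toF (C : Calc m) (hV : BddM V) (hf : MemLp f 2 m) (hg : MemLp g 2 m) :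
    (form C hV).E (toF hV hf) (toF hV hg) = En m V f g := by
  rw [form_E]
  exact C.En_congr hV (coe_toF hV hf) (coe_toF hV hg)

lemma memLp_coe (hV : BddM V) (F : Lp ℝ 2 (wm m V)) : MemLp (F : X → ℝ) 2 m :=
  (memLp_wm_iff hV _ _).1 (Lp.memLp F)

lemma isRes_iff (C : Calc m) (hV : BddM V) (hh : 0 < h) (hf : MemLp f 2 m) (hu : MemLp u 2 m) :
    IsRes m V h f u ↔ toF hV hu = (form C hV).res h (toF hV hf) := by
  constructor
  · intro hr
    refine (form C hV).eq_res hh ((toF_mem_iff C hV hu).2 hr.1) fun v hv => ?_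
    have h1 := hr.2 v hv
    have hvm := memLp_coe hV v
    have h2 : toF hV hvm = v := toF_coe hV v hvm
    rw [← h2, E_toF, inner_toF, inner_toF]
    exact h1
  · intro hr
    have hmem : IsSobolev m u := by
      rw [← toF_mem_iff C hV hu, hr]
      exact (form C hV).res_mem hh _
    refine ⟨hmem, fun v hv => ?_⟩
    have h1 := (form C hV).res_eq hh (toF hV hf) ((toF_mem_iff C hV hv.1).2 hv)
    rw [← hr, E_toF, inner_toF, inner_toF] at h1
    exact h1

namespace Calc

/-! ### R1: existence, uniqueness, algebra of the resolvent -/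


/-- the weak equation: `J_h f ∈ W^{1,2}` and `h E(J_h f, v) + ∫ J_h f v = ∫ f v`. -/
theorem Jr_isRes (C : Calc m) (hV : BddM V) (hh : 0 < h) (hf : MemLp f 2 m) :
    IsRes m V h f (Jr m V h f) := by
  have hex : ∃ u : X → ℝ, IsRes m V h f u := by
    have hm := memLp_coe hV ((form C hV).res h (toF hV hf))
    refine ⟨((form C hV).res h (toF hV hf) : Lp ℝ 2 (wm m V)), ?_⟩
    rw [isRes_iff C hV hh hf hm]
    exact toF_coe hV _ hm
  unfold Jr
  rw [dif_pos hex]
  exact Classical.choose_spec hex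

theorem Jr_sob (C : Calc m) (hV : BddM V) (hh : 0 < h) (hf : MemLp f 2 m) :
    IsSobolev m (Jr m V h f) := (C.Jr_isRes hV hh hf).1

theorem Jr_memLp (C : Calc m) (hV : BddM V) (hh : 0 < h) (hf : MemLp f 2 m) :
    MemLp (Jr m V h f) 2 m := (C.Jr_sob hV hh hf).1

theorem toF_Jr (C : Calc m) (hV : BddM V) (hh : 0 < h) (hf : MemLp f 2 m) :
    toF hV (C.Jr_memLp hV hh hf) = (form C hV).res h (toF hV hf) :=
  (isRes_iff C hV hh hf _).1 (C.Jr_isRes hV hh hf)

theorem isRes_unique (C : Calc m) (hV : BddM V) (hh : 0 < h) (hf : MemLp f 2 m)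
    (h1 : IsRes m V h f u) (h2 : IsRes m V h f v) : u =ᵐ[m] v := by
  rw [← toF_eq_iff hV h1.1.1 h2.1.1, (isRes_iff C hV hh hf h1.1.1).1 h1,
    (isRes_iff C hV hh hf h2.1.1).1 h2]

theorem isRes_eq_Jr (C : Calc m) (hV : BddM V) (hh : 0 < h) (hf : MemLp f 2 m)
    (h1 : IsRes m V h f u) : u =ᵐ[m] Jr m V h f :=
  C.isRes_unique hV hh hf h1 (C.Jr_isRes hV hh hf)

theorem Jr_eq (C : Calc m) (hV : BddM V) (hh : 0 < h) (hf : MemLp f 2 m) (hv : IsSobolev m v) :
    h * En m V (Jr m V h f) v + ∫ x, Jr m V h f x * v x ∂(wm m V) = ∫ x, f x * v x ∂(wm m V) :=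
  (C.Jr_isRes hV hh hf).2 v hv

/-- transfer of an identity between resolvents. -/
lemma Jr_ae_of (C : Calc m) (hV : BddM V) (hh : 0 < h) (hf : MemLp f 2 m) (hg : MemLp g 2 m)
    (he : (form C hV).res h (toF hV hf) = toF hV hg) : Jr m V h f =ᵐ[m] g := by
  rw [← toF_eq_iff hV (C.Jr_memLp hV hh hf) hg, C.toF_Jr hV hh hf, he]

theorem Jr_add (C : Calc m) (hV : BddM V) (hh : 0 < h) (hf : MemLp f 2 m) (hg : MemLp g 2 m) :
    Jr m V h (fun x => f x + g x) =ᵐ[m] fun x => Jr m V h f x + Jr m V h g x := by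
  refine C.Jr_ae_of hV hh (hf.add hg) ((C.Jr_memLp hV hh hf).add (C.Jr_memLp hV hh hg)) ?_
  have h1 := toF_add hV hf hg (hf.add hg)
  have h2 := toF_add hV (C.Jr_memLp hV hh hf) (C.Jr_memLp hV hh hg)
    ((C.Jr_memLp hV hh hf).add (C.Jr_memLp hV hh hg))
  rw [h2, C.toF_Jr hV hh hf, C.toF_Jr hV hh hg, ← map_add, ← h1]

theorem Jr_sub (C : Calc m) (hV : BddM V) (hh : 0 < h) (hf : MemLp f 2 m) (hg : MemLp g 2 m) :
    Jr m V h (fun x => f x - g x) =ᵐ[m] fun x => Jr m V h f x - Jr m V h g x := by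
  refine C.Jr_ae_of hV hh (hf.sub hg) ((C.Jr_memLp hV hh hf).sub (C.Jr_memLp hV hh hg)) ?_
  have h1 := toF_sub hV hf hg (hf.sub hg)
  have h2 := toF_sub hV (C.Jr_memLp hV hh hf) (C.Jr_memLp hV hh hg)
    ((C.Jr_memLp hV hh hf).sub (C.Jr_memLp hV hh hg))
  rw [h2, C.toF_Jr hV hh hf, C.toF_Jr hV hh hg, ← map_sub, ← h1]

theorem Jr_smul (C : Calc m) (hV : BddM V) (hh : 0 < h) (c : ℝ) (hf : MemLp f 2 m) :
    Jr m V h (fun x => c * f x) =ᵐ[m] fun x => c * Jr m V h f x := by
  refine C.Jr_ae_of hV hh (hf.const_mul c) ((C.Jr_memLp hV hh hf).const_mul c) ?_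
  have h1 := toF_smul hV c hf (hf.const_mul c)
  have h2 := toF_smul hV c (C.Jr_memLp hV hh hf) ((C.Jr_memLp hV hh hf).const_mul c)
  rw [h2, C.toF_Jr hV hh hf, ← map_smul, ← h1]

theorem Jr_symm (C : Calc m) (hV : BddM V) (hh : 0 < h) (hf : MemLp f 2 m) (hg : MemLp g 2 m) :
    ∫ x, Jr m V h f x * g x ∂(wm m V) = ∫ x, f x * Jr m V h g x ∂(wm m V) := by
  rw [← inner_toF hV (C.Jr_memLp hV hh hf) hg, ← inner_toF hV hf (C.Jr_memLp hV hh hg),
    C.toF_Jr hV hh hf, C.toF_Jr hV hh hg]
  exact (form C hV).res_symm h _ _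


/-- resolvent identity. -/
theorem Jr_resolvent {h' : ℝ} (C : Calc m) (hV : BddM V) (hh : 0 < h) (hh' : 0 < h')
    (hf : MemLp f 2 m) :
    Jr m V h f =ᵐ[m] Jr m V h' (fun x => h' / h * f x + (1 - h' / h) * Jr m V h f x) := by
  have hm1 : MemLp (fun x => h' / h * f x) 2 m := hf.const_mul _
  have hm2 : MemLp (fun x => (1 - h' / h) * Jr m V h f x) 2 m := (C.Jr_memLp hV hh hf).const_mul _
  have hm : MemLp (fun x => h' / h * f x + (1 - h' / h) * Jr m V h f x) 2 m := hm1.add hm2
  refine (C.Jr_ae_of hV hh' hm (C.Jr_memLp hV hh hf) ?_).symm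
  rw [toF_add hV hm1 hm2 hm, toF_smul hV _ hf, toF_smul hV _ (C.Jr_memLp hV hh hf),
    C.toF_Jr hV hh hf]
  exact ((form C hV).res_res hh' hh _).symm

/-! ### R2: estimates -/

theorem Jr_l2 (C : Calc m) (hV : BddM V) (hh : 0 < h) (hf : MemLp f 2 m) :
    ∫ x, Jr m V h f x ^ 2 ∂(wm m V) ≤ ∫ x, f x ^ 2 ∂(wm m V) := by
  rw [← norm_toF_sq hV hf, ← norm_toF_sq hV (C.Jr_memLp hV hh hf), C.toF_Jr hV hh hf]
  exact pow_le_pow_left₀ (norm_nonneg _) ((form C hV).norm_res_le _) 2

theorem Jr_energy_l2 (C : Calc m) (hV : BddM V) (hh : 0 < h) (hf : MemLp f 2 m) :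
    2 * h * En m V (Jr m V h f) (Jr m V h f) ≤
      ∫ x, f x ^ 2 ∂(wm m V) - ∫ x, Jr m V h f x ^ 2 ∂(wm m V) := by
  have hj := C.Jr_memLp hV hh hf
  rw [← norm_toF_sq hV hf, ← norm_toF_sq hV hj, ← E_toF C hV hj hj, C.toF_Jr hV hh hf]
  exact (form C hV).two_mul_E_res_le hh _

theorem Jr_energy_le (C : Calc m) (hV : BddM V) (hh : 0 < h) (hf : IsSobolev m f) :
    En m V (Jr m V h f) (Jr m V h f) ≤ En m V f f := by
  have hj := C.Jr_memLp hV hh hf.1
  rw [← E_toF C hV hj hj, ← E_toF C hV hf.1 hf.1, C.toF_Jr hV hh hf.1]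
  exact (form C hV).E_res_le hh ((toF_mem_iff C hV hf.1).2 hf)



theorem Jr_tendsto_l2 (C : Calc m) (hV : BddM V) (hf : MemLp f 2 m) :
    Tendsto (fun h => ∫ x, (Jr m V h f x - f x) ^ 2 ∂m) (𝓝[>] 0) (𝓝 0) := by
  obtain ⟨hm, B, hB⟩ := id hV
  have h1 : Tendsto (fun h => Real.exp B * ‖(form C hV).res h (toF hV hf) - toF hV hf‖ ^ 2)
      (𝓝[>] 0) (𝓝 0) := by
    have h2 := (form C hV).res_tendsto (toF hV hf)
    have h3 := ((tendsto_iff_norm_sub_tendsto_zero.1 h2).pow 2).const_mul (Real.exp B)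
    simpa using h3
  have h4 : ∀ᶠ h in 𝓝[>] (0 : ℝ), 0 < h := self_mem_nhdsWithin
  refine tendsto_of_tendsto_of_tendsto_of_le_of_le' tendsto_const_nhds h1 ?_ ?_
  · exact Eventually.of_forall fun h => integral_nonneg fun x => sq_nonneg _
  · filter_upwards [h4] with h hh
    have hj := C.Jr_memLp hV hh hf
    have hs : MemLp (fun x => Jr m V h f x - f x) 2 m := hj.sub hf
    rw [← C.toF_Jr hV hh hf, ← toF_sub hV hj hf hs, norm_toF_sq, integral_wm hV,
      ← integral_const_mul]
    have hint : Integrable (fun x => (Jr m V h f x - f x) ^ 2) m := hs.integrable_sq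
    refine integral_mono hint ((integrable_exp_mul hV hint).const_mul _) fun x => ?_
    simp only
    rw [← mul_assoc, ← Real.exp_add]
    have h5 : 1 ≤ Real.exp (B + V x) := Real.one_le_exp (by
      have := neg_le_of_abs_le (hB x); linarith)
    nlinarith [sq_nonneg (Jr m V h f x - f x)]

theorem Jr_tendsto_sob (C : Calc m) (hV : BddM V) (hf : IsSobolev m f) :
    Tendsto (fun h => ∫ x, minWeakGrad m (fun x => Jr m V h f x - f x) x ^ 2 ∂m) (𝓝[>] 0) (𝓝 0) := by
  obtain ⟨hm, B, hB⟩ := id hV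
  have hF : toF hV hf.1 ∈ (form C hV).dom := (toF_mem_iff C hV hf.1).2 hf
  have h1 : Tendsto (fun h => Real.exp B * (form C hV).E (toF hV hf.1 - (form C hV).res h (toF hV hf.1))
      (toF hV hf.1 - (form C hV).res h (toF hV hf.1))) (𝓝[>] 0) (𝓝 0) := by
    have h2 := (form C hV).E_sub_res_tendsto hF
    have h3 := h2.const_mul (Real.exp B)
    simpa using h3
  have h4 : ∀ᶠ h in 𝓝[>] (0 : ℝ), 0 < h := self_mem_nhdsWithin
  refine tendsto_of_tendsto_of_tendsto_of_le_of_le' tendsto_const_nhds h1 ?_ ?_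
  · exact Eventually.of_forall fun h => integral_nonneg fun x => sq_nonneg _
  · filter_upwards [h4] with h hh
    have hj := C.Jr_memLp hV hh hf.1
    have hs : MemLp (fun x => Jr m V h f x - f x) 2 m := hj.sub hf.1
    have hsob : IsSobolev m (fun x => Jr m V h f x - f x) := by
      have := C.sob_add (C.Jr_sob hV hh hf.1) (C.sob_smul (-1) hf)
      exact C.sob_congr this (ae_of_all _ fun x => by ring)
    have hR : (form C hV).res h (toF hV hf.1) ∈ (form C hV).dom := (form C hV).res_mem hh _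
    have e1 : (form C hV).E (toF hV hf.1 - (form C hV).res h (toF hV hf.1))
      (toF hV hf.1 - (form C hV).res h (toF hV hf.1)) =
      (form C hV).E ((form C hV).res h (toF hV hf.1) - toF hV hf.1)
      ((form C hV).res h (toF hV hf.1) - toF hV hf.1) := by
      rw [(form C hV).expand_sub hF hR, (form C hV).expand_sub hR hF, (form C hV).symm hF hR]
      ring
    rw [e1, ← C.toF_Jr hV hh hf.1, ← toF_sub hV hj hf.1 hs, E_toF, C.En_self hV hsob,
      integral_wm hV, ← integral_const_mul]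
    have hint : Integrable (fun x => minWeakGrad m (fun x => Jr m V h f x - f x) x ^ 2) m :=
      (C.gp_int hsob hsob).congr (C.gp_self hsob)
    refine integral_mono hint ((integrable_exp_mul hV hint).const_mul _) fun x => ?_
    simp only
    rw [← mul_assoc, ← Real.exp_add]
    have h5 : 1 ≤ Real.exp (B + V x) := Real.one_le_exp (by
      have := neg_le_of_abs_le (hB x); linarith)
    nlinarith [sq_nonneg (minWeakGrad m (fun x => Jr m V h f x - f x) x)]

/-! ### Markov property -/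

theorem Jr_le_const (C : Calc m) (hV : BddM V) (hh : 0 < h) (hf : MemLp f 2 m) {c : ℝ}
    (hc : 0 ≤ c) (h0 : ∀ᵐ x ∂m, f x ≤ c) : ∀ᵐ x ∂m, Jr m V h f x ≤ c := by
  have hu := C.Jr_sob hV hh hf
  set u := Jr m V h f with hudef
  have hv := C.sob_pos c hc hu
  set v : X → ℝ := fun x => max (u x - c) 0 with hvdef
  have h1 := C.Jr_eq hV hh hf hv
  have h2 : En m V u v = En m V v v := integral_congr_ae (eq_wm_of_eq hV (C.gp_pos c hc hu))
  rw [← hudef, h2] at h1
  have h3 := C.En_nonneg hV hv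
  have hiu : Integrable (fun x => u x * v x) (wm m V) :=
    (integrable_wm_iff hV _).2 (MemLp.integrable_mul hu.1 hv.1)
  have hif : Integrable (fun x => f x * v x) (wm m V) :=
    (integrable_wm_iff hV _).2 (MemLp.integrable_mul hf hv.1)
  have hiv : Integrable (fun x => v x * v x) (wm m V) :=
    (integrable_wm_iff hV _).2 (MemLp.integrable_mul hv.1 hv.1)
  have h4 : ∫ x, v x * v x ∂(wm m V) ≤ ∫ x, u x * v x ∂(wm m V) - ∫ x, f x * v x ∂(wm m V) := by
    rw [← integral_sub hiu hif]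
    refine integral_mono_ae hiv (hiu.sub hif) ?_
    filter_upwards [ae_wm_of_ae hV h0] with x hx
    simp only [hvdef]
    rcases le_or_gt (u x - c) 0 with h5 | h5
    · rw [max_eq_right h5]; simp
    · rw [max_eq_left h5.le]
      nlinarith
  have h5 : ∫ x, v x * v x ∂(wm m V) ≤ 0 := by
    have := mul_nonneg hh.le h3
    linarith
  have h6 : ∫ x, v x * v x ∂(wm m V) = 0 :=
    le_antisymm h5 (integral_nonneg fun x => mul_self_nonneg _)
  have h7 := (integral_eq_zero_iff_of_nonneg (fun x => mul_self_nonneg (v x)) hiv).1 h6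
  have h8 := ae_of_ae_wm hV h7
  filter_upwards [h8] with x hx
  simp only [Pi.zero_apply, mul_self_eq_zero, hvdef] at hx
  have := le_max_left (u x - c) 0
  linarith

theorem Jr_neg (C : Calc m) (hV : BddM V) (hh : 0 < h) (hf : MemLp f 2 m) :
    Jr m V h (fun x => - f x) =ᵐ[m] fun x => - Jr m V h f x := by
  have h1 := C.Jr_smul hV hh (-1) hf
  have h2 : (fun x => - f x) = fun x => (-1 : ℝ) * f x := by funext x; ring
  rw [h2]
  filter_upwards [h1] with x hx
  rw [hx]; ring

theorem Jr_nonneg (C : Calc m) (hV : BddM V) (hh : 0 < h) (hf : MemLp f 2 m) (h0 : 0 ≤ᵐ[m] f) :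
    0 ≤ᵐ[m] Jr m V h f := by
  have h1 := C.Jr_le_const hV hh hf.neg le_rfl (h0.mono fun x hx => by
    simp only [Pi.zero_apply, Pi.neg_apply] at hx ⊢; linarith)
  filter_upwards [h1, C.Jr_neg hV hh hf] with x hx hy
  have hz : Jr m V h (-f) x = - Jr m V h f x := hy
  rw [hz] at hx
  simp only [Pi.zero_apply]; linarith

theorem Jr_mono (C : Calc m) (hV : BddM V) (hh : 0 < h) (hf : MemLp f 2 m) (hg : MemLp g 2 m)
    (hfg : f ≤ᵐ[m] g) : Jr m V h f ≤ᵐ[m] Jr m V h g := by
  have h1 := C.Jr_nonneg hV hh (hg.sub hf) (hfg.mono fun x hx => by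
    simp only [Pi.zero_apply, Pi.sub_apply]; linarith)
  filter_upwards [h1, C.Jr_sub hV hh hg hf] with x hx hy
  have hz : Jr m V h (g - f) x = Jr m V h g x - Jr m V h f x := hy
  simp only [Pi.zero_apply] at hx
  rw [hz] at hx
  linarith

theorem Jr_abs_le_const (C : Calc m) (hV : BddM V) (hh : 0 < h) (hf : MemLp f 2 m) {c : ℝ}
    (h0 : ∀ᵐ x ∂m, |f x| ≤ c) : ∀ᵐ x ∂m, |Jr m V h f x| ≤ c := by
  by_cases hc : 0 ≤ c
  · have h1 := C.Jr_le_const hV hh hf hc (h0.mono fun x hx => le_of_abs_le hx)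
    have h2 := C.Jr_le_const hV hh hf.neg hc (h0.mono fun x hx => by
      simp only [Pi.neg_apply]; linarith [neg_le_of_abs_le hx])
    filter_upwards [h1, h2, C.Jr_neg hV hh hf] with x hx hy hz
    have hz' : Jr m V h (-f) x = - Jr m V h f x := hz
    rw [hz'] at hy
    exact abs_le.2 ⟨by linarith, hx⟩
  · filter_upwards [h0] with x hx
    exact absurd (le_trans (abs_nonneg _) hx) hc

theorem abs_Jr_le (C : Calc m) (hV : BddM V) (hh : 0 < h) (hf : MemLp f 2 m) :
    ∀ᵐ x ∂m, |Jr m V h f x| ≤ Jr m V h (fun x => |f x|) x := by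
  have habs : MemLp (fun x => |f x|) 2 m := hf.abs
  have h1 := C.Jr_mono hV hh hf habs (ae_of_all _ fun x => le_abs_self _)
  have h2 := C.Jr_mono hV hh hf.neg habs (ae_of_all _ fun x => neg_le_abs _)
  filter_upwards [h1, h2, C.Jr_neg hV hh hf] with x hx hy hz
  have hz' : Jr m V h (-f) x = - Jr m V h f x := hz
  rw [hz'] at hy
  exact abs_le.2 ⟨by linarith, hx⟩



theorem Jr_l1 (C : Calc m) (hV : BddM V) (hh : 0 < h) (hf : MemLp f 2 m) (hf1 : Integrable f m) :
    Integrable (Jr m V h f) m ∧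
      ∫ x, |Jr m V h f x| ∂(wm m V) ≤ ∫ x, |f x| ∂(wm m V) := by
  have habs : MemLp (fun x => |f x|) 2 m := hf.abs
  have hw0 := C.Jr_nonneg hV hh habs (ae_of_all _ fun x => abs_nonneg _)
  have hwm := C.Jr_memLp hV hh habs
  set w := Jr m V h (fun x => |f x|) with hw
  have hf1' : Integrable (fun x => |f x|) (wm m V) := (integrable_wm_iff hV _).2 hf1.abs
  -- bound on balls
  have hball : ∀ (o : X) (R : ℝ), ∫ x in Metric.ball o R, w x ∂(wm m V) ≤ ∫ x, |f x| ∂(wm m V) := by
    intro o R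
    have hfin : m (Metric.ball o R) ≠ ⊤ := measure_ball_lt_top.ne
    have h1m : MemLp ((Metric.ball o R).indicator (fun _ => (1 : ℝ))) 2 m :=
      memLp_indicator_const 2 Metric.isOpen_ball.measurableSet 1 (Or.inr hfin)
    have e1 : ∫ x in Metric.ball o R, w x ∂(wm m V) =
        ∫ x, w x * (Metric.ball o R).indicator (fun _ => (1 : ℝ)) x ∂(wm m V) := by
      rw [← integral_indicator Metric.isOpen_ball.measurableSet]
      refine integral_congr_ae (ae_of_all _ fun x => ?_)
      by_cases hx : x ∈ Metric.ball o R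
      · simp [Set.indicator_of_mem hx]
      · simp [Set.indicator_of_notMem hx]
    rw [e1, C.Jr_symm hV hh habs h1m]
    have h2 := C.Jr_le_const hV hh h1m (c := 1) zero_le_one (ae_of_all _ fun x => by
      by_cases hx : x ∈ Metric.ball o R
      · simp [Set.indicator_of_mem hx]
      · simp [Set.indicator_of_notMem hx])
    refine integral_mono_ae ?_ hf1' ?_
    · exact (integrable_wm_iff hV _).2 (MemLp.integrable_mul habs (C.Jr_memLp hV hh h1m))
    · filter_upwards [ae_wm_of_ae hV h2] with x hx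
      nlinarith [abs_nonneg (f x)]
  have hwi : Integrable w (wm m V) ∧ ∫ x, w x ∂(wm m V) ≤ ∫ x, |f x| ∂(wm m V) := by
    rcases isEmpty_or_nonempty X with hX | ⟨⟨o⟩⟩
    · have h0 : wm m V = 0 := Measure.eq_zero_of_isEmpty _
      rw [h0]; simp
    · have hcov : AECover (wm m V) atTop (fun n : ℕ => Metric.ball o (n : ℝ)) :=
        aecover_ball tendsto_natCast_atTop_atTop
      have hwloc : ∀ n : ℕ, IntegrableOn w (Metric.ball o (n : ℝ)) (wm m V) := by
        intro n
        have h1 : MemLp w 2 (wm m V) := (memLp_wm_iff hV _ _).2 hwm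
        have hfin : wm m V (Metric.ball o (n : ℝ)) ≠ ⊤ := by
          obtain ⟨hm', B, hB⟩ := id hV
          have h2 := (wm_le (m := m) hB) (Metric.ball o (n : ℝ))
          refine ne_top_of_le_ne_top ?_ h2
          simp only [Measure.smul_apply, smul_eq_mul]
          exact ENNReal.mul_ne_top ENNReal.ofReal_ne_top measure_ball_lt_top.ne
        have : Fact (wm m V (Metric.ball o (n : ℝ)) < ⊤) := ⟨lt_top_iff_ne_top.2 hfin⟩
        exact (h1.restrict _).integrable (by norm_num)
      have hint : Integrable w (wm m V) := by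
        refine hcov.integrable_of_integral_norm_bounded (∫ x, |f x| ∂(wm m V)) hwloc
          (Eventually.of_forall fun n => ?_)
        refine le_trans (le_of_eq ?_) (hball o n)
        refine integral_congr_ae (ae_restrict_of_ae ?_)
        filter_upwards [ae_wm_of_ae hV hw0] with x hx
        rw [Real.norm_eq_abs, abs_of_nonneg hx]
      refine ⟨hint, ?_⟩
      have hlim := hcov.integral_tendsto_of_countably_generated hint
      exact le_of_tendsto' hlim fun n => hball o n
  have habsle := C.abs_Jr_le hV hh hf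
  have hint : Integrable (Jr m V h f) (wm m V) := by
    refine hwi.1.mono ((memLp_wm_iff hV _ 2).2 (C.Jr_memLp hV hh hf)).1 ?_
    filter_upwards [ae_wm_of_ae hV habsle] with x hx
    rw [Real.norm_eq_abs, Real.norm_eq_abs]
    exact le_trans hx (le_abs_self _)
  refine ⟨(integrable_wm_iff hV _).1 hint, ?_⟩
  refine le_trans ?_ hwi.2
  exact integral_mono_ae hint.abs hwi.1 (ae_wm_of_ae hV habsle)

/-! ### the generator -/

theorem isWLap_unique (C : Calc m) (hV : BddM V) {g' : X → ℝ} (h1 : IsWLap m V u g)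
    (h2 : IsWLap m V u g') : g =ᵐ[m] g' := by
  rw [← toF_eq_iff hV h1.2.1 h2.2.1]
  have hd : Dense ((form C hV).dom : Set (Lp ℝ 2 (wm m V))) := (form C hV).dense'
  apply hd.eq_of_inner_left (𝕜 := ℝ)
  intro v hv
  have hvm := memLp_coe hV (v : Lp ℝ 2 (wm m V))
  have h3 := h1.2.2 _ hv
  have h4 := h2.2.2 _ hv
  rw [h3] at h4
  have e : (v : Lp ℝ 2 (wm m V)) = toF hV hvm := (toF_coe hV _ hvm).symm
  rw [e, inner_toF, inner_toF]
  linarith

theorem isWLap_congr (C : Calc m) (hV : BddM V) {u' g' : X → ℝ} (h1 : IsWLap m V u g)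
    (hu : u =ᵐ[m] u') (hg : g =ᵐ[m] g') : IsWLap m V u' g' := by
  refine ⟨C.sob_congr h1.1 hu, (memLp_congr_ae hg).1 h1.2.1, fun v hv => ?_⟩
  have e1 : ∫ x, gradPairing m u' v x ∂(wm m V) = ∫ x, gradPairing m u v x ∂(wm m V) :=
    integral_congr_ae (eq_wm_of_eq hV (C.gp_congr hu.symm (Filter.EventuallyEq.refl _ _)))
  have e2 : ∫ x, g' x * v x ∂(wm m V) = ∫ x, g x * v x ∂(wm m V) :=
    integral_congr_ae (eq_wm_of_eq hV (hg.mono fun x hx => by simp only [hx]))
  rw [e1, e2]
  exact h1.2.2 v hv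

theorem isWLap_add (C : Calc m) (hV : BddM V) {u' g' : X → ℝ} (h1 : IsWLap m V u g)
    (h2 : IsWLap m V u' g') : IsWLap m V (fun x => u x + u' x) (fun x => g x + g' x) := by
  refine ⟨C.sob_add h1.1 h2.1, h1.2.1.add h2.2.1, fun v hv => ?_⟩
  have e1 := C.En_add_left hV h1.1 h2.1 hv
  unfold En at e1
  rw [e1, h1.2.2 v hv, h2.2.2 v hv]
  have hi1 : Integrable (fun x => g x * v x) (wm m V) :=
    (integrable_wm_iff hV _).2 (MemLp.integrable_mul h1.2.1 hv.1)
  have hi2 : Integrable (fun x => g' x * v x) (wm m V) :=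
    (integrable_wm_iff hV _).2 (MemLp.integrable_mul h2.2.1 hv.1)
  rw [← neg_add, ← integral_add hi1 hi2]
  congr 1
  refine integral_congr_ae (ae_of_all _ fun x => ?_)
  simp only; ring

theorem isWLap_smul (C : Calc m) (hV : BddM V) (c : ℝ) (h1 : IsWLap m V u g) :
    IsWLap m V (fun x => c * u x) (fun x => c * g x) := by
  refine ⟨C.sob_smul c h1.1, h1.2.1.const_mul c, fun v hv => ?_⟩
  have e1 := C.En_smul_left hV c h1.1 hv
  unfold En at e1
  rw [e1, h1.2.2 v hv, mul_neg, ← integral_const_mul]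
  congr 1
  refine integral_congr_ae (ae_of_all _ fun x => ?_)
  simp only; ring

/-- `L J_h f = (J_h f - f)/h`. -/
theorem Jr_isWLap (C : Calc m) (hV : BddM V) (hh : 0 < h) (hf : MemLp f 2 m) :
    IsWLap m V (Jr m V h f) (fun x => (Jr m V h f x - f x) / h) := by
  have hj := C.Jr_memLp hV hh hf
  refine ⟨C.Jr_sob hV hh hf, ?_, fun v hv => ?_⟩
  · have : MemLp (fun x => h⁻¹ * (Jr m V h f x - f x)) 2 m := (hj.sub hf).const_mul _
    refine (memLp_congr_ae (ae_of_all _ fun x => ?_)).1 this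
    exact (div_eq_inv_mul _ _).symm
  · have h1 := C.Jr_eq hV hh hf hv
    have hi1 : Integrable (fun x => Jr m V h f x * v x) (wm m V) :=
      (integrable_wm_iff hV _).2 (MemLp.integrable_mul hj hv.1)
    have hi2 : Integrable (fun x => f x * v x) (wm m V) :=
      (integrable_wm_iff hV _).2 (MemLp.integrable_mul hf hv.1)
    have e1 : ∫ x, (Jr m V h f x - f x) / h * v x ∂(wm m V) =
        h⁻¹ * (∫ x, Jr m V h f x * v x ∂(wm m V) - ∫ x, f x * v x ∂(wm m V)) := by
      rw [← integral_sub hi1 hi2, ← integral_const_mul]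
      refine integral_congr_ae (ae_of_all _ fun x => ?_)
      simp only; field_simp
    rw [e1]
    unfold En at h1
    rw [← h1]
    field_simp
    ring

/-- `u = J_h (u - h L u)`. -/
theorem isWLap_iff_eq_Jr (C : Calc m) (hV : BddM V) (hh : 0 < h) (hu : MemLp u 2 m) (hg : MemLp g 2 m) :
    IsWLap m V u g ↔ u =ᵐ[m] Jr m V h (fun x => u x - h * g x) := by
  have hm : MemLp (fun x => u x - h * g x) 2 m := hu.sub (hg.const_mul h)
  constructor
  · intro h1
    refine C.isRes_eq_Jr hV hh hm ⟨h1.1, fun v hv => ?_⟩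
    rw [h1.2.2 v hv]
    have hi1 : Integrable (fun x => u x * v x) (wm m V) :=
      (integrable_wm_iff hV _).2 (MemLp.integrable_mul hu hv.1)
    have hi2 : Integrable (fun x => g x * v x) (wm m V) :=
      (integrable_wm_iff hV _).2 (MemLp.integrable_mul hg hv.1)
    have e1 : ∫ x, (u x - h * g x) * v x ∂(wm m V) =
        ∫ x, u x * v x ∂(wm m V) - h * ∫ x, g x * v x ∂(wm m V) := by
      rw [← integral_const_mul, ← integral_sub hi1 (hi2.const_mul h)]
      refine integral_congr_ae (ae_of_all _ fun x => ?_)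
      simp only; ring
    rw [e1]; ring
  · intro h1
    have h2 := C.Jr_isWLap hV hh hm
    refine C.isWLap_congr hV h2 h1.symm ?_
    filter_upwards [h1] with x hx
    rw [← hx]
    field_simp
    ring

/-- `L J_h u = J_h L u`. -/
theorem isWLap_Jr (C : Calc m) (hV : BddM V) (hh : 0 < h) (h1 : IsWLap m V u g) :
    IsWLap m V (Jr m V h u) (Jr m V h g) := by
  have hu := h1.1.1
  have hg := h1.2.1
  have hgm : MemLp (fun x => h * g x) 2 m := hg.const_mul h
  have hm : MemLp (fun x => u x - h * g x) 2 m := hu.sub hgm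
  rw [C.isWLap_iff_eq_Jr hV hh (C.Jr_memLp hV hh hu) (C.Jr_memLp hV hh hg)]
  have h2 := (C.isWLap_iff_eq_Jr hV hh hu hg).1 h1
  -- J u = J (J (u - h g)) and J u - h J g = J (u - h g)
  rw [Jr_congr' (h := h) hV h2]
  have h3 : (fun x => Jr m V h u x - h * Jr m V h g x) =ᵐ[m] Jr m V h (fun x => u x - h * g x) := by
    filter_upwards [C.Jr_sub hV hh hu hgm, C.Jr_smul hV hh h hg] with x hx hy
    rw [hx, hy]
  have h4 : (fun x => Jr m V h (Jr m V h fun x => u x - h * g x) x - h * Jr m V h g x) =ᵐ[m]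
      (fun x => Jr m V h u x - h * Jr m V h g x) := by
    rw [← Jr_congr' (h := h) hV h2]
  rw [Jr_congr' hV (h4.trans h3)]

/-- `J_h u - u = h J_h L u`. -/
theorem isWLap_Jr_sub (C : Calc m) (hV : BddM V) (hh : 0 < h) (h1 : IsWLap m V u g) :
    ∀ᵐ x ∂m, Jr m V h u x - u x = h * Jr m V h g x := by
  have hu := h1.1.1
  have hg := h1.2.1
  have hgm : MemLp (fun x => h * g x) 2 m := hg.const_mul h
  have h2 := (C.isWLap_iff_eq_Jr hV hh hu hg).1 h1
  filter_upwards [h2, C.Jr_sub hV hh hu hgm, C.Jr_smul hV hh h hg] with x hx hy hz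
  rw [hy, hz] at hx
  linarith


end Calc

end

end Crest.Agent.R242
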