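import Crest.Agent.R242.Defs
import Crest.Agent.R242.Pair
import Crest.Agent.R242.ResCore
import Crest.Agent.R242.BL

-- ▼ part R242/DAux
section

/-!
Row 242, part D: auxiliary lemmas on `L^p` convergence of genuine functions.
-/

set_option autoImplicit false

open MeasureTheory Filter Set
open scoped ENNReal NNReal Topology
open Crest.GeometryTopology.SyntheticRicci

noncomputable section

namespace Crest.Agent.R242

section LpTo

variable {X : Type*} [MeasurableSpace X] {m : Measure X}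

/-- convergence of genuine functions in `L^p`. -/
def LpTo (m : Measure X) (p : ℝ≥0∞) (f : ℕ → X → ℝ) (g : X → ℝ) : Prop :=
  Tendsto (fun n => eLpNorm (fun x => f n x - g x) p m) atTop (𝓝 0)

theorem LpTo.add {p : ℝ≥0∞} (hp : 1 ≤ p) {f g : ℕ → X → ℝ} {f' g' : X → ℝ}
    (hf : ∀ n, AEStronglyMeasurable (f n) m) (hf' : AEStronglyMeasurable f' m)
    (hg : ∀ n, AEStronglyMeasurable (g n) m) (hg' : AEStronglyMeasurable g' m)
    (h1 : LpTo m p f f') (h2 : LpTo m p g g') :
    LpTo m p (fun n x => f n x + g n x) (fun x => f' x + g' x) := by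
  unfold LpTo at *
  have h3 := h1.add h2
  simp only [add_zero] at h3
  refine tendsto_of_tendsto_of_tendsto_of_le_of_le tendsto_const_nhds h3 (fun _ => zero_le) ?_
  intro n
  have : (fun x => f n x + g n x - (f' x + g' x)) =
      (fun x => f n x - f' x) + (fun x => g n x - g' x) := by
    funext x; simp only [Pi.add_apply]; ring
  simp only [this]
  exact eLpNorm_add_le ((hf n).sub hf') ((hg n).sub hg') hp

theorem LpTo.bdd_mul {p : ℝ≥0∞} {f : ℕ → X → ℝ} {f' E : X → ℝ} {C : ℝ}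
    (hE : ∀ᵐ x ∂m, |E x| ≤ C) (h1 : LpTo m p f f') :
    LpTo m p (fun n x => E x * f n x) (fun x => E x * f' x) := by
  unfold LpTo at *
  have h3 : Tendsto (fun n => ENNReal.ofReal C * eLpNorm (fun x => f n x - f' x) p m) atTop
      (𝓝 0) := by
    have := ENNReal.Tendsto.const_mul (a := ENNReal.ofReal C) h1 (Or.inr ENNReal.ofReal_ne_top)
    simpa using this
  refine tendsto_of_tendsto_of_tendsto_of_le_of_le tendsto_const_nhds h3 (fun _ => zero_le) ?_
  intro n
  refine eLpNorm_le_mul_eLpNorm_of_ae_le_mul ?_ p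
  filter_upwards [hE] with x hx
  have : E x * f n x - E x * f' x = E x * (f n x - f' x) := by ring
  rw [this, norm_mul]
  exact mul_le_mul_of_nonneg_right (by simpa using hx) (norm_nonneg _)

theorem LpTo.congr {p : ℝ≥0∞} {f g : ℕ → X → ℝ} {f' g' : X → ℝ}
    (h : ∀ n, f n =ᵐ[m] g n) (h' : f' =ᵐ[m] g') (h1 : LpTo m p f f') : LpTo m p g g' := by
  unfold LpTo at *
  refine h1.congr fun n => ?_
  refine eLpNorm_congr_ae ?_
  filter_upwards [h n, h'] with x hx hx'
  rw [hx, hx']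

/-- domination: if `|g n - g'| ≤ |f n|` and `f n → 0`. -/
theorem LpTo.of_le {p : ℝ≥0∞} {f : ℕ → X → ℝ} {g : ℕ → X → ℝ} {g' : X → ℝ}
    (h : ∀ n, ∀ᵐ x ∂m, |g n x - g' x| ≤ f n x)
    (h1 : Tendsto (fun n => eLpNorm (f n) p m) atTop (𝓝 0)) : LpTo m p g g' := by
  unfold LpTo
  refine tendsto_of_tendsto_of_tendsto_of_le_of_le tendsto_const_nhds h1 (fun _ => zero_le) ?_
  intro n
  refine eLpNorm_mono_ae ?_
  filter_upwards [h n] with x hx
  rw [Real.norm_eq_abs, Real.norm_eq_abs]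
  exact hx.trans (le_abs_self _)

theorem eLpNorm_mul_le_mul {p q r : ℝ≥0∞} [ENNReal.HolderTriple p q r] {a b : X → ℝ}
    (ha : AEStronglyMeasurable a m) (hb : AEStronglyMeasurable b m) :
    eLpNorm (fun x => a x * b x) r m ≤ eLpNorm a p m * eLpNorm b q m := by
  have := eLpNorm_le_eLpNorm_mul_eLpNorm'_of_norm (p := p) (q := q) (r := r) ha hb
    (fun s t : ℝ => s * t) 1 (Eventually.of_forall fun x => by simp)
  simpa using this

theorem tendsto_eLpNorm_mul_zero {p q r : ℝ≥0∞} [ENNReal.HolderTriple p q r]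
    {a b : ℕ → X → ℝ} {B : ℝ≥0∞} (hB : B ≠ ⊤)
    (ha : ∀ n, AEStronglyMeasurable (a n) m) (hb : ∀ n, AEStronglyMeasurable (b n) m)
    (h1 : Tendsto (fun n => eLpNorm (a n) p m) atTop (𝓝 0))
    (h2 : ∀ n, eLpNorm (b n) q m ≤ B) :
    Tendsto (fun n => eLpNorm (fun x => a n x * b n x) r m) atTop (𝓝 0) := by
  have h3 : Tendsto (fun n => eLpNorm (a n) p m * B) atTop (𝓝 0) := by
    have := ENNReal.Tendsto.mul_const (b := B) h1 (Or.inr hB)
    simpa using this
  refine tendsto_of_tendsto_of_tendsto_of_le_of_le tendsto_const_nhds h3 (fun _ => zero_le) ?_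
  intro n
  have := eLpNorm_mul_le_mul (p := p) (q := q) (r := r) (ha n) (hb n)
  exact this.trans (mul_le_mul_right (h2 n) _)

theorem tendsto_eLpNorm_add_zero {p : ℝ≥0∞} (hp : 1 ≤ p)
    {a b : ℕ → X → ℝ}
    (ha : ∀ n, AEStronglyMeasurable (a n) m) (hb : ∀ n, AEStronglyMeasurable (b n) m)
    (h1 : Tendsto (fun n => eLpNorm (a n) p m) atTop (𝓝 0))
    (h2 : Tendsto (fun n => eLpNorm (b n) p m) atTop (𝓝 0)) :
    Tendsto (fun n => eLpNorm (fun x => a n x + b n x) p m) atTop (𝓝 0) := by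
  have h3 := h1.add h2
  simp only [add_zero] at h3
  refine tendsto_of_tendsto_of_tendsto_of_le_of_le tendsto_const_nhds h3 (fun _ => zero_le) ?_
  intro n
  exact eLpNorm_add_le (ha n) (hb n) hp

theorem LpTo.mul {p q r : ℝ≥0∞} [ENNReal.HolderTriple p q r] (hr : 1 ≤ r)
    {f g : ℕ → X → ℝ} {f' g' : X → ℝ}
    (hf : ∀ n, AEStronglyMeasurable (f n) m) (hf' : MemLp f' p m)
    (hg : ∀ n, AEStronglyMeasurable (g n) m) (hg' : MemLp g' q m)
    (h1 : LpTo m p f f') (h2 : LpTo m q g g') :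
    LpTo m r (fun n x => f n x * g n x) (fun x => f' x * g' x) := by
  have e1 : Tendsto (fun n => eLpNorm (fun x => f n x - f' x) p m
      * eLpNorm (fun x => g n x - g' x) q m) atTop (𝓝 0) := by
    have := ENNReal.Tendsto.mul h1 (Or.inr ENNReal.zero_ne_top) h2 (Or.inr ENNReal.zero_ne_top)
    simpa using this
  have e2 : Tendsto (fun n => eLpNorm (fun x => f n x - f' x) p m
      * eLpNorm g' q m) atTop (𝓝 0) := by
    have := ENNReal.Tendsto.mul_const (b := eLpNorm g' q m) h1 (Or.inr hg'.2.ne)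
    simpa using this
  have e3 : Tendsto (fun n => eLpNorm f' p m * eLpNorm (fun x => g n x - g' x) q m)
      atTop (𝓝 0) := by
    have := ENNReal.Tendsto.const_mul (a := eLpNorm f' p m) h2 (Or.inr hf'.2.ne)
    simpa using this
  have e4 := (e1.add e2).add e3
  simp only [add_zero] at e4
  unfold LpTo
  refine tendsto_of_tendsto_of_tendsto_of_le_of_le tendsto_const_nhds e4 (fun _ => zero_le) ?_
  intro n
  have hd : (fun x => f n x * g n x - f' x * g' x) =
      ((fun x => (f n x - f' x) * (g n x - g' x)) +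
        (fun x => (f n x - f' x) * g' x)) + (fun x => f' x * (g n x - g' x)) := by
    funext x; simp only [Pi.add_apply]; ring
  have ma : AEStronglyMeasurable (fun x => f n x - f' x) m := (hf n).sub hf'.1
  have mb : AEStronglyMeasurable (fun x => g n x - g' x) m := (hg n).sub hg'.1
  have m1 : AEStronglyMeasurable (fun x => (f n x - f' x) * (g n x - g' x)) m := ma.mul mb
  have m2 : AEStronglyMeasurable (fun x => (f n x - f' x) * g' x) m := ma.mul hg'.1
  have m3 : AEStronglyMeasurable (fun x => f' x * (g n x - g' x)) m := hf'.1.mul mb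
  show eLpNorm (fun x => f n x * g n x - f' x * g' x) r m ≤ _
  rw [hd]
  refine (eLpNorm_add_le (m1.add m2) m3 hr).trans ?_
  refine add_le_add ((eLpNorm_add_le m1 m2 hr).trans (add_le_add ?_ ?_)) ?_
  · exact eLpNorm_mul_le_mul ma mb
  · exact eLpNorm_mul_le_mul ma hg'.1
  · exact eLpNorm_mul_le_mul hf'.1 mb

theorem LpTo.tendsto_integral {f : ℕ → X → ℝ} {f' : X → ℝ}
    (hf : ∀ n, Integrable (f n) m) (hf' : Integrable f' m) (h : LpTo m 1 f f') :
    Tendsto (fun n => ∫ x, f n x ∂m) atTop (𝓝 (∫ x, f' x ∂m)) := by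
  refine tendsto_integral_of_L1' f' hf'.1 (Eventually.of_forall hf) ?_
  exact h

/-- bounded functions converging in `L²`, tested against an `L¹` function. -/
theorem tendsto_integral_L1_mul_bdd {f ψ : X → ℝ} {ψn : ℕ → X → ℝ} {B : ℝ}
    (hf : Integrable f m) (hψn : ∀ n, AEStronglyMeasurable (ψn n) m)
    (hψ : AEStronglyMeasurable ψ m) (hb : ∀ n, ∀ᵐ x ∂m, |ψn n x| ≤ B)
    {p : ℝ≥0∞} (hp : p ≠ 0) (h : LpTo m p ψn ψ) :
    Tendsto (fun n => ∫ x, f x * ψn n x ∂m) atTop (𝓝 (∫ x, f x * ψ x ∂m)) := by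
  refine tendsto_of_subseq_tendsto fun ns hns => ?_
  have h1 : TendstoInMeasure m (fun n => ψn (ns n)) atTop ψ := by
    refine tendstoInMeasure_of_tendsto_eLpNorm hp (fun n => hψn _) hψ ?_
    exact h.comp hns
  obtain ⟨ms, -, hms⟩ := h1.exists_seq_tendsto_ae
  refine ⟨ms, ?_⟩
  refine tendsto_integral_of_dominated_convergence (fun x => |f x| * B) ?_
    (hf.abs.mul_const B) ?_ ?_
  · exact fun n => hf.1.mul (hψn _)
  · intro n
    filter_upwards [hb (ns (ms n))] with x hx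
    rw [norm_mul, Real.norm_eq_abs, Real.norm_eq_abs]
    exact mul_le_mul_of_nonneg_left hx (abs_nonneg _)
  · filter_upwards [hms] with x hx
    exact hx.const_mul _

/-- bounded factors converging in `L²`, other factor converging in `L¹`. -/
theorem tendsto_integral_L1_mul_bdd' {f ψ : X → ℝ} {fn ψn : ℕ → X → ℝ} {B : ℝ}
    (hfn : ∀ n, Integrable (fn n) m) (hf : Integrable f m)
    (hψn : ∀ n, AEStronglyMeasurable (ψn n) m)
    (hψ : AEStronglyMeasurable ψ m) (hb : ∀ n, ∀ᵐ x ∂m, |ψn n x| ≤ B)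
    (h0 : LpTo m 1 fn f)
    {p : ℝ≥0∞} (hp : p ≠ 0) (h : LpTo m p ψn ψ) :
    Tendsto (fun n => ∫ x, fn n x * ψn n x ∂m) atTop (𝓝 (∫ x, f x * ψ x ∂m)) := by
  have h1 := tendsto_integral_L1_mul_bdd hf hψn hψ hb hp h
  have h2 : Tendsto (fun n => ∫ x, (fn n x - f x) * ψn n x ∂m) atTop (𝓝 0) := by
    have h3 : LpTo m 1 (fun n x => (fn n x - f x) * ψn n x) (fun _ => 0) := by
      unfold LpTo at h0 ⊢
      have h3 : Tendsto (fun n => ENNReal.ofReal B * eLpNorm (fun x => fn n x - f x) 1 m) atTop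
          (𝓝 0) := by
        have := ENNReal.Tendsto.const_mul (a := ENNReal.ofReal B) h0
          (Or.inr ENNReal.ofReal_ne_top)
        simpa using this
      refine tendsto_of_tendsto_of_tendsto_of_le_of_le tendsto_const_nhds h3
        (fun _ => zero_le) ?_
      intro n
      refine eLpNorm_le_mul_eLpNorm_of_ae_le_mul ?_ 1
      filter_upwards [hb n] with x hx
      rw [sub_zero, norm_mul, mul_comm]
      exact mul_le_mul_of_nonneg_right (by simpa using hx) (norm_nonneg _)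
    have h4 := h3.tendsto_integral (fun n => ?_) (integrable_zero _ _ _)
    · simpa using h4
    · exact ((hfn n).sub hf).mul_bdd (hψn n) (by simpa using hb n)
  have h5 := h1.add h2
  rw [add_zero] at h5
  refine h5.congr fun n => ?_
  rw [← integral_add]
  · congr 1; funext x; ring
  · exact hf.mul_bdd (hψn n) (by simpa using hb n)
  · exact ((hfn n).sub hf).mul_bdd (hψn n) (by simpa using hb n)

end LpTo

end Crest.Agent.R242
end
end

-- ▼ part R242/DBoch

/-!
Row 242, part D: D1, D2 and the one-step inequality.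
-/

set_option autoImplicit false
set_option linter.unusedSectionVars false

open MeasureTheory Filter Set
open scoped ENNReal NNReal Topology
open Crest.GeometryTopology.SyntheticRicci

noncomputable section

namespace Crest.Agent.R242

/-- the squared weak gradient. -/
def wsq {X : Type*} [MetricSpace X] [MeasurableSpace X] (m : Measure X) (u : X → ℝ) : X → ℝ :=
  fun x => minWeakGrad m u x ^ 2

/-- The facts of part G used in part D. -/
structure GFacts {X : Type*} [MetricSpace X] [MeasurableSpace X] (m : Measure X) (k : ℝ) :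
    Prop where
  wg_lip : ∀ (L : ℝ≥0) (f : X → ℝ), LipschitzWith L f → ∀ᵐ x ∂m, minWeakGrad m f x ≤ L
  g5_sob : ∀ u g : X → ℝ, Test2 m u g → IsSobolev m (wsq m u)
  g5 : ∀ u g : X → ℝ, Test2 m u g → ∀ φ : X → ℝ, IsSobolev m φ →
    (∃ B : ℝ, ∀ᵐ x ∂m, |φ x| ≤ B) → (0 ≤ᵐ[m] φ) →
    ∫ x, (gradPairing m u g x - k * wsq m u x) * φ x ∂m ≤
      -(1 / 2) * ∫ x, gradPairing m (wsq m u) φ x ∂m
  lapV : ∀ V u l : X → ℝ, BddLip V → IsWLap m V u l →
    IsWeakLaplacian m u (fun x => l x - gradPairing m V u x)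
  g6 : ∀ u g : X → ℝ, IsWeakLaplacian m u g → (∃ B : ℝ, ∀ᵐ x ∂m, |u x| ≤ B) →
    MemLp (minWeakGrad m u) 4 m
  g8 : ∀ (u g : X → ℝ) (B : ℝ), IsWeakLaplacian m u g → (∀ᵐ x ∂m, |u x| ≤ B) →
    ∃ uj gj : ℕ → X → ℝ,
      (∀ j, Test2 m (uj j) (gj j) ∧ HasCompactSupport (uj j) ∧
        (∃ C : ℝ, ∀ᵐ x ∂m, |gj j x| ≤ C) ∧ (∀ x, |uj j x| ≤ B)) ∧
      ((0 ≤ᵐ[m] u) → ∀ j x, 0 ≤ uj j x) ∧
      Tendsto (fun j => eLpNorm (fun x => uj j x - u x) 2 m) atTop (𝓝 0) ∧
      Tendsto (fun j => eLpNorm (fun x => gj j x - g x) 2 m) atTop (𝓝 0) ∧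
      Tendsto (fun j => eLpNorm (minWeakGrad m (fun x => uj j x - u x)) 2 m) atTop (𝓝 0) ∧
      Tendsto (fun j => eLpNorm (minWeakGrad m (fun x => uj j x - u x)) 4 m) atTop (𝓝 0)

section

variable {X : Type*} [MetricSpace X] [ProperSpace X] [MeasurableSpace X] [BorelSpace X]
  {m : Measure X} [IsLocallyFiniteMeasure m] [m.IsOpenPosMeasure] {k N : ℝ}

theorem locBdd_of_bdd {f : X → ℝ} (h : ∃ B : ℝ, ∀ᵐ x ∂m, |f x| ≤ B) : LocBdd m f := by
  intro o R
  obtain ⟨B, hB⟩ := h
  exact ⟨B, ae_restrict_of_ae hB⟩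

theorem BddLip.dAeBdd {f : X → ℝ} (h : BddLip f) : ∃ B : ℝ, ∀ᵐ x ∂m, |f x| ≤ B := by
  obtain ⟨⟨B, hB⟩, -⟩ := h
  exact ⟨B, Eventually.of_forall hB⟩

theorem BddLip.dBddM {f : X → ℝ} (h : BddLip f) : BddM f := by
  obtain ⟨h1, L, hL⟩ := h
  exact ⟨hL.continuous.measurable, h1⟩

theorem BddLip.dSobLoc (H : Hyp m k N) {f : X → ℝ} (h : BddLip f) : IsSobolevLoc m f := by
  obtain ⟨h1, L, hL⟩ := h
  exact sobLoc_of_lipschitz H hL

/-- `exp ∘ V` is bounded Lipschitz. -/
theorem BddLip.dExp {V : X → ℝ} (h : BddLip V) : BddLip (fun x => Real.exp (V x)) := by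
  obtain ⟨⟨B, hB⟩, L, hL⟩ := h
  have hle : ∀ x, V x ≤ B := fun x => (le_abs_self _).trans (hB x)
  refine ⟨⟨Real.exp B, fun x => ?_⟩, Real.toNNReal (Real.exp B) * L, ?_⟩
  · rw [abs_of_pos (Real.exp_pos _)]
    exact Real.exp_le_exp.mpr (hle x)
  · have key : ∀ x y, V y ≤ V x → Real.exp (V x) - Real.exp (V y) ≤ Real.exp B * (L * dist x y) := by
      intro x y hxy
      have h1 : Real.exp (V x) - Real.exp (V y) ≤ Real.exp (V x) * (V x - V y) := by
        have := Real.add_one_le_exp (V y - V x)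
        have h2 : Real.exp (V y) = Real.exp (V x) * Real.exp (V y - V x) := by
          rw [← Real.exp_add]; congr 1; ring
        rw [h2]
        nlinarith [Real.exp_pos (V x)]
      have h3 := hL.dist_le_mul x y
      rw [Real.dist_eq] at h3
      have h4 : V x - V y ≤ L * dist x y := (le_abs_self _).trans h3
      calc Real.exp (V x) - Real.exp (V y) ≤ Real.exp (V x) * (V x - V y) := h1
        _ ≤ Real.exp B * (V x - V y) :=
          mul_le_mul_of_nonneg_right (Real.exp_le_exp.mpr (hle x)) (sub_nonneg.mpr hxy)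
        _ ≤ Real.exp B * (L * dist x y) :=
          mul_le_mul_of_nonneg_left h4 (Real.exp_pos _).le
    refine LipschitzWith.of_dist_le_mul fun x y => ?_
    rw [Real.dist_eq]
    push_cast
    rw [Real.coe_toNNReal _ (Real.exp_pos _).le, mul_assoc]
    rcases le_total (V y) (V x) with h | h
    · rw [abs_of_nonneg (sub_nonneg.mpr (Real.exp_le_exp.mpr h))]
      exact key x y h
    · rw [abs_sub_comm, abs_of_nonneg (sub_nonneg.mpr (Real.exp_le_exp.mpr h)), dist_comm x y]
      exact key y x h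

/-! ### integrability -/

omit [IsLocallyFiniteMeasure m] [m.IsOpenPosMeasure] [ProperSpace X] [BorelSpace X] in
theorem memLp_wg {u : X → ℝ} (hu : IsSobolev m u) : MemLp (minWeakGrad m u) 2 m := hu.2.2

omit [IsLocallyFiniteMeasure m] [m.IsOpenPosMeasure] [ProperSpace X] [BorelSpace X] in
theorem memLp_sob {u : X → ℝ} (hu : IsSobolev m u) : MemLp u 2 m := hu.1

omit [IsLocallyFiniteMeasure m] [m.IsOpenPosMeasure] [ProperSpace X] [BorelSpace X] in
theorem sobLoc_sob {u : X → ℝ} (hu : IsSobolev m u) : IsSobolevLoc m u := hu.2.1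

theorem memLp_gp_lip (H : Hyp m k N) (GF : GFacts m k) {f u : X → ℝ} {L : ℝ≥0}
    (hf : LipschitzWith L f) (hu : IsSobolev m u) : MemLp (gradPairing m f u) 2 m := by
  have hfl := sobLoc_of_lipschitz H hf
  refine MemLp.of_le_mul (c := (L : ℝ)) (memLp_wg hu) (aesm_gp H hfl (sobLoc_sob hu)) ?_
  filter_upwards [gp_abs_le H hfl (sobLoc_sob hu), GF.wg_lip L f hf, wg_nonneg H (sobLoc_sob hu)]
    with x h1 h2 h3
  rw [Real.norm_eq_abs, Real.norm_eq_abs, abs_of_nonneg h3]
  exact h1.trans (mul_le_mul_of_nonneg_right h2 h3)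


theorem int_mul_L2 {a b : X → ℝ} (ha : MemLp a 2 m) (hb : MemLp b 2 m) :
    Integrable (fun x => a x * b x) m := ha.integrable_mul hb

theorem int_bdd_mul {a b : X → ℝ} (ha : AEStronglyMeasurable a m)
    (hab : ∃ B : ℝ, ∀ᵐ x ∂m, |a x| ≤ B) (hb : Integrable b m) :
    Integrable (fun x => a x * b x) m := by
  obtain ⟨B, hB⟩ := hab
  exact hb.bdd_mul (c := B) ha (by simpa using hB)

theorem Test2.dIsTestFn {u g : X → ℝ} (C : Calc m) (h : Test2 m u g) :
    IsTestFn m u ∧ weakLaplacian m u =ᵐ[m] g := by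
  have hex : ∃ L : X → ℝ, IsWeakLaplacian m u L := ⟨g, h.lap⟩
  have h1 : IsWeakLaplacian m u (weakLaplacian m u) := by
    unfold weakLaplacian
    rw [dif_pos hex]
    exact Classical.choose_spec hex
  have hV : BddM (fun _ : X => (0 : ℝ)) := ⟨measurable_const, 0, fun x => by simp⟩
  have h2 : weakLaplacian m u =ᵐ[m] g :=
    Calc.isWLap_unique C hV (isWLap_zero_iff.mpr h1) (isWLap_zero_iff.mpr h.lap)
  exact ⟨⟨h.bl.1, h.bl.2, hex, C.sob_congr h.sob h2.symm⟩, h2⟩

theorem D1 (H : Hyp m k N) (C : Calc m) (GF : GFacts m k) {F G : X → ℝ} (hF : BddLip F)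
    (hGc : Continuous G) {B : ℝ} (hGB : ∀ x, |G x| ≤ B) (hH : HasWeakHessLe m F G) {ε : ℝ}
    (hε : 0 < ε) {u g φ : X → ℝ} (hu : Test2 m u g) (huc : HasCompactSupport u)
    (hgb : ∃ B : ℝ, ∀ᵐ x ∂m, |g x| ≤ B)
    (hφ : BddLip φ) (hφc : HasCompactSupport φ) (hφ0 : ∀ x, 0 ≤ φ x) :
    ε / 2 * ∫ x, Real.exp (F x / ε) * gradPairing m (wsq m u) φ x ∂m ≤
      ∫ x, Real.exp (F x / ε) * ((gradPairing m φ u x + φ x * (ε * g x + gradPairing m F u x) / ε) *
        (ε * g x + gradPairing m F u x)) ∂m +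
      ∫ x, Real.exp (F x / ε) * ((ε * k + G x) * (wsq m u x * φ x)) ∂m := by
  -- the weight
  set V : X → ℝ := fun x => F x / ε with hVdef
  have hVeq : V = fun x => ε⁻¹ * F x := by funext x; simp only [hVdef]; field_simp
  have hV : BddLip V := by rw [hVeq]; exact hF.const_mul _
  have hE : BddLip (fun x => Real.exp (V x)) := hV.dExp
  have hFloc := hF.dSobLoc H
  have hVloc := hV.dSobLoc H
  have hEloc := hE.dSobLoc H
  have hφloc := hφ.dSobLoc H
  obtain ⟨-, LF, hLF⟩ := id hF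
  obtain ⟨-, Lφ, hLφ⟩ := id hφ
  set h : X → ℝ := fun x => φ x * Real.exp (V x) with hhdef
  have hhB : BddLip h := hφ.mul hE
  obtain ⟨-, Lh, hLh⟩ := id hhB
  have hhc : HasCompactSupport h := hφc.mul_right
  have hh0 : ∀ x, 0 ≤ h x := fun x => mul_nonneg (hφ0 x) (Real.exp_pos _).le
  have hhS : IsSobolev m h := C.sob_lip hhB.2 hhc
  have hφS : IsSobolev m φ := C.sob_lip hφ.2 hφc
  have huS : IsSobolev m u := hu.lap.1
  have hgS : IsSobolev m g := hu.sob
  have huloc := sobLoc_sob huS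
  have hgloc := sobLoc_sob hgS
  have hwS : IsSobolev m (wsq m u) := GF.g5_sob u g hu
  have hwloc := sobLoc_sob hwS
  have hhloc := sobLoc_sob hhS
  have hhLB : LocBdd m h := locBdd_of_bdd hhB.dAeBdd
  have hELB : LocBdd m (fun x => Real.exp (V x)) := locBdd_of_bdd hE.dAeBdd
  have hVLB : LocBdd m V := locBdd_of_bdd hV.dAeBdd
  have hφLB : LocBdd m φ := locBdd_of_bdd hφ.dAeBdd
  have hgLB : LocBdd m g := locBdd_of_bdd hgb
  obtain ⟨htest, hlap⟩ := hu.dIsTestFn C
  have exp_diff : ContDiff ℝ 1 Real.exp := Real.contDiff_exp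
  -- a.e. identities
  have A1 : ∀ᵐ x ∂m, gradPairing m (wsq m u) h x =
      Real.exp (V x) * gradPairing m (wsq m u) φ x + h x * gradPairing m F (wsq m u) x / ε := by
    have e1 := gp_mul_right H hwloc hφloc hEloc hφLB hELB
    have e2 := gp_comp_right H exp_diff hwloc hVloc hVLB
    have e3 := gp_smul_right H ε⁻¹ hwloc hFloc
    have e4 := gp_comm H hwloc hFloc
    rw [← hVeq] at e3
    filter_upwards [e1, e2, e3, e4] with x h1 h2 h3 h4
    rw [hhdef]
    simp only [Real.deriv_exp] at h1 h2 ⊢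
    rw [h1, h2, h3, h4]
    field_simp
    ring
  have A2 : ∀ᵐ x ∂m, gradPairing m h u x =
      Real.exp (V x) * gradPairing m φ u x + h x * gradPairing m F u x / ε := by
    have e1 := gp_mul_left H hφloc hEloc huloc hφLB hELB
    have e2 := gp_comp_left H exp_diff hVloc hVLB huloc
    have e3 := gp_smul_left H ε⁻¹ hFloc huloc
    rw [← hVeq] at e3
    filter_upwards [e1, e2, e3] with x h1 h2 h3
    rw [hhdef]
    simp only [Real.deriv_exp] at h1 h2 ⊢
    rw [h1, h2, h3]
    field_simp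
    ring
  have A3 : ∀ᵐ x ∂m, gradPairing m u (fun x => h x * g x) x =
      h x * gradPairing m u g x + g x * gradPairing m h u x := by
    have e1 := gp_mul_right H huloc hhloc hgloc hhLB hgLB
    have e2 := gp_comm H hhloc huloc
    filter_upwards [e1, e2] with x h1 h2
    rw [h1, h2]
  have A4 : ∀ᵐ x ∂m, gradPairing m F (fun y => gradPairing m u u y / 2) x =
      gradPairing m F (wsq m u) x / 2 := by
    have e1 : (fun y => (2 : ℝ)⁻¹ * wsq m u y) =ᵐ[m] fun y => gradPairing m u u y / 2 := by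
      filter_upwards [gp_self H huloc] with x hx
      rw [hx]; simp only [wsq]; ring
    have e2 := gp_congr H hFloc (sobLoc_smul H (2 : ℝ)⁻¹ hwloc) (Filter.EventuallyEq.refl _ F) e1
    have e3 := gp_smul_right H (2 : ℝ)⁻¹ hFloc hwloc
    filter_upwards [e2, e3] with x h2 h3
    rw [← h2, h3]; ring
  -- integrability
  have mg : MemLp g 2 m := memLp_sob hgS
  have mFu : MemLp (gradPairing m F u) 2 m := memLp_gp_lip H GF hLF huS
  have mhu : MemLp (gradPairing m h u) 2 m := memLp_gp_lip H GF hLh huS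
  have mFw : MemLp (gradPairing m F (wsq m u)) 2 m := memLp_gp_lip H GF hLF hwS
  have mh : MemLp h 2 m := memLp_sob hhS
  have hbdd : ∃ B : ℝ, ∀ᵐ x ∂m, |h x| ≤ B := hhB.dAeBdd
  have iw : Integrable (wsq m u) m := integrable_wg_sq H huS
  have ia : Integrable (fun x => gradPairing m h u x * gradPairing m F u x) m := int_mul_L2 mhu mFu
  have ib : Integrable (fun x => h x * (g x * gradPairing m F u x)) m :=
    int_bdd_mul mh.1 hbdd (int_mul_L2 mg mFu)
  have ic : Integrable (fun x => h x * gradPairing m F (wsq m u) x) m := int_mul_L2 mh mFw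
  have hGae : ∃ B : ℝ, ∀ᵐ x ∂m, |G x| ≤ B := ⟨B, Eventually.of_forall hGB⟩
  have ih' : Integrable (fun x => h x * wsq m u x) m := int_bdd_mul mh.1 hbdd iw
  have idd : Integrable (fun x => G x * (h x * wsq m u x)) m :=
    int_bdd_mul hGc.aestronglyMeasurable hGae ih'
  have ie : Integrable (fun x => h x * gradPairing m u g x) m :=
    int_bdd_mul mh.1 hbdd (integrable_gp H huS hgS)
  have iq : Integrable (fun x => g x * gradPairing m h u x) m := int_mul_L2 mg mhu
  have ir : Integrable (fun x => h x * (g x * g x)) m := int_bdd_mul mh.1 hbdd (int_mul_L2 mg mg)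
  have iwphi : Integrable (gradPairing m (wsq m u) φ) m := integrable_gp H hwS hφS
  have iI1 : Integrable (fun x => Real.exp (V x) * gradPairing m (wsq m u) φ x) m :=
    int_bdd_mul (hE.2.choose_spec.continuous.aestronglyMeasurable) hE.dAeBdd iwphi
  -- the Hessian inequality
  have Hess : -(∫ x, gradPairing m h u x * gradPairing m F u x ∂m +
      ∫ x, h x * (g x * gradPairing m F u x) ∂m) -
      1 / 2 * ∫ x, h x * gradPairing m F (wsq m u) x ∂m ≤
        ∫ x, G x * (h x * wsq m u x) ∂m := by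
    have h1 := hH u htest huc h hhB.2 hhc hh0
    have h2 : weakHess m F u h = -(∫ x, gradPairing m h u x * gradPairing m F u x ∂m +
      ∫ x, h x * (g x * gradPairing m F u x) ∂m) -
      1 / 2 * ∫ x, h x * gradPairing m F (wsq m u) x ∂m := by
      unfold weakHess
      rw [← integral_add ia ib, ← integral_const_mul]
      congr 1
      · congr 1
        refine integral_congr_ae ?_
        filter_upwards [hlap] with x hx
        rw [hx]; ring
      · refine integral_congr_ae ?_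
        filter_upwards [A4] with x hx
        rw [hx]; ring
    have h3 : ∫ x, h x * G x * gradPairing m u u x ∂m = ∫ x, G x * (h x * wsq m u x) ∂m := by
      refine integral_congr_ae ?_
      filter_upwards [gp_self H huloc] with x hx
      rw [hx]; simp only [wsq]; ring
    rw [h2, h3] at h1
    exact h1
  -- Bochner
  have Boch : ∫ x, h x * gradPairing m u g x ∂m - k * ∫ x, h x * wsq m u x ∂m ≤
      -(1 / 2) * (∫ x, Real.exp (V x) * gradPairing m (wsq m u) φ x ∂m +
        (∫ x, h x * gradPairing m F (wsq m u) x ∂m) / ε) := by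
    have h1 := GF.g5 u g hu h hhS hbdd (Eventually.of_forall hh0)
    have h2 : ∫ x, (gradPairing m u g x - k * wsq m u x) * h x ∂m =
        ∫ x, h x * gradPairing m u g x ∂m - k * ∫ x, h x * wsq m u x ∂m := by
      rw [← integral_const_mul, ← integral_sub ie (ih'.const_mul k)]
      congr 1; funext x; ring
    have h3 : ∫ x, gradPairing m (wsq m u) h x ∂m =
        ∫ x, Real.exp (V x) * gradPairing m (wsq m u) φ x ∂m +
        (∫ x, h x * gradPairing m F (wsq m u) x ∂m) / ε := by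
      rw [← integral_div, ← integral_add iI1 (ic.div_const ε)]
      exact integral_congr_ae A1
    rw [h2, h3] at h1
    exact h1
  -- integration by parts
  have IBP : ∫ x, h x * gradPairing m u g x ∂m + ∫ x, g x * gradPairing m h u x ∂m =
      -∫ x, h x * (g x * g x) ∂m := by
    have h1 := hu.lap.2.2 (fun x => h x * g x) (sob_mul H hhS hgS hbdd hgb)
    rw [integral_congr_ae A3, integral_add ie iq] at h1
    rw [h1]
    congr 1
    refine integral_congr_ae (Eventually.of_forall fun x => ?_)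
    show g x * (h x * g x) = h x * (g x * g x)
    ring
  -- the right-hand side
  have R1 : ∫ x, Real.exp (V x) * ((gradPairing m φ u x +
      φ x * (ε * g x + gradPairing m F u x) / ε) * (ε * g x + gradPairing m F u x)) ∂m =
      ε * ∫ x, g x * gradPairing m h u x ∂m +
      ∫ x, gradPairing m h u x * gradPairing m F u x ∂m +
      ε * ∫ x, h x * (g x * g x) ∂m + ∫ x, h x * (g x * gradPairing m F u x) ∂m := by
    have j1 : Integrable (fun x => ε * (g x * gradPairing m h u x) +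
        gradPairing m h u x * gradPairing m F u x) m := (iq.const_mul ε).add ia
    have j2 : Integrable (fun x => ε * (g x * gradPairing m h u x) +
        gradPairing m h u x * gradPairing m F u x + ε * (h x * (g x * g x))) m :=
      j1.add (ir.const_mul ε)
    rw [← integral_const_mul, ← integral_const_mul, ← integral_add (iq.const_mul ε) ia,
      ← integral_add j1 (ir.const_mul ε), ← integral_add j2 ib]
    refine integral_congr_ae ?_
    filter_upwards [A2] with x hx
    rw [hx]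
    simp only [hhdef]
    field_simp
    ring
  have R2 : ∫ x, Real.exp (V x) * ((ε * k + G x) * (wsq m u x * φ x)) ∂m =
      ε * k * ∫ x, h x * wsq m u x ∂m + ∫ x, G x * (h x * wsq m u x) ∂m := by
    rw [← integral_const_mul, ← integral_add (ih'.const_mul _) idd]
    refine integral_congr_ae (Eventually.of_forall fun x => ?_)
    simp only [hhdef]
    ring
  show ε / 2 * ∫ x, Real.exp (V x) * gradPairing m (wsq m u) φ x ∂m ≤
    ∫ x, Real.exp (V x) * ((gradPairing m φ u x +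
      φ x * (ε * g x + gradPairing m F u x) / ε) * (ε * g x + gradPairing m F u x)) ∂m +
    ∫ x, Real.exp (V x) * ((ε * k + G x) * (wsq m u x * φ x)) ∂m
  rw [R1, R2]
  set I1 := ∫ x, Real.exp (V x) * gradPairing m (wsq m u) φ x ∂m
  set c := ∫ x, h x * gradPairing m F (wsq m u) x ∂m
  set e := ∫ x, h x * gradPairing m u g x ∂m
  set f := ∫ x, h x * wsq m u x ∂m
  set q := ∫ x, g x * gradPairing m h u x ∂m
  set r := ∫ x, h x * (g x * g x) ∂m
  set a := ∫ x, gradPairing m h u x * gradPairing m F u x ∂m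
  set b := ∫ x, h x * (g x * gradPairing m F u x) ∂m
  set d := ∫ x, G x * (h x * wsq m u x) ∂m
  have Boch' : ε * (e - k * f) ≤ -(1 / 2) * (ε * I1 + c) := by
    have := mul_le_mul_of_nonneg_left Boch hε.le
    have h2 : ε * (-(1 / 2) * (I1 + c / ε)) = -(1 / 2) * (ε * I1 + c) := by
      field_simp
    rw [h2] at this
    exact this
  have he : e = - q - r := by linarith
  rw [he] at Boch'
  nlinarith [Boch', Hess]

/-! ### D2 -/

instance holder442 : ENNReal.HolderTriple 4 4 2 where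
  inv_add_inv_eq_inv := by
    have h : (2 : ℝ≥0∞)⁻¹ = (4 : ℝ≥0∞)⁻¹ * 2 := by
      rw [show (4 : ℝ≥0∞) = 2 * 2 by norm_num, ENNReal.mul_inv (by simp) (by simp), mul_assoc,
        ENNReal.inv_mul_cancel (by simp) (by simp), mul_one]
    rw [h, mul_two]

theorem LpTo_gp (H : Hyp m k N) {p r : ℝ≥0∞} [ENNReal.HolderTriple p p r] (hr : 1 ≤ r)
    {φn un : ℕ → X → ℝ} {φ u : X → ℝ} (hφn : ∀ n, IsSobolev m (φn n))
    (hun : ∀ n, IsSobolev m (un n)) (hφ : IsSobolev m φ) (hu : IsSobolev m u)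
    (hφp : MemLp (minWeakGrad m φ) p m) (hup : MemLp (minWeakGrad m u) p m)
    (h1 : Tendsto (fun n => eLpNorm (minWeakGrad m (fun x => φn n x - φ x)) p m) atTop (𝓝 0))
    (h2 : Tendsto (fun n => eLpNorm (minWeakGrad m (fun x => un n x - u x)) p m) atTop (𝓝 0)) :
    LpTo m r (fun n => gradPairing m (φn n) (un n)) (gradPairing m φ u) := by
  have sφ : ∀ n, IsSobolevLoc m (fun x => φn n x - φ x) := fun n =>
    sobLoc_sub H (sobLoc_sob (hφn n)) (sobLoc_sob hφ)
  have su : ∀ n, IsSobolevLoc m (fun x => un n x - u x) := fun n =>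
    sobLoc_sub H (sobLoc_sob (hun n)) (sobLoc_sob hu)
  refine LpTo.of_le (f := fun n x =>
    (minWeakGrad m (fun x => φn n x - φ x) x * minWeakGrad m (fun x => un n x - u x) x +
      minWeakGrad m (fun x => φn n x - φ x) x * minWeakGrad m u x) +
      minWeakGrad m φ x * minWeakGrad m (fun x => un n x - u x) x) ?_ ?_
  · intro n
    have e1 := gp_sub_left H (sobLoc_sob (hφn n)) (sobLoc_sob hφ) (su n)
    have e2 := gp_sub_left H (sobLoc_sob (hφn n)) (sobLoc_sob hφ) (sobLoc_sob hu)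
    have e3 := gp_sub_right H (sobLoc_sob hφ) (sobLoc_sob (hun n)) (sobLoc_sob hu)
    have e3' := gp_sub_right H (sobLoc_sob (hφn n)) (sobLoc_sob (hun n)) (sobLoc_sob hu)
    have b1 := gp_abs_le H (sφ n) (su n)
    have b2 := gp_abs_le H (sφ n) (sobLoc_sob hu)
    have b3 := gp_abs_le H (sobLoc_sob hφ) (su n)
    filter_upwards [e1, e2, e3, e3', b1, b2, b3] with x x1 x2 x3 x3' y1 y2 y3
    have hx : gradPairing m (φn n) (un n) x - gradPairing m φ u x =
        (gradPairing m (fun x => φn n x - φ x) (fun x => un n x - u x) x +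
        gradPairing m (fun x => φn n x - φ x) u x) +
        gradPairing m φ (fun x => un n x - u x) x := by
      rw [x1, x2, x3, x3']; ring
    rw [hx]
    exact (abs_add_le _ _).trans (add_le_add ((abs_add_le _ _).trans (add_le_add y1 y2)) y3)
  · have mφ : ∀ n, AEStronglyMeasurable (minWeakGrad m (fun x => φn n x - φ x)) m :=
      fun n => aesm_wg H (sφ n)
    have mu : ∀ n, AEStronglyMeasurable (minWeakGrad m (fun x => un n x - u x)) m :=
      fun n => aesm_wg H (su n)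
    refine tendsto_eLpNorm_add_zero hr (fun n => ((mφ n).mul (mu n)).add ((mφ n).mul hup.1))
      (fun n => hφp.1.mul (mu n)) ?_ ?_
    · refine tendsto_eLpNorm_add_zero hr (fun n => (mφ n).mul (mu n))
        (fun n => (mφ n).mul hup.1) ?_ ?_
      · have h3 := ENNReal.Tendsto.mul h1 (Or.inr ENNReal.zero_ne_top) h2
          (Or.inr ENNReal.zero_ne_top)
        rw [mul_zero] at h3
        refine tendsto_of_tendsto_of_tendsto_of_le_of_le tendsto_const_nhds h3
          (fun _ => zero_le) fun n => ?_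
        exact eLpNorm_mul_le_mul (mφ n) (mu n)
      · exact tendsto_eLpNorm_mul_zero (q := p) hup.2.ne mφ (fun _ => hup.1) h1 (fun _ => le_rfl)
    · have h3 := tendsto_eLpNorm_mul_zero (p := p) (q := p) (r := r) hφp.2.ne mu
        (fun _ => hφp.1) h2 (fun _ => le_rfl)
      refine h3.congr fun n => ?_
      refine eLpNorm_congr_ae (Eventually.of_forall fun x => ?_)
      show _ * _ = _ * _
      ring

theorem LpTo_wsq (H : Hyp m k N) {p r : ℝ≥0∞} [ENNReal.HolderTriple p p r] (hr : 1 ≤ r)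
    {un : ℕ → X → ℝ} {u : X → ℝ}
    (hun : ∀ n, IsSobolev m (un n)) (hu : IsSobolev m u)
    (hup : MemLp (minWeakGrad m u) p m)
    (h2 : Tendsto (fun n => eLpNorm (minWeakGrad m (fun x => un n x - u x)) p m) atTop (𝓝 0)) :
    LpTo m r (fun n => wsq m (un n)) (wsq m u) :=
  (LpTo_gp H hr hun hun hu hu hup hup h2 h2).congr
    (fun n => gp_self H (sobLoc_sob (hun n))) (gp_self H (sobLoc_sob hu))

/-- `L u_n → L u` in `L²`. -/
theorem LpTo_gen (H : Hyp m k N) (GF : GFacts m k) {F : X → ℝ} (hF : BddLip F) (ε : ℝ)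
    {un gn : ℕ → X → ℝ} {u g : X → ℝ}
    (hun : ∀ n, IsSobolev m (un n)) (hu : IsSobolev m u) (hgn : ∀ n, MemLp (gn n) 2 m)
    (hg : MemLp g 2 m)
    (h1 : LpTo m 2 gn g)
    (h2 : Tendsto (fun n => eLpNorm (minWeakGrad m (fun x => un n x - u x)) 2 m) atTop (𝓝 0)) :
    LpTo m 2 (fun n x => ε * gn n x + gradPairing m F (un n) x)
      (fun x => ε * g x + gradPairing m F u x) := by
  obtain ⟨-, L, hL⟩ := id hF
  have hFl := hF.dSobLoc H
  refine LpTo.add one_le_two (fun n => ((hgn n).const_mul ε).1) (hg.const_mul ε).1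
    (fun n => (memLp_gp_lip H GF hL (hun n)).1) (memLp_gp_lip H GF hL hu).1 ?_ ?_
  · exact LpTo.bdd_mul (C := |ε|) (Eventually.of_forall fun _ => le_rfl) h1
  · have su : ∀ n, IsSobolevLoc m (fun x => un n x - u x) := fun n =>
      sobLoc_sub H (sobLoc_sob (hun n)) (sobLoc_sob hu)
    refine LpTo.of_le (f := fun n x => (L : ℝ) * minWeakGrad m (fun x => un n x - u x) x) ?_ ?_
    · intro n
      filter_upwards [gp_sub_right H hFl (sobLoc_sob (hun n)) (sobLoc_sob hu),
        gp_abs_le H hFl (su n), GF.wg_lip L F hL, wg_nonneg H (su n)] with x h1 h2 h3 h4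
      rw [← h1]
      exact h2.trans (mul_le_mul_of_nonneg_right h3 h4)
    · have h3 : Tendsto (fun n => ENNReal.ofReal L *
          eLpNorm (minWeakGrad m (fun x => un n x - u x)) 2 m) atTop (𝓝 0) := by
        have := ENNReal.Tendsto.const_mul (a := ENNReal.ofReal L) h2
          (Or.inr ENNReal.ofReal_ne_top)
        simpa using this
      refine tendsto_of_tendsto_of_tendsto_of_le_of_le tendsto_const_nhds h3
        (fun _ => zero_le) fun n => ?_
      refine eLpNorm_le_mul_eLpNorm_of_ae_le_mul (Eventually.of_forall fun x => ?_) 2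
      rw [norm_mul]
      simp

/-- the three integrals of D2. -/
def D2form (m : Measure X) (k : ℝ) (F G : X → ℝ) (ε : ℝ) (u g φ ψ : X → ℝ) : ℝ :=
  1 / 2 * ∫ x, Real.exp (F x / ε) * (wsq m u x * (ε * ψ x + gradPairing m F φ x)) ∂m +
  ∫ x, Real.exp (F x / ε) * ((gradPairing m φ u x + φ x * (ε * g x + gradPairing m F u x) / ε) *
        (ε * g x + gradPairing m F u x)) ∂m +
  ∫ x, Real.exp (F x / ε) * ((ε * k + G x) * (wsq m u x * φ x)) ∂m

theorem wsq_nonneg (u : X → ℝ) (x : X) : 0 ≤ wsq m u x := sq_nonneg _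

theorem wsq_bdd_of_lip (H : Hyp m k N) (GF : GFacts m k) {u : X → ℝ} (hu : BddLip u) :
    ∃ B : ℝ, ∀ᵐ x ∂m, |wsq m u x| ≤ B := by
  obtain ⟨-, L, hL⟩ := id hu
  refine ⟨(L : ℝ) ^ 2, ?_⟩
  filter_upwards [GF.wg_lip L u hL, wg_nonneg H (sobLoc_of_lipschitz H hL)] with x h1 h2
  rw [abs_of_nonneg (wsq_nonneg u x)]
  exact pow_le_pow_left₀ h2 h1 2

/-- D1 with `φ` a compactly supported test function: integrate the left side by parts. -/
theorem D1' (H : Hyp m k N) (C : Calc m) (GF : GFacts m k) {F G : X → ℝ} (hF : BddLip F)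
    (hGc : Continuous G) {B : ℝ} (hGB : ∀ x, |G x| ≤ B) (hH : HasWeakHessLe m F G) {ε : ℝ}
    (hε : 0 < ε) {u g φ ψ : X → ℝ} (hu : Test2 m u g) (huc : HasCompactSupport u)
    (hgb : ∃ B : ℝ, ∀ᵐ x ∂m, |g x| ≤ B)
    (hφ : Test2 m φ ψ) (hφc : HasCompactSupport φ) (hφ0 : ∀ x, 0 ≤ φ x) :
    0 ≤ D2form m k F G ε u g φ ψ := by
  have h1 := D1 H C GF hF hGc hGB hH hε hu huc hgb hφ.bl hφc hφ0
  set V : X → ℝ := fun x => F x / ε with hVdef
  have hVeq : V = fun x => ε⁻¹ * F x := by funext x; simp only [hVdef]; field_simp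
  have hV : BddLip V := by rw [hVeq]; exact hF.const_mul _
  have hE : BddLip (fun x => Real.exp (V x)) := hV.dExp
  have hFloc := hF.dSobLoc H
  have hVloc := hV.dSobLoc H
  have hEloc := hE.dSobLoc H
  have hwS : IsSobolev m (wsq m u) := GF.g5_sob u g hu
  have hwloc := sobLoc_sob hwS
  have hφS := hφ.lap.1
  have hφloc := sobLoc_sob hφS
  have hwb := wsq_bdd_of_lip H GF hu.bl
  have hEw : IsSobolev m (fun x => wsq m u x * Real.exp (V x)) := sob_mul_lip H hwS hE hwb
  have h2 := hφ.lap.2.2 _ hEw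
  have A : ∀ᵐ x ∂m, gradPairing m φ (fun x => wsq m u x * Real.exp (V x)) x =
      Real.exp (V x) * gradPairing m (wsq m u) φ x +
        Real.exp (V x) * (wsq m u x * gradPairing m F φ x) / ε := by
    have e1 := gp_mul_right H hφloc hwloc hEloc (locBdd_of_bdd hwb) (locBdd_of_bdd hE.dAeBdd)
    have e2 := gp_comp_right H Real.contDiff_exp hφloc hVloc (locBdd_of_bdd hV.dAeBdd)
    have e3 := gp_smul_right H ε⁻¹ hφloc hFloc
    have e4 := gp_comm H hφloc hFloc
    have e5 := gp_comm H hφloc hwloc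
    rw [← hVeq] at e3
    filter_upwards [e1, e2, e3, e4, e5] with x h1 h2 h3 h4 h5
    simp only [Real.deriv_exp] at h1 h2 ⊢
    rw [h1, h2, h3, h4, h5]
    field_simp
    ring
  obtain ⟨-, LF, hLF⟩ := id hF
  have hEm : AEStronglyMeasurable (fun x => Real.exp (V x)) m :=
    hE.2.choose_spec.continuous.aestronglyMeasurable
  have mFφ : MemLp (gradPairing m F φ) 2 m := memLp_gp_lip H GF hLF hφS
  have mw : MemLp (wsq m u) 2 m := memLp_sob hwS
  have mψ : MemLp ψ 2 m := memLp_sob hφ.sob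
  have i1 : Integrable (fun x => Real.exp (V x) * gradPairing m (wsq m u) φ x) m :=
    int_bdd_mul hEm hE.dAeBdd (integrable_gp H hwS hφS)
  have i2 : Integrable (fun x => Real.exp (V x) * (wsq m u x * gradPairing m F φ x)) m :=
    int_bdd_mul hEm hE.dAeBdd (int_mul_L2 mw mFφ)
  have i3 : Integrable (fun x => Real.exp (V x) * (wsq m u x * ψ x)) m :=
    int_bdd_mul hEm hE.dAeBdd (int_mul_L2 mw mψ)
  have h3 : ∫ x, Real.exp (V x) * gradPairing m (wsq m u) φ x ∂m +
      (∫ x, Real.exp (V x) * (wsq m u x * gradPairing m F φ x) ∂m) / ε =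
      -∫ x, Real.exp (V x) * (wsq m u x * ψ x) ∂m := by
    rw [integral_congr_ae A, integral_add i1 (i2.div_const ε), integral_div] at h2
    rw [h2]
    congr 1
    refine integral_congr_ae (Eventually.of_forall fun x => ?_)
    show ψ x * (wsq m u x * Real.exp (V x)) = Real.exp (V x) * (wsq m u x * ψ x)
    ring
  have h4 : ∫ x, Real.exp (V x) * (wsq m u x * (ε * ψ x + gradPairing m F φ x)) ∂m =
      ε * ∫ x, Real.exp (V x) * (wsq m u x * ψ x) ∂m +
      ∫ x, Real.exp (V x) * (wsq m u x * gradPairing m F φ x) ∂m := by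
    rw [← integral_const_mul, ← integral_add (i3.const_mul ε) i2]
    congr 1; funext x; ring
  have h5 : ∫ x, Real.exp (V x) * gradPairing m (wsq m u) φ x ∂m =
      -(∫ x, Real.exp (V x) * (wsq m u x * (ε * ψ x + gradPairing m F φ x)) ∂m) / ε := by
    rw [h4]
    field_simp
    field_simp at h3
    linarith
  unfold D2form
  change ε / 2 * ∫ x, Real.exp (V x) * gradPairing m (wsq m u) φ x ∂m ≤ _ at h1
  rw [h5] at h1
  have h6 : ε / 2 * (-(∫ x, Real.exp (V x) * (wsq m u x * (ε * ψ x + gradPairing m F φ x)) ∂m) / ε) =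
      -(1 / 2 * ∫ x, Real.exp (V x) * (wsq m u x * (ε * ψ x + gradPairing m F φ x)) ∂m) := by
    field_simp
  rw [h6] at h1
  change 0 ≤ 1 / 2 * ∫ x, Real.exp (V x) * (wsq m u x * (ε * ψ x + gradPairing m F φ x)) ∂m + _ + _
  linarith

/-- D2. -/
theorem D2 (H : Hyp m k N) (C : Calc m) (GF : GFacts m k) {F G : X → ℝ} (hF : BddLip F)
    (hGc : Continuous G) {B : ℝ} (hGB : ∀ x, |G x| ≤ B) (hH : HasWeakHessLe m F G) {ε : ℝ}
    (hε : 0 < ε) {u g φ ψ : X → ℝ} (hu : IsWeakLaplacian m u g)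
    {Bu : ℝ} (hub : ∀ᵐ x ∂m, |u x| ≤ Bu) (hφ : IsWeakLaplacian m φ ψ)
    {Bφ : ℝ} (hφb : ∀ᵐ x ∂m, |φ x| ≤ Bφ) (hφ0 : 0 ≤ᵐ[m] φ) :
    0 ≤ D2form m k F G ε u g φ ψ := by
  obtain ⟨un, gn, h1, -, hu2, hg2, hw2, hw4⟩ := GF.g8 u g Bu hu hub
  obtain ⟨φn, ψn, h1', h0', hu2', hg2', hw2', hw4'⟩ := GF.g8 φ ψ Bφ hφ hφb
  have hpos : ∀ n, 0 ≤ D2form m k F G ε (un n) (gn n) (φn n) (ψn n) := fun n =>
    D1' H C GF hF hGc hGB hH hε (h1 n).1 (h1 n).2.1 (h1 n).2.2.1 (h1' n).1 (h1' n).2.1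
      (h0' hφ0 n)
  refine ge_of_tendsto' (?_ : Tendsto (fun n => D2form m k F G ε (un n) (gn n) (φn n) (ψn n))
    atTop (𝓝 _)) hpos
  -- notation
  set V : X → ℝ := fun x => F x / ε with hVdef
  have hVeq : V = fun x => ε⁻¹ * F x := by funext x; simp only [hVdef]; field_simp
  have hV : BddLip V := by rw [hVeq]; exact hF.const_mul _
  have hE : BddLip (fun x => Real.exp (V x)) := hV.dExp
  have hEm : AEStronglyMeasurable (fun x => Real.exp (V x)) m :=
    hE.2.choose_spec.continuous.aestronglyMeasurable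
  obtain ⟨BE, hBE⟩ := hE.1
  obtain ⟨-, LF, hLF⟩ := id hF
  have Sun : ∀ n, IsSobolev m (un n) := fun n => (h1 n).1.lap.1
  have Sφn : ∀ n, IsSobolev m (φn n) := fun n => (h1' n).1.lap.1
  have Su := hu.1
  have Sφ := hφ.1
  have mgn : ∀ n, MemLp (gn n) 2 m := fun n => (h1 n).1.lap.2.1
  have mψn : ∀ n, MemLp (ψn n) 2 m := fun n => (h1' n).1.lap.2.1
  have mg := hu.2.1
  have mψ := hφ.2.1
  have w4 : MemLp (minWeakGrad m u) 4 m := GF.g6 u g hu ⟨Bu, hub⟩
  have w4' : MemLp (minWeakGrad m φ) 4 m := GF.g6 φ ψ hφ ⟨Bφ, hφb⟩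
  have w4n : ∀ n, MemLp (minWeakGrad m (un n)) 4 m := fun n =>
    GF.g6 _ _ (h1 n).1.lap ⟨Bu, Eventually.of_forall (h1 n).2.2.2⟩
  have w4n' : ∀ n, MemLp (minWeakGrad m (φn n)) 4 m := fun n =>
    GF.g6 _ _ (h1' n).1.lap ⟨Bφ, Eventually.of_forall (h1' n).2.2.2⟩
  -- `L²` facts
  have memw : ∀ {v : X → ℝ}, MemLp (minWeakGrad m v) 4 m → MemLp (wsq m v) 2 m := by
    intro v hv
    have := hv.mul hv (r := 2)
    refine this.ae_eq (Eventually.of_forall fun x => ?_)
    show minWeakGrad m v x * minWeakGrad m v x = minWeakGrad m v x ^ 2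
    ring
  have memgp : ∀ {v w : X → ℝ}, IsSobolev m v → IsSobolev m w → MemLp (minWeakGrad m v) 4 m →
      MemLp (minWeakGrad m w) 4 m → MemLp (gradPairing m v w) 2 m := by
    intro v w sv sw hv hw
    have := hw.mul hv (r := 2)
    refine MemLp.mono this (aesm_gp H (sobLoc_sob sv) (sobLoc_sob sw)) ?_
    filter_upwards [gp_abs_le H (sobLoc_sob sv) (sobLoc_sob sw)] with x hx
    rw [Real.norm_eq_abs]
    exact hx.trans (le_abs_self _)
  have memL : ∀ {v l : X → ℝ}, IsSobolev m v → MemLp l 2 m →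
      MemLp (fun x => ε * l x + gradPairing m F v x) 2 m := fun sv hl =>
    (hl.const_mul ε).add (memLp_gp_lip H GF hLF sv)
  -- convergences
  have cw : LpTo m 2 (fun n => wsq m (un n)) (wsq m u) :=
    LpTo_wsq H (p := 4) one_le_two Sun Su w4 hw4
  have cw1 : LpTo m 1 (fun n => wsq m (un n)) (wsq m u) :=
    LpTo_wsq H (p := 2) le_rfl Sun Su (memLp_wg Su) hw2
  have cgp : LpTo m 2 (fun n => gradPairing m (φn n) (un n)) (gradPairing m φ u) :=
    LpTo_gp H (p := 4) one_le_two Sφn Sun Sφ Su w4' w4 hw4' hw4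
  have cLu : LpTo m 2 (fun n x => ε * gn n x + gradPairing m F (un n) x)
      (fun x => ε * g x + gradPairing m F u x) := LpTo_gen H GF hF ε Sun Su mgn mg hg2 hw2
  have cLφ : LpTo m 2 (fun n x => ε * ψn n x + gradPairing m F (φn n) x)
      (fun x => ε * ψ x + gradPairing m F φ x) := LpTo_gen H GF hF ε Sφn Sφ mψn mψ hg2' hw2'
  have hbE : ∀ᵐ x ∂m, |Real.exp (V x)| ≤ BE := Eventually.of_forall hBE
  -- T1
  have T1 : Tendsto (fun n => ∫ x, Real.exp (V x) * (wsq m (un n) x *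
      (ε * ψn n x + gradPairing m F (φn n) x)) ∂m) atTop
      (𝓝 (∫ x, Real.exp (V x) * (wsq m u x * (ε * ψ x + gradPairing m F φ x)) ∂m)) := by
    have c1 := LpTo.mul (p := 2) (q := 2) (r := 1) le_rfl (fun n => (memw (w4n n)).1) (memw w4)
      (fun n => (memL (Sφn n) (mψn n)).1) (memL Sφ mψ) cw cLφ
    have c2 := LpTo.bdd_mul hbE c1
    refine c2.tendsto_integral (fun n => ?_) ?_
    · exact int_bdd_mul hEm hE.dAeBdd (int_mul_L2 (memw (w4n n)) (memL (Sφn n) (mψn n)))
    · exact int_bdd_mul hEm hE.dAeBdd (int_mul_L2 (memw w4) (memL Sφ mψ))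
  -- T2
  have T2a : Tendsto (fun n => ∫ x, Real.exp (V x) * (gradPairing m (φn n) (un n) x *
      (ε * gn n x + gradPairing m F (un n) x)) ∂m) atTop
      (𝓝 (∫ x, Real.exp (V x) * (gradPairing m φ u x * (ε * g x + gradPairing m F u x)) ∂m)) := by
    have c1 := LpTo.mul (p := 2) (q := 2) (r := 1) le_rfl
      (fun n => (memgp (Sφn n) (Sun n) (w4n' n) (w4n n)).1) (memgp Sφ Su w4' w4)
      (fun n => (memL (Sun n) (mgn n)).1) (memL Su mg) cgp cLu
    have c2 := LpTo.bdd_mul hbE c1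
    refine c2.tendsto_integral (fun n => ?_) ?_
    · exact int_bdd_mul hEm hE.dAeBdd
        (int_mul_L2 (memgp (Sφn n) (Sun n) (w4n' n) (w4n n)) (memL (Sun n) (mgn n)))
    · exact int_bdd_mul hEm hE.dAeBdd (int_mul_L2 (memgp Sφ Su w4' w4) (memL Su mg))
  have hbφn : ∀ n, ∀ᵐ x ∂m, |φn n x| ≤ Bφ := fun n => Eventually.of_forall (h1' n).2.2.2
  have T2b : Tendsto (fun n => ∫ x, Real.exp (V x) * ((ε * gn n x + gradPairing m F (un n) x) *
      (ε * gn n x + gradPairing m F (un n) x)) * φn n x ∂m) atTop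
      (𝓝 (∫ x, Real.exp (V x) * ((ε * g x + gradPairing m F u x) *
        (ε * g x + gradPairing m F u x)) * φ x ∂m)) := by
    have c1 := LpTo.mul (p := 2) (q := 2) (r := 1) le_rfl
      (fun n => (memL (Sun n) (mgn n)).1) (memL Su mg)
      (fun n => (memL (Sun n) (mgn n)).1) (memL Su mg) cLu cLu
    have c2 := LpTo.bdd_mul hbE c1
    exact tendsto_integral_L1_mul_bdd' (fun n => int_bdd_mul hEm hE.dAeBdd
        (int_mul_L2 (memL (Sun n) (mgn n)) (memL (Sun n) (mgn n))))
      (int_bdd_mul hEm hE.dAeBdd (int_mul_L2 (memL Su mg) (memL Su mg)))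
      (fun n => (memLp_sob (Sφn n)).1) (memLp_sob Sφ).1 hbφn c2 two_ne_zero hu2'
  -- T3
  have hEG : ∃ B' : ℝ, ∀ᵐ x ∂m, |Real.exp (V x) * (ε * k + G x)| ≤ B' := by
    refine ⟨BE * (|ε * k| + B), Eventually.of_forall fun x => ?_⟩
    rw [abs_mul]
    refine mul_le_mul (hBE x) ((abs_add_le _ _).trans ?_) (abs_nonneg _)
      ((abs_nonneg _).trans (hBE x))
    exact add_le_add le_rfl (hGB x)
  have hEGm : AEStronglyMeasurable (fun x => Real.exp (V x) * (ε * k + G x)) m :=
    hEm.mul (aestronglyMeasurable_const.add hGc.aestronglyMeasurable)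
  have T3 : Tendsto (fun n => ∫ x, Real.exp (V x) * (ε * k + G x) * wsq m (un n) x * φn n x ∂m)
      atTop (𝓝 (∫ x, Real.exp (V x) * (ε * k + G x) * wsq m u x * φ x ∂m)) := by
    obtain ⟨B', hB'⟩ := hEG
    have c2 := LpTo.bdd_mul hB' cw1
    exact tendsto_integral_L1_mul_bdd' (fun n => int_bdd_mul hEGm ⟨B', hB'⟩
        (integrable_wg_sq H (Sun n)))
      (int_bdd_mul hEGm ⟨B', hB'⟩ (integrable_wg_sq H Su))
      (fun n => (memLp_sob (Sφn n)).1) (memLp_sob Sφ).1 hbφn c2 two_ne_zero hu2'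
  -- integrability for splitting T2
  have split : ∀ {v l ξ : X → ℝ}, IsSobolev m v → MemLp l 2 m → IsSobolev m ξ →
      MemLp (minWeakGrad m v) 4 m → MemLp (minWeakGrad m ξ) 4 m →
      (∀ᵐ x ∂m, |ξ x| ≤ Bφ) →
      ∫ x, Real.exp (V x) * ((gradPairing m ξ v x + ξ x * (ε * l x + gradPairing m F v x) / ε) *
        (ε * l x + gradPairing m F v x)) ∂m =
      ∫ x, Real.exp (V x) * (gradPairing m ξ v x * (ε * l x + gradPairing m F v x)) ∂m +
      ε⁻¹ * ∫ x, Real.exp (V x) * ((ε * l x + gradPairing m F v x) *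
        (ε * l x + gradPairing m F v x)) * ξ x ∂m := by
    intro v l ξ sv ml sξ wv wξ hξ
    rw [← integral_const_mul, ← integral_add]
    · congr 1; funext x; field_simp
    · exact int_bdd_mul hEm hE.dAeBdd (int_mul_L2 (memgp sξ sv wξ wv) (memL sv ml))
    · refine Integrable.const_mul ?_ _
      refine (int_bdd_mul hEm hE.dAeBdd (int_mul_L2 (memL sv ml) (memL sv ml))).mul_bdd
        (c := Bφ) (memLp_sob sξ).1 ?_
      simpa using hξ
  unfold D2form
  have e0 : ∀ n, ∫ x, Real.exp (V x) * ((ε * k + G x) * (wsq m (un n) x * φn n x)) ∂m =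
      ∫ x, Real.exp (V x) * (ε * k + G x) * wsq m (un n) x * φn n x ∂m := by
    intro n; congr 1; funext x; ring
  have e0' : ∫ x, Real.exp (V x) * ((ε * k + G x) * (wsq m u x * φ x)) ∂m =
      ∫ x, Real.exp (V x) * (ε * k + G x) * wsq m u x * φ x ∂m := by
    congr 1; funext x; ring
  refine ((T1.const_mul (1 / 2)).add ?_).add ?_
  · have e1 := split Su mg Sφ w4 w4' hφb
    change Tendsto _ _ (𝓝 (∫ x, Real.exp (V x) * ((gradPairing m φ u x +
      φ x * (ε * g x + gradPairing m F u x) / ε) * (ε * g x + gradPairing m F u x)) ∂m))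
    rw [e1]
    refine Tendsto.congr (fun n => (split (Sun n) (mgn n) (Sφn n) (w4n n) (w4n' n)
      (hbφn n)).symm) ?_
    exact T2a.add (T2b.const_mul _)
  · change Tendsto _ _ (𝓝 (∫ x, Real.exp (V x) * ((ε * k + G x) * (wsq m u x * φ x)) ∂m))
    rw [e0']
    exact T3.congr (fun n => (e0 n).symm)

/-! ### the one-step inequality -/

theorem int_mul_bdd' {a b : X → ℝ} (ha : Integrable a m) (hb : AEStronglyMeasurable b m)
    (hbb : ∃ B : ℝ, ∀ᵐ x ∂m, |b x| ≤ B) : Integrable (fun x => a x * b x) m := by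
  obtain ⟨B, hB⟩ := hbb
  exact ha.mul_bdd (c := B) hb (by simpa using hB)

/-- generator of the drifted resolvent. -/
theorem Jr_drift (H : Hyp m k N) (C : Calc m) (GF : GFacts m k) {F : X → ℝ} (hF : BddLip F)
    {ε h : ℝ} (hε : 0 < ε) (hh : 0 < h) {z : X → ℝ} (hz : MemLp z 2 m) :
    ∃ g : X → ℝ, IsWeakLaplacian m (Jr m (fun x => F x / ε) (ε * h) z) g ∧
      ∀ᵐ x ∂m, ε * g x + gradPairing m F (Jr m (fun x => F x / ε) (ε * h) z) x =
        (Jr m (fun x => F x / ε) (ε * h) z x - z x) / h := by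
  set V : X → ℝ := fun x => F x / ε with hVdef
  have hVeq : V = fun x => ε⁻¹ * F x := by funext x; simp only [hVdef]; field_simp
  have hV : BddLip V := by rw [hVeq]; exact hF.const_mul _
  have hεh : 0 < ε * h := mul_pos hε hh
  have h1 := C.Jr_isWLap hV.dBddM hεh hz
  refine ⟨_, GF.lapV V _ _ hV h1, ?_⟩
  have hFloc := hF.dSobLoc H
  have e3 := gp_smul_left H ε⁻¹ hFloc (sobLoc_sob h1.1)
  rw [← hVeq] at e3
  filter_upwards [e3] with x hx
  rw [hx]
  field_simp
  ring

theorem D_oneStep (H : Hyp m k N) (C : Calc m) (GF : GFacts m k) {F G : X → ℝ} (hF : BddLip F)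
    (hGc : Continuous G) {B : ℝ} (hGB : ∀ x, |G x| ≤ B) (hH : HasWeakHessLe m F G) {ε h : ℝ}
    (hε : 0 < ε) (hh : 0 < h) {z φ : X → ℝ} (hz : IsSobolev m z)
    (hzb : ∃ C : ℝ, ∀ᵐ x ∂m, |z x| ≤ C) (hφ : MemLp φ 2 m)
    (hφb : ∃ C : ℝ, ∀ᵐ x ∂m, |φ x| ≤ C) (hφ0 : 0 ≤ᵐ[m] φ) :
    Integrable (fun x => minWeakGrad m (Jr m (fun x => F x / ε) (ε * h) z) x ^ 2 * φ x)
        (wm m (fun x => F x / ε)) ∧
    Integrable (fun x => minWeakGrad m z x ^ 2 * Jr m (fun x => F x / ε) (ε * h) φ x)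
        (wm m (fun x => F x / ε)) ∧
    Integrable (fun x => (ε * k + G x) *
        (minWeakGrad m (Jr m (fun x => F x / ε) (ε * h) z) x ^ 2 *
          Jr m (fun x => F x / ε) (ε * h) φ x)) (wm m (fun x => F x / ε)) ∧
    ∫ x, minWeakGrad m (Jr m (fun x => F x / ε) (ε * h) z) x ^ 2 * φ x
        ∂(wm m (fun x => F x / ε)) ≤
      ∫ x, minWeakGrad m z x ^ 2 * Jr m (fun x => F x / ε) (ε * h) φ x
        ∂(wm m (fun x => F x / ε)) +
      2 * h * ∫ x, (ε * k + G x) *
        (minWeakGrad m (Jr m (fun x => F x / ε) (ε * h) z) x ^ 2 *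
          Jr m (fun x => F x / ε) (ε * h) φ x) ∂(wm m (fun x => F x / ε)) := by
  obtain ⟨g, hg, hgL⟩ := Jr_drift H C GF hF hε hh (memLp_sob hz)
  obtain ⟨q, hq, hqL⟩ := Jr_drift H C GF hF hε hh hφ
  set V : X → ℝ := fun x => F x / ε with hVdef
  have hVeq : V = fun x => ε⁻¹ * F x := by funext x; simp only [hVdef]; field_simp
  have hV : BddLip V := by rw [hVeq]; exact hF.const_mul _
  have hE : BddLip (fun x => Real.exp (V x)) := hV.dExp
  have hEm : AEStronglyMeasurable (fun x => Real.exp (V x)) m :=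
    hE.2.choose_spec.continuous.aestronglyMeasurable
  have hεh : 0 < ε * h := mul_pos hε hh
  set u : X → ℝ := Jr m V (ε * h) z with hudef
  set ψ : X → ℝ := Jr m V (ε * h) φ with hψdef
  obtain ⟨Cz, hCz⟩ := id hzb
  obtain ⟨Cφ, hCφ⟩ := id hφb
  have hub : ∀ᵐ x ∂m, |u x| ≤ Cz := C.Jr_abs_le_const hV.dBddM hεh (memLp_sob hz) hCz
  have hψb : ∀ᵐ x ∂m, |ψ x| ≤ Cφ := C.Jr_abs_le_const hV.dBddM hεh hφ hCφ
  have hψ0 : 0 ≤ᵐ[m] ψ := C.Jr_nonneg hV.dBddM hεh hφ hφ0
  have Su : IsSobolev m u := hg.1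
  have Sψ : IsSobolev m ψ := hq.1
  -- `ℓ = L u = (u - z)/h`
  set l : X → ℝ := fun x => h⁻¹ * (u x - z x) with hldef
  have Sl : IsSobolev m l := sob_smul H _ (sob_sub H Su hz)
  have hlb : ∃ B : ℝ, ∀ᵐ x ∂m, |l x| ≤ B := by
    refine ⟨h⁻¹ * (Cz + Cz), ?_⟩
    filter_upwards [hub, hCz] with x h1 h2
    rw [hldef]
    simp only
    rw [abs_mul, abs_of_pos (inv_pos.mpr hh)]
    exact mul_le_mul_of_nonneg_left ((abs_sub _ _).trans (add_le_add h1 h2))
      (inv_pos.mpr hh).le
  set lp : X → ℝ := fun x => h⁻¹ * (ψ x - φ x) with hlpdef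
  have hlpb : ∃ B : ℝ, ∀ᵐ x ∂m, |lp x| ≤ B := by
    refine ⟨h⁻¹ * (Cφ + Cφ), ?_⟩
    filter_upwards [hψb, hCφ] with x h1 h2
    rw [hlpdef]
    simp only
    rw [abs_mul, abs_of_pos (inv_pos.mpr hh)]
    exact mul_le_mul_of_nonneg_left ((abs_sub _ _).trans (add_le_add h1 h2))
      (inv_pos.mpr hh).le
  have hlpm : AEStronglyMeasurable lp m := ((memLp_sob Sψ).1.sub hφ.1).const_mul _
  have hlm : AEStronglyMeasurable l m := (memLp_sob Sl).1
  have hgl : ∀ᵐ x ∂m, ε * g x + gradPairing m F u x = l x := by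
    filter_upwards [hgL] with x hx
    rw [hx, hldef]; simp only; field_simp
  have hql : ∀ᵐ x ∂m, ε * q x + gradPairing m F ψ x = lp x := by
    filter_upwards [hqL] with x hx
    rw [hx, hlpdef]; simp only; field_simp
  have hul := sobLoc_sob Su
  have hll := sobLoc_sob Sl
  have hψl := sobLoc_sob Sψ
  have hzl := sobLoc_sob hz
  -- integrability
  have hψB : ∃ B : ℝ, ∀ᵐ x ∂m, |ψ x| ≤ B := ⟨Cφ, hψb⟩
  have hψm : AEStronglyMeasurable ψ m := (memLp_sob Sψ).1
  have hw : Integrable (wsq m u) m := integrable_wg_sq H Su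
  have hwz : Integrable (wsq m z) m := integrable_wg_sq H hz
  have hwl : Integrable (wsq m l) m := integrable_wg_sq H Sl
  have i1 : Integrable (fun x => wsq m u x * ψ x) m := int_mul_bdd' hw hψm hψB
  have i2 : Integrable (fun x => wsq m u x * lp x) m := int_mul_bdd' hw hlpm hlpb
  have i3 : Integrable (fun x => gradPairing m u l x * ψ x) m :=
    int_mul_bdd' (integrable_gp H Su Sl) hψm hψB
  have i4 : Integrable (fun x => gradPairing m ψ u x * l x) m :=
    int_mul_bdd' (integrable_gp H Sψ Su) hlm hlb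
  have i5 : Integrable (fun x => ψ x * (l x * l x)) m :=
    int_bdd_mul hψm hψB (int_mul_L2 (memLp_sob Sl) (memLp_sob Sl))
  have i6 : Integrable (fun x => wsq m z x * ψ x) m := int_mul_bdd' hwz hψm hψB
  have i7 : Integrable (fun x => wsq m u x * φ x) m := int_mul_bdd' hw hφ.1 hφb
  have hGae : ∃ B' : ℝ, ∀ᵐ x ∂m, |ε * k + G x| ≤ B' :=
    ⟨|ε * k| + B, Eventually.of_forall fun x => (abs_add_le _ _).trans (add_le_add le_rfl (hGB x))⟩
  have hGm : AEStronglyMeasurable (fun x => ε * k + G x) m :=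
    aestronglyMeasurable_const.add hGc.aestronglyMeasurable
  have i8 : Integrable (fun x => (ε * k + G x) * (wsq m u x * ψ x)) m := int_bdd_mul hGm hGae i1
  have mE : ∀ {f : X → ℝ}, Integrable f m → Integrable (fun x => Real.exp (V x) * f x) m :=
    fun hf => int_bdd_mul hEm hE.dAeBdd hf
  -- D2
  have hD2 := D2 H C GF hF hGc hGB hH hε hg hub hq hψb hψ0
  have hD2' : 0 ≤ 1 / 2 * ∫ x, Real.exp (V x) * (wsq m u x * lp x) ∂m +
      (∫ x, Real.exp (V x) * (gradPairing m ψ u x * l x) ∂m +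
        ε⁻¹ * ∫ x, Real.exp (V x) * (ψ x * (l x * l x)) ∂m) +
      ∫ x, Real.exp (V x) * ((ε * k + G x) * (wsq m u x * ψ x)) ∂m := by
    unfold D2form at hD2
    have e1 : ∫ x, Real.exp (F x / ε) * (wsq m u x * (ε * q x + gradPairing m F ψ x)) ∂m =
        ∫ x, Real.exp (V x) * (wsq m u x * lp x) ∂m := by
      refine integral_congr_ae ?_
      filter_upwards [hql] with x hx
      rw [hx]
    have e2 : ∫ x, Real.exp (F x / ε) * ((gradPairing m ψ u x +
          ψ x * (ε * g x + gradPairing m F u x) / ε) * (ε * g x + gradPairing m F u x)) ∂m =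
        ∫ x, Real.exp (V x) * (gradPairing m ψ u x * l x) ∂m +
        ε⁻¹ * ∫ x, Real.exp (V x) * (ψ x * (l x * l x)) ∂m := by
      rw [← integral_const_mul, ← integral_add (mE i4) ((mE i5).const_mul _)]
      refine integral_congr_ae ?_
      filter_upwards [hgl] with x hx
      have hVx : F x / ε = V x := rfl
      rw [hx, hVx]
      ring
    rw [e1, e2] at hD2
    exact hD2
  -- integration by parts
  have hprod : IsSobolev m (fun x => ψ x * l x) := sob_mul H Sψ Sl hψB hlb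
  have hW := C.Jr_isWLap hV.dBddM hεh (memLp_sob hz)
  have hI := hW.2.2 _ hprod
  rw [integral_wm hV.dBddM, integral_wm hV.dBddM] at hI
  have eI1 : ∫ x, Real.exp (V x) * gradPairing m (Jr m V (ε * h) z) (fun x => ψ x * l x) x ∂m =
      ∫ x, Real.exp (V x) * (gradPairing m u l x * ψ x) ∂m +
      ∫ x, Real.exp (V x) * (gradPairing m ψ u x * l x) ∂m := by
    rw [← integral_add (mE i3) (mE i4)]
    refine integral_congr_ae ?_
    filter_upwards [gp_mul_right H hul hψl hll (locBdd_of_bdd hψB) (locBdd_of_bdd hlb),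
      gp_comm H hψl hul] with x h1 h2
    rw [← hudef, h1, h2]
    ring
  have eI2 : ∫ x, Real.exp (V x) * ((Jr m V (ε * h) z x - z x) / (ε * h) * (ψ x * l x)) ∂m =
      ε⁻¹ * ∫ x, Real.exp (V x) * (ψ x * (l x * l x)) ∂m := by
    rw [← integral_const_mul]
    congr 1; funext x
    rw [← hudef, hldef]
    simp only
    field_simp
  rw [eI1, eI2] at hI
  -- the pointwise inequality
  have hzw : ∫ x, Real.exp (V x) * (wsq m u x * ψ x) ∂m -
      2 * h * ∫ x, Real.exp (V x) * (gradPairing m u l x * ψ x) ∂m ≤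
      ∫ x, Real.exp (V x) * (wsq m z x * ψ x) ∂m := by
    rw [← integral_const_mul, ← integral_sub (mE i1) ((mE i3).const_mul _)]
    refine integral_mono_ae ((mE i1).sub ((mE i3).const_mul _)) (mE i6) ?_
    have sm := sobLoc_smul H h hll
    have hzeq : (fun x => u x - h * l x) =ᵐ[m] z := Eventually.of_forall fun x => by
      show u x - h * l x = z x
      rw [hldef]; simp only; field_simp; ring
    have e0 := gp_self H (sobLoc_sub H hul sm)
    have e1 := gp_congr H (sobLoc_sub H hul sm) (sobLoc_sub H hul sm) hzeq hzeq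
    have e2 := gp_self H hzl
    have e3 := wg_sub_sq H hul sm
    have e4 := gp_smul_right H h hul hll
    filter_upwards [e0, e1, e2, e3, e4, hψ0] with x x0 x1 x2 x3 x4 x5
    have hx5 : 0 ≤ ψ x := x5
    have h6 : wsq m z x = wsq m u x - 2 * (h * gradPairing m u l x) +
        minWeakGrad m (fun x => h * l x) x ^ 2 := by
      unfold wsq
      rw [← x2, ← x1, x0, x3, x4]
    have h7 : wsq m u x - 2 * h * gradPairing m u l x ≤ wsq m z x := by
      rw [h6]
      nlinarith [sq_nonneg (minWeakGrad m (fun x => h * l x) x)]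
    show Real.exp (V x) * (wsq m u x * ψ x) - 2 * h * (Real.exp (V x) *
      (gradPairing m u l x * ψ x)) ≤ Real.exp (V x) * (wsq m z x * ψ x)
    have h8 := mul_le_mul_of_nonneg_left h7 (mul_nonneg (Real.exp_pos (V x)).le hx5)
    nlinarith [h8]
  have hφw : ∫ x, Real.exp (V x) * (wsq m u x * φ x) ∂m =
      ∫ x, Real.exp (V x) * (wsq m u x * ψ x) ∂m -
      h * ∫ x, Real.exp (V x) * (wsq m u x * lp x) ∂m := by
    rw [← integral_const_mul, ← integral_sub (mE i1) ((mE i2).const_mul _)]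
    congr 1; funext x
    rw [hlpdef]
    simp only
    field_simp
    ring
  refine ⟨(integrable_wm_iff hV.dBddM _).mpr i7, (integrable_wm_iff hV.dBddM _).mpr i6,
    (integrable_wm_iff hV.dBddM _).mpr i8, ?_⟩
  rw [integral_wm hV.dBddM, integral_wm hV.dBddM, integral_wm hV.dBddM]
  change ∫ x, Real.exp (V x) * (wsq m u x * φ x) ∂m ≤
    ∫ x, Real.exp (V x) * (wsq m z x * ψ x) ∂m +
    2 * h * ∫ x, Real.exp (V x) * ((ε * k + G x) * (wsq m u x * ψ x)) ∂m
  rw [hφw]
  set a1 := ∫ x, Real.exp (V x) * (wsq m u x * ψ x) ∂m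
  set a2 := ∫ x, Real.exp (V x) * (wsq m u x * lp x) ∂m
  set a3 := ∫ x, Real.exp (V x) * (gradPairing m u l x * ψ x) ∂m
  set a4 := ∫ x, Real.exp (V x) * (gradPairing m ψ u x * l x) ∂m
  set a5 := ε⁻¹ * ∫ x, Real.exp (V x) * (ψ x * (l x * l x)) ∂m
  set a6 := ∫ x, Real.exp (V x) * (wsq m z x * ψ x) ∂m
  set a7 := ∫ x, Real.exp (V x) * ((ε * k + G x) * (wsq m u x * ψ x)) ∂m
  have h9 : 0 ≤ 1 / 2 * a2 - a3 + a7 := by linarith
  nlinarith [mul_nonneg hh.le h9]

end

end Crest.Agent.R242
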