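import Crest.Agent.R242.Res
import Crest.Agent.R242.ResW

-- ▼ part R242/DIterA
section

/-!
Row 242 (S0375), DIter, part A: `L²` toolkit, iterates of the resolvent, exponential formula
`P_t f = lim J_{t/n}^n f`.
-/

set_option autoImplicit false
set_option linter.unusedSectionVars false

open MeasureTheory Filter Set
open scoped ENNReal NNReal Topology
open Crest.GeometryTopology.SyntheticRicci

noncomputable section

namespace Crest.Agent.R242

/-! ### `L²` norm of functions -/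

section N2
variable {X : Type*} [MeasurableSpace X] {μ : Measure X} {f g : X → ℝ}

/-- the `L²` norm as a real number. -/
def n2 (μ : Measure X) (f : X → ℝ) : ℝ := (eLpNorm f 2 μ).toReal

theorem n2_nonneg : 0 ≤ n2 μ f := ENNReal.toReal_nonneg

theorem n2_congr (h : f =ᵐ[μ] g) : n2 μ f = n2 μ g := by
  unfold n2; rw [eLpNorm_congr_ae h]

theorem n2_eq (hf : MemLp f 2 μ) : n2 μ f = ‖hf.toLp f‖ := (Lp.norm_toLp f hf).symm

theorem n2_cs_eq (hf : MemLp f 2 μ) (hg : MemLp g 2 μ) :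
    ∫ x, f x * g x ∂μ = inner ℝ (hf.toLp f) (hg.toLp g) := by
  rw [L2.inner_def]
  refine integral_congr_ae ?_
  filter_upwards [hf.coeFn_toLp, hg.coeFn_toLp] with x h1 h2
  rw [h1, h2]
  simp [mul_comm]

theorem n2_sq (hf : MemLp f 2 μ) : n2 μ f ^ 2 = ∫ x, f x ^ 2 ∂μ := by
  have h := n2_cs_eq hf hf
  rw [real_inner_self_eq_norm_sq, ← n2_eq hf] at h
  rw [← h]
  exact integral_congr_ae (Eventually.of_forall fun x => by simp [sq])

theorem n2_cs (hf : MemLp f 2 μ) (hg : MemLp g 2 μ) :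
    |∫ x, f x * g x ∂μ| ≤ n2 μ f * n2 μ g := by
  rw [n2_cs_eq hf hg, n2_eq hf, n2_eq hg]
  exact abs_real_inner_le_norm _ _

theorem n2_add_le (hf : MemLp f 2 μ) (hg : MemLp g 2 μ) :
    n2 μ (fun x => f x + g x) ≤ n2 μ f + n2 μ g := by
  have h1 := hf.add hg
  have h2 : n2 μ (fun x => f x + g x) = ‖h1.toLp (f + g)‖ := n2_eq h1
  rw [h2, n2_eq hf, n2_eq hg, MemLp.toLp_add hf hg]
  exact norm_add_le _ _

theorem n2_sub_le (hf : MemLp f 2 μ) (hg : MemLp g 2 μ) :
    n2 μ (fun x => f x - g x) ≤ n2 μ f + n2 μ g := by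
  have h1 := hf.sub hg
  have h2 : n2 μ (fun x => f x - g x) = ‖h1.toLp (f - g)‖ := n2_eq h1
  rw [h2, n2_eq hf, n2_eq hg, MemLp.toLp_sub hf hg]
  exact norm_sub_le _ _

theorem n2_smul (c : ℝ) (hf : MemLp f 2 μ) : n2 μ (fun x => c * f x) = |c| * n2 μ f := by
  have h1 := hf.const_smul c
  have h2 : n2 μ (fun x => c * f x) = ‖h1.toLp (c • f)‖ := n2_eq h1
  rw [h2, n2_eq hf, MemLp.toLp_const_smul c hf, norm_smul, Real.norm_eq_abs]

theorem n2_le_of_sq_le {C : ℝ} (hf : MemLp f 2 μ) (hC : 0 ≤ C) (h : ∫ x, f x ^ 2 ∂μ ≤ C ^ 2) :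
    n2 μ f ≤ C := by
  rw [← n2_sq hf] at h
  exact abs_le_of_sq_le_sq' h hC |>.2

theorem n2_le_of_dual {C : ℝ} (hf : MemLp f 2 μ) (h : ∫ x, f x * f x ∂μ ≤ C * n2 μ f) :
    n2 μ f ≤ max C 0 := by
  have h1 : ∫ x, f x * f x ∂μ = n2 μ f ^ 2 := by
    rw [n2_sq hf]; exact integral_congr_ae (Eventually.of_forall fun x => by simp [sq])
  rw [h1] at h
  rcases (n2_nonneg (μ := μ) (f := f)).eq_or_lt with h0 | h0
  · rw [← h0]; exact le_max_right _ _
  · have : n2 μ f ≤ C := by nlinarith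
    exact this.trans (le_max_left _ _)

/-- triangle inequality for differences. -/
theorem n2_sub_le_add {f g k : X → ℝ} (hf : MemLp f 2 μ) (hg : MemLp g 2 μ) (hk : MemLp k 2 μ) :
    n2 μ (fun x => f x - k x) ≤ n2 μ (fun x => f x - g x) + n2 μ (fun x => g x - k x) := by
  have h := n2_add_le (hf.sub hg) (hg.sub hk)
  have e : (fun x => (f - g) x + (g - k) x) = fun x => f x - k x := by
    funext x; simp
  rw [e] at h
  exact h

theorem n2_sub_comm (f g : X → ℝ) : n2 μ (fun x => f x - g x) = n2 μ (fun x => g x - f x) := by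
  unfold n2
  have : (fun x => f x - g x) = -(fun x => g x - f x) := by funext x; simp
  rw [this, eLpNorm_neg]

end N2

section Main

variable {X : Type*} [MetricSpace X] [ProperSpace X] [MeasurableSpace X] [BorelSpace X]
  {m : Measure X} [IsLocallyFiniteMeasure m] [m.IsOpenPosMeasure] {k N : ℝ}
  {V : X → ℝ} {h : ℝ} {f g u v : X → ℝ}

theorem di_mem (hV : BddLip V) : MemLp f 2 (wm m V) ↔ MemLp f 2 m := memLp_wm_iff hV.bddM f 2

theorem di_ae (hV : BddLip V) {p : X → Prop} : (∀ᵐ x ∂(wm m V), p x) ↔ ∀ᵐ x ∂m, p x := by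
  rw [Filter.Eventually, Filter.Eventually, ae_wm hV.bddM]

theorem di_aeeq (hV : BddLip V) (hfg : f =ᵐ[m] g) : f =ᵐ[wm m V] g := (di_ae hV).2 hfg

/-- contraction. -/
theorem di_n2_Jr (H : Hyp m k N) (hV : BddLip V) (hh : 0 < h) (hf : MemLp f 2 m) :
    n2 (wm m V) (Jr m V h f) ≤ n2 (wm m V) f := by
  refine n2_le_of_sq_le ((di_mem hV).2 (Jr_memLp H hV hh hf)) n2_nonneg ?_
  rw [n2_sq ((di_mem hV).2 hf)]
  have h1 := Jr_l2 H hV hh hf
  have h2 := En_nonneg H hV (Jr_sob H hV hh hf)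
  nlinarith [mul_nonneg hh.le h2]

theorem di_n2_Jr_sub (H : Hyp m k N) (hV : BddLip V) (hh : 0 < h) (hf : MemLp f 2 m)
    (hg : MemLp g 2 m) :
    n2 (wm m V) (fun x => Jr m V h f x - Jr m V h g x) ≤ n2 (wm m V) (fun x => f x - g x) := by
  have h1 := di_n2_Jr H hV hh (hf.sub hg)
  have h2 : Jr m V h (f - g) =ᵐ[wm m V] fun x => Jr m V h f x - Jr m V h g x :=
    di_aeeq hV (Jr_sub H hV hh hf hg)
  rw [n2_congr h2] at h1
  exact h1

/-! ### iterates -/

/-- iterated resolvent. -/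
def itJ (m : Measure X) (V : X → ℝ) (h : ℝ) (n : ℕ) (f : X → ℝ) : X → ℝ := (Jr m V h)^[n] f

@[simp] theorem itJ_zero : itJ m V h 0 f = f := rfl

theorem itJ_succ (n : ℕ) : itJ m V h (n + 1) f = Jr m V h (itJ m V h n f) :=
  Function.iterate_succ_apply' _ _ _

theorem itJ_succ' (n : ℕ) : itJ m V h (n + 1) f = itJ m V h n (Jr m V h f) :=
  Function.iterate_succ_apply _ _ _

theorem itJ_memLp (H : Hyp m k N) (hV : BddLip V) (hh : 0 < h) (hf : MemLp f 2 m) (n : ℕ) :
    MemLp (itJ m V h n f) 2 m := by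
  induction n with
  | zero => exact hf
  | succ n ih => rw [itJ_succ]; exact Jr_memLp H hV hh ih

theorem itJ_sob (H : Hyp m k N) (hV : BddLip V) (hh : 0 < h) (hf : IsSobolev m f) (n : ℕ) :
    IsSobolev m (itJ m V h n f) := by
  cases n with
  | zero => exact hf
  | succ n => rw [itJ_succ]; exact Jr_sob H hV hh (itJ_memLp H hV hh hf.1 n)


theorem itJ_sub (H : Hyp m k N) (hV : BddLip V) (hh : 0 < h) (hf : MemLp f 2 m)
    (hg : MemLp g 2 m) (n : ℕ) :
    itJ m V h n (fun x => f x - g x) =ᵐ[m] fun x => itJ m V h n f x - itJ m V h n g x := by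
  induction n with
  | zero => exact Filter.EventuallyEq.rfl
  | succ n ih =>
    rw [itJ_succ, itJ_succ, itJ_succ]
    exact (Jr_congr H hV hh (itJ_memLp H hV hh (hf.sub hg) n) ih).trans
      (Jr_sub H hV hh (itJ_memLp H hV hh hf n) (itJ_memLp H hV hh hg n))

theorem itJ_nonneg (H : Hyp m k N) (hV : BddLip V) (hh : 0 < h) (hf : MemLp f 2 m)
    (h0 : 0 ≤ᵐ[m] f) (n : ℕ) : 0 ≤ᵐ[m] itJ m V h n f := by
  induction n with
  | zero => exact h0
  | succ n ih => rw [itJ_succ]; exact Jr_nonneg H hV hh (itJ_memLp H hV hh hf n) ih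

theorem itJ_abs_le (H : Hyp m k N) (hV : BddLip V) (hh : 0 < h) (hf : MemLp f 2 m) {c : ℝ}
    (h0 : ∀ᵐ x ∂m, |f x| ≤ c) (n : ℕ) : ∀ᵐ x ∂m, |itJ m V h n f x| ≤ c := by
  induction n with
  | zero => exact h0
  | succ n ih => rw [itJ_succ]; exact Jr_abs_le H hV hh (itJ_memLp H hV hh hf n) ih

theorem itJ_le_const (H : Hyp m k N) (hV : BddLip V) (hh : 0 < h) (hf : MemLp f 2 m) {c : ℝ}
    (hc : 0 ≤ c) (h0 : ∀ᵐ x ∂m, f x ≤ c) (n : ℕ) : ∀ᵐ x ∂m, itJ m V h n f x ≤ c := by
  induction n with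
  | zero => exact h0
  | succ n ih => rw [itJ_succ]; exact Jr_le_const H hV hh (itJ_memLp H hV hh hf n) hc ih

theorem itJ_symm (H : Hyp m k N) (hV : BddLip V) (hh : 0 < h) (hf : MemLp f 2 m)
    (hg : MemLp g 2 m) (n : ℕ) :
    ∫ x, itJ m V h n f x * g x ∂(wm m V) = ∫ x, f x * itJ m V h n g x ∂(wm m V) := by
  induction n generalizing g with
  | zero => rfl
  | succ n ih =>
    rw [itJ_succ, Jr_symm H hV hh (itJ_memLp H hV hh hf n) hg, ih (Jr_memLp H hV hh hg),
      itJ_succ']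

theorem itJ_l1 (H : Hyp m k N) (hV : BddLip V) (hh : 0 < h) (hf : MemLp f 2 m)
    (hf1 : Integrable f m) (n : ℕ) : Integrable (itJ m V h n f) m ∧
      ∫ x, |itJ m V h n f x| ∂(wm m V) ≤ ∫ x, |f x| ∂(wm m V) := by
  induction n with
  | zero => exact ⟨hf1, le_rfl⟩
  | succ n ih =>
    rw [itJ_succ]
    have h1 := Jr_l1 H hV hh (itJ_memLp H hV hh hf n) ih.1
    exact ⟨h1.1, h1.2.trans ih.2⟩

theorem itJ_n2 (H : Hyp m k N) (hV : BddLip V) (hh : 0 < h) (hf : MemLp f 2 m) (n : ℕ) :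
    n2 (wm m V) (itJ m V h n f) ≤ n2 (wm m V) f := by
  induction n with
  | zero => exact le_rfl
  | succ n ih => rw [itJ_succ]; exact (di_n2_Jr H hV hh (itJ_memLp H hV hh hf n)).trans ih

theorem itJ_n2_sub (H : Hyp m k N) (hV : BddLip V) (hh : 0 < h) (hf : MemLp f 2 m)
    (hg : MemLp g 2 m) (n : ℕ) :
    n2 (wm m V) (fun x => itJ m V h n f x - itJ m V h n g x) ≤
      n2 (wm m V) (fun x => f x - g x) := by
  have h1 := itJ_n2 H hV hh (hf.sub hg) n
  have h2 : itJ m V h n (f - g) =ᵐ[wm m V] fun x => itJ m V h n f x - itJ m V h n g x :=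
    di_aeeq hV (itJ_sub H hV hh hf hg n)
  rw [n2_congr h2] at h1
  exact h1

theorem itJ_energy_le (H : Hyp m k N) (hV : BddLip V) (hh : 0 < h) (hf : IsSobolev m f) (n : ℕ) :
    En m V (itJ m V h n f) (itJ m V h n f) ≤ En m V f f := by
  induction n with
  | zero => exact le_rfl
  | succ n ih => rw [itJ_succ]; exact (Jr_energy_le H hV hh (itJ_sob H hV hh hf n)).trans ih


/-! ### the exponential formula -/

section Expo
variable {P : ℝ → (X → ℝ) → (X → ℝ)}

theorem di_n2_P (hV : BddLip V) (S : SemigroupSpec m V P) {t : ℝ} (ht : 0 ≤ t)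
    (hf : MemLp f 2 m) : n2 (wm m V) (P t f) ≤ n2 (wm m V) f := by
  refine n2_le_of_sq_le ((di_mem hV).2 (S.memLp t ht f hf)) n2_nonneg ?_
  rw [n2_sq ((di_mem hV).2 hf)]
  exact S.l2 t ht f hf

theorem di_P_sub (S : SemigroupSpec m V P) {t : ℝ} (ht : 0 ≤ t)
    (hf : MemLp f 2 m) (hg : MemLp g 2 m) :
    P t (fun x => f x - g x) =ᵐ[m] fun x => P t f x - P t g x := by
  have h1 := S.add t ht f (fun x => (-1) * g x) hf (hg.const_mul _)
  have h2 := S.smul t ht (-1) g hg
  have h3 : (fun x => f x + (-1) * g x) = fun x => f x - g x := by funext x; ring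
  rw [h3] at h1
  filter_upwards [h1, h2] with x h1 h2
  rw [h1, h2]; ring

theorem di_n2_P_sub (hV : BddLip V) (S : SemigroupSpec m V P) {t : ℝ} (ht : 0 ≤ t)
    (hf : MemLp f 2 m) (hg : MemLp g 2 m) :
    n2 (wm m V) (fun x => P t f x - P t g x) ≤ n2 (wm m V) (fun x => f x - g x) := by
  have h1 := di_n2_P hV S ht (hf.sub hg)
  have h2 : P t (f - g) =ᵐ[wm m V] fun x => P t f x - P t g x :=
    di_aeeq hV (di_P_sub S ht hf hg)
  rw [n2_congr h2] at h1
  exact h1

/-- `|P_t u - u| ≤ t |L u|`. -/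
theorem di_P_sub_self (hV : BddLip V) (S : SemigroupSpec m V P) (hu : IsWLap m V u g) {t : ℝ}
    (ht : 0 ≤ t) : n2 (wm m V) (fun x => P t u x - u x) ≤ t * n2 (wm m V) g := by
  have hum : MemLp u 2 m := hu.1.1
  have hgm : MemLp g 2 m := hu.2.1
  have hm : MemLp (fun x => P t u x - u x) 2 m := (S.memLp t ht u hum).sub hum
  obtain ⟨-, h2⟩ := S.gen_int u g hu t ht _ hm
  have h3 : ∫ x, (P t u x - u x) * (P t u x - u x) ∂(wm m V) ≤
      t * n2 (wm m V) g * n2 (wm m V) (fun x => P t u x - u x) := by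
    rw [h2]
    have h4 : ‖∫ s in (0 : ℝ)..t, ∫ x, P s g x * (P t u x - u x) ∂(wm m V)‖ ≤
        (n2 (wm m V) g * n2 (wm m V) (fun x => P t u x - u x)) * |t - 0| := by
      refine intervalIntegral.norm_integral_le_of_norm_le_const fun s hs => ?_
      rw [uIoc_of_le ht] at hs
      have hs0 : 0 ≤ s := hs.1.le
      have h5 := n2_cs ((di_mem hV).2 (S.memLp s hs0 g hgm)) ((di_mem hV).2 hm)
      rw [Real.norm_eq_abs]
      refine h5.trans ?_
      exact mul_le_mul_of_nonneg_right (di_n2_P hV S hs0 hgm) n2_nonneg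
    rw [sub_zero, abs_of_nonneg ht] at h4
    calc _ ≤ ‖∫ s in (0 : ℝ)..t, ∫ x, P s g x * (P t u x - u x) ∂(wm m V)‖ := le_abs_self _
      _ ≤ _ := h4
      _ = _ := by ring
  have h6 := n2_le_of_dual ((di_mem hV).2 hm) h3
  rwa [max_eq_left (mul_nonneg ht n2_nonneg)] at h6

/-- `|P_t u - u - t L u| ≤ t² |L² u|`. -/
theorem di_P_taylor (hV : BddLip V) (S : SemigroupSpec m V P) {g2 : X → ℝ}
    (hu : IsWLap m V u g) (hg2 : IsWLap m V g g2) {t : ℝ} (ht : 0 ≤ t) :
    n2 (wm m V) (fun x => (P t u x - u x) - t * g x) ≤ t ^ 2 * n2 (wm m V) g2 := by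
  have hum : MemLp u 2 m := hu.1.1
  have hgm : MemLp g 2 m := hu.2.1
  have hm : MemLp (fun x => (P t u x - u x) - t * g x) 2 m :=
    ((S.memLp t ht u hum).sub hum).sub (hgm.const_mul t)
  set q : X → ℝ := fun x => (P t u x - u x) - t * g x with hq
  obtain ⟨h1, h2⟩ := S.gen_int u g hu t ht q hm
  have hq' : MemLp q 2 (wm m V) := (di_mem hV).2 hm
  have hgq : Integrable (fun x => g x * q x) (wm m V) :=
    ((di_mem hV).2 hgm).integrable_mul hq'
  have hPq : Integrable (fun x => (P t u x - u x) * q x) (wm m V) :=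
    ((di_mem hV).2 ((S.memLp t ht u hum).sub hum)).integrable_mul hq'
  have h3 : ∫ x, q x * q x ∂(wm m V) =
      ∫ s in (0 : ℝ)..t, ((∫ x, P s g x * q x ∂(wm m V)) - ∫ x, g x * q x ∂(wm m V)) := by
    have e1 : (fun x => q x * q x) = fun x => (P t u x - u x) * q x - t * (g x * q x) := by
      funext x; simp only [hq]; ring
    rw [e1, integral_sub hPq (hgq.const_mul t), integral_const_mul, h2,
      intervalIntegral.integral_sub h1 (by simp), intervalIntegral.integral_const]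
    simp
  have h4 : ‖∫ s in (0 : ℝ)..t, ((∫ x, P s g x * q x ∂(wm m V)) - ∫ x, g x * q x ∂(wm m V))‖ ≤
      (t * n2 (wm m V) g2 * n2 (wm m V) q) * |t - 0| := by
    refine intervalIntegral.norm_integral_le_of_norm_le_const fun s hs => ?_
    rw [uIoc_of_le ht] at hs
    have hs0 : 0 ≤ s := hs.1.le
    have hsg := (di_mem hV).2 (S.memLp s hs0 g hgm)
    have h5 : (∫ x, P s g x * q x ∂(wm m V)) - ∫ x, g x * q x ∂(wm m V) =
        ∫ x, (P s g x - g x) * q x ∂(wm m V) := by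
      have hPs : Integrable (fun x => P s g x * q x) (wm m V) := hsg.integrable_mul hq'
      rw [← integral_sub hPs hgq]
      exact integral_congr_ae (Eventually.of_forall fun x => by ring)
    rw [h5, Real.norm_eq_abs]
    refine (n2_cs (hsg.sub ((di_mem hV).2 hgm)) hq').trans ?_
    refine mul_le_mul_of_nonneg_right ?_ n2_nonneg
    refine (di_P_sub_self hV S hg2 hs0).trans ?_
    exact mul_le_mul_of_nonneg_right hs.2 n2_nonneg
  rw [sub_zero, abs_of_nonneg ht] at h4
  have h5 : ∫ x, q x * q x ∂(wm m V) ≤ (t ^ 2 * n2 (wm m V) g2) * n2 (wm m V) q := by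
    rw [h3]
    calc _ ≤ _ := (le_abs_self _).trans h4
      _ = _ := by ring
  have h6 := n2_le_of_dual hq' h5
  rwa [max_eq_left (mul_nonneg (sq_nonneg t) n2_nonneg)] at h6

/-- `|J_h u - u - h L u| ≤ h² |L² u|`. -/
theorem di_J_taylor (H : Hyp m k N) (hV : BddLip V) (hh : 0 < h) {g2 : X → ℝ}
    (hu : IsWLap m V u g) (hg2 : IsWLap m V g g2) :
    n2 (wm m V) (fun x => (Jr m V h u x - u x) - h * g x) ≤ h ^ 2 * n2 (wm m V) g2 := by
  have hg2m : MemLp g2 2 m := hg2.2.1
  have h1 := hu.Jr_sub H hV hh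
  have h2 := hg2.Jr_sub H hV hh
  have h3 : (fun x => (Jr m V h u x - u x) - h * g x) =ᵐ[wm m V]
      fun x => h ^ 2 * Jr m V h g2 x := by
    refine (di_ae hV).2 ?_
    filter_upwards [h1, h2] with x h1 h2
    rw [h1]
    have : Jr m V h g x - g x = h * Jr m V h g2 x := h2
    linear_combination h * this
  rw [n2_congr h3, n2_smul _ ((di_mem hV).2 (Jr_memLp H hV hh hg2m)), abs_of_nonneg (sq_nonneg h)]
  exact mul_le_mul_of_nonneg_left (di_n2_Jr H hV hh hg2m) (sq_nonneg h)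

theorem di_JP (H : Hyp m k N) (hV : BddLip V) (hh : 0 < h) (S : SemigroupSpec m V P) {g2 : X → ℝ}
    (hu : IsWLap m V u g) (hg2 : IsWLap m V g g2) :
    n2 (wm m V) (fun x => Jr m V h u x - P h u x) ≤ 2 * h ^ 2 * n2 (wm m V) g2 := by
  have hum : MemLp u 2 m := hu.1.1
  have hgm : MemLp g 2 m := hu.2.1
  have h1 := di_J_taylor H hV hh hu hg2
  have h2 := di_P_taylor hV S hu hg2 hh.le
  have hm1 : MemLp (fun x => (Jr m V h u x - u x) - h * g x) 2 (wm m V) :=
    (di_mem hV).2 (((Jr_memLp H hV hh hum).sub hum).sub (hgm.const_mul h))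
  have hm2 : MemLp (fun x => (P h u x - u x) - h * g x) 2 (wm m V) :=
    (di_mem hV).2 (((S.memLp h hh.le u hum).sub hum).sub (hgm.const_mul h))
  have h3 := n2_sub_le hm1 hm2
  have e : (fun x => ((Jr m V h u x - u x) - h * g x) - ((P h u x - u x) - h * g x)) =
      fun x => Jr m V h u x - P h u x := by funext x; ring
  rw [e] at h3
  linarith

theorem di_telescope (H : Hyp m k N) (hV : BddLip V) (hh : 0 < h) (S : SemigroupSpec m V P)
    {g2 : X → ℝ} (hu : IsWLap m V u g) (hg2 : IsWLap m V g g2) (n : ℕ) :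
    n2 (wm m V) (fun x => itJ m V h n u x - P (n * h) u x) ≤
      n * (2 * h ^ 2 * n2 (wm m V) g2) := by
  have hum : MemLp u 2 m := hu.1.1
  have hg2m : MemLp g2 2 m := hg2.2.1
  induction n with
  | zero =>
    have h1 : (fun x => itJ m V h 0 u x - P ((0 : ℕ) * h) u x) =ᵐ[wm m V] fun _ => 0 := by
      refine (di_ae hV).2 ?_
      have := S.zero u hum
      filter_upwards [this] with x hx
      simp only [itJ_zero, Nat.cast_zero, zero_mul]
      rw [hx]; ring
    rw [n2_congr h1]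
    simp [n2]
  | succ n ih =>
    have hn : 0 ≤ (n : ℝ) * h := by positivity
    have hm1 := itJ_memLp H hV hh hum n
    have hm2 := S.memLp (n * h) hn u hum
    have h1 := di_n2_Jr_sub H hV hh hm1 hm2
    have hu' := S.gen u g hu (n * h) hn
    have hg' := S.gen g g2 hg2 (n * h) hn
    have h2 := di_JP H hV hh S hu' hg'
    have h3 := di_n2_P hV S hn hg2m
    have hm3 : MemLp (Jr m V h (itJ m V h n u)) 2 (wm m V) :=
      (di_mem hV).2 (Jr_memLp H hV hh hm1)
    have hm4 : MemLp (Jr m V h (P (n * h) u)) 2 (wm m V) := (di_mem hV).2 (Jr_memLp H hV hh hm2)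
    have hm5 : MemLp (P h (P (n * h) u)) 2 (wm m V) :=
      (di_mem hV).2 (S.memLp h hh.le _ hm2)
    have h4 := n2_sub_le_add hm3 hm4 hm5
    have h5 : (fun x => itJ m V h (n + 1) u x - P ((n + 1 : ℕ) * h) u x) =ᵐ[wm m V]
        fun x => Jr m V h (itJ m V h n u) x - P h (P (n * h) u) x := by
      refine (di_ae hV).2 ?_
      have e : ((n + 1 : ℕ) : ℝ) * h = h + n * h := by push_cast; ring
      have h6 := S.semig h (n * h) hh.le hn u hum
      rw [e, itJ_succ]
      filter_upwards [h6] with x hx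
      rw [hx]
    rw [n2_congr h5]
    have h7 : 2 * h ^ 2 * n2 (wm m V) (P (n * h) g2) ≤ 2 * h ^ 2 * n2 (wm m V) g2 :=
      mul_le_mul_of_nonneg_left h3 (by positivity)
    push_cast
    linarith

/-- exponential formula. -/
theorem di_expo (H : Hyp m k N) (hV : BddLip V) (S : SemigroupSpec m V P)
    (hf : MemLp f 2 m) {t : ℝ} (ht : 0 < t) :
    Tendsto (fun n : ℕ => n2 (wm m V) (fun x => itJ m V (t / (n + 1)) (n + 1) f x - P t f x))
      atTop (𝓝 0) := by
  have hf' := (di_mem (m := m) hV).2 hf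
  rw [Metric.tendsto_atTop]
  intro e he
  -- approximation by `J_a J_a f`
  have happ : ∃ a : ℝ, 0 < a ∧ n2 (wm m V) (fun x => f x - Jr m V a f x) < e / 8 := by
    obtain ⟨C, hC0, hC⟩ : ∃ C : ℝ, 0 < C ∧ ∀ q : X → ℝ, MemLp q 2 m →
        ∫ x, q x ^ 2 ∂(wm m V) ≤ C * ∫ x, q x ^ 2 ∂m := by
      obtain ⟨B, hB⟩ := hV.1
      refine ⟨Real.exp B, Real.exp_pos _, fun q hq => ?_⟩
      rw [integral_wm hV.bddM, ← integral_const_mul]
      have hi : Integrable (fun x => q x ^ 2) m := hq.integrable_sq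
      refine integral_mono_of_nonneg (Eventually.of_forall fun x => by positivity)
        (hi.const_mul _) (Eventually.of_forall fun x => ?_)
      refine mul_le_mul_of_nonneg_right ?_ (sq_nonneg _)
      exact Real.exp_le_exp.2 ((le_abs_self _).trans (hB x))
    have h1 := Jr_tendsto_l2 H hV hf
    have h2 : ∀ᶠ a in 𝓝[>] (0 : ℝ), ∫ x, (Jr m V a f x - f x) ^ 2 ∂m < (e / 8) ^ 2 / (2 * C) :=
      (tendsto_order.1 h1).2 _ (by positivity)
    obtain ⟨a, ha, ha0⟩ := (h2.and self_mem_nhdsWithin).exists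
    have ha0' : (0 : ℝ) < a := ha0
    refine ⟨a, ha0', ?_⟩
    have hm := (Jr_memLp H hV ha0' hf).sub hf
    have h3 := hC _ hm
    have h4 : n2 (wm m V) (fun x => Jr m V a f x - f x) ^ 2 =
        ∫ x, (Jr m V a f x - f x) ^ 2 ∂(wm m V) := n2_sq ((di_mem hV).2 hm)
    rw [n2_sub_comm]
    have h5 : n2 (wm m V) (fun x => Jr m V a f x - f x) ^ 2 < (e / 8) ^ 2 := by
      rw [h4]
      calc _ ≤ C * ∫ x, (Jr m V a f x - f x) ^ 2 ∂m := h3
        _ ≤ C * ((e / 8) ^ 2 / (2 * C)) := mul_le_mul_of_nonneg_left ha.le hC0.le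
        _ = (e / 8) ^ 2 / 2 := by field_simp
        _ < (e / 8) ^ 2 := by linarith [show 0 < (e / 8) ^ 2 by positivity]
    exact lt_of_pow_lt_pow_left₀ 2 (by positivity) h5
  obtain ⟨a, ha, hae⟩ := happ
  set w := Jr m V a f with hw
  have hwm : MemLp w 2 m := Jr_memLp H hV ha hf
  set u := Jr m V a w with hu
  have hum : MemLp u 2 m := Jr_memLp H hV ha hwm
  have hL1 : IsWLap m V w (fun x => (w x - f x) / a) := Jr_isWLap H hV ha hf
  have hL2 : IsWLap m V u (fun x => (u x - w x) / a) := Jr_isWLap H hV ha hwm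
  obtain ⟨g2, hg2⟩ : ∃ g2, IsWLap m V (fun x => (u x - w x) / a) g2 := by
    have h1 := (hL2.smul H hV a⁻¹).add H hV (hL1.smul H hV (-a⁻¹))
    refine ⟨_, h1.congr H hV (Eventually.of_forall fun x => ?_) Filter.EventuallyEq.rfl⟩
    simp only
    field_simp
    ring
  have hfu : n2 (wm m V) (fun x => f x - u x) < e / 4 := by
    have h1 := n2_sub_le_add hf' ((di_mem hV).2 hwm) ((di_mem hV).2 hum)
    have h2 := di_n2_Jr_sub H hV ha hf hwm
    linarith
  -- choose n
  obtain ⟨n0, hn0⟩ := exists_nat_gt (8 * t ^ 2 * n2 (wm m V) g2 / e)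
  refine ⟨n0, fun n hn => ?_⟩
  rw [Real.dist_eq, sub_zero, abs_of_nonneg n2_nonneg]
  have hnp : (0 : ℝ) < n + 1 := by positivity
  have hh : 0 < t / (n + 1) := by positivity
  have h1 := di_telescope H hV hh S hL2 hg2 (n + 1)
  have e1 : ((n + 1 : ℕ) : ℝ) * (t / (n + 1)) = t := by push_cast; field_simp
  rw [e1] at h1
  have h2 : ((n + 1 : ℕ) : ℝ) * (2 * (t / (n + 1)) ^ 2 * n2 (wm m V) g2) ≤ e / 4 := by
    have e2 : ((n + 1 : ℕ) : ℝ) * (2 * (t / (n + 1)) ^ 2 * n2 (wm m V) g2) =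
        (2 * t ^ 2 * n2 (wm m V) g2) / (n + 1) := by push_cast; field_simp
    rw [e2, div_le_iff₀ hnp]
    have h3 : (n0 : ℝ) ≤ n := by exact_mod_cast hn
    rw [div_lt_iff₀ he] at hn0
    nlinarith
  have hJf := (di_mem hV).2 (itJ_memLp H hV hh hf (n + 1))
  have hJu := (di_mem hV).2 (itJ_memLp H hV hh hum (n + 1))
  have hPf := (di_mem hV).2 (S.memLp t ht.le f hf)
  have hPu := (di_mem hV).2 (S.memLp t ht.le u hum)
  have h3 := n2_sub_le_add hJf hJu hPf
  have h4 := n2_sub_le_add hJu hPu hPf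
  have h5 := itJ_n2_sub H hV hh hf hum (n + 1)
  have h6 := di_n2_P_sub hV S ht.le hum hf
  rw [n2_sub_comm u f] at h6
  linarith

end Expo

end Main

end Crest.Agent.R242
end
end

-- ▼ part R242/DIterB
section

/-!
Row 242 (S0375), DIter, part B: gradient bound for the iterates and for the semigroup from the
one step inequality.
-/

set_option autoImplicit false
set_option linter.unusedSectionVars false

open MeasureTheory Filter Set
open scoped ENNReal NNReal Topology
open Crest.GeometryTopology.SyntheticRicci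

noncomputable section

namespace Crest.Agent.R242

variable {X : Type*} [MetricSpace X] [ProperSpace X] [MeasurableSpace X] [BorelSpace X]
  {m : Measure X} [IsLocallyFiniteMeasure m] [m.IsOpenPosMeasure] {k N : ℝ}
  {V : X → ℝ} {h : ℝ} {f g u v : X → ℝ}

/-! ### integrability, test functions -/

theorem di_int (hV : BddLip V) {F φ : X → ℝ} (hF : Integrable F m)
    (hφ : AEStronglyMeasurable φ m) (hb : ∃ C : ℝ, ∀ᵐ x ∂m, |φ x| ≤ C) :
    Integrable (fun x => F x * φ x) (wm m V) := by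
  obtain ⟨C, hC⟩ := hb
  rw [integrable_wm_iff hV.bddM]
  refine (hF.norm.const_mul C).mono' (hF.aestronglyMeasurable.mul hφ) ?_
  filter_upwards [hC] with x hx
  rw [norm_mul, mul_comm]
  exact mul_le_mul_of_nonneg_right (by simpa using hx) (norm_nonneg _)

theorem di_int_wm (hV : BddLip V) {F : X → ℝ} (hF : Integrable F m) : Integrable F (wm m V) :=
  (integrable_wm_iff hV.bddM F).2 hF

theorem di_ae_le_of_test (hV : BddLip V) {F₁ F₂ : X → ℝ} {C : ℝ} (h1 : Integrable F₁ m)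
    (h2 : Integrable F₂ m)
    (h : ∀ φ : X → ℝ, MemLp φ 2 m → Integrable φ m → (∃ B : ℝ, ∀ᵐ x ∂m, |φ x| ≤ B) →
      0 ≤ᵐ[m] φ →
      ∫ x, F₁ x * φ x ∂(wm m V) ≤ ∫ x, F₂ x * φ x ∂(wm m V) + C * ∫ x, φ x ∂(wm m V)) :
    ∀ᵐ x ∂m, F₁ x ≤ F₂ x + C := by
  obtain ⟨B, hB⟩ := hV.1
  have hVm : Measurable V := hV.bddM.1
  have key : 0 ≤ᵐ[m] fun x => (F₂ x + C) - F₁ x := by
    refine ae_nonneg_of_forall_setIntegral_nonneg_of_sigmaFinite (fun s hs hsf => ?_)
      (fun s hs hsf => ?_)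
    · exact (h2.integrableOn.add (integrableOn_const hsf.ne)).sub h1.integrableOn
    · set φ : X → ℝ := s.indicator (fun x => Real.exp (-V x)) with hφ
      have hφm : Measurable φ := (Real.measurable_exp.comp hVm.neg).indicator hs
      have hφb : ∀ x, |φ x| ≤ s.indicator (fun _ => Real.exp B) x := by
        intro x
        by_cases hx : x ∈ s
        · rw [hφ, indicator_of_mem hx, indicator_of_mem hx, abs_of_pos (Real.exp_pos _)]
          exact Real.exp_le_exp.2 ((neg_le_abs _).trans (hB x))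
        · rw [hφ, indicator_of_notMem hx, indicator_of_notMem hx]; simp
      have hφ2 : MemLp φ 2 m :=
        (memLp_indicator_const 2 hs (Real.exp B) (Or.inr hsf.ne)).mono'
          hφm.aestronglyMeasurable (Eventually.of_forall fun x => by simpa using hφb x)
      have hφ1 : Integrable φ m :=
        memLp_one_iff_integrable.1 ((memLp_indicator_const 1 hs (Real.exp B) (Or.inr hsf.ne)).mono'
          hφm.aestronglyMeasurable (Eventually.of_forall fun x => by simpa using hφb x))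
      have hφB : ∃ B' : ℝ, ∀ᵐ x ∂m, |φ x| ≤ B' := by
        refine ⟨Real.exp B, Eventually.of_forall fun x => (hφb x).trans ?_⟩
        exact indicator_le_self' (fun _ _ => (Real.exp_pos _).le) x
      have hφ0 : 0 ≤ᵐ[m] φ := Eventually.of_forall fun x =>
        indicator_nonneg (fun _ _ => (Real.exp_pos _).le) x
      have h3 := h φ hφ2 hφ1 hφB hφ0
      have e : ∀ F : X → ℝ, ∫ x, F x * φ x ∂(wm m V) = ∫ x in s, F x ∂m := by
        intro F
        rw [integral_wm hV.bddM, ← integral_indicator hs]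
        refine integral_congr_ae (Eventually.of_forall fun x => ?_)
        by_cases hx : x ∈ s
        · simp only [hφ, indicator_of_mem hx]
          rw [mul_comm (F x), ← mul_assoc, ← Real.exp_add]; simp
        · simp only [hφ, indicator_of_notMem hx]; simp
      have e1 : ∫ x, φ x ∂(wm m V) = ∫ x in s, (1 : ℝ) ∂m := by
        have := e (fun _ => 1)
        simpa using this
      rw [e, e, e1] at h3
      have h4 : ∫ x in s, ((F₂ x + C) - F₁ x) ∂m =
          (∫ x in s, F₂ x ∂m) + C * (∫ x in s, (1 : ℝ) ∂m) - ∫ x in s, F₁ x ∂m := by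
        rw [integral_sub _ h1.integrableOn, integral_add h2.integrableOn
          (integrableOn_const hsf.ne)]
        · congr 2
          rw [← integral_const_mul]; simp
        · exact h2.integrableOn.add (integrableOn_const hsf.ne)
      rw [h4]; linarith
  filter_upwards [key] with x hx
  simpa using hx

/-- closedness, for almost everywhere bounded weights. -/
theorem di_closed (H : Hyp m k N) (hV : BddLip V) {un : ℕ → X → ℝ} {f φ : X → ℝ} {A C : ℝ}
    (hun : ∀ n, IsSobolev m (un n)) (hf : MemLp f 2 m)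
    (hlim : Tendsto (fun n => n2 (wm m V) (fun x => un n x - f x)) atTop (𝓝 0))
    (hA : ∀ n, ∫ x, minWeakGrad m (un n) x ^ 2 ∂m ≤ A) (hφ : AEStronglyMeasurable φ m)
    (hφ0 : 0 ≤ᵐ[m] φ) (hφb : ∃ B : ℝ, ∀ᵐ x ∂m, |φ x| ≤ B)
    (hC : ∀ᶠ n in atTop, ∫ x, minWeakGrad m (un n) x ^ 2 * φ x ∂(wm m V) ≤ C) :
    IsSobolev m f ∧ ∫ x, minWeakGrad m f x ^ 2 * φ x ∂(wm m V) ≤ C := by
  obtain ⟨n₀, hn₀⟩ := eventually_atTop.1 hC
  obtain ⟨B, hB⟩ := hφb
  obtain ⟨BV, hBV⟩ := hV.1
  have hVm : Measurable V := hV.bddM.1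
  -- measurable weight
  set w : X → ℝ := fun x => Real.exp (V x) * max (min (hφ.mk φ x) B) 0 with hw
  have hwm : Measurable w :=
    (Real.measurable_exp.comp hVm).mul
      ((hφ.stronglyMeasurable_mk.measurable.min measurable_const).max measurable_const)
  have hw0 : ∀ x, 0 ≤ w x := fun x => mul_nonneg (Real.exp_pos _).le (le_max_right _ _)
  have hwB : ∃ B' : ℝ, ∀ x, w x ≤ B' := by
    refine ⟨Real.exp BV * max B 0, fun x => ?_⟩
    refine mul_le_mul (Real.exp_le_exp.2 ((le_abs_self _).trans (hBV x))) ?_ (le_max_right _ _)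
      (Real.exp_pos _).le
    exact max_le_max (min_le_right _ _) le_rfl
  have hwe : w =ᵐ[m] fun x => Real.exp (V x) * φ x := by
    filter_upwards [hφ.ae_eq_mk, hB, hφ0] with x h1 h2 h3
    simp only [hw]
    rw [← h1]
    have h3' : 0 ≤ φ x := h3
    rw [min_eq_left ((le_abs_self _).trans h2), max_eq_left h3']
  have key : ∀ q : X → ℝ, ∫ x, w x * minWeakGrad m q x ^ 2 ∂m =
      ∫ x, minWeakGrad m q x ^ 2 * φ x ∂(wm m V) := by
    intro q
    rw [integral_wm hV.bddM]
    refine integral_congr_ae ?_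
    filter_upwards [hwe] with x hx
    rw [hx]; ring
  have hlim' : Tendsto (fun n => eLpNorm (fun x => un (n + n₀) x - f x) 2 m) atTop (𝓝 0) := by
    have h1 : ∀ n, n2 (wm m V) (fun x => un n x - f x) =
        (eLpNorm (fun x => un n x - f x) 2 (wm m V)).toReal := fun n => rfl
    have hmem : ∀ n, MemLp (fun x => un n x - f x) 2 m := fun n => (hun n).1.sub hf
    -- compare the two measures
    obtain ⟨c, hc0, hc⟩ : ∃ c : ℝ, 0 < c ∧ ∀ q : X → ℝ, MemLp q 2 m →
        n2 m q ≤ c * n2 (wm m V) q := by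
      refine ⟨Real.exp (BV / 2), Real.exp_pos _, fun q hq => ?_⟩
      refine n2_le_of_sq_le hq (mul_nonneg (Real.exp_pos _).le n2_nonneg) ?_
      rw [mul_pow, n2_sq ((di_mem hV).2 hq), integral_wm hV.bddM, ← integral_const_mul]
      have hq2 : Integrable (fun x => q x ^ 2) m := hq.integrable_sq
      have hq3 : Integrable (fun x => Real.exp (V x) * q x ^ 2) m := by
        refine (hq2.const_mul (Real.exp BV)).mono'
          ((Real.measurable_exp.comp hVm).aestronglyMeasurable.mul hq2.aestronglyMeasurable) ?_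
        refine Eventually.of_forall fun x => ?_
        rw [norm_mul, Real.norm_of_nonneg (Real.exp_pos _).le, Real.norm_of_nonneg (sq_nonneg _)]
        exact mul_le_mul_of_nonneg_right
          (Real.exp_le_exp.2 ((le_abs_self _).trans (hBV x))) (sq_nonneg _)
      refine integral_mono hq2 (hq3.const_mul _) fun x => ?_
      have e1 : Real.exp (BV / 2) ^ 2 * (Real.exp (V x) * q x ^ 2) =
          Real.exp (BV + V x) * q x ^ 2 := by
        rw [← mul_assoc, ← Real.exp_nat_mul, ← Real.exp_add]; congr 2; push_cast; ring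
      simp only [e1]
      have : 1 ≤ Real.exp (BV + V x) := by
        apply Real.one_le_exp
        have := (neg_abs_le (V x))
        linarith [hBV x]
      nlinarith [sq_nonneg (q x)]
    have h2 : Tendsto (fun n => n2 m (fun x => un n x - f x)) atTop (𝓝 0) := by
      refine squeeze_zero (fun n => n2_nonneg) (fun n => hc _ (hmem n)) ?_
      have := hlim.const_mul c
      rwa [mul_zero] at this
    have h3 : Tendsto (fun n => ENNReal.ofReal (n2 m (fun x => un n x - f x))) atTop (𝓝 0) := by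
      have := ENNReal.tendsto_ofReal h2
      rwa [ENNReal.ofReal_zero] at this
    have h4 : (fun n => eLpNorm (fun x => un n x - f x) 2 m) =
        fun n => ENNReal.ofReal (n2 m (fun x => un n x - f x)) := by
      funext n
      exact (ENNReal.ofReal_toReal (hmem n).2.ne).symm
    rw [← h4] at h3
    exact h3.comp (tendsto_add_atTop_nat n₀)
  obtain ⟨h1, h2⟩ := (calc_of_hyp H).closed (fun n => un (n + n₀)) f w A C
    (fun n => hun _) hf hlim' (fun n => hA _) hwm hw0 hwB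
    (fun n => by rw [key]; exact hn₀ _ (Nat.le_add_left _ _))
  rw [key] at h2
  exact ⟨h1, h2⟩

end Crest.Agent.R242
end
end

-- ▼ part R242/DIterC
section

/-!
Row 242 (S0375), DIter, part C: gradient bounds for the iterated resolvent and for the semigroup.
-/

set_option autoImplicit false
set_option linter.unusedSectionVars false

open MeasureTheory Filter Set
open scoped ENNReal NNReal Topology
open Crest.GeometryTopology.SyntheticRicci

noncomputable section

namespace Crest.Agent.R242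

variable {X : Type*} [MetricSpace X] [ProperSpace X] [MeasurableSpace X] [BorelSpace X]
  {m : Measure X} [IsLocallyFiniteMeasure m] [m.IsOpenPosMeasure] {k N : ℝ}
  {V : X → ℝ} {h : ℝ} {f g u v : X → ℝ}

/-- the one step inequality for the resolvent of the drifted operator `ε Δ + ⟨F, ·⟩`,
`V = F / ε`. -/
def OneStep (m : Measure X) (V G : X → ℝ) (ε k h : ℝ) : Prop :=
  ∀ z φ : X → ℝ, IsSobolev m z → (∃ C : ℝ, ∀ᵐ x ∂m, |z x| ≤ C) → MemLp φ 2 m →
    (∃ C : ℝ, ∀ᵐ x ∂m, |φ x| ≤ C) → 0 ≤ᵐ[m] φ →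
    ∫ x, minWeakGrad m (Jr m V (ε * h) z) x ^ 2 * φ x ∂(wm m V) ≤
      ∫ x, minWeakGrad m z x ^ 2 * Jr m V (ε * h) φ x ∂(wm m V) +
      2 * h * ∫ x, (ε * k + G x) * minWeakGrad m (Jr m V (ε * h) z) x ^ 2 *
        Jr m V (ε * h) φ x ∂(wm m V)

theorem di_int_l1 (hV : BddLip V) {φ : X → ℝ} {n : ℕ} (H : Hyp m k N) (hh : 0 < h)
    (hφ : MemLp φ 2 m) (hφ1 : Integrable φ m) (hφ0 : 0 ≤ᵐ[m] φ) :
    ∫ x, itJ m V h n φ x ∂(wm m V) ≤ ∫ x, φ x ∂(wm m V) := by
  have h1 := (itJ_l1 H hV hh hφ hφ1 n).2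
  have e1 : ∫ x, |itJ m V h n φ x| ∂(wm m V) = ∫ x, itJ m V h n φ x ∂(wm m V) := by
    refine integral_congr_ae ((di_ae hV).2 ?_)
    filter_upwards [itJ_nonneg H hV hh hφ hφ0 n] with x hx
    exact abs_of_nonneg hx
  have e2 : ∫ x, |φ x| ∂(wm m V) = ∫ x, φ x ∂(wm m V) := by
    refine integral_congr_ae ((di_ae hV).2 ?_)
    filter_upwards [hφ0] with x hx
    exact abs_of_nonneg hx
  rwa [e1, e2] at h1

/-- [a], one step: `wg (J z)² ≤ L0² / (1 - 2 h (B + ε k))`. -/
theorem di_wgJ_sq_le (H : Hyp m k N) (hV : BddLip V) {ε B : ℝ} {G : X → ℝ} (hε : 0 < ε)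
    (hh : 0 < h) (hOS : OneStep m V G ε k h) (hGm : Measurable G) (hGB : ∀ x, |G x| ≤ B)
    (hρ : 2 * h * (B + ε * k) < 1) {z : X → ℝ} (hz : IsSobolev m z)
    (hzb : ∃ C : ℝ, ∀ᵐ x ∂m, |z x| ≤ C) {D : ℝ}
    (hzL : ∀ᵐ x ∂m, minWeakGrad m z x ^ 2 ≤ D) :
    ∀ᵐ x ∂m, minWeakGrad m (Jr m V (ε * h) z) x ^ 2 ≤ D / (1 - 2 * h * (B + ε * k)) := by
  have hεh : 0 < ε * h := mul_pos hε hh
  have hJz : IsSobolev m (Jr m V (ε * h) z) := Jr_sob H hV hεh hz.1
  have hqi := integrable_wg_sq H hJz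
  have hzi := integrable_wg_sq H hz
  set q : X → ℝ := fun x => minWeakGrad m (Jr m V (ε * h) z) x ^ 2 with hq
  set ρ := 2 * h * (B + ε * k) with hρd
  by_cases hX : Nonempty X
  swap
  · exact Eventually.of_forall fun x => (hX ⟨x⟩).elim
  obtain ⟨x0⟩ := hX
  have hB0 : 0 ≤ B := (abs_nonneg _).trans (hGB x0)
  have hk0 : 0 < k := H.kpos
  have hρ0 : 0 ≤ ρ := by positivity
  have key := di_ae_le_of_test (m := m) hV (F₁ := q) (F₂ := fun _ => 0)
    (C := D / (1 - ρ)) hqi (integrable_zero _ _ _) (fun φ hφ2 hφ1 hφb hφ0 => by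
      have hb := fun n => itJ_memLp H hV hεh hφ2 n
      have hbb : ∀ n, ∃ C : ℝ, ∀ᵐ x ∂m, |itJ m V (ε * h) n φ x| ≤ C := fun n => by
        obtain ⟨C, hC⟩ := hφb
        exact ⟨C, itJ_abs_le H hV hεh hφ2 hC n⟩
      have hb0 := fun n => itJ_nonneg H hV hεh hφ2 hφ0 n
      have hqint : ∀ n, Integrable (fun x => q x * itJ m V (ε * h) n φ x) (wm m V) := fun n =>
        di_int hV hqi (hb n).aestronglyMeasurable (hbb n)
      -- the step
      have hstep : ∀ n, ∫ x, q x * itJ m V (ε * h) n φ x ∂(wm m V) ≤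
          D * (∫ x, φ x ∂(wm m V)) +
            ρ * ∫ x, q x * itJ m V (ε * h) (n + 1) φ x ∂(wm m V) := by
        intro n
        have h1 := hOS z (itJ m V (ε * h) n φ) hz hzb (hb n) (hbb n) (hb0 n)
        rw [← itJ_succ] at h1
        have h2 : ∫ x, minWeakGrad m z x ^ 2 * itJ m V (ε * h) (n + 1) φ x ∂(wm m V) ≤
            D * ∫ x, φ x ∂(wm m V) := by
          have i1 : Integrable (itJ m V (ε * h) (n + 1) φ) (wm m V) :=
            di_int_wm hV (itJ_l1 H hV hεh hφ2 hφ1 (n + 1)).1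
          have h3 : ∫ x, minWeakGrad m z x ^ 2 * itJ m V (ε * h) (n + 1) φ x ∂(wm m V) ≤
              ∫ x, D * itJ m V (ε * h) (n + 1) φ x ∂(wm m V) := by
            refine integral_mono_ae (di_int hV hzi (hb _).aestronglyMeasurable (hbb _))
              (i1.const_mul D) ((di_ae hV).2 ?_)
            filter_upwards [hzL, hb0 (n + 1)] with x h4 h5
            exact mul_le_mul_of_nonneg_right h4 h5
          rw [integral_const_mul] at h3
          refine h3.trans ?_
          have hD0 : 0 ≤ D ∨ ∀ᵐ x ∂m, False := by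
            by_cases hD : 0 ≤ D
            · exact Or.inl hD
            · right
              filter_upwards [hzL] with x hx
              exact hD ((sq_nonneg _).trans hx)
          rcases hD0 with hD0 | hF
          · exact mul_le_mul_of_nonneg_left (di_int_l1 hV H hεh hφ2 hφ1 hφ0) hD0
          · have e0 : ∀ F : X → ℝ, ∫ x, F x ∂(wm m V) = 0 := fun F => by
              have : F =ᵐ[wm m V] fun _ => 0 := (di_ae hV).2 (hF.mono fun x hx => hx.elim)
              rw [integral_congr_ae this]; simp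
            rw [e0, e0]
        have h4 : ∫ x, (ε * k + G x) * q x * itJ m V (ε * h) (n + 1) φ x ∂(wm m V) ≤
            (B + ε * k) * ∫ x, q x * itJ m V (ε * h) (n + 1) φ x ∂(wm m V) := by
          rw [← integral_const_mul]
          have i2 : Integrable (fun x => (ε * k + G x) * q x) m := by
            refine (hqi.norm.const_mul (B + ε * k)).mono'
              ((aestronglyMeasurable_const.add hGm.aestronglyMeasurable).mul
                hqi.aestronglyMeasurable) ?_
            refine Eventually.of_forall fun x => ?_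
            rw [norm_mul]
            refine mul_le_mul_of_nonneg_right ?_ (norm_nonneg _)
            rw [Real.norm_eq_abs]
            refine (abs_add_le _ _).trans ?_
            rw [abs_of_pos (mul_pos hε hk0)]
            linarith [hGB x]
          refine integral_mono_ae (di_int hV i2 (hb _).aestronglyMeasurable (hbb _))
            ((hqint (n + 1)).const_mul _) ((di_ae hV).2 ?_)
          filter_upwards [hb0 (n + 1)] with x h5
          have h5' : 0 ≤ itJ m V (ε * h) (n + 1) φ x := h5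
          have h6 : ε * k + G x ≤ B + ε * k := by linarith [le_abs_self (G x), hGB x]
          have h7 : 0 ≤ q x := sq_nonneg _
          have h8 : 0 ≤ q x * itJ m V (ε * h) (n + 1) φ x := mul_nonneg h7 h5'
          calc (ε * k + G x) * q x * itJ m V (ε * h) (n + 1) φ x
              = (ε * k + G x) * (q x * itJ m V (ε * h) (n + 1) φ x) := by ring
            _ ≤ (B + ε * k) * (q x * itJ m V (ε * h) (n + 1) φ x) :=
                mul_le_mul_of_nonneg_right h6 h8
        have h5 : 2 * h * ∫ x, (ε * k + G x) * q x * itJ m V (ε * h) (n + 1) φ x ∂(wm m V) ≤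
            ρ * ∫ x, q x * itJ m V (ε * h) (n + 1) φ x ∂(wm m V) := by
          have := mul_le_mul_of_nonneg_left h4 (by positivity : (0 : ℝ) ≤ 2 * h)
          calc _ ≤ _ := this
            _ = _ := by rw [hρd]; ring
        linarith
      -- iterate
      set S := D * ∫ x, φ x ∂(wm m V) with hS
      have hiter : ∀ n, (∫ x, q x * itJ m V (ε * h) 0 φ x ∂(wm m V)) - S / (1 - ρ) ≤
          ρ ^ n * ((∫ x, q x * itJ m V (ε * h) n φ x ∂(wm m V)) - S / (1 - ρ)) := by
        intro n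
        induction n with
        | zero => simp
        | succ n ih =>
          refine ih.trans ?_
          rw [pow_succ, mul_assoc]
          refine mul_le_mul_of_nonneg_left ?_ (pow_nonneg hρ0 n)
          have h1 := hstep n
          have h2 : S / (1 - ρ) = S + ρ * (S / (1 - ρ)) := by
            have : (1 - ρ) ≠ 0 := by linarith
            field_simp
            ring
          linarith
      obtain ⟨Cφ, hCφ⟩ := hφb
      have hbd : ∀ n, (∫ x, q x * itJ m V (ε * h) n φ x ∂(wm m V)) ≤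
          |Cφ| * ∫ x, q x ∂(wm m V) := by
        intro n
        rw [← integral_const_mul]
        refine integral_mono_ae (hqint n) ((di_int_wm hV hqi).const_mul _) ((di_ae hV).2 ?_)
        filter_upwards [itJ_abs_le H hV hεh hφ2 hCφ n] with x hx
        have h7 : 0 ≤ q x := sq_nonneg _
        have h8 : itJ m V (ε * h) n φ x ≤ |Cφ| :=
          (le_abs_self _).trans (hx.trans (le_abs_self _))
        calc q x * itJ m V (ε * h) n φ x ≤ q x * |Cφ| := mul_le_mul_of_nonneg_left h8 h7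
          _ = |Cφ| * q x := mul_comm _ _
      have hlim : Tendsto (fun n : ℕ => ρ ^ n * (|Cφ| * (∫ x, q x ∂(wm m V)) - S / (1 - ρ)))
          atTop (𝓝 (0 * (|Cφ| * (∫ x, q x ∂(wm m V)) - S / (1 - ρ)))) :=
        (tendsto_pow_atTop_nhds_zero_of_lt_one hρ0 hρ).mul_const _
      have h9 : (∫ x, q x * itJ m V (ε * h) 0 φ x ∂(wm m V)) - S / (1 - ρ) ≤ 0 := by
        rw [zero_mul] at hlim
        refine ge_of_tendsto' hlim fun n => (hiter n).trans ?_
        refine mul_le_mul_of_nonneg_left ?_ (pow_nonneg hρ0 n)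
        linarith [hbd n]
      have e0 : ∫ x, (fun _ : X => (0 : ℝ)) x * φ x ∂(wm m V) = 0 := by simp
      rw [e0, zero_add]
      have e1 : D / (1 - ρ) * ∫ x, φ x ∂(wm m V) = S / (1 - ρ) := by rw [hS]; ring
      rw [e1]
      simpa using h9)
  filter_upwards [key] with x hx
  simpa using hx

/-- [a], iterated. -/
theorem di_wg_itJ_sq_le (H : Hyp m k N) (hV : BddLip V) {ε B : ℝ} {G : X → ℝ} (hε : 0 < ε)
    (hh : 0 < h) (hOS : OneStep m V G ε k h) (hGm : Measurable G) (hGB : ∀ x, |G x| ≤ B)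
    (hρ : 2 * h * (B + ε * k) < 1) {z : X → ℝ} (hz : IsSobolev m z)
    (hzb : ∃ C : ℝ, ∀ᵐ x ∂m, |z x| ≤ C) {D : ℝ}
    (hzL : ∀ᵐ x ∂m, minWeakGrad m z x ^ 2 ≤ D) (n : ℕ) :
    ∀ᵐ x ∂m, minWeakGrad m (itJ m V (ε * h) n z) x ^ 2 ≤
      D * ((1 - 2 * h * (B + ε * k)) ^ n)⁻¹ := by
  have hεh : 0 < ε * h := mul_pos hε hh
  induction n with
  | zero => simpa using hzL
  | succ n ih =>
    obtain ⟨C, hC⟩ := hzb
    have h1 := di_wgJ_sq_le H hV hε hh hOS hGm hGB hρ (itJ_sob H hV hεh hz n)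
      ⟨C, itJ_abs_le H hV hεh hz.1 hC n⟩ ih
    rw [itJ_succ]
    filter_upwards [h1] with x hx
    refine hx.trans (le_of_eq ?_)
    rw [pow_succ, mul_inv, ← mul_assoc]
    rfl

/-- the energy with respect to the unweighted measure is bounded along the iterates. -/
theorem di_energy_bdd (H : Hyp m k N) (hV : BddLip V) {z : X → ℝ} (hz : IsSobolev m z) :
    ∃ A : ℝ, ∀ h : ℝ, 0 < h → ∀ n : ℕ, ∫ x, minWeakGrad m (itJ m V h n z) x ^ 2 ∂m ≤ A := by
  obtain ⟨BV, hBV⟩ := hV.1
  have hVm : Measurable V := hV.bddM.1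
  refine ⟨Real.exp BV * En m V z z, fun h hh n => ?_⟩
  have hs := itJ_sob H hV hh hz n
  have h1 := itJ_energy_le H hV hh hz n
  rw [En_self H hV hs, integral_wm hV.bddM] at h1
  have hi := integrable_wg_sq H hs
  have hi2 : Integrable (fun x => Real.exp (V x) * minWeakGrad m (itJ m V h n z) x ^ 2) m := by
    refine (hi.const_mul (Real.exp BV)).mono'
      ((Real.measurable_exp.comp hVm).aestronglyMeasurable.mul hi.aestronglyMeasurable) ?_
    refine Eventually.of_forall fun x => ?_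
    rw [norm_mul, Real.norm_of_nonneg (Real.exp_pos _).le, Real.norm_of_nonneg (sq_nonneg _)]
    exact mul_le_mul_of_nonneg_right
      (Real.exp_le_exp.2 ((le_abs_self _).trans (hBV x))) (sq_nonneg _)
  have h2 : ∫ x, minWeakGrad m (itJ m V h n z) x ^ 2 ∂m ≤
      Real.exp BV * ∫ x, Real.exp (V x) * minWeakGrad m (itJ m V h n z) x ^ 2 ∂m := by
    rw [← integral_const_mul]
    refine integral_mono hi (hi2.const_mul _) fun x => ?_
    have h3 : 1 ≤ Real.exp BV * Real.exp (V x) := by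
      rw [← Real.exp_add]
      apply Real.one_le_exp
      linarith [neg_abs_le (V x), hBV x]
    have h4 := sq_nonneg (minWeakGrad m (itJ m V h n z) x)
    simp only
    nlinarith
  exact h2.trans (mul_le_mul_of_nonneg_left h1 (Real.exp_pos _).le)

/-- `(1 - 2 (θ/(n+1)) a)^(n+1) → e^{-2 a θ}`. -/
theorem di_tendsto_pow (a θ : ℝ) :
    Tendsto (fun n : ℕ => (1 - 2 * (θ / ((n : ℝ) + 1)) * a) ^ (n + 1)) atTop
      (𝓝 (Real.exp (-(2 * a * θ)))) := by
  have h1 := Real.tendsto_one_add_div_pow_exp (-(2 * a * θ))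
  have h2 := h1.comp (tendsto_add_atTop_nat 1)
  refine h2.congr fun n => ?_
  simp only [Function.comp]
  congr 1
  push_cast
  ring

theorem di_tendsto_pow_inv (a θ : ℝ) :
    Tendsto (fun n : ℕ => ((1 - 2 * (θ / ((n : ℝ) + 1)) * a) ^ (n + 1))⁻¹) atTop
      (𝓝 (Real.exp (2 * a * θ))) := by
  have h1 := (di_tendsto_pow a θ).inv₀ (Real.exp_pos _).ne'
  rwa [Real.exp_neg, inv_inv] at h1

theorem di_small_step (a θ : ℝ) :
    ∀ᶠ n : ℕ in atTop, 2 * (θ / ((n : ℝ) + 1)) * a < 1 := by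
  have h1 : Tendsto (fun n : ℕ => 2 * (θ / ((n : ℝ) + 1)) * a) atTop (𝓝 (2 * 0 * a)) := by
    have h2 : Tendsto (fun n : ℕ => θ / ((n : ℝ) + 1)) atTop (𝓝 0) :=
      (tendsto_const_div_atTop_nhds_zero_nat θ).comp (tendsto_add_atTop_nat 1) |>.congr
        fun n => by simp [Function.comp]
    exact (h2.const_mul 2).mul_const a
  rw [mul_zero, zero_mul] at h1
  exact (tendsto_order.1 h1).2 1 one_pos

/-- [D4a] gradient bound for the semigroup. -/
theorem di_wg_P_sq_le (H : Hyp m k N) (hV : BddLip V) {ε B : ℝ} {G : X → ℝ} (hε : 0 < ε)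
    {P : ℝ → (X → ℝ) → (X → ℝ)} (S : SemigroupSpec m V P)
    (hOS : ∀ h : ℝ, 0 < h → OneStep m V G ε k h) (hGm : Measurable G) (hGB : ∀ x, |G x| ≤ B)
    {z : X → ℝ} (hz : IsSobolev m z)
    (hzb : ∃ C : ℝ, ∀ᵐ x ∂m, |z x| ≤ C) {D : ℝ}
    (hzL : ∀ᵐ x ∂m, minWeakGrad m z x ^ 2 ≤ D) {θ : ℝ} (hθ : 0 ≤ θ) :
    ∀ᵐ x ∂m, minWeakGrad m (P (ε * θ) z) x ^ 2 ≤ D * Real.exp (2 * (B + ε * k) * θ) := by
  rcases hθ.eq_or_lt with h0 | hθ0
  · subst h0
    have h1 := S.zero z hz.1
    have h2 : minWeakGrad m (P (ε * 0) z) =ᵐ[m] minWeakGrad m z := by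
      have hz0 : IsSobolev m (P (ε * 0) z) := (S.sob (ε * 0) (by simp) z hz).1
      have h3 := gp_self H hz0.2.1
      have h4 := gp_self H hz.2.1
      have h5 : gradPairing m (P (ε * 0) z) (P (ε * 0) z) =ᵐ[m] gradPairing m z z := by
        have h6 : P (ε * 0) z =ᵐ[m] z := by rw [mul_zero]; exact h1
        exact gp_congr H hz0.2.1 hz0.2.1 h6 h6
      filter_upwards [h3, h4, h5, wg_nonneg H hz0.2.1, wg_nonneg H hz.2.1] with x a1 a2 a3 a4 a5
      have : minWeakGrad m (P (ε * 0) z) x ^ 2 = minWeakGrad m z x ^ 2 := by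
        rw [← a1, a3, a2]
      exact (pow_left_inj₀ a4 a5 two_ne_zero).1 this
    filter_upwards [h2, hzL] with x h2 h3
    rw [h2]; simpa using h3
  set t := ε * θ with ht
  have ht0 : 0 < t := mul_pos hε hθ0
  set a := B + ε * k with ha
  have hstep : ∀ n : ℕ, t / ((n : ℝ) + 1) = ε * (θ / ((n : ℝ) + 1)) := fun n => by
    rw [ht]; ring
  have hexpo := di_expo H hV S hz.1 ht0
  have hPz : IsSobolev m (P t z) := (S.sob t ht0.le z hz).1
  obtain ⟨A, hA⟩ := di_energy_bdd H hV hz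
  have hPi := integrable_wg_sq H hPz
  have hlimD : Tendsto (fun n : ℕ => D * ((1 - 2 * (θ / ((n : ℝ) + 1)) * a) ^ (n + 1))⁻¹) atTop
      (𝓝 (D * Real.exp (2 * a * θ))) := (di_tendsto_pow_inv a θ).const_mul D
  have hmain : ∀ η : ℝ, 0 < η → ∀ᵐ x ∂m, minWeakGrad m (P t z) x ^ 2 ≤
      D * Real.exp (2 * a * θ) + η := by
    intro η hη
    have key := di_ae_le_of_test (m := m) hV (F₁ := fun x => minWeakGrad m (P t z) x ^ 2)
      (F₂ := fun _ => 0) (C := D * Real.exp (2 * a * θ) + η) hPi (integrable_zero _ _ _)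
      (fun φ hφ2 hφ1 hφb hφ0 => by
        have hcl := di_closed H hV (un := fun n : ℕ => itJ m V (t / ((n : ℝ) + 1)) (n + 1) z)
          (f := P t z) (φ := φ) (A := A)
          (C := (D * Real.exp (2 * a * θ) + η) * ∫ x, φ x ∂(wm m V))
          (fun n => itJ_sob H hV (by positivity) hz (n + 1)) hPz.1 hexpo
          (fun n => hA _ (by positivity) (n + 1)) hφ2.aestronglyMeasurable hφ0 hφb (by
            have h1 := (tendsto_order.1 hlimD).2 (D * Real.exp (2 * a * θ) + η) (by linarith)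
            filter_upwards [h1, di_small_step a θ] with n h1 h2
            have hhn : 0 < θ / ((n : ℝ) + 1) := by positivity
            have h3 := di_wg_itJ_sq_le H hV hε hhn (hOS _ hhn) hGm hGB h2 hz hzb hzL (n + 1)
            rw [← hstep n] at h3
            have hs := itJ_sob H hV (by positivity : 0 < t / ((n : ℝ) + 1)) hz (n + 1)
            rw [← integral_const_mul]
            refine integral_mono_ae (di_int hV (integrable_wg_sq H hs)
              hφ2.aestronglyMeasurable hφb) ((di_int_wm hV hφ1).const_mul _) ((di_ae hV).2 ?_)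
            filter_upwards [h3, hφ0] with x h4 h5
            exact mul_le_mul_of_nonneg_right (h4.trans h1.le) h5)
        have h6 := hcl.2
        have e0 : ∫ x, (fun _ : X => (0 : ℝ)) x * φ x ∂(wm m V) = 0 := by simp
        rw [e0, zero_add]
        exact h6)
    filter_upwards [key] with x hx
    simpa using hx
  have hall : ∀ᵐ x ∂m, ∀ n : ℕ, minWeakGrad m (P t z) x ^ 2 ≤
      D * Real.exp (2 * a * θ) + 1 / ((n : ℝ) + 1) :=
    ae_all_iff.2 fun n => hmain _ (by positivity)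
  filter_upwards [hall] with x hx
  refine le_of_forall_pos_le_add fun η hη => ?_
  obtain ⟨n, hn⟩ := exists_nat_one_div_lt hη
  exact (hx n).trans (by linarith)

end Crest.Agent.R242
end
end

-- ▼ part R242/DIterD
section

/-!
Row 242 (S0375), DIter, part D: time regularity at resolvent level, and the localised gradient
estimate after finitely many steps.
-/

set_option autoImplicit false
set_option linter.unusedSectionVars false

open MeasureTheory Filter Set
open scoped ENNReal NNReal Topology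
open Crest.GeometryTopology.SyntheticRicci

noncomputable section

namespace Crest.Agent.R242

variable {X : Type*} [MetricSpace X] [ProperSpace X] [MeasurableSpace X] [BorelSpace X]
  {m : Measure X} [IsLocallyFiniteMeasure m] [m.IsOpenPosMeasure] {k N : ℝ}
  {V : X → ℝ} {h : ℝ} {f g u v : X → ℝ}

theorem di_wg_add_le (H : Hyp m k N) (hf : IsSobolevLoc m f) (hg : IsSobolevLoc m g) :
    ∀ᵐ x ∂m, minWeakGrad m (fun y => f y + g y) x ≤ minWeakGrad m f x + minWeakGrad m g x := by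
  filter_upwards [wg_add_sq H hf hg, gp_abs_le H hf hg, wg_nonneg H hf, wg_nonneg H hg]
    with x h1 h2 h3 h4
  have h5 := (abs_le.1 h2).2
  refine (abs_le_of_sq_le_sq' ?_ (add_nonneg h3 h4)).2
  rw [h1]; nlinarith

theorem di_wg_smul (H : Hyp m k N) (c : ℝ) (hf : IsSobolevLoc m f) :
    ∀ᵐ x ∂m, minWeakGrad m (fun y => c * f y) x = |c| * minWeakGrad m f x := by
  have hs := sobLoc_smul H c hf
  filter_upwards [gp_self H hs, gp_smul_left H c hf hs, gp_smul_right H c hf hf, gp_self H hf,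
    wg_nonneg H hs, wg_nonneg H hf] with x h1 h2 h3 h4 h5 h6
  rw [h1] at h2
  rw [h3, h4] at h2
  have h7 : minWeakGrad m (fun y => c * f y) x ^ 2 = (|c| * minWeakGrad m f x) ^ 2 := by
    rw [h2, mul_pow, sq_abs]; ring
  exact (pow_left_inj₀ h5 (by positivity) two_ne_zero).1 h7

/-- `h ∑_{j<n} J^{j+1} v`. -/
def sumJ (m : Measure X) (V : X → ℝ) (h : ℝ) (n : ℕ) (v : X → ℝ) : X → ℝ :=
  fun x => ∑ j ∈ Finset.range n, h * itJ m V h (j + 1) v x

theorem sumJ_succ (n : ℕ) : sumJ m V h (n + 1) v =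
    fun x => sumJ m V h n v x + h * itJ m V h (n + 1) v x := by
  funext x; simp [sumJ, Finset.sum_range_succ]

theorem sumJ_isWLap (H : Hyp m k N) (hV : BddLip V) (hh : 0 < h) (hv : MemLp v 2 m) (n : ℕ) :
    IsWLap m V (sumJ m V h n v) (fun x => itJ m V h n v x - v x) := by
  induction n with
  | zero =>
    have h1 := (Jr_isWLap H hV hh hv).smul H hV 0
    refine h1.congr H hV (Eventually.of_forall fun x => ?_) (Eventually.of_forall fun x => ?_)
    · simp [sumJ]
    · simp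
  | succ n ih =>
    have h1 := (Jr_isWLap H hV hh (itJ_memLp H hV hh hv n)).smul H hV h
    have h2 := ih.add H hV h1
    rw [sumJ_succ]
    refine h2.congr H hV (Eventually.of_forall fun x => ?_) (Eventually.of_forall fun x => ?_)
    · simp [itJ_succ]
    · simp only [itJ_succ]
      field_simp
      ring

theorem sumJ_abs_le (H : Hyp m k N) (hV : BddLip V) (hh : 0 < h) (hv : MemLp v 2 m) {c : ℝ}
    (hc : ∀ᵐ x ∂m, |v x| ≤ c) (n : ℕ) : ∀ᵐ x ∂m, |sumJ m V h n v x| ≤ n * (h * c) := by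
  induction n with
  | zero => exact Eventually.of_forall fun x => by simp [sumJ]
  | succ n ih =>
    rw [sumJ_succ]
    filter_upwards [ih, itJ_abs_le H hV hh hv hc (n + 1)] with x h1 h2
    refine (abs_add_le _ _).trans ?_
    rw [abs_mul, abs_of_pos hh]
    have := mul_le_mul_of_nonneg_left h2 hh.le
    push_cast
    linarith

theorem sumJ_wg_le (H : Hyp m k N) (hV : BddLip V) (hh : 0 < h) (hv : MemLp v 2 m) {M : ℝ}
    (n : ℕ) (hM : ∀ j ≤ n, ∀ᵐ x ∂m, minWeakGrad m (itJ m V h j v) x ≤ M) :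
    ∀ᵐ x ∂m, minWeakGrad m (sumJ m V h n v) x ≤ n * (h * M) := by
  induction n with
  | zero =>
    have h1 := di_wg_smul H 0 (Jr_sob H hV hh hv).2.1
    have e : sumJ m V h 0 v = fun y => 0 * Jr m V h v y := by funext x; simp [sumJ]
    rw [e]
    filter_upwards [h1] with x hx
    rw [hx]; simp
  | succ n ih =>
    rw [sumJ_succ]
    have hs1 : IsSobolevLoc m (sumJ m V h n v) := (sumJ_isWLap H hV hh hv n).1.2.1
    have hs2 : IsSobolevLoc m (itJ m V h (n + 1) v) := by
      rw [itJ_succ]; exact (Jr_sob H hV hh (itJ_memLp H hV hh hv n)).2.1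
    have hs3 := sobLoc_smul H h hs2
    filter_upwards [di_wg_add_le H hs1 hs3, di_wg_smul H h hs2, hM (n + 1) le_rfl,
      ih (fun j hj => hM j (hj.trans (Nat.le_succ n)))] with x h1 h2 h3 h4
    rw [h2, abs_of_pos hh] at h1
    have := mul_le_mul_of_nonneg_left h3 hh.le
    push_cast
    linarith

theorem di_bl0 : BddLip (fun _ : X => (0 : ℝ)) :=
  ⟨⟨0, fun x => by simp⟩, 0, LipschitzWith.const 0⟩

theorem di_J_memLp (H : Hyp m k N) {δ : ℝ} (hδ : 0 < δ) (hf : MemLp f 2 m) : MemLp (J m δ f) 2 m :=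
  Jr_memLp H di_bl0 hδ hf

theorem di_J_symm (H : Hyp m k N) {δ : ℝ} (hδ : 0 < δ) (hf : MemLp f 2 m) (hg : MemLp g 2 m) :
    ∫ x, J m δ f x * g x ∂m = ∫ x, f x * J m δ g x ∂m := by
  have h1 := Jr_symm H (di_bl0 (X := X)) hδ hf hg
  rwa [wm_zero] at h1

theorem di_JJ_symm (H : Hyp m k N) {δ : ℝ} (hδ : 0 < δ) (hf : MemLp f 2 m) (hg : MemLp g 2 m) :
    ∫ x, J m δ (J m δ f) x * g x ∂m = ∫ x, f x * J m δ (J m δ g) x ∂m := by
  rw [di_J_symm H hδ (di_J_memLp H hδ hf) hg, di_J_symm H hδ hf (di_J_memLp H hδ hg)]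

/-- [e], at resolvent level. -/
theorem di_JJ_sub (H : Hyp m k N) (hV : BddLip V) {LV : ℝ} (hLV : 0 ≤ LV)
    (hVL : ∀ᵐ x ∂m, minWeakGrad m V x ≤ LV) (hh : 0 < h) {v : X → ℝ} (hv : MemLp v 2 m) {c M : ℝ}
    (hc : ∀ᵐ x ∂m, |v x| ≤ c) (n : ℕ)
    (hM : ∀ j ≤ n, ∀ᵐ x ∂m, minWeakGrad m (itJ m V h j v) x ≤ M) {δ : ℝ} (hδ : 0 < δ) :
    ∀ᵐ x ∂m, |J m δ (J m δ (fun y => itJ m V h n v y - v y)) x| ≤
      n * (h * (LV * M + 2 * c / δ)) := by
  set u := sumJ m V h n v with hu
  set g : X → ℝ := fun x => itJ m V h n v x - v x with hg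
  have hW : IsWLap m V u g := sumJ_isWLap H hV hh hv n
  have hL : IsWeakLaplacian m u (fun x => g x - gradPairing m V u x) := (isWLap_iff H hV).1 hW
  set D : X → ℝ := fun x => g x - gradPairing m V u x with hD
  have hL0 : IsWLap m (fun _ => 0) u D := isWLap_zero_iff.2 hL
  have hDm : MemLp D 2 m := hL.2.1
  have hgm : MemLp g 2 m := hW.2.1
  have hum : MemLp u 2 m := hW.1.1
  have hGm : MemLp (gradPairing m V u) 2 m := by
    have : gradPairing m V u = fun x => g x - D x := by funext x; simp [hD]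
    rw [this]; exact hgm.sub hDm
  have hVs : IsSobolevLoc m V := by
    obtain ⟨-, L, hL⟩ := hV
    exact sobLoc_of_lipschitz H hL
  have hsplit : g = fun x => D x + gradPairing m V u x := by funext x; simp [hD]
  -- first part
  have h1 : ∀ᵐ x ∂m, |J m δ (J m δ D) x| ≤ n * (h * (2 * c / δ)) := by
    have h2 := hL0.Jr_sub H di_bl0 hδ
    have h3 : ∀ᵐ x ∂m, |J m δ D x| ≤ n * (h * (2 * c / δ)) := by
      have h4 := sumJ_abs_le H hV hh hv hc n
      have h5 := Jr_abs_le H (di_bl0 (X := X)) hδ hum h4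
      filter_upwards [h2, h4, h5] with x a1 a2 a3
      have a4 : δ * J m δ D x = Jr m (fun _ => 0) δ u x - u x := a1.symm
      have a5 : |δ * J m δ D x| ≤ n * (h * c) + n * (h * c) := by
        rw [a4]; exact (abs_sub _ _).trans (add_le_add a3 a2)
      rw [abs_mul, abs_of_pos hδ] at a5
      have a6 : |J m δ D x| ≤ (n * (h * c) + n * (h * c)) / δ := by
        rw [le_div_iff₀ hδ]; linarith
      refine a6.trans (le_of_eq ?_)
      field_simp
      ring
    exact Jr_abs_le H (di_bl0 (X := X)) hδ (di_J_memLp H hδ hDm) h3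
  -- second part
  have h2 : ∀ᵐ x ∂m, |J m δ (J m δ (gradPairing m V u)) x| ≤ n * (h * (LV * M)) := by
    have h3 : ∀ᵐ x ∂m, |gradPairing m V u x| ≤ n * (h * (LV * M)) := by
      filter_upwards [gp_abs_le H hVs hW.1.2.1, hVL, sumJ_wg_le H hV hh hv n hM,
        wg_nonneg H hVs, wg_nonneg H hW.1.2.1] with x a1 a2 a3 a4 a5
      refine a1.trans ?_
      calc minWeakGrad m V x * minWeakGrad m u x ≤ LV * (n * (h * M)) :=
            mul_le_mul a2 a3 a5 hLV
        _ = n * (h * (LV * M)) := by ring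
    exact Jr_abs_le H (di_bl0 (X := X)) hδ (di_J_memLp H hδ hGm)
      (Jr_abs_le H (di_bl0 (X := X)) hδ hGm h3)
  have h3 : J m δ (J m δ g) =ᵐ[m] fun x => J m δ (J m δ D) x + J m δ (J m δ (gradPairing m V u)) x := by
    have a1 : J m δ g =ᵐ[m] fun x => J m δ D x + J m δ (gradPairing m V u) x := by
      have := Jr_add H (di_bl0 (X := X)) hδ hDm hGm
      rw [← hsplit] at this
      exact this
    have a2 := Jr_congr H (di_bl0 (X := X)) hδ (di_J_memLp H hδ hgm) a1
    exact a2.trans (Jr_add H (di_bl0 (X := X)) hδ (di_J_memLp H hδ hDm)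
      (di_J_memLp H hδ hGm))
  filter_upwards [h1, h2, h3] with x a1 a2 a3
  rw [a3]
  refine (abs_add_le _ _).trans ((add_le_add a1 a2).trans (le_of_eq ?_))
  ring

theorem di_memLp_two_of_bdd {Q : X → ℝ} {D : ℝ} (hQ : Integrable Q m) (h0 : 0 ≤ᵐ[m] Q)
    (hD : ∀ᵐ x ∂m, Q x ≤ D) : MemLp Q 2 m := by
  rw [memLp_two_iff_integrable_sq hQ.aestronglyMeasurable]
  refine (hQ.const_mul D).mono' (hQ.aestronglyMeasurable.pow 2) ?_
  filter_upwards [h0, hD] with x h1 h2
  have h1' : 0 ≤ Q x := h1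
  rw [Real.norm_of_nonneg (sq_nonneg _), sq]
  exact mul_le_mul_of_nonneg_right h2 h1'

/-- [d] after `n` steps. -/
theorem di_D4_finite (H : Hyp m k N) (hV : BddLip V) {ε : ℝ} {G : X → ℝ} (hε : 0 < ε)
    (hh : 0 < h) (hOS : OneStep m V G ε k h) (hGm : Measurable G) {B : ℝ} (hGB : ∀ x, |G x| ≤ B)
    {z : X → ℝ} (hz : IsSobolev m z)
    (hzb : ∃ C : ℝ, ∀ᵐ x ∂m, |z x| ≤ C) {v : X → ℝ} {c lam : ℝ} (hv : MemLp v 2 m)
    (hvc : ∀ᵐ x ∂m, v x ≤ c) (hc : 0 ≤ c)
    (hGv : ∀ᵐ x ∂m, G x ≤ lam + c - v x) (n : ℕ) {C1 : ℝ} (hC1 : 0 ≤ C1)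
    (hzC : ∀ j ≤ n, ∀ᵐ x ∂m, minWeakGrad m (itJ m V (ε * h) j z) x ^ 2 ≤ C1)
    (ha1 : 2 * h * |lam + ε * k| < 1) {φ : X → ℝ} (hφ2 : MemLp φ 2 m) (hφ1 : Integrable φ m)
    (hφb : ∃ C : ℝ, ∀ᵐ x ∂m, |φ x| ≤ C) (hφ0 : 0 ≤ᵐ[m] φ) :
    ∫ x, minWeakGrad m (itJ m V (ε * h) n z) x ^ 2 * φ x ∂(wm m V) ≤
      ((1 - 2 * h * (lam + ε * k)) ^ n)⁻¹ *
          ∫ x, minWeakGrad m z x ^ 2 * itJ m V (ε * h) n φ x ∂(wm m V) +
        ((1 - 2 * h * |lam + ε * k|) ^ n)⁻¹ * ∑ i ∈ Finset.range n, 2 * h *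
          (|lam + ε * k| * (Real.sqrt (C1 * En m V z z) *
              n2 (wm m V) (fun x => Jr m V (ε * h) φ x - φ x)) +
            C1 * (c * ∫ x, φ x ∂(wm m V) -
              ∫ x, itJ m V (ε * h) (i + 1) v x * φ x ∂(wm m V))) := by
  have hεh : 0 < ε * h := mul_pos hε hh
  set a := lam + ε * k with ha
  set δ' := Real.sqrt (C1 * En m V z z) * n2 (wm m V) (fun x => Jr m V (ε * h) φ x - φ x) with hδ'
  have hδ0 : 0 ≤ δ' := mul_nonneg (Real.sqrt_nonneg _) n2_nonneg
  set E : ℕ → ℝ := fun i => C1 * (c * ∫ x, φ x ∂(wm m V) -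
    ∫ x, itJ m V (ε * h) (i + 1) v x * φ x ∂(wm m V)) with hE
  have hφm := fun i => itJ_memLp H hV hεh hφ2 i
  have hφbb : ∀ i, ∃ C : ℝ, ∀ᵐ x ∂m, |itJ m V (ε * h) i φ x| ≤ C := fun i => by
    obtain ⟨C, hC⟩ := hφb
    exact ⟨C, itJ_abs_le H hV hεh hφ2 hC i⟩
  have hφn := fun i => itJ_nonneg H hV hεh hφ2 hφ0 i
  have hφi := fun i => (itJ_l1 H hV hεh hφ2 hφ1 i).1
  have hE0 : ∀ i, 0 ≤ E i := by
    intro i
    refine mul_nonneg hC1 (sub_nonneg.2 ?_)
    rw [← integral_const_mul]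
    have hvm := itJ_memLp H hV hεh hv (i + 1)
    refine integral_mono_ae (((di_mem hV).2 hvm).integrable_mul ((di_mem hV).2 hφ2))
      ((di_int_wm hV hφ1).const_mul c) ((di_ae hV).2 ?_)
    filter_upwards [itJ_le_const H hV hεh hv hc hvc (i + 1), hφ0] with x h1 h2
    exact mul_le_mul_of_nonneg_right h1 h2
  -- the quantities `A i`
  set A : ℕ → ℝ := fun i => ∫ x, minWeakGrad m (itJ m V (ε * h) (n - i) z) x ^ 2 *
    itJ m V (ε * h) i φ x ∂(wm m V) with hA
  have hstep : ∀ i < n, A i * (1 - 2 * h * a) ≤ A (i + 1) + 2 * h * (|a| * δ' + E i) := by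
    intro i hi
    obtain ⟨j, hj⟩ : ∃ j, n - i = j + 1 := ⟨n - i - 1, by omega⟩
    have hj' : n - (i + 1) = j := by omega
    have hzj : IsSobolev m (itJ m V (ε * h) j z) := itJ_sob H hV hεh hz j
    have hzj1 : IsSobolev m (itJ m V (ε * h) (j + 1) z) := itJ_sob H hV hεh hz (j + 1)
    obtain ⟨Cz, hCz⟩ := hzb
    have h1 := hOS (itJ m V (ε * h) j z) (itJ m V (ε * h) i φ) hzj
      ⟨Cz, itJ_abs_le H hV hεh hz.1 hCz j⟩ (hφm i) (hφbb i) (hφn i)
    rw [← itJ_succ, ← itJ_succ] at h1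
    set Q : X → ℝ := fun x => minWeakGrad m (itJ m V (ε * h) (j + 1) z) x ^ 2 with hQ
    have hQi : Integrable Q m := integrable_wg_sq H hzj1
    have hQC : ∀ᵐ x ∂m, Q x ≤ C1 := hzC (j + 1) (by omega)
    have hQ0 : ∀ x, 0 ≤ Q x := fun x => sq_nonneg _
    have hQ2 : MemLp Q 2 m := di_memLp_two_of_bdd hQi (Eventually.of_forall hQ0) hQC
    have hAi : A i = ∫ x, Q x * itJ m V (ε * h) i φ x ∂(wm m V) := by
      simp only [hA, hj, hQ]
    have hAi1 : A (i + 1) = ∫ x, minWeakGrad m (itJ m V (ε * h) j z) x ^ 2 *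
        itJ m V (ε * h) (i + 1) φ x ∂(wm m V) := by
      simp only [hA, hj']
    rw [← hAi, ← hAi1] at h1
    -- integrability
    have iQ : ∀ l, Integrable (fun x => Q x * itJ m V (ε * h) l φ x) (wm m V) := fun l =>
      di_int hV hQi (hφm l).aestronglyMeasurable (hφbb l)
    have iv : Integrable (fun x => (c - v x) * itJ m V (ε * h) (i + 1) φ x) (wm m V) := by
      have e1 : (fun x => (c - v x) * itJ m V (ε * h) (i + 1) φ x) =
          fun x => c * itJ m V (ε * h) (i + 1) φ x - v x * itJ m V (ε * h) (i + 1) φ x := by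
        funext x; ring
      rw [e1]
      exact ((di_int_wm hV (hφi _)).const_mul c).sub
        (((di_mem hV).2 hv).integrable_mul ((di_mem hV).2 (hφm _)))
    have iGQ : Integrable (fun x => (ε * k + G x) * Q x * itJ m V (ε * h) (i + 1) φ x)
        (wm m V) := by
      have i2 : Integrable (fun x => (ε * k + G x) * Q x) m := by
        refine (hQi.norm.const_mul (|ε * k| + B)).mono'
          ((aestronglyMeasurable_const.add hGm.aestronglyMeasurable).mul
            hQi.aestronglyMeasurable) ?_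
        refine Eventually.of_forall fun x => ?_
        rw [norm_mul]
        refine mul_le_mul_of_nonneg_right ?_ (norm_nonneg _)
        rw [Real.norm_eq_abs]
        exact (abs_add_le _ _).trans (add_le_add le_rfl (hGB x))
      exact di_int hV i2 (hφm _).aestronglyMeasurable (hφbb _)
    -- the potential term
    have h2 : ∫ x, (ε * k + G x) * Q x * itJ m V (ε * h) (i + 1) φ x ∂(wm m V) ≤
        a * (∫ x, Q x * itJ m V (ε * h) (i + 1) φ x ∂(wm m V)) +
          C1 * ∫ x, (c - v x) * itJ m V (ε * h) (i + 1) φ x ∂(wm m V) := by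
      rw [← integral_const_mul, ← integral_const_mul, ← integral_add ((iQ _).const_mul a)
        (iv.const_mul C1)]
      refine integral_mono_ae iGQ (((iQ _).const_mul a).add (iv.const_mul C1)) ((di_ae hV).2 ?_)
      filter_upwards [hφn (i + 1), hGv, hvc, hQC] with x a1 a2 a3 a4
      have a1' : 0 ≤ itJ m V (ε * h) (i + 1) φ x := a1
      have a5 : ε * k + G x ≤ a + (c - v x) := by rw [ha]; linarith
      have a6 : 0 ≤ Q x * itJ m V (ε * h) (i + 1) φ x := mul_nonneg (hQ0 x) a1'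
      have a7 : (c - v x) * (Q x * itJ m V (ε * h) (i + 1) φ x) ≤
          (c - v x) * (C1 * itJ m V (ε * h) (i + 1) φ x) :=
        mul_le_mul_of_nonneg_left (mul_le_mul_of_nonneg_right a4 a1') (by linarith)
      have a8 := mul_le_mul_of_nonneg_right a5 a6
      have a9 : (ε * k + G x) * Q x * itJ m V (ε * h) (i + 1) φ x =
          (ε * k + G x) * (Q x * itJ m V (ε * h) (i + 1) φ x) := by ring
      have a10 : a * (Q x * itJ m V (ε * h) (i + 1) φ x) +
          C1 * ((c - v x) * itJ m V (ε * h) (i + 1) φ x) =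
          a * (Q x * itJ m V (ε * h) (i + 1) φ x) +
          (c - v x) * (C1 * itJ m V (ε * h) (i + 1) φ x) := by ring
      have a11 : (a + (c - v x)) * (Q x * itJ m V (ε * h) (i + 1) φ x) =
          a * (Q x * itJ m V (ε * h) (i + 1) φ x) +
          (c - v x) * (Q x * itJ m V (ε * h) (i + 1) φ x) := by ring
      linarith
    have h3 : ∫ x, (c - v x) * itJ m V (ε * h) (i + 1) φ x ∂(wm m V) ≤
        c * ∫ x, φ x ∂(wm m V) - ∫ x, itJ m V (ε * h) (i + 1) v x * φ x ∂(wm m V) := by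
      have ivf : Integrable (fun x => v x * itJ m V (ε * h) (i + 1) φ x) (wm m V) :=
        ((di_mem hV).2 hv).integrable_mul ((di_mem hV).2 (hφm _))
      have e1 : ∫ x, (c - v x) * itJ m V (ε * h) (i + 1) φ x ∂(wm m V) =
          c * ∫ x, itJ m V (ε * h) (i + 1) φ x ∂(wm m V) -
            ∫ x, v x * itJ m V (ε * h) (i + 1) φ x ∂(wm m V) := by
        rw [← integral_const_mul, ← integral_sub ((di_int_wm hV (hφi _)).const_mul c) ivf]
        exact integral_congr_ae (Eventually.of_forall fun x => by ring)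
      rw [e1, itJ_symm H hV hεh hv hφ2 (i + 1)]
      have := mul_le_mul_of_nonneg_left
        (di_int_l1 hV H hεh hφ2 hφ1 hφ0 (n := i + 1)) hc
      linarith
    have h4 : a * (∫ x, Q x * itJ m V (ε * h) (i + 1) φ x ∂(wm m V)) ≤ a * A i + |a| * δ' := by
      have e1 : ∫ x, Q x * itJ m V (ε * h) (i + 1) φ x ∂(wm m V) = A i +
          ∫ x, Q x * (itJ m V (ε * h) (i + 1) φ x - itJ m V (ε * h) i φ x) ∂(wm m V) := by
        rw [hAi, ← integral_add (iQ _)]
        · exact integral_congr_ae (Eventually.of_forall fun x => by simp; ring)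
        · have e2 : (fun x => Q x * (itJ m V (ε * h) (i + 1) φ x - itJ m V (ε * h) i φ x)) =
              fun x => Q x * itJ m V (ε * h) (i + 1) φ x - Q x * itJ m V (ε * h) i φ x := by
            funext x; ring
          rw [e2]; exact (iQ _).sub (iQ _)
      have h5 : |∫ x, Q x * (itJ m V (ε * h) (i + 1) φ x - itJ m V (ε * h) i φ x) ∂(wm m V)| ≤
          δ' := by
        have h6 := n2_cs ((di_mem hV).2 hQ2) ((di_mem hV).2 ((hφm (i + 1)).sub (hφm i)))
        refine h6.trans ?_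
        refine mul_le_mul ?_ ?_ n2_nonneg (Real.sqrt_nonneg _)
        · have hEn0 := En_nonneg H hV hz
          refine n2_le_of_sq_le ((di_mem hV).2 hQ2) (Real.sqrt_nonneg _) ?_
          rw [Real.sq_sqrt (mul_nonneg hC1 hEn0)]
          have b1 : ∫ x, Q x ^ 2 ∂(wm m V) ≤ ∫ x, C1 * Q x ∂(wm m V) := by
            refine integral_mono_ae ((di_mem hV).2 hQ2).integrable_sq
              ((di_int_wm hV hQi).const_mul C1) ((di_ae hV).2 ?_)
            filter_upwards [hQC] with x hx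
            rw [sq]
            exact mul_le_mul_of_nonneg_right hx (hQ0 x)
          rw [integral_const_mul] at b1
          refine b1.trans (mul_le_mul_of_nonneg_left ?_ hC1)
          have b2 := itJ_energy_le H hV hεh hz (j + 1)
          rwa [En_self H hV hzj1] at b2
        · have b3 := itJ_n2_sub H hV hεh (Jr_memLp H hV hεh hφ2) hφ2 i
          rwa [← itJ_succ'] at b3
      rw [e1, mul_add]
      have h7 : a * ∫ x, Q x * (itJ m V (ε * h) (i + 1) φ x - itJ m V (ε * h) i φ x) ∂(wm m V) ≤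
          |a| * δ' := by
        calc _ ≤ |a * ∫ x, Q x * (itJ m V (ε * h) (i + 1) φ x -
              itJ m V (ε * h) i φ x) ∂(wm m V)| := le_abs_self _
          _ = |a| * |∫ x, Q x * (itJ m V (ε * h) (i + 1) φ x -
              itJ m V (ε * h) i φ x) ∂(wm m V)| := abs_mul _ _
          _ ≤ |a| * δ' := mul_le_mul_of_nonneg_left h5 (abs_nonneg a)
      linarith
    have h5 : ∫ x, (ε * k + G x) * Q x * itJ m V (ε * h) (i + 1) φ x ∂(wm m V) ≤
        a * A i + (|a| * δ' + E i) := by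
      have h6 := mul_le_mul_of_nonneg_left h3 hC1
      have h7 : E i = C1 * (c * ∫ x, φ x ∂(wm m V) -
        ∫ x, itJ m V (ε * h) (i + 1) v x * φ x ∂(wm m V)) := rfl
      linarith
    have h6 := mul_le_mul_of_nonneg_left h5 (by positivity : (0 : ℝ) ≤ 2 * h)
    have h7 : A i ≤ A (i + 1) + 2 * h * (a * A i + (|a| * δ' + E i)) := h1.trans (by linarith)
    linarith
  -- sum up
  have hr0 : 0 < 1 - 2 * h * a := by
    have : 2 * h * a ≤ 2 * h * |a| := mul_le_mul_of_nonneg_left (le_abs_self a) (by positivity)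
    linarith
  have hs0 : 0 < 1 - 2 * h * |a| := by linarith
  have hiter : ∀ j ≤ n, A 0 ≤ ((1 - 2 * h * a) ^ j)⁻¹ * A j +
      ((1 - 2 * h * |a|) ^ n)⁻¹ * ∑ i ∈ Finset.range j, 2 * h * (|a| * δ' + E i) := by
    intro j
    induction j with
    | zero => intro _; simp
    | succ j ih =>
      intro hj
      refine (ih (by omega)).trans ?_
      rw [Finset.sum_range_succ]
      have hmul : ∀ s t u : ℝ, s * (t + u) = s * t + s * u := fun s t u => mul_add s t u
      rw [hmul (((1 - 2 * h * |a|) ^ n)⁻¹) (∑ i ∈ Finset.range j, 2 * h * (|a| * δ' + E i))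
        (2 * h * (|a| * δ' + E j))]
      have h1 := hstep j (by omega)
      have h2 : A j ≤ (1 - 2 * h * a)⁻¹ * (A (j + 1) + 2 * h * (|a| * δ' + E j)) := by
        rw [inv_mul_eq_div, le_div_iff₀ hr0]; exact h1
      have h3 : ((1 - 2 * h * a) ^ j)⁻¹ * A j ≤ ((1 - 2 * h * a) ^ (j + 1))⁻¹ * A (j + 1) +
          ((1 - 2 * h * a) ^ (j + 1))⁻¹ * (2 * h * (|a| * δ' + E j)) := by
        have h4 := mul_le_mul_of_nonneg_left h2 (by positivity : 0 ≤ ((1 - 2 * h * a) ^ j)⁻¹)
        refine h4.trans (le_of_eq ?_)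
        rw [pow_succ, mul_inv]; ring
      have h4 : ((1 - 2 * h * a) ^ (j + 1))⁻¹ ≤ ((1 - 2 * h * |a|) ^ n)⁻¹ := by
        apply inv_anti₀ (pow_pos hs0 n)
        calc (1 - 2 * h * |a|) ^ n ≤ (1 - 2 * h * |a|) ^ (j + 1) :=
              pow_le_pow_of_le_one hs0.le (by
                have : 0 ≤ 2 * h * |a| := by positivity
                linarith) hj
          _ ≤ (1 - 2 * h * a) ^ (j + 1) := by
              refine pow_le_pow_left₀ hs0.le ?_ _
              have : 2 * h * a ≤ 2 * h * |a| :=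
                mul_le_mul_of_nonneg_left (le_abs_self a) (by positivity)
              linarith
      have h5 : 0 ≤ 2 * h * (|a| * δ' + E j) := by
        have := hE0 j
        positivity
      have h6 := mul_le_mul_of_nonneg_right h4 h5
      linarith
  have hfin := hiter n le_rfl
  have e0 : A 0 = ∫ x, minWeakGrad m (itJ m V (ε * h) n z) x ^ 2 * φ x ∂(wm m V) := by
    simp [hA]
  have e1 : A n = ∫ x, minWeakGrad m z x ^ 2 * itJ m V (ε * h) n φ x ∂(wm m V) := by
    simp [hA]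
  rw [e0, e1] at hfin
  exact hfin

end Crest.Agent.R242
end
end

-- ▼ part R242/DIterE

/-!
Row 242 (S0375), DIter, part E: the final estimates for the semigroup (localised gradient
estimate and time regularity, after two unweighted resolvents).
-/

set_option autoImplicit false
set_option linter.unusedSectionVars false

open MeasureTheory Filter Set
open scoped ENNReal NNReal Topology
open Crest.GeometryTopology.SyntheticRicci

noncomputable section

namespace Crest.Agent.R242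

variable {X : Type*} [MetricSpace X] [ProperSpace X] [MeasurableSpace X] [BorelSpace X]
  {m : Measure X} [IsLocallyFiniteMeasure m] [m.IsOpenPosMeasure] {k N : ℝ}
  {V : X → ℝ} {h : ℝ} {f g u v : X → ℝ}

theorem di_J_nonneg (H : Hyp m k N) {δ : ℝ} (hδ : 0 < δ) (hf : MemLp f 2 m) (h0 : 0 ≤ᵐ[m] f) :
    0 ≤ᵐ[m] J m δ f := Jr_nonneg H di_bl0 hδ hf h0

theorem di_J_abs_le (H : Hyp m k N) {δ : ℝ} (hδ : 0 < δ) (hf : MemLp f 2 m) {c : ℝ}
    (h0 : ∀ᵐ x ∂m, |f x| ≤ c) : ∀ᵐ x ∂m, |J m δ f x| ≤ c :=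
  Jr_abs_le H di_bl0 hδ hf h0

theorem di_J_l1 (H : Hyp m k N) {δ : ℝ} (hδ : 0 < δ) (hf : MemLp f 2 m) (hf1 : Integrable f m) :
    Integrable (J m δ f) m ∧ ∫ x, |J m δ f x| ∂m ≤ ∫ x, |f x| ∂m := by
  have h1 := Jr_l1 H (di_bl0 (X := X)) hδ hf hf1
  rwa [wm_zero] at h1

theorem di_JJ_l1 (H : Hyp m k N) {δ : ℝ} (hδ : 0 < δ) (hf : MemLp f 2 m)
    (hf1 : Integrable f m) : Integrable (J m δ (J m δ f)) m ∧
      ∫ x, |J m δ (J m δ f) x| ∂m ≤ ∫ x, |f x| ∂m := by
  have h1 := di_J_l1 H hδ hf hf1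
  have h2 := di_J_l1 H hδ (di_J_memLp H hδ hf) h1.1
  exact ⟨h2.1, h2.2.trans h1.2⟩

theorem di_n2_wm_le (hV : BddLip V) : ∃ C : ℝ, 0 < C ∧ ∀ q : X → ℝ, MemLp q 2 m →
    n2 (wm m V) q ≤ C * n2 m q := by
  obtain ⟨B, hB⟩ := hV.1
  refine ⟨Real.exp (B / 2), Real.exp_pos _, fun q hq => ?_⟩
  refine n2_le_of_sq_le ((di_mem hV).2 hq) (mul_nonneg (Real.exp_pos _).le n2_nonneg) ?_
  rw [mul_pow, n2_sq hq, integral_wm hV.bddM, ← integral_const_mul]
  have hi : Integrable (fun x => q x ^ 2) m := hq.integrable_sq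
  refine integral_mono_of_nonneg (Eventually.of_forall fun x => by positivity)
    (hi.const_mul _) (Eventually.of_forall fun x => ?_)
  refine mul_le_mul_of_nonneg_right ?_ (sq_nonneg _)
  rw [← Real.exp_nat_mul]
  apply Real.exp_le_exp.2
  push_cast
  linarith [(le_abs_self _).trans (hB x)]

theorem di_n2_le_wm (hV : BddLip V) : ∃ C : ℝ, 0 < C ∧ ∀ q : X → ℝ, MemLp q 2 m →
    n2 m q ≤ C * n2 (wm m V) q := by
  obtain ⟨B, hB⟩ := hV.1
  refine ⟨Real.exp (B / 2), Real.exp_pos _, fun q hq => ?_⟩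
  refine n2_le_of_sq_le hq (mul_nonneg (Real.exp_pos _).le n2_nonneg) ?_
  rw [mul_pow, n2_sq ((di_mem hV).2 hq), integral_wm hV.bddM, ← integral_const_mul]
  have hi : Integrable (fun x => q x ^ 2) m := hq.integrable_sq
  have hi2 : Integrable (fun x => Real.exp (V x) * q x ^ 2) m :=
    (integrable_wm_iff hV.bddM (fun x => q x ^ 2)).2 hi |> fun h => by
      refine (hi.const_mul (Real.exp B)).mono'
        ((Real.measurable_exp.comp hV.bddM.1).aestronglyMeasurable.mul hi.aestronglyMeasurable) ?_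
      refine Eventually.of_forall fun x => ?_
      rw [norm_mul, Real.norm_of_nonneg (Real.exp_pos _).le, Real.norm_of_nonneg (sq_nonneg _)]
      exact mul_le_mul_of_nonneg_right
        (Real.exp_le_exp.2 ((le_abs_self _).trans (hB x))) (sq_nonneg _)
  refine integral_mono hi (hi2.const_mul _) fun x => ?_
  have e1 : Real.exp (B / 2) ^ 2 * (Real.exp (V x) * q x ^ 2) =
      Real.exp (B + V x) * q x ^ 2 := by
    rw [← mul_assoc, ← Real.exp_nat_mul, ← Real.exp_add]; congr 2; push_cast; ring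
  simp only [e1]
  have : 1 ≤ Real.exp (B + V x) := by
    apply Real.one_le_exp
    linarith [neg_abs_le (V x), hB x]
  nlinarith [sq_nonneg (q x)]

theorem di_Jr_tendsto_n2 (H : Hyp m k N) (hV : BddLip V) (hf : MemLp f 2 m) :
    Tendsto (fun h => n2 (wm m V) (fun x => Jr m V h f x - f x)) (𝓝[>] 0) (𝓝 0) := by
  obtain ⟨C, hC0, hC⟩ := di_n2_wm_le (m := m) hV
  have h1 : Tendsto (fun h => C * Real.sqrt (∫ x, (Jr m V h f x - f x) ^ 2 ∂m)) (𝓝[>] 0)
      (𝓝 0) := by
    have h2 := (Real.continuous_sqrt.tendsto _).comp (Jr_tendsto_l2 H hV hf)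
    rw [Real.sqrt_zero] at h2
    have h3 := h2.const_mul C
    rwa [mul_zero] at h3
  refine squeeze_zero' (Eventually.of_forall fun _ => n2_nonneg) ?_ h1
  filter_upwards [self_mem_nhdsWithin] with h hh
  have hh' : (0 : ℝ) < h := hh
  have hm : MemLp (fun x => Jr m V h f x - f x) 2 m := (Jr_memLp H hV hh' hf).sub hf
  refine (hC _ hm).trans (le_of_eq ?_)
  rw [← n2_sq hm, Real.sqrt_sq n2_nonneg]

/-- a.e. bounds pass to `L²` limits. -/
theorem di_bound_limit {fn : ℕ → X → ℝ} (hfn : ∀ n, MemLp (fn n) 2 m) (hf : MemLp f 2 m)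
    (hlim : Tendsto (fun n => n2 m (fun x => fn n x - f x)) atTop (𝓝 0)) {Cn : ℕ → ℝ} {C : ℝ}
    (hCn : Tendsto Cn atTop (𝓝 C)) (hb : ∀ᶠ n in atTop, ∀ᵐ x ∂m, |fn n x| ≤ Cn n) :
    ∀ᵐ x ∂m, |f x| ≤ C := by
  have h1 : Tendsto (fun n => eLpNorm (fn n - f) 2 m) atTop (𝓝 0) := by
    have h3 := ENNReal.tendsto_ofReal hlim
    rw [ENNReal.ofReal_zero] at h3
    refine h3.congr fun n => ?_
    exact ENNReal.ofReal_toReal ((hfn n).sub hf).2.ne
  have h2 : TendstoInMeasure m fn atTop f :=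
    tendstoInMeasure_of_tendsto_eLpNorm (by norm_num) (fun n => (hfn n).aestronglyMeasurable)
      hf.aestronglyMeasurable h1
  obtain ⟨ns, hns, hae⟩ := h2.exists_seq_tendsto_ae
  obtain ⟨n₀, hn₀⟩ := eventually_atTop.1 hb
  have h4 : ∀ᵐ x ∂m, ∀ n : ℕ, n₀ ≤ n → |fn n x| ≤ Cn n := by
    rw [ae_all_iff]
    intro n
    by_cases hn : n₀ ≤ n
    · filter_upwards [hn₀ n hn] with x hx _ using hx
    · exact Eventually.of_forall fun x h => (hn h).elim
  filter_upwards [hae, h4] with x h5 h6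
  have h7 : Tendsto (fun i => |fn (ns i) x|) atTop (𝓝 |f x|) := h5.abs
  have h8 : Tendsto (fun i => Cn (ns i)) atTop (𝓝 C) := hCn.comp hns.tendsto_atTop
  refine le_of_tendsto_of_tendsto h7 h8 ?_
  filter_upwards [hns.tendsto_atTop.eventually_ge_atTop n₀] with i hi
  exact h6 _ hi

/-- test functions of the form `e^{-V} J_δ J_δ ψ`. -/
theorem di_testfn (H : Hyp m k N) (hV : BddLip V) {δ : ℝ} (hδ : 0 < δ) {ψ : X → ℝ}
    (hψ2 : MemLp ψ 2 m) (hψ1 : Integrable ψ m) (hψb : ∃ C : ℝ, ∀ᵐ x ∂m, |ψ x| ≤ C)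
    (hψ0 : 0 ≤ᵐ[m] ψ) :
    ∃ φ : X → ℝ, MemLp φ 2 m ∧ Integrable φ m ∧ (∃ C : ℝ, ∀ᵐ x ∂m, |φ x| ≤ C) ∧ 0 ≤ᵐ[m] φ ∧
      (∀ F : X → ℝ, ∫ x, F x * φ x ∂(wm m V) = ∫ x, F x * J m δ (J m δ ψ) x ∂m) ∧
      ∫ x, φ x ∂(wm m V) ≤ ∫ x, ψ x ∂m := by
  obtain ⟨B, hB⟩ := hV.1
  have hVm : Measurable V := hV.bddM.1
  set w := J m δ (J m δ ψ) with hw
  have hw2 : MemLp w 2 m := di_J_memLp H hδ (di_J_memLp H hδ hψ2)
  have hw1 := di_JJ_l1 H hδ hψ2 hψ1
  have hw0 : 0 ≤ᵐ[m] w := di_J_nonneg H hδ (di_J_memLp H hδ hψ2) (di_J_nonneg H hδ hψ2 hψ0)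
  obtain ⟨C, hC⟩ := hψb
  have hwb : ∀ᵐ x ∂m, |w x| ≤ C :=
    di_J_abs_le H hδ (di_J_memLp H hδ hψ2) (di_J_abs_le H hδ hψ2 hC)
  have hem : AEStronglyMeasurable (fun x => Real.exp (-V x)) m :=
    (Real.measurable_exp.comp hVm.neg).aestronglyMeasurable
  have hle : ∀ x, |Real.exp (-V x) * w x| ≤ Real.exp B * |w x| := fun x => by
    rw [abs_mul, abs_of_pos (Real.exp_pos _)]
    exact mul_le_mul_of_nonneg_right (Real.exp_le_exp.2 ((neg_le_abs _).trans (hB x)))
      (abs_nonneg _)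
  refine ⟨fun x => Real.exp (-V x) * w x, ?_, ?_, ?_, ?_, ?_, ?_⟩
  · exact (hw2.norm.const_mul (Real.exp B)).mono' (hem.mul hw2.aestronglyMeasurable)
      (Eventually.of_forall fun x => by simpa using hle x)
  · exact (hw1.1.norm.const_mul (Real.exp B)).mono' (hem.mul hw2.aestronglyMeasurable)
      (Eventually.of_forall fun x => by simpa using hle x)
  · refine ⟨Real.exp B * C, ?_⟩
    filter_upwards [hwb] with x hx
    exact (hle x).trans (mul_le_mul_of_nonneg_left hx (Real.exp_pos _).le)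
  · filter_upwards [hw0] with x hx
    exact mul_nonneg (Real.exp_pos _).le hx
  · intro F
    rw [integral_wm hV.bddM]
    refine integral_congr_ae (Eventually.of_forall fun x => ?_)
    simp only
    have : Real.exp (V x) * Real.exp (-V x) = 1 := by rw [← Real.exp_add]; simp
    calc Real.exp (V x) * (F x * (Real.exp (-V x) * w x)) =
        (Real.exp (V x) * Real.exp (-V x)) * (F x * w x) := by ring
      _ = F x * w x := by rw [this, one_mul]
  · have e1 : ∫ x, Real.exp (-V x) * w x ∂(wm m V) = ∫ x, w x ∂m := by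
      rw [integral_wm hV.bddM]
      refine integral_congr_ae (Eventually.of_forall fun x => ?_)
      simp only
      rw [← mul_assoc, ← Real.exp_add]; simp
    rw [e1]
    have e2 : ∫ x, |w x| ∂m = ∫ x, w x ∂m := integral_congr_ae (by
      filter_upwards [hw0] with x hx using abs_of_nonneg hx)
    have e3 : ∫ x, |ψ x| ∂m = ∫ x, ψ x ∂m := integral_congr_ae (by
      filter_upwards [hψ0] with x hx using abs_of_nonneg hx)
    have := hw1.2
    rwa [e2, e3] at this

section Semi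
variable {P : ℝ → (X → ℝ) → (X → ℝ)}

theorem di_P_abs_le (S : SemigroupSpec m V P) {t : ℝ} (ht : 0 ≤ t) (hf : MemLp f 2 m) {c : ℝ}
    (hc : 0 ≤ c) (h0 : ∀ᵐ x ∂m, |f x| ≤ c) : ∀ᵐ x ∂m, |P t f x| ≤ c := by
  have h1 := S.le_const t ht f hf c hc (h0.mono fun x hx => (le_abs_self _).trans hx)
  have h2 := S.le_const t ht (fun x => (-1) * f x) (hf.const_mul _) c hc
    (h0.mono fun x hx => by have := (neg_le_abs (f x)).trans hx; linarith)
  have h3 := S.smul t ht (-1) f hf
  filter_upwards [h1, h2, h3] with x a1 a2 a3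
  rw [a3] at a2
  exact abs_le.2 ⟨by linarith, a1⟩

end Semi

theorem di_sqrt_exp (x : ℝ) : Real.sqrt (Real.exp (2 * x)) = Real.exp x := by
  rw [show 2 * x = x + x by ring, Real.exp_add, Real.sqrt_mul_self (Real.exp_pos _).le]

/-- step sizes tend to zero from the right. -/
theorem di_tendsto_step {t : ℝ} (ht : 0 < t) :
    Tendsto (fun n : ℕ => t / ((n : ℝ) + 1)) atTop (𝓝[>] 0) := by
  rw [tendsto_nhdsWithin_iff]
  refine ⟨?_, Eventually.of_forall fun n => ?_⟩
  · exact ((tendsto_const_div_atTop_nhds_zero_nat t).comp (tendsto_add_atTop_nat 1)).congr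
      fun n => by simp [Function.comp]
  · have : 0 < t / ((n : ℝ) + 1) := by positivity
    exact this

end Crest.Agent.R242
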