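import Crest.Agent.R242.Defs

/-!
# Row 242, PART G, [G1]: Sobolev-to-Lipschitz (helper216)
-/

set_option autoImplicit false
set_option linter.unusedSectionVars false
open MeasureTheory Filter Set
open scoped ENNReal NNReal Topology
open Crest.GeometryTopology.SyntheticRicci

noncomputable section
namespace Crest.Agent.R242

section Basics

variable {X : Type*} [MetricSpace X]

theorem geo_dist_ext_le {γ : UCurve X} (h : IsCSGeodesic γ) (s t : ℝ) :
    dist (γ.ext s) (γ.ext t) ≤ |s - t| * dist (γ.toMap 0) (γ.toMap 1) := by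
  unfold UCurve.ext
  rw [h]
  refine mul_le_mul_of_nonneg_right ?_ dist_nonneg
  exact abs_projIcc_sub_projIcc _

theorem geo_upperSpeed_le {γ : UCurve X} (h : IsCSGeodesic γ) (t : ℝ) :
    upperSpeed γ t ≤ ENNReal.ofReal (dist (γ.toMap 0) (γ.toMap 1)) := by
  unfold upperSpeed
  refine Filter.limsup_le_of_le (by isBoundedDefault) ?_
  filter_upwards [self_mem_nhdsWithin] with s hs
  refine ENNReal.ofReal_le_ofReal ?_
  have hst : 0 < |s - t| := abs_pos.2 (sub_ne_zero.2 hs)
  rw [div_le_iff₀ hst, mul_comm]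
  exact geo_dist_ext_le h s t

theorem geo_hasL2Speed {γ : UCurve X} (h : IsCSGeodesic γ) : HasL2Speed γ := by
  refine ⟨fun _ => ENNReal.ofReal (dist (γ.toMap 0) (γ.toMap 1)), measurable_const, ?_, ?_⟩
  · rw [lintegral_const, Measure.restrict_apply_univ, Real.volume_Icc]
    exact ENNReal.mul_lt_top (ENNReal.pow_lt_top ENNReal.ofReal_lt_top) ENNReal.ofReal_lt_top
  · intro s t hst
    rw [lintegral_const, Measure.restrict_apply_univ, Real.volume_Icc, edist_dist, h s t,
      ← ENNReal.ofReal_mul dist_nonneg]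
    refine ENNReal.ofReal_le_ofReal ?_
    rw [abs_sub_comm, abs_of_nonneg (sub_nonneg.2 hst), mul_comm]

theorem geo_dist_left {γ : UCurve X} (h : IsCSGeodesic γ) (t : ℝ) :
    dist (γ.toMap 0) (γ.ext t) ≤ dist (γ.toMap 0) (γ.toMap 1) := by
  unfold UCurve.ext
  rw [h]
  have h1 : |((0 : unitInterval) : ℝ) - ((Set.projIcc (0 : ℝ) 1 zero_le_one t : unitInterval) : ℝ)| ≤ 1 := by
    have h2 := (Set.projIcc (0 : ℝ) 1 zero_le_one t).2
    rw [abs_le]
    constructor
    · have := h2.2; simp; linarith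
    · have := h2.1; simp; linarith
  calc _ ≤ 1 * dist (γ.toMap 0) (γ.toMap 1) := mul_le_mul_of_nonneg_right h1 dist_nonneg
    _ = _ := one_mul _

end Basics

section Meas

variable {X : Type*} [MetricSpace X] [MeasurableSpace X] [BorelSpace X]

theorem continuous_ucurve_eval (t : unitInterval) : Continuous fun γ : UCurve X => γ.toMap t :=
  (continuous_eval_const t).comp continuous_induced_dom

theorem measurable_ucurve_eval (t : unitInterval) : Measurable fun γ : UCurve X => γ.toMap t :=
  (continuous_ucurve_eval t).measurable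

theorem s2l_continuous_ext (γ : UCurve X) : Continuous γ.ext :=
  γ.toMap.continuous.comp continuous_projIcc

theorem measurable_ext_prod : Measurable fun p : UCurve X × ℝ => p.1.ext p.2 := by
  have h : Measurable (Function.uncurry fun (t : ℝ) (γ : UCurve X) => γ.ext t) :=
    measurable_uncurry_of_continuous_of_measurable (fun γ => s2l_continuous_ext γ)
      (fun t => measurable_ucurve_eval _)
  exact h.comp measurable_swap

/-- a null set is avoided by almost every curve at almost every time -/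
theorem ae_ae_notMem_of_null {m : Measure X} {P : Measure (UCurve X)} [SFinite P] {C : ℝ≥0}
    (hC : ∀ t, timeMarginal P t ≤ (C : ℝ≥0∞) • m) {S : Set X} (hS : m S = 0) :
    ∀ᵐ γ ∂P, ∀ᵐ t ∂(volume.restrict (Set.Icc (0 : ℝ) 1)), γ.ext t ∉ S := by
  obtain ⟨N, hSN, hN, hN0⟩ := exists_measurable_superset_of_null hS
  have h1 : (∫⁻ γ, (∫⁻ t in Set.Icc (0 : ℝ) 1, N.indicator (fun _ => (1 : ℝ≥0∞)) (γ.ext t)) ∂P) = 0 := by
    rw [lintegral_lintegral_swap]
    · refine (lintegral_congr fun t => ?_).trans (lintegral_zero)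
      have h2 : ∫⁻ γ, N.indicator (fun _ => (1 : ℝ≥0∞)) (γ.ext t) ∂P =
          timeMarginal P (Set.projIcc (0 : ℝ) 1 zero_le_one t) N := by
        unfold timeMarginal
        rw [Measure.map_apply (measurable_ucurve_eval _) hN, ← lintegral_indicator_one
          (measurable_ucurve_eval _ hN)]
        rfl
      rw [h2]
      have h3 := hC (Set.projIcc (0 : ℝ) 1 zero_le_one t) N
      rw [Measure.smul_apply, hN0, smul_zero] at h3
      exact le_antisymm h3 bot_le
    · exact (((measurable_const.indicator hN).comp measurable_ext_prod).aemeasurable)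
  rw [lintegral_eq_zero_iff'] at h1
  · filter_upwards [h1] with γ hγ
    have h4 : (∫⁻ t in Set.Icc (0 : ℝ) 1, N.indicator (fun _ => (1 : ℝ≥0∞)) (γ.ext t)) = 0 := hγ
    have hm : Measurable fun t : ℝ => N.indicator (fun _ => (1 : ℝ≥0∞)) (γ.ext t) :=
      (measurable_const.indicator hN).comp (s2l_continuous_ext γ).measurable
    have h5 := (lintegral_eq_zero_iff hm).1 h4
    filter_upwards [h5] with t ht hmem
    have h6 := hSN hmem
    simp only [Set.indicator_of_mem h6, Pi.zero_apply] at ht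
    exact one_ne_zero ht
  · exact (Measurable.lintegral_prod_right'
      ((measurable_const.indicator hN).comp measurable_ext_prod)).aemeasurable

end Meas

section Avg

variable {X : Type*} [MetricSpace X] [MeasurableSpace X] [BorelSpace X]

/-- bounded-density geodesic plans (a consequence of [DYAD]) -/
def HasBddGeoPlans (m : Measure X) : Prop :=
  ∀ (o : X) (R : ℝ) (M : ℝ≥0) (μ₀ μ₁ : Measure X), IsProbabilityMeasure μ₀ →
    IsProbabilityMeasure μ₁ → μ₀ ≤ (M : ℝ≥0∞) • m → μ₁ ≤ (M : ℝ≥0∞) • m →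
    μ₀ (Metric.closedBall o R)ᶜ = 0 → μ₁ (Metric.closedBall o R)ᶜ = 0 →
    ∃ P : Measure (UCurve X), IsProbabilityMeasure P ∧ (∀ᵐ γ ∂P, IsCSGeodesic γ) ∧
      timeMarginal P 0 = μ₀ ∧ timeMarginal P 1 = μ₁ ∧
      ∃ C : ℝ≥0, ∀ t, timeMarginal P t ≤ (C : ℝ≥0∞) • m

/-- geodesic plans between measures on bounded sets are test plans with bounded tracks -/
theorem geoPlan_isTestPlan {m : Measure X} {P : Measure (UCurve X)} (hP : IsProbabilityMeasure P)
    (hgeo : ∀ᵐ γ ∂P, IsCSGeodesic γ) (hC : ∃ C : ℝ≥0, ∀ t, timeMarginal P t ≤ (C : ℝ≥0∞) • m)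
    {o : X} {R : ℝ} (h0 : ∀ᵐ γ ∂P, γ.toMap 0 ∈ Metric.closedBall o R)
    (h1 : ∀ᵐ γ ∂P, γ.toMap 1 ∈ Metric.closedBall o R) :
    IsTestPlan2 m P ∧ HasBoundedTracks P := by
  have hd : ∀ᵐ γ ∂P, dist (γ.toMap 0) (γ.toMap 1) ≤ 2 * R := by
    filter_upwards [h0, h1] with γ ha hb
    calc dist (γ.toMap 0) (γ.toMap 1) ≤ dist (γ.toMap 0) o + dist (γ.toMap 1) o :=
          dist_triangle_right _ _ _
      _ ≤ R + R := add_le_add ha hb
      _ = 2 * R := by ring
  refine ⟨⟨hP, hC, hgeo.mono fun γ hγ => geo_hasL2Speed hγ, ?_⟩, o, R + 2 * R, ?_⟩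
  · have : (∫⁻ γ, (∫⁻ t in Set.Icc (0 : ℝ) 1, upperSpeed γ t ^ 2) ∂P) ≤
        ∫⁻ _γ, ENNReal.ofReal (2 * R) ^ 2 ∂P := by
      refine lintegral_mono_ae ?_
      filter_upwards [hgeo, hd] with γ hγ hdγ
      calc (∫⁻ t in Set.Icc (0 : ℝ) 1, upperSpeed γ t ^ 2)
          ≤ ∫⁻ _t in Set.Icc (0 : ℝ) 1, ENNReal.ofReal (2 * R) ^ 2 := by
            refine lintegral_mono fun t => ?_
            exact pow_le_pow_left' ((geo_upperSpeed_le hγ t).trans
              (ENNReal.ofReal_le_ofReal hdγ)) 2
        _ = ENNReal.ofReal (2 * R) ^ 2 := by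
            rw [lintegral_const, Measure.restrict_apply_univ, Real.volume_Icc]; simp
    refine lt_of_le_of_lt this ?_
    rw [lintegral_const, measure_univ, mul_one]
    exact ENNReal.pow_lt_top ENNReal.ofReal_lt_top
  · filter_upwards [hgeo, h0, hd] with γ hγ ha hdγ t
    have h2 := geo_dist_left hγ (t : ℝ)
    have h3 : γ.ext (t : ℝ) = γ.toMap t := by
      unfold UCurve.ext; rw [Set.projIcc_val]
    rw [h3] at h2
    rw [Metric.mem_closedBall]
    calc dist (γ.toMap t) o ≤ dist (γ.toMap t) (γ.toMap 0) + dist (γ.toMap 0) o :=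
          dist_triangle _ _ _
      _ ≤ 2 * R + R := add_le_add (by rw [dist_comm]; exact h2.trans hdγ) ha
      _ = R + 2 * R := by ring

/-- the normalised restriction of `m` to `S`; `⨍ x in S, f x ∂m = ∫ x, f x ∂(unif m S)` by
definition -/
def unif (m : Measure X) (S : Set X) : Measure X := (m.restrict S univ)⁻¹ • m.restrict S

theorem unif_prob {m : Measure X} {S : Set X} (h0 : m S ≠ 0) (h1 : m S ≠ ⊤) :
    IsProbabilityMeasure (unif m S) := by
  constructor
  unfold unif
  rw [Measure.smul_apply, smul_eq_mul, Measure.restrict_apply_univ]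
  exact ENNReal.inv_mul_cancel h0 h1

theorem unif_le {m : Measure X} {S : Set X} (h0 : m S ≠ 0) :
    unif m S ≤ (((m S)⁻¹.toNNReal : ℝ≥0) : ℝ≥0∞) • m := by
  unfold unif
  rw [Measure.restrict_apply_univ, ENNReal.coe_toNNReal (ENNReal.inv_ne_top.2 h0)]
  refine Measure.le_iff.2 fun A hA => ?_
  rw [Measure.smul_apply, Measure.smul_apply]
  exact mul_le_mul_right (Measure.restrict_apply_le _ _) _

theorem unif_compl {m : Measure X} {S T : Set X} (hS : MeasurableSet S) (hST : S ⊆ T) :
    unif m S Tᶜ = 0 := by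
  have : Tᶜ ∩ S = ∅ := by
    ext x
    simp only [mem_inter_iff, mem_compl_iff, mem_empty_iff_false, iff_false, not_and]
    exact fun h1 h2 => h1 (hST h2)
  have h2 : m.restrict S Tᶜ = 0 := by rw [Measure.restrict_apply' hS, this, measure_empty]
  unfold unif
  rw [Measure.smul_apply, h2, smul_zero]

/-- **[G1], core estimate** -/
theorem avg_sub_avg_le {m : Measure X} [m.IsOpenPosMeasure] (hfin : IsFiniteOnBalls m)
    (hpl : HasBddGeoPlans m) {u D : X → ℝ} (hu : IsL2OnBalls m u) (hD : IsWUGLoc m u D)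
    {y z : X} {s ρ L : ℝ} (hs : 0 < s) (hρ : dist y z + 4 * s ≤ ρ) (hL : 0 ≤ L)
    (hDL : ∀ᵐ x ∂m, x ∈ Metric.ball y ρ → D x ≤ L) :
    |(⨍ x in Metric.closedBall y s, u x ∂m) - ⨍ x in Metric.closedBall z s, u x ∂m| ≤
      L * (dist y z + 2 * s) := by
  set S₀ := Metric.closedBall y s with hS₀
  set S₁ := Metric.closedBall z s with hS₁
  have hfinc : ∀ (o : X), m (Metric.closedBall o s) ≠ ⊤ := fun o =>
    ((measure_mono (Metric.closedBall_subset_ball (by linarith : s < s + 1))).trans_lt
      (hfin o (s + 1))).ne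
  have hposc : ∀ (o : X), m (Metric.closedBall o s) ≠ 0 := fun o =>
    (Metric.measure_closedBall_pos m o hs).ne'
  have hp0 : IsProbabilityMeasure (unif m S₀) := unif_prob (hposc y) (hfinc y)
  have hp1 : IsProbabilityMeasure (unif m S₁) := unif_prob (hposc z) (hfinc z)
  have hm0 : MeasurableSet S₀ := Metric.isClosed_closedBall.measurableSet
  have hm1 : MeasurableSet S₁ := Metric.isClosed_closedBall.measurableSet
  have hsub0 : S₀ ⊆ Metric.closedBall y (dist y z + s) :=
    Metric.closedBall_subset_closedBall (by linarith [dist_nonneg (x := y) (y := z)])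
  have hsub1 : S₁ ⊆ Metric.closedBall y (dist y z + s) := by
    intro x hx
    rw [hS₁, Metric.mem_closedBall] at hx
    rw [Metric.mem_closedBall]
    calc dist x y ≤ dist x z + dist z y := dist_triangle _ _ _
      _ ≤ s + dist y z := by rw [dist_comm z y]; linarith
      _ = dist y z + s := by ring
  obtain ⟨P, hP, hgeo, hP0, hP1, hC⟩ := hpl y (dist y z + s)
    (max (m S₀)⁻¹.toNNReal (m S₁)⁻¹.toNNReal) (unif m S₀) (unif m S₁) hp0 hp1
    ((unif_le (hposc y)).trans (by
      refine Measure.le_iff.2 fun A hA => ?_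
      rw [Measure.smul_apply, Measure.smul_apply]
      exact mul_le_mul_left (ENNReal.coe_le_coe.2 (le_max_left _ _)) _))
    ((unif_le (hposc z)).trans (by
      refine Measure.le_iff.2 fun A hA => ?_
      rw [Measure.smul_apply, Measure.smul_apply]
      exact mul_le_mul_left (ENNReal.coe_le_coe.2 (le_max_right _ _)) _))
    (unif_compl hm0 hsub0) (unif_compl hm1 hsub1)
  have hev : ∀ (t : unitInterval) (S : Set X), MeasurableSet S → timeMarginal P t Sᶜ = 0 →
      ∀ᵐ γ ∂P, γ.toMap t ∈ S := by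
    intro t S hS h0
    unfold timeMarginal at h0
    rw [Measure.map_apply (measurable_ucurve_eval t) hS.compl] at h0
    exact h0
  have hγ0 : ∀ᵐ γ ∂P, γ.toMap 0 ∈ S₀ := hev 0 S₀ hm0 (by rw [hP0]; exact unif_compl hm0 subset_rfl)
  have hγ1 : ∀ᵐ γ ∂P, γ.toMap 1 ∈ S₁ := hev 1 S₁ hm1 (by rw [hP1]; exact unif_compl hm1 subset_rfl)
  obtain ⟨htest, hbdd⟩ := geoPlan_isTestPlan hP hgeo hC (hγ0.mono fun γ h => hsub0 h)
    (hγ1.mono fun γ h => hsub1 h)
  have hwug := hD.2.2 P htest hbdd
  -- bound of the right-hand side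
  have hbad : m {x | ¬ (x ∈ Metric.ball y ρ → D x ≤ L)} = 0 := hDL
  obtain ⟨C, hC⟩ := hC
  have hbad' := ae_ae_notMem_of_null hC hbad
  have hrhs : (∫⁻ γ, (∫⁻ t in Set.Icc (0 : ℝ) 1, ENNReal.ofReal (D (γ.ext t)) * upperSpeed γ t) ∂P) ≤
      ENNReal.ofReal (L * (dist y z + 2 * s)) := by
    have h1 : (∫⁻ γ, (∫⁻ t in Set.Icc (0 : ℝ) 1, ENNReal.ofReal (D (γ.ext t)) * upperSpeed γ t) ∂P) ≤
        ∫⁻ _γ, ENNReal.ofReal (L * (dist y z + 2 * s)) ∂P := by
      refine lintegral_mono_ae ?_
      filter_upwards [hgeo, hγ0, hγ1, hbad'] with γ hγ ha hb hc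
      rw [hS₀, Metric.mem_closedBall] at ha
      rw [hS₁, Metric.mem_closedBall] at hb
      have hd : dist (γ.toMap 0) (γ.toMap 1) ≤ dist y z + 2 * s := by
        calc dist (γ.toMap 0) (γ.toMap 1) ≤ dist (γ.toMap 0) y + dist y z + dist z (γ.toMap 1) :=
              dist_triangle4 _ _ _ _
          _ ≤ s + dist y z + s := by rw [dist_comm z]; linarith
          _ = dist y z + 2 * s := by ring
      have h2 : ∀ᵐ t ∂(volume.restrict (Set.Icc (0 : ℝ) 1)),
          ENNReal.ofReal (D (γ.ext t)) * upperSpeed γ t ≤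
            ENNReal.ofReal (L * (dist y z + 2 * s)) := by
        filter_upwards [hc] with t ht
        simp only [not_not] at ht
        have hball : γ.ext t ∈ Metric.ball y ρ := by
          rw [Metric.mem_ball]
          have h3 := geo_dist_left hγ t
          calc dist (γ.ext t) y ≤ dist (γ.ext t) (γ.toMap 0) + dist (γ.toMap 0) y :=
                dist_triangle _ _ _
            _ ≤ (dist y z + 2 * s) + s := by rw [dist_comm (γ.ext t)]; linarith
            _ < ρ := by linarith
        rw [ENNReal.ofReal_mul hL]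
        exact mul_le_mul' (ENNReal.ofReal_le_ofReal (ht hball))
          ((geo_upperSpeed_le hγ t).trans (ENNReal.ofReal_le_ofReal hd))
      calc _ ≤ ∫⁻ _t in Set.Icc (0 : ℝ) 1, ENNReal.ofReal (L * (dist y z + 2 * s)) :=
            lintegral_mono_ae h2
        _ = ENNReal.ofReal (L * (dist y z + 2 * s)) := by
            rw [lintegral_const, Measure.restrict_apply_univ, Real.volume_Icc]; simp
    refine h1.trans ?_
    rw [lintegral_const, measure_univ, mul_one]
  -- the left-hand side
  have hint : ∀ (t : unitInterval) (o : X), timeMarginal P t = unif m (Metric.closedBall o s) →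
      Integrable (fun γ : UCurve X => u (γ.toMap t)) P ∧
        ∫ γ, u (γ.toMap t) ∂P = ⨍ x in Metric.closedBall o s, u x ∂m := by
    intro t o ht
    have hui : Integrable u (m.restrict (Metric.ball o (s + 1))) := by
      have : IsFiniteMeasure (m.restrict (Metric.ball o (s + 1))) :=
        ⟨by rw [Measure.restrict_apply_univ]; exact hfin o (s + 1)⟩
      exact (hu o (s + 1)).integrable (by norm_num)
    have hui2 : Integrable u (m.restrict (Metric.closedBall o s)) :=
      hui.mono_measure (Measure.restrict_mono (Metric.closedBall_subset_ball (by linarith)) le_rfl)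
    have hui3 : Integrable u (unif m (Metric.closedBall o s)) := by
      unfold unif
      refine hui2.smul_measure ?_
      rw [Measure.restrict_apply_univ]
      exact ENNReal.inv_ne_top.2 (hposc o)
    rw [← ht] at hui3
    constructor
    · exact hui3.comp_measurable (measurable_ucurve_eval t)
    · have h4 := integral_map (measurable_ucurve_eval t).aemeasurable hui3.aestronglyMeasurable
      have h5 : ∫ γ, u (γ.toMap t) ∂P = ∫ x, u x ∂(timeMarginal P t) := h4.symm
      rw [h5, ht]
      rfl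
  obtain ⟨hi0, he0⟩ := hint 0 y hP0
  obtain ⟨hi1, he1⟩ := hint 1 z hP1
  rw [← he0, ← he1, abs_sub_comm, ← integral_sub hi1 hi0]
  have h6 := norm_integral_le_lintegral_norm (μ := P) fun γ : UCurve X =>
    u (γ.toMap 1) - u (γ.toMap 0)
  rw [Real.norm_eq_abs] at h6
  refine h6.trans ?_
  have h7 : (∫⁻ γ, ENNReal.ofReal ‖u (γ.toMap 1) - u (γ.toMap 0)‖ ∂P) ≤
      ENNReal.ofReal (L * (dist y z + 2 * s)) := hwug.trans hrhs
  have h8 : 0 ≤ L * (dist y z + 2 * s) :=
    mul_nonneg hL (by linarith [dist_nonneg (x := y) (y := z)])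
  calc _ ≤ (ENNReal.ofReal (L * (dist y z + 2 * s))).toReal :=
        ENNReal.toReal_mono ENNReal.ofReal_ne_top h7
    _ = _ := ENNReal.toReal_ofReal h8

/-- averages of a continuous function over small balls converge -/
theorem tendsto_avg_of_continuous {m : Measure X} [m.IsOpenPosMeasure] (hfin : IsFiniteOnBalls m)
    {u : X → ℝ} (hu : Continuous u) (y : X) :
    Tendsto (fun s : ℝ => ⨍ x in Metric.closedBall y s, u x ∂m) (𝓝[>] 0) (𝓝 (u y)) := by
  rw [Metric.tendsto_nhds]
  intro ε hε
  obtain ⟨δ, hδ, hδu⟩ := Metric.continuousAt_iff.1 hu.continuousAt (ε / 2) (by positivity)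
  have hev : ∀ᶠ s : ℝ in 𝓝[>] 0, 0 < s ∧ s < δ := by
    filter_upwards [self_mem_nhdsWithin, nhdsWithin_le_nhds (Iio_mem_nhds hδ)] with s h1 h2
    exact ⟨h1, h2⟩
  filter_upwards [hev] with s hs
  obtain ⟨hs0, hsδ⟩ := hs
  have hfinc : m (Metric.closedBall y s) ≠ ⊤ :=
    ((measure_mono (Metric.closedBall_subset_ball (by linarith : s < s + 1))).trans_lt
      (hfin y (s + 1))).ne
  have hposc : m (Metric.closedBall y s) ≠ 0 := (Metric.measure_closedBall_pos m y hs0).ne'
  have hp : IsProbabilityMeasure (unif m (Metric.closedBall y s)) := unif_prob hposc hfinc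
  have h1 : (⨍ x in Metric.closedBall y s, u x ∂m) =
      ∫ x, u x ∂(unif m (Metric.closedBall y s)) := rfl
  have hae : ∀ᵐ x ∂(unif m (Metric.closedBall y s)), x ∈ Metric.closedBall y s := by
    have := unif_compl (m := m) (Metric.isClosed_closedBall (x := y) (ε := s)).measurableSet
      subset_rfl
    exact this
  have hbd : ∀ᵐ x ∂(unif m (Metric.closedBall y s)), ‖u x - u y‖ ≤ ε / 2 := by
    filter_upwards [hae] with x hx
    have h9 := (hδu (lt_of_le_of_lt (Metric.mem_closedBall.1 hx) hsδ)).le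
    rw [Real.dist_eq] at h9
    rw [Real.norm_eq_abs]
    exact h9
  have hui : Integrable u (unif m (Metric.closedBall y s)) := by
    have h2 : Integrable (fun x => u x - u y) (unif m (Metric.closedBall y s)) :=
      Integrable.of_bound (hu.sub continuous_const).aestronglyMeasurable (ε / 2) hbd
    have h9 := h2.add (integrable_const (μ := unif m (Metric.closedBall y s)) (u y))
    refine h9.congr (Eventually.of_forall fun x => ?_)
    simp
  rw [h1, Real.dist_eq]
  have h3 : ∫ x, u x ∂(unif m (Metric.closedBall y s)) - u y =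
      ∫ x, (u x - u y) ∂(unif m (Metric.closedBall y s)) := by
    rw [integral_sub hui (integrable_const _)]; simp
  rw [h3]
  have h4 := norm_integral_le_of_norm_le_const hbd
  rw [Real.norm_eq_abs] at h4
  have h5 : (unif m (Metric.closedBall y s)).real univ = 1 := by simp
  rw [h5, mul_one] at h4
  linarith

/-- **[G1], local version**: a continuous function with a weak upper gradient bounded by `L` on a ball
around `y` containing `z`. -/
theorem abs_sub_le_of_wug {m : Measure X} [m.IsOpenPosMeasure] (hfin : IsFiniteOnBalls m)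
    (hpl : HasBddGeoPlans m) {u D : X → ℝ} (hu : IsL2OnBalls m u) (hD : IsWUGLoc m u D)
    (hc : Continuous u) {y z : X} {ρ L : ℝ} (hρ : dist y z < ρ) (hL : 0 ≤ L)
    (hDL : ∀ᵐ x ∂m, x ∈ Metric.ball y ρ → D x ≤ L) : |u y - u z| ≤ L * dist y z := by
  have h1 := (tendsto_avg_of_continuous hfin hc y).sub (tendsto_avg_of_continuous hfin hc z)
  have h2 : Tendsto (fun s : ℝ => L * (dist y z + 2 * s)) (𝓝[>] 0) (𝓝 (L * (dist y z + 2 * 0))) := by
    refine Tendsto.mono_left ?_ nhdsWithin_le_nhds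
    exact Continuous.tendsto (by fun_prop) 0
  have h3 : ∀ᶠ s : ℝ in 𝓝[>] 0, |(⨍ x in Metric.closedBall y s, u x ∂m) -
      ⨍ x in Metric.closedBall z s, u x ∂m| ≤ L * (dist y z + 2 * s) := by
    have hδ : 0 < (ρ - dist y z) / 4 := by linarith
    filter_upwards [self_mem_nhdsWithin, nhdsWithin_le_nhds (Iio_mem_nhds hδ)] with s h1 h2
    have h2' : s < (ρ - dist y z) / 4 := h2
    exact avg_sub_avg_le hfin hpl hu hD h1 (by linarith) hL hDL
  have h4 := le_of_tendsto_of_tendsto h1.abs h2 h3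
  simpa using h4

/-- **[G1], global version**: a Lipschitz representative. -/
theorem exists_lip_rep {m : Measure X} [m.IsOpenPosMeasure] [SecondCountableTopology X]
    [IsLocallyFiniteMeasure m] [IsUnifLocDoublingMeasure m] (hfin : IsFiniteOnBalls m)
    (hpl : HasBddGeoPlans m) {u D : X → ℝ} (hu : IsL2OnBalls m u) (hD : IsWUGLoc m u D)
    {L : ℝ≥0} (hDL : ∀ᵐ x ∂m, D x ≤ L) :
    ∃ v : X → ℝ, LipschitzWith L v ∧ v =ᵐ[m] u := by
  have hloc : LocallyIntegrable u m := by
    intro x
    refine ⟨Metric.ball x 1, Metric.ball_mem_nhds x one_pos, ?_⟩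
    have : IsFiniteMeasure (m.restrict (Metric.ball x 1)) :=
      ⟨by rw [Measure.restrict_apply_univ]; exact hfin x 1⟩
    exact (hu x 1).integrable (by norm_num)
  have h1 : ∀ᵐ x ∂m, Tendsto (fun s : ℝ => ⨍ y in Metric.closedBall x s, u y ∂m) (𝓝[>] 0)
      (𝓝 (u x)) := by
    filter_upwards [IsUnifLocDoublingMeasure.ae_tendsto_average (μ := m) hloc 1] with x hx
    refine hx (fun _ => x) (fun s => s) tendsto_id ?_
    filter_upwards [self_mem_nhdsWithin] with s hs
    rw [one_mul]
    exact Metric.mem_closedBall_self (le_of_lt hs)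
  set A := {x | Tendsto (fun s : ℝ => ⨍ y in Metric.closedBall x s, u y ∂m) (𝓝[>] 0) (𝓝 (u x))}
    with hA
  have hLip : LipschitzOnWith L u A := by
    refine LipschitzOnWith.of_dist_le_mul fun y hy z hz => ?_
    have h2 : Tendsto (fun s : ℝ => (L : ℝ) * (dist y z + 2 * s)) (𝓝[>] 0)
        (𝓝 ((L : ℝ) * (dist y z + 2 * 0))) := by
      refine Tendsto.mono_left ?_ nhdsWithin_le_nhds
      exact Continuous.tendsto (by fun_prop) 0
    have h3 : ∀ᶠ s : ℝ in 𝓝[>] 0, |(⨍ x in Metric.closedBall y s, u x ∂m) -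
        ⨍ x in Metric.closedBall z s, u x ∂m| ≤ (L : ℝ) * (dist y z + 2 * s) := by
      filter_upwards [self_mem_nhdsWithin] with s h1
      exact avg_sub_avg_le hfin hpl hu hD h1 le_rfl L.2 (hDL.mono fun x hx _ => hx)
    have h4 := le_of_tendsto_of_tendsto (Tendsto.sub hy hz).abs h2 h3
    rw [Real.dist_eq]
    simpa using h4
  obtain ⟨v, hv, hvu⟩ := hLip.extend_real
  refine ⟨v, hv, ?_⟩
  filter_upwards [h1] with x hx
  exact (hvu hx).symm


end Avg

end Crest.Agent.R242
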