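import Mathlib
import Crest.Agent.R242.ResCore
import Crest.Agent.R242.Pair
import Crest.Agent.R242.Defs
import Crest.Agent.R242.Curve
import Crest.Agent.R242.SobMin

-- ▼ part R242/CalcOfHyp
section

/-!
# Row 242: `Calc m` from `Hyp m k N` (Pair.lean + closure S8)
-/

set_option autoImplicit false
set_option linter.unusedSectionVars false

open MeasureTheory Filter Set
open scoped ENNReal NNReal Topology
open Crest.GeometryTopology.SyntheticRicci

noncomputable section

namespace Crest.Agent.R242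

variable {X : Type*} [MetricSpace X] [ProperSpace X] [MeasurableSpace X] [BorelSpace X]
  {m : Measure X} [IsLocallyFiniteMeasure m] [m.IsOpenPosMeasure] {k N : ℝ}

/-- closure statements of S8 (same form as in `SIface.lean`). -/
structure S8 (m : Measure X) : Prop where
  wg_congr : ∀ {f g : X → ℝ}, f =ᵐ[m] g → minWeakGrad m f =ᵐ[m] minWeakGrad m g
  closed : ∀ {f : X → ℝ} {fn : ℕ → X → ℝ}, (∀ n, IsSobolevLoc m (fn n)) → IsL2OnBalls m f →
    (∀ (o : X) (R : ℝ), Tendsto
      (fun n => ∫⁻ x in Metric.ball o R, ENNReal.ofReal ((fn n x - f x) ^ 2) ∂m) atTop (𝓝 0)) →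
    (∀ (o : X) (R : ℝ), ∃ C : ℝ≥0, ∀ n,
      ∫⁻ x in Metric.ball o R, ENNReal.ofReal (minWeakGrad m (fn n) x ^ 2) ∂m ≤ C) →
    IsSobolevLoc m f
  lsc : ∀ {f : X → ℝ} {fn : ℕ → X → ℝ}, (∀ n, IsSobolevLoc m (fn n)) → IsL2OnBalls m f →
    (∀ (o : X) (R : ℝ), Tendsto
      (fun n => ∫⁻ x in Metric.ball o R, ENNReal.ofReal ((fn n x - f x) ^ 2) ∂m) atTop (𝓝 0)) →
    (∀ (o : X) (R : ℝ), ∃ C : ℝ≥0, ∀ n,
      ∫⁻ x in Metric.ball o R, ENNReal.ofReal (minWeakGrad m (fn n) x ^ 2) ∂m ≤ C) →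
    ∀ {w : X → ℝ≥0∞}, Measurable w →
    ∫⁻ x, w x * ENNReal.ofReal (minWeakGrad m f x ^ 2) ∂m ≤
      liminf (fun n => ∫⁻ x, w x * ENNReal.ofReal (minWeakGrad m (fn n) x ^ 2) ∂m) atTop

theorem S8.gp_congr {f f' g g' : X → ℝ} (S : S8 m) (hf : f =ᵐ[m] f') (hg : g =ᵐ[m] g') :
    gradPairing m f g =ᵐ[m] gradPairing m f' g' := by
  have h1 : (fun y => f y + g y) =ᵐ[m] fun y => f' y + g' y := by
    filter_upwards [hf, hg] with x hx hy
    rw [hx, hy]
  have h2 : (fun y => f y - g y) =ᵐ[m] fun y => f' y - g' y := by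
    filter_upwards [hf, hg] with x hx hy
    rw [hx, hy]
  filter_upwards [S.wg_congr h1, S.wg_congr h2] with x e1 e2
  simp only [gradPairing, e1, e2]

lemma res_max_lip (c : ℝ) : LipschitzWith 1 (fun t : ℝ => max (t - c) 0) := by
  have h1 : LipschitzWith 1 (fun t : ℝ => t - c) := by
    refine LipschitzWith.of_dist_le_mul fun x y => ?_
    simp [Real.dist_eq]
  exact h1.max_const 0

lemma res_deriv_max_sq (c t : ℝ) :
    deriv (fun t : ℝ => max (t - c) 0) t * deriv (fun t : ℝ => max (t - c) 0) t =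
      deriv (fun t : ℝ => max (t - c) 0) t := by
  rcases lt_trichotomy t c with h | h | h
  · have : deriv (fun t : ℝ => max (t - c) 0) t = 0 := by
      have h1 : (fun t : ℝ => max (t - c) 0) =ᶠ[𝓝 t] fun _ => 0 := by
        filter_upwards [Iio_mem_nhds h] with s hs
        exact max_eq_right (by simp only [mem_Iio] at hs; linarith)
      rw [h1.deriv_eq]; simp
    rw [this]; ring
  · subst h
    have : ¬ DifferentiableAt ℝ (fun s : ℝ => max (s - t) 0) t := by
      intro hd
      -- right derivative 1, left derivative 0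
      have h1 := hd.hasDerivAt
      have hl : HasDerivWithinAt (fun s : ℝ => max (s - t) 0) 0 (Iic t) t := by
        refine (hasDerivWithinAt_const t (Iic t) (0 : ℝ)).congr (fun s hs => ?_) ?_
        · exact max_eq_right (by simp only [mem_Iic] at hs; linarith)
        · simp
      have hr : HasDerivWithinAt (fun s : ℝ => max (s - t) 0) 1 (Ici t) t := by
        refine ((hasDerivWithinAt_id t (Ici t)).sub_const t).congr (fun s hs => ?_) ?_
        · simp only [mem_Ici] at hs
          simp only [id]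
          exact max_eq_left (by linarith)
        · simp
      have e1 := (uniqueDiffWithinAt_Iic t).eq_deriv _ h1.hasDerivWithinAt hl
      have e2 := (uniqueDiffWithinAt_Ici t).eq_deriv _ h1.hasDerivWithinAt hr
      rw [e1] at e2
      norm_num at e2
    rw [deriv_zero_of_not_differentiableAt this]; ring
  · have : deriv (fun t : ℝ => max (t - c) 0) t = 1 := by
      have h1 : (fun t : ℝ => max (t - c) 0) =ᶠ[𝓝 t] fun s => s - c := by
        filter_upwards [Ioi_mem_nhds h] with s hs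
        exact max_eq_left (by simp only [mem_Ioi] at hs; linarith)
      rw [h1.deriv_eq]; simp
    rw [this]; ring

lemma res_diff_max (c : ℝ) : ∀ r ∉ ({c} : Set ℝ), DifferentiableAt ℝ (fun t : ℝ => max (t - c) 0) r := by
  intro r hr
  rcases lt_trichotomy r c with h | h | h
  · have h1 : (fun t : ℝ => max (t - c) 0) =ᶠ[𝓝 r] fun _ => 0 := by
      filter_upwards [Iio_mem_nhds h] with s hs
      exact max_eq_right (by simp only [mem_Iio] at hs; linarith)
    exact (differentiableAt_const (0 : ℝ)).congr_of_eventuallyEq h1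
  · exact absurd h hr
  · have h1 : (fun t : ℝ => max (t - c) 0) =ᶠ[𝓝 r] fun s => s - c := by
      filter_upwards [Ioi_mem_nhds h] with s hs
      exact max_eq_left (by simp only [mem_Ioi] at hs; linarith)
    exact (differentiableAt_id.sub_const c).congr_of_eventuallyEq h1

theorem calc_of_s8 (H : Hyp m k N) (S : S8 m) : Calc m where
  sob_congr := fun hf h => sob_congr H hf h
  sob_add := fun hf hg => sob_add H hf hg
  sob_smul := fun c _ hf => sob_smul H c hf
  sob_lip := by
    rintro f ⟨L, hL⟩ hc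
    rcases isEmpty_or_nonempty X with hX | ⟨⟨o⟩⟩
    · have : f = fun _ => (0 : ℝ) := funext fun x => (hX.false x).elim
      rw [this]; exact sob_zero H
    · refine sob_of_sobLoc_bddSupp H (sobLoc_of_lipschitz H hL) ?_
      obtain ⟨R, hR⟩ := hc.isCompact.isBounded.subset_closedBall o
      refine ⟨o, R, ae_of_all _ fun x hx => ?_⟩
      by_contra hne
      exact hx (hR (subset_tsupport f hne))
  gp_congr := fun hf hg => S.gp_congr hf hg
  gp_int := fun hf hg => integrable_gp H hf hg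
  gp_symm := fun hf hg => gp_comm H hf.2.1 hg.2.1
  gp_add := fun hf hg hv => gp_add_left H hf.2.1 hg.2.1 hv.2.1
  gp_smul := fun c _ _ hf hv => gp_smul_left H c hf.2.1 hv.2.1
  gp_self := fun hf => gp_self H hf.2.1
  sob_pos := by
    intro c hc u hu
    exact sob_comp H (φ := fun t : ℝ => max (t - c) 0) (res_max_lip c) (by simp [hc]) hu
  gp_pos := by
    intro c hc u hu
    have hv : IsSobolev m (fun x => max (u x - c) 0) :=
      sob_comp H (φ := fun t : ℝ => max (t - c) 0) (res_max_lip c) (by simp [hc]) hu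
    have h1 := gp_comp_left_lip H (res_max_lip c) (S := {c}) (by simp) (res_diff_max c) hu.2.1 hv.2.1
    have h2 := gp_comp_left_lip H (res_max_lip c) (S := {c}) (by simp) (res_diff_max c) hu.2.1 hu.2.1
    have h3 := gp_comm H hu.2.1 hv.2.1
    filter_upwards [h1, h2, h3] with x e1 e2 e3
    rw [e1, e3, e2, ← mul_assoc, res_deriv_max_sq]
  closed := by
    intro u f w A C hu hf hlim hA hw hw0 hwB hC
    have hsq : ∀ a : ℝ, ENNReal.ofReal (a ^ 2) = ‖a‖ₑ ^ (2 : ℝ) := by
      intro a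
      rw [Real.enorm_eq_ofReal_abs, ← sq_abs, ENNReal.ofReal_pow (abs_nonneg _)]
      norm_cast
    have hpow : ∀ g : X → ℝ, ∫⁻ x, ENNReal.ofReal (g x ^ 2) ∂m = eLpNorm g 2 m ^ (2 : ℝ) := by
      intro g
      have h1 := eLpNorm_nnreal_pow_eq_lintegral (f := g) (μ := m) (p := 2) (by norm_num)
      simp only [NNReal.coe_ofNat] at h1
      have h2 : eLpNorm g 2 m = eLpNorm g ((2 : ℝ≥0) : ℝ≥0∞) m := by norm_num
      rw [h2, h1]
      exact lintegral_congr fun x => hsq _
    have hfb : IsL2OnBalls m f := fun o R => hf.restrict _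
    have hlim' : ∀ (o : X) (R : ℝ), Tendsto
        (fun n => ∫⁻ x in Metric.ball o R, ENNReal.ofReal ((u n x - f x) ^ 2) ∂m) atTop (𝓝 0) := by
      intro o R
      have h1 : Tendsto (fun n => eLpNorm (fun x => u n x - f x) 2 m ^ (2 : ℝ)) atTop (𝓝 0) := by
        have h2 := (ENNReal.continuous_rpow_const (y := 2)).tendsto (0 : ℝ≥0∞) |>.comp hlim
        rw [ENNReal.zero_rpow_of_pos (by norm_num)] at h2
        exact h2
      refine tendsto_of_tendsto_of_tendsto_of_le_of_le tendsto_const_nhds h1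
        (fun n => zero_le) fun n => ?_
      simp only
      rw [← hpow]
      exact setLIntegral_le_lintegral _ _
    have hlint : ∀ n, ∫⁻ x, ENNReal.ofReal (minWeakGrad m (u n) x ^ 2) ∂m ≤ ENNReal.ofReal A := by
      intro n
      rw [← ofReal_integral_eq_lintegral_ofReal (integrable_wg_sq H (hu n))
        (ae_of_all _ fun x => sq_nonneg _)]
      exact ENNReal.ofReal_le_ofReal (hA n)
    have hbd : ∀ (o : X) (R : ℝ), ∃ C : ℝ≥0, ∀ n,
        ∫⁻ x in Metric.ball o R, ENNReal.ofReal (minWeakGrad m (u n) x ^ 2) ∂m ≤ C :=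
      fun o R => ⟨A.toNNReal, fun n => (setLIntegral_le_lintegral _ _).trans (hlint n)⟩
    have hloc := S.closed (fun n => (hu n).2.1) hfb hlim' hbd
    have hlsc := fun {w : X → ℝ≥0∞} (hw : Measurable w) =>
      S.lsc (fun n => (hu n).2.1) hfb hlim' hbd hw
    have h1 : ∫⁻ x, ENNReal.ofReal (minWeakGrad m f x ^ 2) ∂m ≤ ENNReal.ofReal A := by
      have h2 := hlsc (w := fun _ => 1) measurable_const
      simp only [one_mul] at h2
      refine h2.trans ?_
      refine (liminf_le_liminf (Eventually.of_forall hlint)).trans ?_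
      simp
    have hsob : IsSobolev m f := by
      refine ⟨hf, hloc, aesm_wg H hloc, ?_⟩
      rw [hpow] at h1
      have h3 : eLpNorm (minWeakGrad m f) 2 m ^ (2 : ℝ) < ⊤ :=
        lt_of_le_of_lt h1 ENNReal.ofReal_lt_top
      by_contra hcon
      rw [not_lt, top_le_iff] at hcon
      rw [hcon] at h3
      simp at h3
    refine ⟨hsob, ?_⟩
    obtain ⟨B, hB⟩ := hwB
    have hint : ∀ g : X → ℝ, IsSobolev m g → Integrable (fun x => w x * minWeakGrad m g x ^ 2) m := by
      intro g hg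
      refine (integrable_wg_sq H hg).bdd_mul (c := B) hw.aestronglyMeasurable
        (ae_of_all _ fun x => ?_)
      rw [Real.norm_eq_abs, abs_of_nonneg (hw0 x)]
      exact hB x
    have h4 := hlsc (w := fun x => ENNReal.ofReal (w x)) (by fun_prop)
    have h5 : ∀ g : X → ℝ, IsSobolev m g →
        ∫⁻ x, ENNReal.ofReal (w x) * ENNReal.ofReal (minWeakGrad m g x ^ 2) ∂m =
          ENNReal.ofReal (∫ x, w x * minWeakGrad m g x ^ 2 ∂m) := by
      intro g hg
      rw [ofReal_integral_eq_lintegral_ofReal (hint g hg)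
        (ae_of_all _ fun x => mul_nonneg (hw0 x) (sq_nonneg _))]
      refine lintegral_congr fun x => ?_
      rw [ENNReal.ofReal_mul (hw0 x)]
    rw [h5 f hsob] at h4
    have h6 : ENNReal.ofReal (∫ x, w x * minWeakGrad m f x ^ 2 ∂m) ≤ ENNReal.ofReal C := by
      refine h4.trans ?_
      have h7 : ∀ n, ∫⁻ x, ENNReal.ofReal (w x) * ENNReal.ofReal (minWeakGrad m (u n) x ^ 2) ∂m ≤
          ENNReal.ofReal C := fun n => by
        rw [h5 _ (hu n)]
        exact ENNReal.ofReal_le_ofReal (hC n)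
      refine (liminf_le_liminf (Eventually.of_forall h7)).trans ?_
      simp
    have hC0 : 0 ≤ C := le_trans (integral_nonneg fun x => mul_nonneg (hw0 x) (sq_nonneg _)) (hC 0)
    exact (ENNReal.ofReal_le_ofReal_iff hC0).1 h6

end Crest.Agent.R242
end
end

-- ▼ part R242/WeakL2
section

/-!
# Weak sequential compactness in `L²` (row 242, for S8)
-/

set_option autoImplicit false

open MeasureTheory Filter Set
open scoped ENNReal NNReal Topology
open Crest.GeometryTopology.SyntheticRicci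

namespace Crest.Agent.R242

theorem exists_weak_subseq {H : Type*} [NormedAddCommGroup H] [InnerProductSpace ℝ H]
    [CompleteSpace H] [TopologicalSpace.SeparableSpace H] {u : ℕ → H} {C : ℝ}
    (hu : ∀ n, ‖u n‖ ≤ C) :
    ∃ (v : H) (φ : ℕ → ℕ), StrictMono φ ∧ ‖v‖ ≤ C ∧
      ∀ w : H, Tendsto (fun n => inner ℝ (u (φ n)) w) atTop (𝓝 (inner ℝ v w)) := by
  have hs := WeakDual.isSeqCompact_closedBall ℝ H (0 : StrongDual ℝ H) C
  let x : ℕ → WeakDual ℝ H := fun n =>
    StrongDual.toWeakDual (InnerProductSpace.toDual ℝ H (u n))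
  have hx : ∀ n, x n ∈ WeakDual.toStrongDual ⁻¹' Metric.closedBall (0 : StrongDual ℝ H) C := by
    intro n
    simp only [mem_preimage, Metric.mem_closedBall, dist_zero_right]
    calc ‖WeakDual.toStrongDual (x n)‖ = ‖InnerProductSpace.toDual ℝ H (u n)‖ := rfl
      _ = ‖u n‖ := (InnerProductSpace.toDual ℝ H).norm_map (u n)
      _ ≤ C := hu n
  obtain ⟨a, ha, φ, hφ, hlim⟩ := hs hx
  refine ⟨(InnerProductSpace.toDual ℝ H).symm (WeakDual.toStrongDual a), φ, hφ, ?_, ?_⟩
  · rw [LinearIsometryEquiv.norm_map]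
    simpa using ha
  · intro w
    have h1 : Tendsto (fun n => (x (φ n)) w) atTop (𝓝 (a w)) :=
      ((WeakDual.eval_continuous w).tendsto a).comp hlim
    have h2 : inner ℝ ((InnerProductSpace.toDual ℝ H).symm (WeakDual.toStrongDual a)) w = a w := by
      rw [InnerProductSpace.toDual_symm_apply]
      rfl
    rw [h2]
    exact h1

section L2

variable {X : Type*} [MeasurableSpace X] {μ : Measure X}

theorem exists_weak_limit_L2 [MeasurableSpace.CountablyGenerated X] [SFinite μ] {D : ℕ → X → ℝ}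
    (hD : ∀ n, MemLp (D n) 2 μ) {C : ℝ≥0} (hC : ∀ n, eLpNorm (D n) 2 μ ≤ C) :
    ∃ (D' : X → ℝ) (φ : ℕ → ℕ), StrictMono φ ∧ Measurable D' ∧ MemLp D' 2 μ ∧
      eLpNorm D' 2 μ ≤ C ∧ ∀ h : X → ℝ, MemLp h 2 μ → Tendsto (fun n => ∫ x, D (φ n) x * h x ∂μ) atTop
        (𝓝 (∫ x, D' x * h x ∂μ)) := by
  have : Fact ((2 : ℝ≥0∞) ≠ ⊤) := ⟨by simp⟩
  have hu : ∀ n, ‖(hD n).toLp (D n)‖ ≤ (C : ℝ) := by
    intro n
    rw [Lp.norm_toLp]
    exact ENNReal.toReal_le_coe_of_le_coe (hC n)
  obtain ⟨v, φ, hφ, hv, hlim⟩ := exists_weak_subseq hu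
  refine ⟨v, φ, hφ, (Lp.stronglyMeasurable v).measurable, Lp.memLp v, ?_, ?_⟩
  · rw [Lp.norm_def] at hv
    have hne : eLpNorm (v : X → ℝ) 2 μ ≠ ⊤ := (Lp.memLp v).2.ne
    rw [← ENNReal.ofReal_toReal hne]
    calc ENNReal.ofReal (eLpNorm (v : X → ℝ) 2 μ).toReal ≤ ENNReal.ofReal C :=
          ENNReal.ofReal_le_ofReal hv
      _ = C := ENNReal.ofReal_coe_nnreal
  · intro h hh
    have h1 := hlim (hh.toLp h)
    have e : ∀ (f : Lp ℝ 2 μ) (g : X → ℝ), f =ᵐ[μ] g →
        inner ℝ f (hh.toLp h) = ∫ x, g x * h x ∂μ := by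
      intro f g hfg
      rw [L2.inner_def]
      apply integral_congr_ae
      filter_upwards [hfg, hh.coeFn_toLp] with x h1 h2
      rw [h1, h2]
      simp [mul_comm]
    rw [e v v (ae_eq_refl _)] at h1
    refine h1.congr fun n => ?_
    exact e _ _ (hD (φ n)).coeFn_toLp

theorem eLpNorm_two_eq (f : X → ℝ) (μ : Measure X) :
    eLpNorm f 2 μ = (∫⁻ x, ENNReal.ofReal (f x ^ 2) ∂μ) ^ (1 / 2 : ℝ) := by
  rw [eLpNorm_eq_lintegral_rpow_enorm_toReal (by simp) (by simp)]
  simp only [ENNReal.toReal_ofNat, ENNReal.rpow_ofNat]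
  congr 1
  refine lintegral_congr fun x => ?_
  rw [← sq_abs (f x), ENNReal.ofReal_pow (abs_nonneg _), ← Real.enorm_eq_ofReal_abs]

theorem memLp_two_iff {f : X → ℝ} {μ : Measure X} : MemLp f 2 μ ↔
    AEStronglyMeasurable f μ ∧ ∫⁻ x, ENNReal.ofReal (f x ^ 2) ∂μ < ⊤ := by
  unfold MemLp
  rw [eLpNorm_two_eq]
  refine and_congr_right fun _ => ?_
  rw [ENNReal.rpow_lt_top_iff_of_pos (by norm_num)]

end L2

section Local

variable {X : Type*} [MetricSpace X] [ProperSpace X] [MeasurableSpace X] [BorelSpace X]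
  {m : Measure X}

theorem locallyFinite_of_finiteOnBalls (hfin : IsFiniteOnBalls m) : IsLocallyFiniteMeasure m :=
  ⟨fun x => ⟨Metric.ball x 1, Metric.ball_mem_nhds x one_pos, hfin x 1⟩⟩

theorem aesm_of_isL2OnBalls {f : X → ℝ} (hf : IsL2OnBalls m f) : AEStronglyMeasurable f m := by
  rcases isEmpty_or_nonempty X with hX | ⟨⟨o⟩⟩
  · exact (measurable_of_empty f).aestronglyMeasurable
  have h : AEStronglyMeasurable f (m.restrict (⋃ n : ℕ, Metric.ball o (n : ℝ))) := by
    rw [aestronglyMeasurable_iUnion_iff]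
    exact fun n => (hf o n).1
  rwa [Metric.iUnion_ball_nat, Measure.restrict_univ] at h

/-- A positive weight making a family, uniformly bounded in `L²` on balls, bounded in `L²`. -/
theorem exists_weight (o : X) {D : ℕ → X → ℝ} (hD : ∀ n, IsL2OnBalls m (D n))
    (hbd : ∀ (o : X) (R : ℝ), ∃ C : ℝ≥0, ∀ n,
      ∫⁻ x in Metric.ball o R, ENNReal.ofReal (D n x ^ 2) ∂m ≤ C) :
    ∃ w : X → ℝ≥0∞, Measurable w ∧ (∀ x, w x ≤ 1) ∧
      (∀ R : ℝ, ∃ c : ℝ≥0∞, c ≠ 0 ∧ ∀ x ∈ Metric.ball o R, c ≤ w x) ∧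
      ∀ n, ∫⁻ x, ENNReal.ofReal (D n x ^ 2) * w x ∂m ≤ 1 := by
  choose C hC using fun j : ℕ => hbd o ((j : ℝ) + 1)
  set b : ℕ → ℝ≥0∞ := fun j => 2⁻¹ ^ (j + 1) / (C j + 1) with hb
  have hb1 : ∀ j, b j ≤ 2⁻¹ ^ (j + 1) := by
    intro j
    refine ENNReal.div_le_of_le_mul ?_
    exact le_mul_of_one_le_right (by positivity) (by simp)
  have hb2 : ∀ j, b j * C j ≤ 2⁻¹ ^ (j + 1) := by
    intro j
    rw [hb]
    simp only
    rw [ENNReal.div_eq_inv_mul, mul_assoc, mul_comm, mul_assoc]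
    refine (mul_le_mul_right (b := (C j : ℝ≥0∞) * (C j + 1 : ℝ≥0∞)⁻¹) (c := 1) ?_ _).trans ?_
    · rw [← div_eq_mul_inv]
      refine ENNReal.div_le_of_le_mul ?_
      rw [one_mul]
      exact le_self_add
    · rw [mul_one]
  have hb0 : ∀ j, b j ≠ 0 := by
    intro j
    rw [hb]
    simp only
    refine ENNReal.div_ne_zero.2 ⟨?_, ?_⟩
    · exact pow_ne_zero _ (by simp)
    · exact ENNReal.add_ne_top.2 ⟨ENNReal.coe_ne_top, ENNReal.one_ne_top⟩
  have hsum : ∑' j : ℕ, (2⁻¹ : ℝ≥0∞) ^ (j + 1) = 1 := ENNReal.tsum_geometric_add_one _ |>.trans (by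
    rw [ENNReal.one_sub_inv_two, inv_inv]
    exact ENNReal.inv_mul_cancel (by simp) (by simp))
  refine ⟨fun x => ∑' j : ℕ, (Metric.ball o ((j : ℝ) + 1)).indicator (fun _ => b j) x, ?_, ?_, ?_, ?_⟩
  · exact Measurable.tsum fun j => measurable_const.indicator Metric.isOpen_ball.measurableSet
  · intro x
    rw [← hsum]
    refine ENNReal.tsum_le_tsum fun j => ?_
    exact (indicator_le_self' (fun _ _ => zero_le) x).trans (hb1 j)
  · intro R
    obtain ⟨j, hj⟩ := exists_nat_gt R
    refine ⟨b j, hb0 j, fun x hx => ?_⟩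
    refine le_trans ?_ (ENNReal.le_tsum j)
    rw [indicator_of_mem]
    rw [Metric.mem_ball] at hx ⊢
    linarith
  · intro n
    have hmeas : AEMeasurable (fun x => ENNReal.ofReal (D n x ^ 2)) m :=
      ((aesm_of_isL2OnBalls (hD n)).aemeasurable.pow_const 2).ennreal_ofReal
    calc ∫⁻ x, ENNReal.ofReal (D n x ^ 2) *
          ∑' j : ℕ, (Metric.ball o ((j : ℝ) + 1)).indicator (fun _ => b j) x ∂m
        = ∫⁻ x, ∑' j : ℕ, ENNReal.ofReal (D n x ^ 2) *
          (Metric.ball o ((j : ℝ) + 1)).indicator (fun _ => b j) x ∂m := by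
          simp_rw [ENNReal.tsum_mul_left]
      _ = ∑' j : ℕ, ∫⁻ x, ENNReal.ofReal (D n x ^ 2) *
          (Metric.ball o ((j : ℝ) + 1)).indicator (fun _ => b j) x ∂m := by
          rw [lintegral_tsum]
          intro j
          exact hmeas.mul (measurable_const.indicator Metric.isOpen_ball.measurableSet).aemeasurable
      _ ≤ ∑' j : ℕ, (2⁻¹ : ℝ≥0∞) ^ (j + 1) := by
          refine ENNReal.tsum_le_tsum fun j => ?_
          have e : (fun x => ENNReal.ofReal (D n x ^ 2) *
              (Metric.ball o ((j : ℝ) + 1)).indicator (fun _ => b j) x) =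
              (Metric.ball o ((j : ℝ) + 1)).indicator
                (fun x => b j * ENNReal.ofReal (D n x ^ 2)) := by
            funext x
            by_cases hx : x ∈ Metric.ball o ((j : ℝ) + 1)
            · simp only [indicator_of_mem hx]; ring
            · simp only [indicator_of_notMem hx, mul_zero]
          rw [e, lintegral_indicator Metric.isOpen_ball.measurableSet,
            lintegral_const_mul' _ _ ((hb1 j).trans_lt (by
              exact ENNReal.pow_lt_top (by simp))).ne]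
          exact (mul_le_mul_right (hC j n) _).trans (hb2 j)
      _ = 1 := hsum

/-- Weak limits of families bounded in `L²` on balls. -/
theorem exists_weak_limit_ball (hfin : IsFiniteOnBalls m) {D : ℕ → X → ℝ}
    (hD : ∀ n, IsL2OnBalls m (D n)) (hD0 : ∀ n, ∀ᵐ x ∂m, 0 ≤ D n x)
    (hbd : ∀ (o : X) (R : ℝ), ∃ C : ℝ≥0, ∀ n,
      ∫⁻ x in Metric.ball o R, ENNReal.ofReal (D n x ^ 2) ∂m ≤ C) :
    ∃ (D' : X → ℝ) (φ : ℕ → ℕ), StrictMono φ ∧ IsL2OnBalls m D' ∧ (∀ᵐ x ∂m, 0 ≤ D' x) ∧
      ∀ (h : X → ℝ) (o : X) (R : ℝ), MemLp h 2 m → (∀ x, x ∉ Metric.ball o R → h x = 0) →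
        Tendsto (fun n => ∫ x, D (φ n) x * h x ∂m) atTop (𝓝 (∫ x, D' x * h x ∂m)) := by
  have hlf := locallyFinite_of_finiteOnBalls hfin
  rcases isEmpty_or_nonempty X with hX | ⟨⟨o⟩⟩
  · refine ⟨0, id, strictMono_id, fun o => (hX.false o).elim, ?_, fun _ o => (hX.false o).elim⟩
    exact Eventually.of_forall fun x => (hX.false x).elim
  obtain ⟨w, hwm, hw1, hwc, hwD⟩ := exists_weight o hD hbd
  have hw0 : ∀ x, w x ≠ 0 := by
    intro x
    obtain ⟨c, hc, h⟩ := hwc (dist x o + 1)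
    have := h x (by rw [Metric.mem_ball]; linarith)
    intro h0
    rw [h0] at this
    exact hc (le_antisymm this zero_le)
  have hwt : ∀ x, w x ≠ ⊤ := fun x => ((hw1 x).trans_lt ENNReal.one_lt_top).ne
  set μ := m.withDensity w with hμ
  have hac : μ ≪ m := withDensity_absolutelyContinuous m w
  have hac' : m ≪ μ := withDensity_absolutelyContinuous' hwm.aemeasurable
    (Eventually.of_forall hw0)
  have hlin : ∀ f : X → ℝ, AEStronglyMeasurable f m →
      ∫⁻ x, ENNReal.ofReal (f x ^ 2) ∂μ = ∫⁻ x, ENNReal.ofReal (f x ^ 2) * w x ∂m := by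
    intro f hf
    rw [hμ, lintegral_withDensity_eq_lintegral_mul₀ hwm.aemeasurable
      (hf.aemeasurable.pow_const 2).ennreal_ofReal]
    simp_rw [Pi.mul_apply, mul_comm]
  have hDm : ∀ n, AEStronglyMeasurable (D n) m := fun n => aesm_of_isL2OnBalls (hD n)
  have h1 : ∀ n, ∫⁻ x, ENNReal.ofReal (D n x ^ 2) ∂μ ≤ 1 := by
    intro n; rw [hlin _ (hDm n)]; exact hwD n
  have h2 : ∀ n, MemLp (D n) 2 μ := fun n =>
    memLp_two_iff.2 ⟨(hDm n).mono_ac hac, (h1 n).trans_lt ENNReal.one_lt_top⟩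
  obtain ⟨D', φ, hφ, hD'm, hD'L, hD'C, hlim⟩ := exists_weak_limit_L2 h2 (C := 1) (by
    intro n
    rw [eLpNorm_two_eq]
    calc (∫⁻ x, ENNReal.ofReal (D n x ^ 2) ∂μ) ^ (1 / 2 : ℝ) ≤ 1 ^ (1 / 2 : ℝ) := by
          gcongr; exact h1 n
      _ = ((1 : ℝ≥0) : ℝ≥0∞) := by simp)
  -- `D'` is in `L²` on balls
  have hD'ball : IsL2OnBalls m D' := by
    intro o' R'
    rw [memLp_two_iff]
    refine ⟨hD'm.aestronglyMeasurable, ?_⟩
    obtain ⟨c, hc, h⟩ := hwc (R' + dist o' o)
    have h3 : ∫⁻ x, ENNReal.ofReal (D' x ^ 2) * w x ∂m < ⊤ := by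
      rw [← hlin _ hD'm.aestronglyMeasurable]; exact (memLp_two_iff.1 hD'L).2
    have h4 : c * ∫⁻ x in Metric.ball o' R', ENNReal.ofReal (D' x ^ 2) ∂m ≤
        ∫⁻ x, ENNReal.ofReal (D' x ^ 2) * w x ∂m := by
      rw [← lintegral_const_mul c ((hD'm.pow_const 2).ennreal_ofReal)]
      refine le_trans ?_ (setLIntegral_le_lintegral (Metric.ball o' R') _)
      refine setLIntegral_mono' Metric.isOpen_ball.measurableSet fun x hx => ?_
      rw [mul_comm]
      have hxo : x ∈ Metric.ball o (R' + dist o' o) := by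
        rw [Metric.mem_ball] at hx ⊢
        have := dist_triangle x o' o
        linarith
      exact mul_le_mul_right (h x hxo) _
    by_contra hcon
    rw [not_lt, top_le_iff] at hcon
    rw [hcon, ENNReal.mul_top hc] at h4
    exact absurd (top_le_iff.1 h4) h3.ne
  -- convergence
  have hconv : ∀ (h : X → ℝ) (o : X) (R : ℝ), MemLp h 2 m →
      (∀ x, x ∉ Metric.ball o R → h x = 0) →
        Tendsto (fun n => ∫ x, D (φ n) x * h x ∂m) atTop (𝓝 (∫ x, D' x * h x ∂m)) := by
    intro h o' R' hh hh0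
    obtain ⟨c, hc, hcw⟩ := hwc (R' + dist o' o)
    have hct : c ≠ ⊤ ∨ ∀ x, h x = 0 := by
      by_cases hx : ∃ x, x ∈ Metric.ball o (R' + dist o' o)
      · obtain ⟨x, hx⟩ := hx
        left
        exact ne_top_of_le_ne_top (hwt x) (hcw x hx)
      · right
        intro x
        apply hh0
        intro hx'
        apply hx
        refine ⟨x, ?_⟩
        rw [Metric.mem_ball] at hx' ⊢
        have := dist_triangle x o' o
        linarith
    rcases hct with hct | hct
    swap
    · simp [hct]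
    have hh' : MemLp (fun x => h x / (w x).toReal) 2 μ := by
      rw [memLp_two_iff]
      have hm1 : AEStronglyMeasurable (fun x => h x / (w x).toReal) m :=
        (hh.1.aemeasurable.div (hwm.ennreal_toReal.aemeasurable)).aestronglyMeasurable
      refine ⟨hm1.mono_ac hac, ?_⟩
      rw [hlin _ hm1]
      refine lt_of_le_of_lt ?_ (ENNReal.mul_lt_top (a := c⁻¹)
        (by exact lt_top_iff_ne_top.2 (ENNReal.inv_ne_top.2 hc)) (memLp_two_iff.1 hh).2)
      rw [← lintegral_const_mul' _ _ (ENNReal.inv_ne_top.2 hc)]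
      refine lintegral_mono fun x => ?_
      by_cases hx : x ∈ Metric.ball o' R'
      · have hxo : x ∈ Metric.ball o (R' + dist o' o) := by
          rw [Metric.mem_ball] at hx ⊢
          have := dist_triangle x o' o
          linarith
        have hcx := hcw x hxo
        have hwpos : 0 < (w x).toReal := ENNReal.toReal_pos (hw0 x) (hwt x)
        have e : ENNReal.ofReal ((h x / (w x).toReal) ^ 2) * w x =
            (w x)⁻¹ * ENNReal.ofReal (h x ^ 2) := by
          nth_rewrite 2 [← ENNReal.ofReal_toReal (hwt x)]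
          nth_rewrite 3 [← ENNReal.ofReal_toReal (hwt x)]
          rw [← ENNReal.ofReal_inv_of_pos hwpos, ← ENNReal.ofReal_mul (by positivity),
            ← ENNReal.ofReal_mul (by positivity)]
          congr 1
          field_simp
        simp only
        rw [e]
        gcongr
      · simp [hh0 x hx]
    have h5 := hlim _ hh'
    have e : ∀ f : X → ℝ, ∫ x, f x * (h x / (w x).toReal) ∂μ = ∫ x, f x * h x ∂m := by
      intro f
      rw [hμ, integral_withDensity_eq_integral_toReal_smul hwm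
        (Eventually.of_forall fun x => lt_top_iff_ne_top.2 (hwt x))]
      refine integral_congr_ae (Eventually.of_forall fun x => ?_)
      have hwpos : 0 < (w x).toReal := ENNReal.toReal_pos (hw0 x) (hwt x)
      simp only [smul_eq_mul]
      field_simp
    simp_rw [e] at h5
    exact h5
  refine ⟨D', φ, hφ, hD'ball, ?_, hconv⟩
  -- nonnegativity
  have hj : ∀ j : ℕ, ∀ᵐ x ∂m, x ∈ Metric.ball o (j : ℝ) → 0 ≤ D' x := by
    intro j
    set S : Set X := {x | D' x < 0} ∩ Metric.ball o (j : ℝ) with hS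
    have hSm : MeasurableSet S :=
      (measurableSet_lt hD'm measurable_const).inter Metric.isOpen_ball.measurableSet
    have hSfin : m S ≠ ⊤ := ((measure_mono inter_subset_right).trans_lt (hfin o j)).ne
    have hh : MemLp (S.indicator (fun _ => (1 : ℝ))) 2 m := memLp_indicator_const 2 hSm 1 (Or.inr hSfin)
    have hzero : ∀ x, x ∉ Metric.ball o (j : ℝ) → S.indicator (fun _ => (1 : ℝ)) x = 0 := by
      intro x hx
      rw [indicator_of_notMem]
      exact fun h => hx h.2
    have h6 := hconv _ o j hh hzero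
    have h7 : 0 ≤ ∫ x, D' x * S.indicator (fun _ => (1 : ℝ)) x ∂m := by
      refine ge_of_tendsto' h6 fun n => ?_
      refine integral_nonneg_of_ae ?_
      filter_upwards [hD0 (φ n)] with x hx
      exact mul_nonneg hx (indicator_nonneg (fun _ _ => zero_le_one) x)
    have h8 : ∀ x, D' x * S.indicator (fun _ => (1 : ℝ)) x ≤ 0 := by
      intro x
      by_cases hx : x ∈ S
      · rw [indicator_of_mem hx, mul_one]; exact le_of_lt hx.1
      · rw [indicator_of_notMem hx, mul_zero]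
    have hint : Integrable (fun x => D' x * S.indicator (fun _ => (1 : ℝ)) x) m := by
      have h9 : MemLp D' 2 (m.restrict (Metric.ball o (j : ℝ))) := hD'ball o j
      have h10 : IntegrableOn D' (Metric.ball o (j : ℝ)) m := by
        have : IsFiniteMeasure (m.restrict (Metric.ball o (j : ℝ))) :=
          ⟨by rw [Measure.restrict_apply_univ]; exact hfin o j⟩
        exact h9.integrable (by norm_num)
      have h11 : IntegrableOn D' S m := h10.mono_set inter_subset_right
      rw [← integrable_indicator_iff hSm] at h11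
      refine h11.congr (Eventually.of_forall fun x => ?_)
      by_cases hx : x ∈ S
      · simp [indicator_of_mem hx]
      · simp [indicator_of_notMem hx]
    have h12 : (fun x => -(D' x * S.indicator (fun _ => (1 : ℝ)) x)) =ᵐ[m] 0 := by
      have hint' : Integrable (fun x => -(D' x * S.indicator (fun _ => (1 : ℝ)) x)) m := hint.neg
      rw [← integral_eq_zero_iff_of_nonneg (fun x => by
        have := h8 x
        simp only [Pi.zero_apply]; linarith) hint']
      rw [integral_neg]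
      have h13 : ∫ x, D' x * S.indicator (fun _ => (1 : ℝ)) x ∂m ≤ 0 :=
        integral_nonpos h8
      linarith
    filter_upwards [h12] with x hx hxb
    by_contra hneg
    push Not at hneg
    have hxS : x ∈ S := ⟨hneg, hxb⟩
    simp only [Pi.zero_apply, indicator_of_mem hxS, mul_one, neg_eq_zero] at hx
    linarith
  have hall : ∀ᵐ x ∂m, ∀ j : ℕ, x ∈ Metric.ball o (j : ℝ) → 0 ≤ D' x := ae_all_iff.2 hj
  filter_upwards [hall] with x hx
  obtain ⟨j, hj'⟩ := exists_nat_gt (dist x o)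
  exact hx j hj'

end Local

end Crest.Agent.R242
end

-- ▼ part R242/PlanDens
section

/-!
# The density of the length functional of a test plan (row 242, for S8)

For a test plan `P` with bounded tracks there is `h ∈ L²(m)`, `h ≥ 0`, with bounded support and
`∫∫ g(γ_t) |γ'_t| dt dP = ∫ g h dm`.
-/

set_option autoImplicit false

open MeasureTheory Filter Set
open scoped ENNReal NNReal Topology
open Crest.GeometryTopology.SyntheticRicci

namespace Crest.Agent.R242

variable {X : Type*} [MetricSpace X] [ProperSpace X] [MeasurableSpace X] [BorelSpace X]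
  {m : Measure X} {P : Measure (UCurve X)}

/-- the length measure of a plan: `ν(A) = ∫∫ 1_A(γ_t) |γ'_t| dt dP`. -/
noncomputable def lenMeasure (P : Measure (UCurve X)) : Measure X :=
  ((P.prod (volume.restrict (Icc (0 : ℝ) 1))).withDensity
    (fun p => upperSpeed p.1 p.2)).map (fun p => p.1.ext p.2)

theorem lintegral_lenMeasure [SFinite P] {g : X → ℝ≥0∞} (hg : Measurable g) :
    ∫⁻ x, g x ∂(lenMeasure P) =
      ∫⁻ γ, (∫⁻ t in Icc (0 : ℝ) 1, g (γ.ext t) * upperSpeed γ t) ∂P := by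
  unfold lenMeasure
  have hext : Measurable (fun p : UCurve X × ℝ => p.1.ext p.2) := measurable_evalExt
  have hus : Measurable (fun p : UCurve X × ℝ => upperSpeed p.1 p.2) := measurable_upperSpeed
  rw [lintegral_map hg hext]
  refine Eq.trans (lintegral_withDensity_eq_lintegral_mul
    (P.prod (volume.restrict (Icc (0 : ℝ) 1))) hus (hg.comp hext)) ?_
  rw [lintegral_prod]
  · refine lintegral_congr fun γ => lintegral_congr fun t => ?_
    simp only [Pi.mul_apply]
    rw [mul_comm]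
  · exact (hus.mul (hg.comp hext)).aemeasurable

theorem exists_plan_density (hfin : IsFiniteOnBalls m) (hP : IsTestPlan2 m P)
    (hb : HasBoundedTracks P) :
    ∃ (h : X → ℝ) (o : X) (R : ℝ), Measurable h ∧ (∀ x, 0 ≤ h x) ∧ MemLp h 2 m ∧
      (∀ x, x ∉ Metric.ball o R → h x = 0) ∧
      ∀ g : X → ℝ≥0∞, AEMeasurable g m →
        (∫⁻ γ, (∫⁻ t in Icc (0 : ℝ) 1, g (γ.ext t) * upperSpeed γ t) ∂P) =
          ∫⁻ x, g x * ENNReal.ofReal (h x) ∂m := by
  have hlf := locallyFinite_of_finiteOnBalls hfin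
  obtain ⟨hprob, ⟨C, hC⟩, hspeed, hE⟩ := hP
  obtain ⟨o, R, hR⟩ := hb
  set E : ℝ≥0∞ := ∫⁻ γ, (∫⁻ t in Icc (0 : ℝ) 1, upperSpeed γ t ^ 2) ∂P with hEdef
  set K : Set X := Metric.closedBall o R with hK
  have hKm : MeasurableSet K := Metric.isClosed_closedBall.measurableSet
  have hKfin : m K < ⊤ := by
    refine lt_of_le_of_lt (measure_mono ?_) (hfin o (R + 1))
    intro x hx
    rw [hK, Metric.mem_closedBall] at hx
    rw [Metric.mem_ball]; linarith
  set ν := lenMeasure P with hν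
  set K0 : ℝ≥0∞ := (C : ℝ≥0∞) ^ (1 / 2 : ℝ) * E ^ (1 / 2 : ℝ) with hK0
  have hK0t : K0 < ⊤ := by
    refine ENNReal.mul_lt_top ?_ ?_
    · exact ENNReal.rpow_lt_top_of_nonneg (by norm_num) ENNReal.coe_ne_top
    · exact ENNReal.rpow_lt_top_of_nonneg (by norm_num) hE.ne
  -- the basic estimate
  have hest : ∀ g : X → ℝ≥0∞, Measurable g →
      ∫⁻ x, g x ∂ν ≤ K0 * (∫⁻ x in K, g x ^ 2 ∂m) ^ (1 / 2 : ℝ) := by
    intro g hg
    rw [hν, lintegral_lenMeasure hg]
    refine (lintegral_mul_upperSpeed_le hC hR hg.aemeasurable).trans ?_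
    rw [ENNReal.mul_rpow_of_nonneg _ _ (by norm_num), hK0]
    apply le_of_eq
    ring
  have hac : ν ≪ m := by
    refine Measure.AbsolutelyContinuous.mk fun s hs hs0 => ?_
    have h1 := hest (s.indicator 1) (measurable_one.indicator hs)
    rw [lintegral_indicator_one hs] at h1
    have h2 : ∫⁻ x in K, (s.indicator (1 : X → ℝ≥0∞) x) ^ 2 ∂m = 0 := by
      rw [lintegral_eq_zero_iff ((measurable_one.indicator hs).pow_const 2)]
      have h3 : ∀ᵐ x ∂m, x ∉ s := by
        rw [ae_iff]; simpa using hs0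
      filter_upwards [ae_restrict_of_ae h3] with x hx
      simp [indicator_of_notMem hx]
    rw [h2, ENNReal.zero_rpow_of_pos (by norm_num), mul_zero] at h1
    exact le_antisymm h1 zero_le
  have hνfin : ν univ < ⊤ := by
    have h1 := hest (fun _ => 1) measurable_const
    rw [lintegral_const, one_mul] at h1
    refine lt_of_le_of_lt h1 (ENNReal.mul_lt_top hK0t ?_)
    refine ENNReal.rpow_lt_top_of_nonneg (by norm_num) ?_
    simp [hKfin.ne]
  have hνf : IsFiniteMeasure ν := ⟨hνfin⟩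
  have hνK : ν Kᶜ = 0 := by
    have h1 := hest (Kᶜ.indicator 1) (measurable_one.indicator hKm.compl)
    rw [lintegral_indicator_one hKm.compl] at h1
    have h2 : ∫⁻ x in K, (Kᶜ.indicator (1 : X → ℝ≥0∞) x) ^ 2 ∂m = 0 := by
      rw [setLIntegral_congr_fun hKm (g := fun _ => 0)]
      · simp
      · intro x hx
        simp [indicator_of_notMem (show x ∉ Kᶜ from fun h => h hx)]
    rw [h2, ENNReal.zero_rpow_of_pos (by norm_num), mul_zero] at h1
    exact le_antisymm h1 zero_le
  set ρ := ν.rnDeriv m with hρ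
  have hρm : Measurable ρ := Measure.measurable_rnDeriv ν m
  have hρint : ∀ g : X → ℝ≥0∞, Measurable g → ∫⁻ x, g x ∂ν = ∫⁻ x, g x * ρ x ∂m := by
    intro g hg
    have h1 : m.withDensity ρ = ν := Measure.withDensity_rnDeriv_eq ν m hac
    rw [← h1, lintegral_withDensity_eq_lintegral_mul _ hρm hg]
    refine lintegral_congr fun x => ?_
    simp only [Pi.mul_apply]; rw [mul_comm]
  have hρtop : ∀ᵐ x ∂m, ρ x < ⊤ := Measure.rnDeriv_lt_top ν m
  have hρK : ∀ᵐ x ∂m, x ∉ K → ρ x = 0 := by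
    have h1 := hρint (Kᶜ.indicator 1) (measurable_one.indicator hKm.compl)
    rw [lintegral_indicator_one hKm.compl, hνK, eq_comm,
      lintegral_eq_zero_iff (f := fun x => Kᶜ.indicator 1 x * ρ x)
      ((measurable_one.indicator hKm.compl).mul hρm)] at h1
    filter_upwards [h1] with x hx hxK
    simpa [indicator_of_mem (show x ∈ Kᶜ from hxK)] using hx
  -- the `L²` bound
  have hL2j : ∀ j : ℕ, ∫⁻ x in K, (min (ρ x) j) ^ 2 ∂m ≤ K0 ^ 2 := by
    intro j
    set a := ∫⁻ x in K, (min (ρ x) j) ^ 2 ∂m with ha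
    have hgm : Measurable (fun x => min (ρ x) (j : ℝ≥0∞)) := hρm.min measurable_const
    have hafin : a < ⊤ := by
      refine lt_of_le_of_lt (lintegral_mono (g := fun _ => (j : ℝ≥0∞) ^ 2) fun x => ?_) ?_
      · simp only
        gcongr
        exact min_le_right _ _
      · rw [lintegral_const, Measure.restrict_apply_univ]
        exact ENNReal.mul_lt_top (ENNReal.pow_lt_top (ENNReal.natCast_lt_top j)) hKfin
    have h1 : a ≤ K0 * a ^ (1 / 2 : ℝ) := by
      refine le_trans ?_ (hest _ hgm)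
      rw [hρint _ hgm]
      refine le_trans ?_ (setLIntegral_le_lintegral K _)
      refine lintegral_mono fun x => ?_
      simp only
      rw [sq]
      gcongr
      exact min_le_left _ _
    rcases eq_or_ne a 0 with h0 | h0
    · rw [h0]; exact zero_le
    · have h2 : a ^ (1 / 2 : ℝ) ≠ 0 := by
        rw [Ne, ENNReal.rpow_eq_zero_iff]
        push Not
        constructor
        · intro h; exact absurd h h0
        · intro h; exact absurd h hafin.ne
      have h3 : a ^ (1 / 2 : ℝ) ≠ ⊤ := (ENNReal.rpow_lt_top_of_nonneg (by norm_num) hafin.ne).ne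
      have h4 : a = a ^ (1 / 2 : ℝ) * a ^ (1 / 2 : ℝ) := by
        rw [← ENNReal.rpow_add_of_nonneg _ _ (by norm_num) (by norm_num)]
        norm_num
      have h5 : a ^ (1 / 2 : ℝ) ≤ K0 := by
        have h6 : a ^ (1 / 2 : ℝ) * a ^ (1 / 2 : ℝ) ≤ K0 * a ^ (1 / 2 : ℝ) := by
          rw [← h4]; exact h1
        exact (ENNReal.mul_le_mul_iff_left h2 h3).1 h6
      calc a = (a ^ (1 / 2 : ℝ)) ^ 2 := by rw [sq]; exact h4
        _ ≤ K0 ^ 2 := by gcongr
  have hL2 : ∫⁻ x in K, ρ x ^ 2 ∂m ≤ K0 ^ 2 := by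
    have h1 : ∀ᵐ x ∂(m.restrict K), ρ x ^ 2 = ⨆ j : ℕ, (min (ρ x) (j : ℝ≥0∞)) ^ 2 := by
      filter_upwards [ae_restrict_of_ae hρtop] with x hx
      apply le_antisymm
      · obtain ⟨j, hj⟩ := ENNReal.exists_nat_gt hx.ne
        refine le_iSup_of_le j ?_
        rw [min_eq_left hj.le]
      · refine iSup_le fun j => ?_
        gcongr
        exact min_le_left _ _
    rw [lintegral_congr_ae h1, lintegral_iSup]
    · exact iSup_le hL2j
    · intro j; exact (hρm.min measurable_const).pow_const 2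
    · intro i j hij x
      simp only
      gcongr
  refine ⟨K.indicator (fun x => (ρ x).toReal), o, R + 1, ?_, ?_, ?_, ?_, ?_⟩
  · exact hρm.ennreal_toReal.indicator hKm
  · exact fun x => indicator_nonneg (fun _ _ => ENNReal.toReal_nonneg) x
  · rw [memLp_two_iff]
    refine ⟨(hρm.ennreal_toReal.indicator hKm).aestronglyMeasurable, ?_⟩
    have h1 : (fun x => ENNReal.ofReal ((K.indicator (fun x => (ρ x).toReal) x) ^ 2)) =ᵐ[m]
        K.indicator (fun x => ρ x ^ 2) := by
      filter_upwards [hρtop] with x hx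
      by_cases hxK : x ∈ K
      · rw [indicator_of_mem hxK, indicator_of_mem hxK, ENNReal.ofReal_pow ENNReal.toReal_nonneg,
          ENNReal.ofReal_toReal hx.ne]
      · rw [indicator_of_notMem hxK, indicator_of_notMem hxK]; simp
    rw [lintegral_congr_ae h1, lintegral_indicator hKm]
    exact lt_of_le_of_lt hL2 (ENNReal.pow_lt_top hK0t)
  · intro x hx
    rw [indicator_of_notMem]
    intro hxK
    apply hx
    rw [hK, Metric.mem_closedBall] at hxK
    rw [Metric.mem_ball]; linarith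
  · intro g hg
    have hae : ∀ᵐ x ∂m, g x = hg.mk g x := hg.ae_eq_mk
    have h1 : (∫⁻ γ, (∫⁻ t in Icc (0 : ℝ) 1, g (γ.ext t) * upperSpeed γ t) ∂P) =
        ∫⁻ γ, (∫⁻ t in Icc (0 : ℝ) 1, hg.mk g (γ.ext t) * upperSpeed γ t) ∂P := by
      refine lintegral_congr_ae ?_
      filter_upwards [ae_ae_ext_of_ae hC hae] with γ hγ
      refine lintegral_congr_ae ?_
      filter_upwards [hγ] with t ht
      rw [ht]
    rw [h1, ← lintegral_lenMeasure hg.measurable_mk, ← hν, hρint _ hg.measurable_mk]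
    refine lintegral_congr_ae ?_
    filter_upwards [hae, hρtop, hρK] with x hx1 hx2 hx3
    rw [hx1]
    congr 1
    by_cases hxK : x ∈ K
    · rw [indicator_of_mem hxK, ENNReal.ofReal_toReal hx2.ne]
    · rw [indicator_of_notMem hxK, hx3 hxK]; simp

end Crest.Agent.R242
end

-- ▼ part R242/SobClosure
section

/-!
# S8: closure and lower semicontinuity of weak gradients (row 242)
-/

set_option autoImplicit false

open MeasureTheory Filter Set
open scoped ENNReal NNReal Topology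
open Crest.GeometryTopology.SyntheticRicci

namespace Crest.Agent.R242

variable {X : Type*} [MetricSpace X] [ProperSpace X] [MeasurableSpace X] [BorelSpace X]
  {m : Measure X} {P : Measure (UCurve X)}

omit [ProperSpace X] in
theorem aemeasurable_comp_toMap {β : Type*} [MeasurableSpace β] {C : ℝ≥0}
    (hC : ∀ t : unitInterval, timeMarginal P t ≤ (C : ℝ≥0∞) • m) {g : X → β}
    (hg : AEMeasurable g m) (t : unitInterval) : AEMeasurable (fun γ : UCurve X => g (γ.toMap t)) P := by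
  have h1 : AEMeasurable g (timeMarginal P t) := by
    have h2 : timeMarginal P t ≪ m :=
      (Measure.absolutelyContinuous_of_le (hC t)).trans Measure.smul_absolutelyContinuous
    exact hg.mono_ac h2
  exact h1.comp_measurable (measurable_eval t)

omit [MetricSpace X] [ProperSpace X] [BorelSpace X] in
/-- lintegral of an absolute value on a set of finite measure. -/
theorem lintegral_abs_le_sqrt {μ : Measure X} {f : X → ℝ} (hf : AEStronglyMeasurable f μ) :
    ∫⁻ x, ENNReal.ofReal |f x| ∂μ ≤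
      (∫⁻ x, ENNReal.ofReal (f x ^ 2) ∂μ) ^ (1 / 2 : ℝ) * (μ univ) ^ (1 / 2 : ℝ) := by
  have h := ENNReal.lintegral_mul_le_Lp_mul_Lq μ (p := 2) (q := 2)
    (by constructor <;> norm_num) (f := fun x => ENNReal.ofReal |f x|) (g := fun _ => 1)
    (hf.aemeasurable.abs.ennreal_ofReal) aemeasurable_const
  simp only [Pi.mul_apply, mul_one, ENNReal.one_rpow, lintegral_const, one_mul] at h
  refine h.trans ?_
  gcongr ?_ ^ (1 / 2 : ℝ) * _
  refine lintegral_mono fun x => ?_
  rw [ENNReal.rpow_two, ← ENNReal.ofReal_pow (abs_nonneg _), sq_abs]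

/-- A weak limit of weak upper gradients is a weak upper gradient of the limit. -/
theorem isWUGLoc_of_weak_limit (hfin : IsFiniteOnBalls m) {f : X → ℝ} {fn D : ℕ → X → ℝ}
    {D' : X → ℝ} (hD : ∀ n, IsWUGLoc m (fn n) (D n)) (hf : IsL2OnBalls m f)
    (hfn : ∀ n, IsL2OnBalls m (fn n))
    (hlim : ∀ (o : X) (R : ℝ), Tendsto
      (fun n => ∫⁻ x in Metric.ball o R, ENNReal.ofReal ((fn n x - f x) ^ 2) ∂m) atTop (𝓝 0))
    (hD' : IsL2OnBalls m D') (hD'0 : ∀ᵐ x ∂m, 0 ≤ D' x)
    (hweak : ∀ (h : X → ℝ) (o : X) (R : ℝ), MemLp h 2 m → (∀ x, x ∉ Metric.ball o R → h x = 0) →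
        Tendsto (fun n => ∫ x, D n x * h x ∂m) atTop (𝓝 (∫ x, D' x * h x ∂m))) :
    IsWUGLoc m f D' := by
  have hlf := locallyFinite_of_finiteOnBalls hfin
  refine ⟨hD', hD'0, fun P hP hb => ?_⟩
  obtain ⟨h, o₁, R₁, hhm, hh0, hhL, hhs, hhint⟩ := exists_plan_density hfin hP hb
  have hb' := hb
  have hP0 := hP
  obtain ⟨hprob, ⟨C, hC⟩, -, -⟩ := hP
  obtain ⟨o, R, hR⟩ := hb'
  set K : Set X := Metric.closedBall o R with hK
  have hKsub : K ⊆ Metric.ball o (R + 1) := by
    intro x hx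
    rw [hK, Metric.mem_closedBall] at hx
    rw [Metric.mem_ball]; linarith
  have hKfin : m K < ⊤ := lt_of_le_of_lt (measure_mono hKsub) (hfin o (R + 1))
  -- the product `D n * h` is integrable
  have hprod : ∀ g : X → ℝ, IsL2OnBalls m g → (∀ᵐ x ∂m, 0 ≤ g x) →
      ∫⁻ x, ENNReal.ofReal (g x) * ENNReal.ofReal (h x) ∂m =
        ENNReal.ofReal (∫ x, g x * h x ∂m) := by
    intro g hg hg0
    have hint : Integrable (fun x => g x * h x) m := by
      have h1 : MemLp h 2 (m.restrict (Metric.ball o₁ R₁)) := hhL.restrict _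
      have h2 : IntegrableOn (fun x => g x * h x) (Metric.ball o₁ R₁) m :=
        MemLp.integrable_mul (hg o₁ R₁) h1
      rw [← integrable_indicator_iff Metric.isOpen_ball.measurableSet] at h2
      refine h2.congr (Eventually.of_forall fun x => ?_)
      by_cases hx : x ∈ Metric.ball o₁ R₁
      · rw [indicator_of_mem hx]
      · rw [indicator_of_notMem hx]; simp [hhs x hx]
    rw [ofReal_integral_eq_lintegral_ofReal hint]
    · refine lintegral_congr_ae ?_
      filter_upwards [hg0] with x hx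
      rw [ENNReal.ofReal_mul hx]
    · filter_upwards [hg0] with x hx
      exact mul_nonneg hx (hh0 x)
  -- the error term
  set err : ℕ → ℝ≥0∞ := fun n => ∫⁻ x in K, ENNReal.ofReal |fn n x - f x| ∂m with herr
  have herr0 : Tendsto err atTop (𝓝 0) := by
    have h1 : ∀ n, err n ≤ (∫⁻ x in Metric.ball o (R + 1), ENNReal.ofReal ((fn n x - f x) ^ 2) ∂m) ^
        (1 / 2 : ℝ) * (m K) ^ (1 / 2 : ℝ) := by
      intro n
      have hms : AEStronglyMeasurable (fun x => fn n x - f x) (m.restrict K) :=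
        ((aesm_of_isL2OnBalls (hfn n)).sub (aesm_of_isL2OnBalls hf)).restrict
      refine (lintegral_abs_le_sqrt hms).trans ?_
      rw [Measure.restrict_apply_univ]
      gcongr ?_ ^ (1 / 2 : ℝ) * _
      exact lintegral_mono_set hKsub
    have h2 : Tendsto (fun n => (∫⁻ x in Metric.ball o (R + 1),
        ENNReal.ofReal ((fn n x - f x) ^ 2) ∂m) ^ (1 / 2 : ℝ) * (m K) ^ (1 / 2 : ℝ)) atTop
        (𝓝 (0 ^ (1 / 2 : ℝ) * (m K) ^ (1 / 2 : ℝ))) := by
      refine ENNReal.Tendsto.mul_const ?_ (Or.inr ?_)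
      · exact (ENNReal.continuous_rpow_const.tendsto _).comp (hlim o (R + 1))
      · exact (ENNReal.rpow_lt_top_of_nonneg (by norm_num) hKfin.ne).ne
    rw [ENNReal.zero_rpow_of_pos (by norm_num), zero_mul] at h2
    exact tendsto_of_tendsto_of_tendsto_of_le_of_le tendsto_const_nhds h2 (fun _ => zero_le) h1
  -- the inequality at level `n`
  have hn : ∀ n, (∫⁻ γ, ENNReal.ofReal |f (γ.toMap 1) - f (γ.toMap 0)| ∂P) ≤
      ENNReal.ofReal (∫ x, D n x * h x ∂m) + (C * err n + C * err n) := by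
    intro n
    have h1 := (hD n).2.2 P hP0 hb
    rw [hhint (fun x => ENNReal.ofReal (D n x))
      ((aesm_of_isL2OnBalls (hD n).1).aemeasurable.ennreal_ofReal),
      hprod _ (hD n).1 (hD n).2.1] at h1
    have hmeas : AEMeasurable (fun x => ENNReal.ofReal |fn n x - f x|) m :=
      ((aesm_of_isL2OnBalls (hfn n)).aemeasurable.sub
        (aesm_of_isL2OnBalls hf).aemeasurable).abs.ennreal_ofReal
    have h2 : ∀ t : unitInterval, ∫⁻ γ, ENNReal.ofReal |fn n (γ.toMap t) - f (γ.toMap t)| ∂P ≤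
        C * err n := fun t => lintegral_toMap_le_ball hC hR hmeas.restrict t
    calc (∫⁻ γ, ENNReal.ofReal |f (γ.toMap 1) - f (γ.toMap 0)| ∂P)
        ≤ ∫⁻ γ, (ENNReal.ofReal |fn n (γ.toMap 1) - fn n (γ.toMap 0)| +
          (ENNReal.ofReal |fn n (γ.toMap 1) - f (γ.toMap 1)| +
            ENNReal.ofReal |fn n (γ.toMap 0) - f (γ.toMap 0)|)) ∂P := by
          refine lintegral_mono fun γ => ?_
          rw [← ENNReal.ofReal_add (abs_nonneg _) (abs_nonneg _),
            ← ENNReal.ofReal_add (abs_nonneg _) (by positivity)]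
          apply ENNReal.ofReal_le_ofReal
          have e : f (γ.toMap 1) - f (γ.toMap 0) = (fn n (γ.toMap 1) - fn n (γ.toMap 0)) +
            (-(fn n (γ.toMap 1) - f (γ.toMap 1)) + (fn n (γ.toMap 0) - f (γ.toMap 0))) := by ring
          rw [e]
          refine (abs_add_le _ _).trans ?_
          gcongr
          refine (abs_add_le _ _).trans ?_
          rw [abs_neg]
      _ = (∫⁻ γ, ENNReal.ofReal |fn n (γ.toMap 1) - fn n (γ.toMap 0)| ∂P) +
          ((∫⁻ γ, ENNReal.ofReal |fn n (γ.toMap 1) - f (γ.toMap 1)| ∂P) +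
            (∫⁻ γ, ENNReal.ofReal |fn n (γ.toMap 0) - f (γ.toMap 0)| ∂P)) := by
          rw [lintegral_add_right', lintegral_add_right']
          · exact aemeasurable_comp_toMap hC hmeas 0
          · exact (aemeasurable_comp_toMap hC hmeas 1).add (aemeasurable_comp_toMap hC hmeas 0)
      _ ≤ _ := by
          gcongr
          · exact h2 1
          · exact h2 0
  rw [hhint (fun x => ENNReal.ofReal (D' x))
      ((aesm_of_isL2OnBalls hD').aemeasurable.ennreal_ofReal), hprod _ hD' hD'0]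
  refine ge_of_tendsto' (x := atTop) ?_ hn
  have h3 := ENNReal.tendsto_ofReal (hweak h o₁ R₁ hhL hhs)
  have h4 : Tendsto (fun n => (C : ℝ≥0∞) * err n + C * err n) atTop (𝓝 0) := by
    have h5 : Tendsto (fun n => (C : ℝ≥0∞) * err n) atTop (𝓝 0) := by
      have := ENNReal.Tendsto.const_mul (a := (C : ℝ≥0∞)) herr0 (Or.inr ENNReal.coe_ne_top)
      rwa [mul_zero] at this
    have := h5.add h5
    rwa [add_zero] at this
  have := h3.add h4
  rwa [add_zero] at this

/-- weak lower semicontinuity of weighted `L²` integrals. -/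
theorem lintegral_sq_le_of_weak_limit (hfin : IsFiniteOnBalls m) {D : ℕ → X → ℝ} {D' : X → ℝ}
    (hD : ∀ n, IsL2OnBalls m (D n)) (hD' : IsL2OnBalls m D')
    (hweak : ∀ (h : X → ℝ) (o : X) (R : ℝ), MemLp h 2 m → (∀ x, x ∉ Metric.ball o R → h x = 0) →
        Tendsto (fun n => ∫ x, D n x * h x ∂m) atTop (𝓝 (∫ x, D' x * h x ∂m)))
    {w : X → ℝ≥0∞} (hw : Measurable w) {c : ℝ≥0∞}
    (hc : ∀ n, ∫⁻ x, w x * ENNReal.ofReal (D n x ^ 2) ∂m ≤ c) :
    ∫⁻ x, w x * ENNReal.ofReal (D' x ^ 2) ∂m ≤ c := by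
  have hlf := locallyFinite_of_finiteOnBalls hfin
  rcases eq_or_ne c ⊤ with hct | hct
  · rw [hct]; exact le_top
  rcases isEmpty_or_nonempty X with hX | ⟨⟨o⟩⟩
  · have : m = 0 := Measure.eq_zero_of_isEmpty m
    rw [this]; simp
  have hDm := fun n => aesm_of_isL2OnBalls (hD n)
  have hDm' := aesm_of_isL2OnBalls hD'
  -- truncated weights
  set wj : ℕ → X → ℝ≥0∞ := fun j => (Metric.ball o (j : ℝ)).indicator (fun x => min (w x) j) with hwj
  have hwjm : ∀ j, Measurable (wj j) := fun j =>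
    (hw.min measurable_const).indicator Metric.isOpen_ball.measurableSet
  have hwjt : ∀ (j : ℕ) (x : X), wj j x ≤ j := by
    intro j x
    rw [hwj]
    by_cases hx : x ∈ Metric.ball o (j : ℝ)
    · simp only [indicator_of_mem hx]; exact min_le_right _ _
    · simp only [indicator_of_notMem hx]; exact zero_le
  have hwjw : ∀ (j : ℕ) (x : X), wj j x ≤ w x := by
    intro j x
    rw [hwj]
    by_cases hx : x ∈ Metric.ball o (j : ℝ)
    · simp only [indicator_of_mem hx]; exact min_le_left _ _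
    · simp only [indicator_of_notMem hx]; exact zero_le
  have hwj0 : ∀ (j : ℕ) (x : X), x ∉ Metric.ball o (j : ℝ) → wj j x = 0 := by
    intro j x hx
    rw [hwj]
    simp only [indicator_of_notMem hx]
  -- integrability of weighted products
  have hintw : ∀ (j : ℕ) (f g : X → ℝ), IsL2OnBalls m f → IsL2OnBalls m g →
      Integrable (fun x => (wj j x).toReal * (f x * g x)) m := by
    intro j f g hf hg
    have h1 : IntegrableOn (fun x => f x * g x) (Metric.ball o (j : ℝ)) m :=
      MemLp.integrable_mul (hf o j) (hg o j)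
    have h2 : IntegrableOn (fun x => (wj j x).toReal * (f x * g x)) (Metric.ball o (j : ℝ)) m := by
      refine h1.bdd_mul (c := (j : ℝ)) (hwjm j).ennreal_toReal.aestronglyMeasurable ?_
      refine Eventually.of_forall fun x => ?_
      rw [Real.norm_of_nonneg ENNReal.toReal_nonneg]
      have := ENNReal.toReal_mono (ENNReal.natCast_ne_top j) (hwjt j x)
      simpa using this
    rw [← integrable_indicator_iff Metric.isOpen_ball.measurableSet] at h2
    refine h2.congr (Eventually.of_forall fun x => ?_)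
    by_cases hx : x ∈ Metric.ball o (j : ℝ)
    · rw [indicator_of_mem hx]
    · rw [indicator_of_notMem hx]; simp [hwj0 j x hx]
  have hlin : ∀ (j : ℕ) (f : X → ℝ), IsL2OnBalls m f →
      ∫⁻ x, wj j x * ENNReal.ofReal (f x ^ 2) ∂m =
        ENNReal.ofReal (∫ x, (wj j x).toReal * (f x * f x) ∂m) := by
    intro j f hf
    rw [ofReal_integral_eq_lintegral_ofReal (hintw j f f hf hf)]
    · refine lintegral_congr fun x => ?_
      rw [ENNReal.ofReal_mul ENNReal.toReal_nonneg, ENNReal.ofReal_toReal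
        (ne_top_of_le_ne_top (ENNReal.natCast_ne_top j) (hwjt j x)), sq]
    · exact Eventually.of_forall fun x => mul_nonneg ENNReal.toReal_nonneg (mul_self_nonneg _)
  have hj : ∀ j : ℕ, ∫⁻ x, wj j x * ENNReal.ofReal (D' x ^ 2) ∂m ≤ c := by
    intro j
    rw [hlin j D' hD']
    set A := ∫ x, (wj j x).toReal * (D' x * D' x) ∂m with hA
    have hhL : MemLp (fun x => (wj j x).toReal * D' x) 2 m := by
      have h1 : MemLp (fun x => (wj j x).toReal * D' x) 2 (m.restrict (Metric.ball o (j : ℝ))) := by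
        refine MemLp.of_le_mul (c := (j : ℝ)) (hD' o j)
          ((hwjm j).ennreal_toReal.aestronglyMeasurable.mul (hD' o j).1) ?_
        refine Eventually.of_forall fun x => ?_
        rw [norm_mul, Real.norm_of_nonneg ENNReal.toReal_nonneg]
        have := ENNReal.toReal_mono (ENNReal.natCast_ne_top j) (hwjt j x)
        gcongr
        simpa using this
      rw [← memLp_indicator_iff_restrict Metric.isOpen_ball.measurableSet] at h1
      refine h1.ae_eq (Eventually.of_forall fun x => ?_)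
      by_cases hx : x ∈ Metric.ball o (j : ℝ)
      · rw [indicator_of_mem hx]
      · rw [indicator_of_notMem hx]; simp [hwj0 j x hx]
    have hlim := hweak _ o j hhL (fun x hx => by rw [hwj0 j x hx]; simp)
    have e1 : ∫ x, D' x * ((wj j x).toReal * D' x) ∂m = A := by
      rw [hA]
      refine integral_congr_ae (Eventually.of_forall fun x => ?_)
      simp only; ring
    rw [e1] at hlim
    have hle : ∀ n, ∫ x, D n x * ((wj j x).toReal * D' x) ∂m ≤ c.toReal / 2 + A / 2 := by
      intro n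
      have i1 := hintw j (D n) (D n) (hD n) (hD n)
      have i2 := hintw j D' D' hD' hD'
      have i3 := hintw j (D n) D' (hD n) hD'
      have h2 : ∫ x, (wj j x).toReal * (D n x * D n x) ∂m ≤ c.toReal := by
        have h3 := hlin j (D n) (hD n)
        have h4 : ∫⁻ x, wj j x * ENNReal.ofReal (D n x ^ 2) ∂m ≤ c := by
          refine le_trans (lintegral_mono fun x => ?_) (hc n)
          exact mul_le_mul_left (hwjw j x) _
        rw [h3] at h4
        exact (ENNReal.ofReal_le_iff_le_toReal hct).1 h4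
      calc ∫ x, D n x * ((wj j x).toReal * D' x) ∂m
          = ∫ x, (wj j x).toReal * (D n x * D' x) ∂m := by
            refine integral_congr_ae (Eventually.of_forall fun x => ?_)
            simp only; ring
        _ ≤ ∫ x, ((wj j x).toReal * (D n x * D n x) / 2 + (wj j x).toReal * (D' x * D' x) / 2) ∂m := by
            refine integral_mono i3 ((i1.div_const 2).add (i2.div_const 2)) fun x => ?_
            simp only
            have hwnn : 0 ≤ (wj j x).toReal := ENNReal.toReal_nonneg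
            nlinarith [mul_nonneg hwnn (sq_nonneg (D n x - D' x))]
        _ = (∫ x, (wj j x).toReal * (D n x * D n x) ∂m) / 2 + A / 2 := by
            rw [integral_add (i1.div_const 2) (i2.div_const 2), integral_div, integral_div]
        _ ≤ _ := by gcongr
    have hA2 : A ≤ c.toReal / 2 + A / 2 := le_of_tendsto' hlim hle
    exact (ENNReal.ofReal_le_iff_le_toReal hct).2 (by linarith)
  -- monotone convergence
  have hsup : ∀ x, w x * ENNReal.ofReal (D' x ^ 2) =
      ⨆ j : ℕ, wj j x * ENNReal.ofReal (D' x ^ 2) := by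
    intro x
    rw [← ENNReal.iSup_mul]
    congr 1
    apply le_antisymm
    · refine le_of_forall_lt fun b hb => ?_
      obtain ⟨j₁, hj₁⟩ := ENNReal.exists_nat_gt (hb.trans_le le_top).ne
      obtain ⟨j₂, hj₂⟩ := exists_nat_gt (dist x o)
      refine lt_of_lt_of_le ?_ (le_iSup _ (max j₁ j₂))
      rw [hwj]
      have hx : x ∈ Metric.ball o ((max j₁ j₂ : ℕ) : ℝ) := by
        rw [Metric.mem_ball]
        exact lt_of_lt_of_le hj₂ (by exact_mod_cast le_max_right _ _)
      simp only [indicator_of_mem hx]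
      refine lt_min hb (lt_of_lt_of_le hj₁ ?_)
      exact_mod_cast le_max_left _ _
    · exact iSup_le fun j => hwjw j x
  simp_rw [hsup]
  rw [lintegral_iSup']
  · exact iSup_le hj
  · intro j
    exact (hwjm j).aemeasurable.mul (hDm'.aemeasurable.pow_const 2).ennreal_ofReal
  · refine Eventually.of_forall fun x i j hij => ?_
    simp only
    gcongr ?_ * _
    rw [hwj]
    by_cases hx : x ∈ Metric.ball o (i : ℝ)
    · have hx' : x ∈ Metric.ball o (j : ℝ) := Metric.ball_subset_ball (by exact_mod_cast hij) hx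
      simp only [indicator_of_mem hx, indicator_of_mem hx']
      exact min_le_min_left _ (by exact_mod_cast hij)
    · simp only [indicator_of_notMem hx]; exact zero_le

/-- combination of the previous results: the limit of a sequence of local Sobolev functions. -/
theorem exists_wug_of_tendsto (hfin : IsFiniteOnBalls m) {f : X → ℝ} {fn : ℕ → X → ℝ}
    (hn : ∀ n, IsSobolevLoc m (fn n)) (hf : IsL2OnBalls m f)
    (hlim : ∀ (o : X) (R : ℝ), Tendsto
      (fun n => ∫⁻ x in Metric.ball o R, ENNReal.ofReal ((fn n x - f x) ^ 2) ∂m) atTop (𝓝 0))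
    (hbd : ∀ (o : X) (R : ℝ), ∃ C : ℝ≥0, ∀ n,
      ∫⁻ x in Metric.ball o R, ENNReal.ofReal (minWeakGrad m (fn n) x ^ 2) ∂m ≤ C) :
    ∃ D' : X → ℝ, IsWUGLoc m f D' ∧ ∀ (w : X → ℝ≥0∞), Measurable w → ∀ c : ℝ≥0∞,
      (∀ n, ∫⁻ x, w x * ENNReal.ofReal (minWeakGrad m (fn n) x ^ 2) ∂m ≤ c) →
      ∫⁻ x, w x * ENNReal.ofReal (D' x ^ 2) ∂m ≤ c := by
  obtain ⟨D', φ, hφ, hD'L, hD'0, hweak⟩ := exists_weak_limit_ball hfin
    (fun n => minWeakGrad_isL2OnBalls (m := m) (fn n)) (fun n => minWeakGrad_nonneg (fn n)) hbd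
  refine ⟨D', ?_, ?_⟩
  · exact isWUGLoc_of_weak_limit hfin (fn := fun n => fn (φ n))
      (D := fun n => minWeakGrad m (fn (φ n)))
      (fun n => IsSobolevLoc.isWUG (hn (φ n))) hf (fun n => (hn (φ n)).1)
      (fun o R => (hlim o R).comp hφ.tendsto_atTop) hD'L hD'0 hweak
  · intro w hw c hc
    exact lintegral_sq_le_of_weak_limit hfin (fun n => minWeakGrad_isL2OnBalls (fn (φ n))) hD'L
      hweak hw (fun n => hc (φ n))

theorem isSobolevLoc_of_tendsto (hfin : IsFiniteOnBalls m) {f : X → ℝ} {fn : ℕ → X → ℝ}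
    (hn : ∀ n, IsSobolevLoc m (fn n)) (hf : IsL2OnBalls m f)
    (hlim : ∀ (o : X) (R : ℝ), Tendsto
      (fun n => ∫⁻ x in Metric.ball o R, ENNReal.ofReal ((fn n x - f x) ^ 2) ∂m) atTop (𝓝 0))
    (hbd : ∀ (o : X) (R : ℝ), ∃ C : ℝ≥0, ∀ n,
      ∫⁻ x in Metric.ball o R, ENNReal.ofReal (minWeakGrad m (fn n) x ^ 2) ∂m ≤ C) :
    IsSobolevLoc m f := by
  obtain ⟨D', hD', -⟩ := exists_wug_of_tendsto hfin hn hf hlim hbd
  exact (isSobolevLoc_iff hfin).2 ⟨hf, D', hD'⟩

/-- lower semicontinuity, for any measurable weight -/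
theorem lintegral_minWeakGrad_sq_le_liminf (hfin : IsFiniteOnBalls m) {f : X → ℝ}
    {fn : ℕ → X → ℝ} (hn : ∀ n, IsSobolevLoc m (fn n)) (hf : IsL2OnBalls m f)
    (hlim : ∀ (o : X) (R : ℝ), Tendsto
      (fun n => ∫⁻ x in Metric.ball o R, ENNReal.ofReal ((fn n x - f x) ^ 2) ∂m) atTop (𝓝 0))
    (hbd : ∀ (o : X) (R : ℝ), ∃ C : ℝ≥0, ∀ n,
      ∫⁻ x in Metric.ball o R, ENNReal.ofReal (minWeakGrad m (fn n) x ^ 2) ∂m ≤ C)
    {w : X → ℝ≥0∞} (hw : Measurable w) :
    ∫⁻ x, w x * ENNReal.ofReal (minWeakGrad m f x ^ 2) ∂m ≤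
      liminf (fun n => ∫⁻ x, w x * ENNReal.ofReal (minWeakGrad m (fn n) x ^ 2) ∂m) atTop := by
  refine le_of_forall_gt_imp_ge_of_dense fun c hc => ?_
  have hfreq : ∃ᶠ n in atTop,
      ∫⁻ x, w x * ENNReal.ofReal (minWeakGrad m (fn n) x ^ 2) ∂m < c :=
    frequently_lt_of_liminf_lt (by isBoundedDefault) hc
  obtain ⟨ψ, hψ, hψc⟩ := extraction_of_frequently_atTop hfreq
  obtain ⟨D', hD', hlsc⟩ := exists_wug_of_tendsto hfin (fn := fun n => fn (ψ n))
    (fun n => hn (ψ n)) hf (fun o R => (hlim o R).comp hψ.tendsto_atTop)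
    (fun o R => by
      obtain ⟨C, hC⟩ := hbd o R
      exact ⟨C, fun n => hC (ψ n)⟩)
  refine le_trans (lintegral_mono_ae ?_) (hlsc w hw c fun n => (hψc n).le)
  filter_upwards [minWeakGrad_nonneg (m := m) f, minWeakGrad_le_of_isWUGLoc hfin hf hD'] with x h1 h2
  gcongr





end Crest.Agent.R242
end

-- ▼ part R242/Res

/-!
# Row 242, PART R (R1, R2): statements for users (owner helper847)

Everything here is a restatement, with `(H : Hyp m k N) (hV : BddLip V)`, of the theorems of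
`ResCore.lean` (which are over `Calc m`, `BddM V`).
-/

set_option autoImplicit false

open MeasureTheory Filter Set
open scoped ENNReal NNReal Topology
open Crest.GeometryTopology.SyntheticRicci

noncomputable section

namespace Crest.Agent.R242

variable {X : Type*} [MetricSpace X] [ProperSpace X] [MeasurableSpace X] [BorelSpace X]
  {m : Measure X} [IsLocallyFiniteMeasure m] [m.IsOpenPosMeasure] {k N : ℝ}
  {V : X → ℝ} {h : ℝ} {f g u v : X → ℝ}

theorem s8_of_hyp (H : Hyp m k N) : S8 m where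
  wg_congr := fun h => minWeakGrad_congr h
  closed := fun h1 h2 h3 h4 => isSobolevLoc_of_tendsto H.fin h1 h2 h3 h4
  lsc := fun h1 h2 h3 h4 _ hw => lintegral_minWeakGrad_sq_le_liminf H.fin h1 h2 h3 h4 hw

theorem calc_of_hyp (H : Hyp m k N) : Calc m := calc_of_s8 H (s8_of_hyp H)

omit [ProperSpace X] [IsLocallyFiniteMeasure m] [m.IsOpenPosMeasure] in
theorem BddLip.bddM (hV : BddLip V) : BddM V := by
  obtain ⟨hB, L, hL⟩ := hV
  exact ⟨hL.continuous.measurable, hB⟩

/-! ### the energy -/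




theorem En_nonneg (H : Hyp m k N) (hV : BddLip V) (hf : IsSobolev m f) : 0 ≤ En m V f f :=
  (calc_of_hyp H).En_nonneg hV.bddM hf

theorem En_self (H : Hyp m k N) (hV : BddLip V) (hf : IsSobolev m f) :
    En m V f f = ∫ x, minWeakGrad m f x ^ 2 ∂(wm m V) :=
  (calc_of_hyp H).En_self hV.bddM hf



/-! ### R1 -/

/-- the weak equation: `J_h f ∈ W^{1,2}` and `h E(J_h f, v) + ∫ J_h f v = ∫ f v`. -/
theorem Jr_isRes (H : Hyp m k N) (hV : BddLip V) (hh : 0 < h) {f : X → ℝ} (hf : MemLp f 2 m) :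
    IsRes m V h f (Jr m V h f) :=
  (calc_of_hyp H).Jr_isRes hV.bddM hh hf


theorem Jr_sob (H : Hyp m k N) (hV : BddLip V) (hh : 0 < h) {f : X → ℝ} (hf : MemLp f 2 m) :
    IsSobolev m (Jr m V h f) :=
  (calc_of_hyp H).Jr_sob hV.bddM hh hf

theorem Jr_memLp (H : Hyp m k N) (hV : BddLip V) (hh : 0 < h) {f : X → ℝ} (hf : MemLp f 2 m) :
    MemLp (Jr m V h f) 2 m :=
  (calc_of_hyp H).Jr_memLp hV.bddM hh hf

theorem Jr_congr (H : Hyp m k N) (hV : BddLip V) (hh : 0 < h) {f g : X → ℝ} (hf : MemLp f 2 m)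
    (hfg : f =ᵐ[m] g) : Jr m V h f =ᵐ[m] Jr m V h g := by
  rw [Jr_congr' hV.bddM hfg]


theorem Jr_add (H : Hyp m k N) (hV : BddLip V) (hh : 0 < h) {f g : X → ℝ} (hf : MemLp f 2 m)
    (hg : MemLp g 2 m) :
    Jr m V h (fun x => f x + g x) =ᵐ[m] fun x => Jr m V h f x + Jr m V h g x :=
  (calc_of_hyp H).Jr_add hV.bddM hh hf hg

theorem Jr_sub (H : Hyp m k N) (hV : BddLip V) (hh : 0 < h) {f g : X → ℝ} (hf : MemLp f 2 m)
    (hg : MemLp g 2 m) :
    Jr m V h (fun x => f x - g x) =ᵐ[m] fun x => Jr m V h f x - Jr m V h g x :=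
  (calc_of_hyp H).Jr_sub hV.bddM hh hf hg

theorem Jr_smul (H : Hyp m k N) (hV : BddLip V) (hh : 0 < h) (c : ℝ) {f : X → ℝ}
    (hf : MemLp f 2 m) : Jr m V h (fun x => c * f x) =ᵐ[m] fun x => c * Jr m V h f x :=
  (calc_of_hyp H).Jr_smul hV.bddM hh c hf

theorem Jr_symm (H : Hyp m k N) (hV : BddLip V) (hh : 0 < h) {f g : X → ℝ} (hf : MemLp f 2 m)
    (hg : MemLp g 2 m) :
    ∫ x, Jr m V h f x * g x ∂(wm m V) = ∫ x, f x * Jr m V h g x ∂(wm m V) :=
  (calc_of_hyp H).Jr_symm hV.bddM hh hf hg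



/-! ### R2 -/

theorem Jr_nonneg (H : Hyp m k N) (hV : BddLip V) (hh : 0 < h) {f : X → ℝ} (hf : MemLp f 2 m)
    (h0 : 0 ≤ᵐ[m] f) : 0 ≤ᵐ[m] Jr m V h f :=
  (calc_of_hyp H).Jr_nonneg hV.bddM hh hf h0

theorem Jr_mono (H : Hyp m k N) (hV : BddLip V) (hh : 0 < h) {f g : X → ℝ} (hf : MemLp f 2 m)
    (hg : MemLp g 2 m) (hfg : f ≤ᵐ[m] g) : Jr m V h f ≤ᵐ[m] Jr m V h g :=
  (calc_of_hyp H).Jr_mono hV.bddM hh hf hg hfg

theorem Jr_le_const (H : Hyp m k N) (hV : BddLip V) (hh : 0 < h) {f : X → ℝ} (hf : MemLp f 2 m)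
    {c : ℝ} (hc : 0 ≤ c) (hfc : ∀ᵐ x ∂m, f x ≤ c) : ∀ᵐ x ∂m, Jr m V h f x ≤ c :=
  (calc_of_hyp H).Jr_le_const hV.bddM hh hf hc hfc

theorem Jr_abs_le (H : Hyp m k N) (hV : BddLip V) (hh : 0 < h) {f : X → ℝ} (hf : MemLp f 2 m)
    {c : ℝ} (hfc : ∀ᵐ x ∂m, |f x| ≤ c) : ∀ᵐ x ∂m, |Jr m V h f x| ≤ c :=
  (calc_of_hyp H).Jr_abs_le_const hV.bddM hh hf hfc




theorem Jr_l1 (H : Hyp m k N) (hV : BddLip V) (hh : 0 < h) {f : X → ℝ} (hf : MemLp f 2 m)
    (hf1 : Integrable f m) : Integrable (Jr m V h f) m ∧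
      ∫ x, |Jr m V h f x| ∂(wm m V) ≤ ∫ x, |f x| ∂(wm m V) :=
  (calc_of_hyp H).Jr_l1 hV.bddM hh hf hf1

theorem Jr_l2 (H : Hyp m k N) (hV : BddLip V) (hh : 0 < h) {f : X → ℝ} (hf : MemLp f 2 m) :
    ∫ x, Jr m V h f x ^ 2 ∂(wm m V) + 2 * h * En m V (Jr m V h f) (Jr m V h f) ≤
      ∫ x, f x ^ 2 ∂(wm m V) := by
  have := (calc_of_hyp H).Jr_energy_l2 hV.bddM hh hf
  linarith

theorem Jr_energy_le (H : Hyp m k N) (hV : BddLip V) (hh : 0 < h) {f : X → ℝ}
    (hf : IsSobolev m f) : En m V (Jr m V h f) (Jr m V h f) ≤ En m V f f :=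
  (calc_of_hyp H).Jr_energy_le hV.bddM hh hf



theorem Jr_tendsto_l2 (H : Hyp m k N) (hV : BddLip V) {f : X → ℝ} (hf : MemLp f 2 m) :
    Tendsto (fun h => ∫ x, (Jr m V h f x - f x) ^ 2 ∂m) (𝓝[>] 0) (𝓝 0) :=
  (calc_of_hyp H).Jr_tendsto_l2 hV.bddM hf


/-! ### the generator -/


theorem IsWLap.congr (H : Hyp m k N) (hV : BddLip V) {u g u' g' : X → ℝ} (h1 : IsWLap m V u g)
    (hu : u =ᵐ[m] u') (hg : g =ᵐ[m] g') : IsWLap m V u' g' :=
  (calc_of_hyp H).isWLap_congr hV.bddM h1 hu hg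

theorem IsWLap.add (H : Hyp m k N) (hV : BddLip V) {u g u' g' : X → ℝ} (h1 : IsWLap m V u g)
    (h2 : IsWLap m V u' g') : IsWLap m V (fun x => u x + u' x) (fun x => g x + g' x) :=
  (calc_of_hyp H).isWLap_add hV.bddM h1 h2

theorem IsWLap.smul (H : Hyp m k N) (hV : BddLip V) (c : ℝ) {u g : X → ℝ}
    (h1 : IsWLap m V u g) : IsWLap m V (fun x => c * u x) (fun x => c * g x) :=
  (calc_of_hyp H).isWLap_smul hV.bddM c h1

/-- `L J_h f = (J_h f - f)/h`. -/
theorem Jr_isWLap (H : Hyp m k N) (hV : BddLip V) (hh : 0 < h) {f : X → ℝ} (hf : MemLp f 2 m) :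
    IsWLap m V (Jr m V h f) (fun x => (Jr m V h f x - f x) / h) :=
  (calc_of_hyp H).Jr_isWLap hV.bddM hh hf



/-- `L` commutes with the resolvent. -/
theorem IsWLap.Jr (H : Hyp m k N) (hV : BddLip V) (hh : 0 < h) {u g : X → ℝ}
    (hu : IsWLap m V u g) : IsWLap m V (Jr m V h u) (Jr m V h g) :=
  (calc_of_hyp H).isWLap_Jr hV.bddM hh hu

/-- `J_h u - u = h J_h L u`. -/
theorem IsWLap.Jr_sub (H : Hyp m k N) (hV : BddLip V) (hh : 0 < h) {u g : X → ℝ}
    (hu : IsWLap m V u g) :
    ∀ᵐ x ∂m, Crest.Agent.R242.Jr m V h u x - u x = h * Crest.Agent.R242.Jr m V h g x :=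
  (calc_of_hyp H).isWLap_Jr_sub hV.bddM hh hu


end Crest.Agent.R242
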