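import Crest.Agent.R242.Defs
import Crest.Agent.R242.Pair
import Crest.Agent.R242.SobLip
import Crest.Agent.R242.Slope
import Crest.Agent.R242.Fin1
import Crest.Agent.R242.BL
import Crest.Agent.R242.Res
import Crest.Agent.R242.ResW
import Crest.Agent.R242.Sob2Lip
import Crest.Agent.R242.GamA
import Crest.Agent.R242.DIterE

-- ▼ part R242/Fin5
section

/-!
Row 242, part F, file 5: the limit of the parameters (pure real analysis).
-/

set_option autoImplicit false
set_option linter.unusedVariables false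

open MeasureTheory Filter Set
open scoped ENNReal NNReal Topology

noncomputable section

namespace Crest.Agent.R242
namespace Fin

/-- the limit `δ → 0`, then `τ → 0` -/
theorem limit_step {d B k h₀ C N0 I : ℝ} {G η : ℝ → ℝ} (hh₀ : 0 < h₀) (hC : 0 ≤ C)
    (hk : 0 ≤ k) (hN0 : 0 ≤ N0)
    (hG : Continuous G) (hGB : ∀ s, |G s| ≤ B) (hη : Continuous η) (hη0 : ∀ s, 0 ≤ η s)
    (hηN : ∀ s, η s ≤ N0)
    (hineq : ∃ τ₀ : ℝ, 0 < τ₀ ∧ ∀ τ, 0 < τ → τ ≤ τ₀ → ∀ δ, 0 < δ → δ < h₀ → ∀ e : ℝ, 0 < e →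
      d ^ 2 / 2 ≤ (∫ s in (0 : ℝ)..1, (1 / 2) * (d ^ 2 * ((1 - 2 * δ * k)⁻¹ ^ 2) *
        Real.exp (2 * (G s + δ ^ 2 * k) * (τ * η s)))) - τ * I + C * (√δ + τ ^ 2) + e) :
    I ≤ d ^ 2 * ∫ s in (0 : ℝ)..1, G s * η s := by
  obtain ⟨τ₀, hτ₀, hineq⟩ := hineq
  have hB0 : 0 ≤ B := (abs_nonneg _).trans (hGB 0)
  -- step 1
  have h1 : ∀ τ, 0 < τ → τ ≤ τ₀ → ∀ δ, 0 < δ → δ < h₀ →
      d ^ 2 / 2 ≤ (∫ s in (0 : ℝ)..1, (1 / 2) * (d ^ 2 * ((1 - 2 * δ * k)⁻¹ ^ 2) *
        Real.exp (2 * (G s + δ ^ 2 * k) * (τ * η s)))) - τ * I + C * (√δ + τ ^ 2) := by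
    intro τ hτ hτ' δ hδ hδ'
    refine le_of_forall_pos_le_add fun e he => ?_
    exact hineq τ hτ hτ' δ hδ hδ' e he
  -- step 2
  have h2 : ∀ τ, 0 < τ → τ ≤ τ₀ →
      d ^ 2 / 2 ≤ (1 / 2) * d ^ 2 * (∫ s in (0 : ℝ)..1, Real.exp (2 * G s * (τ * η s)))
        - τ * I + C * τ ^ 2 := by
    intro τ hτ hτ'
    have hcexp : Continuous fun s => Real.exp (2 * G s * (τ * η s)) := by fun_prop
    have hE0 : 0 ≤ ∫ s in (0 : ℝ)..1, Real.exp (2 * G s * (τ * η s)) :=
      intervalIntegral.integral_nonneg zero_le_one fun s _ => (Real.exp_pos _).le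
    set E := ∫ s in (0 : ℝ)..1, Real.exp (2 * G s * (τ * η s)) with hE
    have hb : ∀ δ, 0 < δ → δ < h₀ → (∫ s in (0 : ℝ)..1, (1 / 2) * (d ^ 2 *
        ((1 - 2 * δ * k)⁻¹ ^ 2) * Real.exp (2 * (G s + δ ^ 2 * k) * (τ * η s)))) ≤
        (1 / 2) * (d ^ 2 * ((1 - 2 * δ * k)⁻¹ ^ 2)) * (Real.exp (2 * (δ ^ 2 * k) * (τ * N0)) *
          E) := by
      intro δ hδ hδ'
      rw [hE, ← intervalIntegral.integral_const_mul, ← intervalIntegral.integral_const_mul]
      refine intervalIntegral.integral_mono_on zero_le_one ?_ ?_ fun s _ => ?_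
      · exact Continuous.intervalIntegrable (by fun_prop) _ _
      · exact Continuous.intervalIntegrable (by fun_prop) _ _
      · rw [← Real.exp_add, mul_assoc (1 / 2 : ℝ)]
        have h3 : Real.exp (2 * (G s + δ ^ 2 * k) * (τ * η s)) ≤
            Real.exp (2 * (δ ^ 2 * k) * (τ * N0) + 2 * G s * (τ * η s)) := by
          apply Real.exp_le_exp.mpr
          have : (δ ^ 2 * k) * (τ * η s) ≤ (δ ^ 2 * k) * (τ * N0) := by
            have := hηN s
            gcongr
          nlinarith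
        have h4 : 0 ≤ d ^ 2 * ((1 - 2 * δ * k)⁻¹ ^ 2) := by positivity
        have := mul_le_mul_of_nonneg_left h3 h4
        linarith
    have hlim : Tendsto (fun δ : ℝ => (1 / 2) * (d ^ 2 * ((1 - 2 * δ * k)⁻¹ ^ 2)) *
        (Real.exp (2 * (δ ^ 2 * k) * (τ * N0)) * E) - τ * I + C * (√δ + τ ^ 2)) (𝓝[>] 0)
        (𝓝 ((1 / 2) * (d ^ 2 * ((1 - 2 * 0 * k)⁻¹ ^ 2)) *
        (Real.exp (2 * ((0 : ℝ) ^ 2 * k) * (τ * N0)) * E) - τ * I + C * (√0 + τ ^ 2))) := by
      refine tendsto_nhdsWithin_of_tendsto_nhds ?_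
      have hca : ContinuousAt (fun δ : ℝ => (1 - 2 * δ * k)⁻¹) 0 := by
        refine ContinuousAt.inv₀ (by fun_prop) (by norm_num)
      have hcb : ContinuousAt (fun δ : ℝ => √δ) 0 := Real.continuous_sqrt.continuousAt
      have : ContinuousAt (fun δ : ℝ => (1 / 2) * (d ^ 2 * ((1 - 2 * δ * k)⁻¹ ^ 2)) *
        (Real.exp (2 * (δ ^ 2 * k) * (τ * N0)) * E) - τ * I + C * (√δ + τ ^ 2)) 0 := by
        fun_prop
      exact this.tendsto
    have h3 : d ^ 2 / 2 ≤ (1 / 2) * (d ^ 2 * ((1 - 2 * 0 * k)⁻¹ ^ 2)) *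
        (Real.exp (2 * ((0 : ℝ) ^ 2 * k) * (τ * N0)) * E) - τ * I + C * (√0 + τ ^ 2) := by
      refine ge_of_tendsto hlim ?_
      filter_upwards [self_mem_nhdsWithin, Ioo_mem_nhdsGT hh₀] with δ hδ hδ'
      have := h1 τ hτ hτ' δ hδ hδ'.2
      have h4 := hb δ hδ hδ'.2
      linarith
    simp at h3
    linarith
  -- step 3
  have h3 : ∀ τ, 0 < τ → τ ≤ τ₀ → 2 * B * N0 * τ ≤ 1 →
      I ≤ d ^ 2 * (∫ s in (0 : ℝ)..1, G s * η s) + τ * (C + 2 * d ^ 2 * (B * N0) ^ 2) := by
    intro τ hτ hτ' hsm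
    have h4 := h2 τ hτ hτ'
    have h5 : ∫ s in (0 : ℝ)..1, Real.exp (2 * G s * (τ * η s)) ≤
        ∫ s in (0 : ℝ)..1, ((1 + (2 * B * N0 * τ) ^ 2) + (2 * τ) * (G s * η s)) := by
      refine intervalIntegral.integral_mono_on zero_le_one ?_ ?_ fun s _ => ?_
      · exact Continuous.intervalIntegrable (by fun_prop) _ _
      · exact Continuous.intervalIntegrable (by fun_prop) _ _
      · have hx : |2 * G s * (τ * η s)| ≤ 2 * B * N0 * τ := by
          rw [abs_mul, abs_mul, abs_of_pos (by norm_num : (0:ℝ) < 2), abs_mul,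
            abs_of_pos hτ, abs_of_nonneg (hη0 s)]
          have h6 := hGB s
          have h7 := hηN s
          have h8 := hη0 s
          calc 2 * |G s| * (τ * η s) ≤ 2 * B * (τ * N0) := by gcongr
            _ = _ := by ring
        have h6 := Real.abs_exp_sub_one_sub_id_le (hx.trans hsm)
        have h7 := (abs_le.mp h6).2
        have h8 : (2 * G s * (τ * η s)) ^ 2 ≤ (2 * B * N0 * τ) ^ 2 := by
          rw [← sq_abs]
          exact pow_le_pow_left₀ (abs_nonneg _) hx 2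
        linarith
    rw [intervalIntegral.integral_add (by simp)
      (Continuous.intervalIntegrable (by fun_prop) _ _), intervalIntegral.integral_const,
      intervalIntegral.integral_const_mul] at h5
    simp only [sub_zero, one_smul] at h5
    set J := ∫ s in (0 : ℝ)..1, G s * η s with hJ
    have h6 : (1 / 2) * d ^ 2 * (∫ s in (0 : ℝ)..1, Real.exp (2 * G s * (τ * η s))) ≤
        (1 / 2) * d ^ 2 * (1 + (2 * B * N0 * τ) ^ 2 + 2 * τ * J) :=
      mul_le_mul_of_nonneg_left h5 (by positivity)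
    have h7 : τ * I ≤ τ * (d ^ 2 * J + τ * (C + 2 * d ^ 2 * (B * N0) ^ 2)) := by
      nlinarith
    exact le_of_mul_le_mul_left h7 hτ
  -- step 4
  have hlim : Tendsto (fun τ : ℝ => d ^ 2 * (∫ s in (0 : ℝ)..1, G s * η s) +
      τ * (C + 2 * d ^ 2 * (B * N0) ^ 2)) (𝓝[>] 0)
      (𝓝 (d ^ 2 * (∫ s in (0 : ℝ)..1, G s * η s) + 0 * (C + 2 * d ^ 2 * (B * N0) ^ 2))) := by
    refine tendsto_nhdsWithin_of_tendsto_nhds ?_
    exact ((continuous_id.mul continuous_const).const_add _).tendsto 0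
  rw [zero_mul, add_zero] at hlim
  refine ge_of_tendsto hlim ?_
  have hpos : 0 < min τ₀ (1 / (2 * B * N0 + 1)) := by positivity
  filter_upwards [self_mem_nhdsWithin, Ioo_mem_nhdsGT hpos] with τ hτ hτ'
  refine h3 τ hτ (hτ'.2.le.trans (min_le_left _ _)) ?_
  have h4 : τ ≤ 1 / (2 * B * N0 + 1) := hτ'.2.le.trans (min_le_right _ _)
  have h5 : 0 ≤ 2 * B * N0 := by positivity
  calc 2 * B * N0 * τ ≤ 2 * B * N0 * (1 / (2 * B * N0 + 1)) := mul_le_mul_of_nonneg_left h4 h5
    _ = 2 * B * N0 / (2 * B * N0 + 1) := by ring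
    _ ≤ 1 := by
      rw [div_le_one (by positivity)]
      linarith

end Fin
end Crest.Agent.R242
end
end

-- ▼ part R242/CutA
section

/-!
Row 242, part F: cut-offs of `F`, the pairing inequality `hcalc` of `Fin.F_ineq`.
-/

set_option autoImplicit false
set_option linter.unusedSectionVars false
set_option linter.unusedVariables false

open MeasureTheory Filter Set
open scoped ENNReal NNReal Topology
open Crest.GeometryTopology.SyntheticRicci

noncomputable section

namespace Crest.Agent.R242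
namespace Fin

variable {X : Type*} [MetricSpace X] [ProperSpace X] [MeasurableSpace X] [BorelSpace X]
  {m : Measure X} [IsLocallyFiniteMeasure m] [m.IsOpenPosMeasure]
  {k N h₀ δ d : ℝ} {o : X} {F f : X → ℝ}

/-- cut-off of a bounded Lipschitz function (e.g. `f = χ F`, `χ x = max 0 (min 1 (n + 1 - dist x o))`) -/
theorem exists_cut {MF : ℝ} {LF : ℝ≥0} (hF : ∀ x, |F x| ≤ MF) (hL : LipschitzWith LF F) (o : X)
    (n : ℕ) : ∃ f : X → ℝ, LipschitzWith (LF + MF.toNNReal) f ∧ (∀ x, |f x| ≤ MF) ∧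
      HasCompactSupport f ∧ ∀ x ∈ Metric.closedBall o (n : ℝ), f x = F x := by
  obtain ⟨χ, hχL, hχc, hχ01, hχ1, -⟩ := exists_cutoff o (R := (n : ℝ)) (r := 1)
    (Nat.cast_nonneg n) one_pos
  have hM : 0 ≤ MF := (abs_nonneg _).trans (hF o)
  have hχL' : ∀ x y, |χ x - χ y| ≤ dist x y := by
    intro x y
    have := hχL.dist_le_mul x y
    rwa [div_one, Real.toNNReal_one, NNReal.coe_one, one_mul, Real.dist_eq] at this
  refine ⟨fun x => χ x * F x, ?_, ?_, hχc.mul_right, ?_⟩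
  · refine LipschitzWith.of_dist_le_mul fun x y => ?_
    have h1 := hL.dist_le_mul x y
    rw [Real.dist_eq] at h1 ⊢
    have h2 : χ x * F x - χ y * F y = χ x * (F x - F y) + F y * (χ x - χ y) := by ring
    rw [h2, NNReal.coe_add, Real.coe_toNNReal _ hM, add_mul]
    refine (abs_add_le _ _).trans (add_le_add ?_ ?_)
    · rw [abs_mul, abs_of_nonneg (hχ01 x).1]
      calc χ x * |F x - F y| ≤ 1 * |F x - F y| :=
            mul_le_mul_of_nonneg_right (hχ01 x).2 (abs_nonneg _)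
        _ ≤ LF * dist x y := by rw [one_mul]; exact h1
    · rw [abs_mul]
      exact mul_le_mul (hF y) (hχL' x y) (abs_nonneg _) hM
  · intro x
    rw [abs_mul, abs_of_nonneg (hχ01 x).1]
    calc χ x * |F x| ≤ 1 * |F x| := mul_le_mul_of_nonneg_right (hχ01 x).2 (abs_nonneg _)
      _ ≤ MF := by rw [one_mul]; exact hF x
  · intro x hx
    simp only [hχ1 x hx, one_mul]

/-- Lipschitz with compact support implies `W^{1,2}` -/
theorem sob_of_lip_hcs (H : Hyp m k N) {L : ℝ≥0} (hf : LipschitzWith L f)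
    (hs : HasCompactSupport f) : IsSobolev m f :=
  isSobolev_of_lipschitz_hasCompactSupport H.fin hf hs

/-- the pairing inequality `hcalc` -/
theorem calc_ineq (H : Hyp m k N) {LF Lf : ℝ≥0} (hF : LipschitzWith LF F)
    (hf : LipschitzWith Lf f) (hfs : IsSobolev m f)
    (hwF : ∀ᵐ x ∂m, minWeakGrad m F x ≤ LF) (hwf : ∀ᵐ x ∂m, minWeakGrad m f x ≤ Lf)
    {u w : X → ℝ} (hu : IsSobolev m u)
    (hw : ∀ᵐ x ∂m, minWeakGrad m u x ≤ w x) (c : ℝ) :
    ∀ᵐ x ∂m, c * gradPairing m F u x ≤ (1 / 2) * minWeakGrad m u x ^ 2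
      - (1 / 2) * minWeakGrad m (fun y => u y - c * f y) x ^ 2 + (1 / 2) * (c ^ 2 * (Lf : ℝ) ^ 2)
      + |c| * ({x | f x ≠ F x}.indicator (fun x => ((LF : ℝ) + Lf) * w x) x) := by
  have hFS : IsSobolevLoc m F := sobLoc_of_lipschitz H hF
  have hfS : IsSobolevLoc m f := hfs.2.1
  have huS : IsSobolevLoc m u := hu.2.1
  have hcf : IsSobolevLoc m (fun y => c * f y) := sobLoc_smul H c hfS
  have hself1 := gp_self H hcf
  have hself2 := gp_self H hfS
  have e1 := wg_sub_sq H huS hcf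
  have e2 := gp_smul_right H c huS hfS
  have e3 := gp_comm H huS hfS
  have e4 := gp_smul_left H c hfS hcf
  have e5 := gp_smul_right H c hfS hfS
  have e6 := gp_local_left H hfS hFS huS
  filter_upwards [e1, e2, e3, e4, e5, e6, hself1, hself2, gp_abs_le H hFS huS,
    gp_abs_le H hfS huS, hwF, hwf, hw, wg_nonneg H huS, wg_nonneg H hfS, wg_nonneg H hFS]
    with x e1 e2 e3 e4 e5 e6 s1 s2 a1 a2 b1 b2 b3 n1 n2 n3
  -- the square of the gradient of `c f`
  have hsq : minWeakGrad m (fun y => c * f y) x ^ 2 = c ^ 2 * minWeakGrad m f x ^ 2 := by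
    rw [← s1, e4, e5, s2]; ring
  rw [e1, e2, hsq, e3]
  have hf2 : c ^ 2 * minWeakGrad m f x ^ 2 ≤ c ^ 2 * (Lf : ℝ) ^ 2 := by gcongr
  have hmain : c * gradPairing m F u x ≤ c * gradPairing m f u x +
      |c| * ({x | f x ≠ F x}.indicator (fun x => ((LF : ℝ) + Lf) * w x) x) := by
    by_cases hx : f x = F x
    · rw [← e6 hx]
      have : x ∉ {x | f x ≠ F x} := fun h => h hx
      rw [Set.indicator_of_notMem this, mul_zero, add_zero]
    · have hx' : x ∈ {x | f x ≠ F x} := hx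
      rw [Set.indicator_of_mem hx']
      have h1 : c * gradPairing m F u x - c * gradPairing m f u x ≤
          |c| * (|gradPairing m F u x| + |gradPairing m f u x|) := by
        calc c * gradPairing m F u x - c * gradPairing m f u x
            = c * (gradPairing m F u x - gradPairing m f u x) := by ring
          _ ≤ |c * (gradPairing m F u x - gradPairing m f u x)| := le_abs_self _
          _ = |c| * |gradPairing m F u x - gradPairing m f u x| := abs_mul _ _
          _ ≤ |c| * (|gradPairing m F u x| + |gradPairing m f u x|) := by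
              gcongr; exact abs_sub _ _
      have h2 : |gradPairing m F u x| + |gradPairing m f u x| ≤ ((LF : ℝ) + Lf) * w x := by
        calc |gradPairing m F u x| + |gradPairing m f u x|
            ≤ minWeakGrad m F x * minWeakGrad m u x + minWeakGrad m f x * minWeakGrad m u x :=
              add_le_add a1 a2
          _ ≤ LF * w x + Lf * w x := by
              gcongr
          _ = _ := by ring
      have h3 : |c| * (|gradPairing m F u x| + |gradPairing m f u x|) ≤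
          |c| * (((LF : ℝ) + Lf) * w x) := by gcongr
      linarith
  nlinarith [hmain, hf2]

end Fin
end Crest.Agent.R242
end
end

-- ▼ part R242/HopfLax
section

/-!
Row 242, part Q: the Hopf-Lax semigroup of a bounded Lipschitz function on a metric space.
-/

open Filter Topology Set MeasureTheory
open scoped ENNReal NNReal

noncomputable section

namespace Crest.Agent.R242

section hopfLax

variable {X : Type*} [MetricSpace X]

variable {φ : X → ℝ} {B : ℝ} {L : ℝ≥0}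

theorem hopfLax_of_nonpos {s : ℝ} (hs : s ≤ 0) (x : X) : hopfLax φ s x = φ x := by
  simp [hopfLax, hs]

@[simp] theorem hopfLax_zero (x : X) : hopfLax φ 0 x = φ x := hopfLax_of_nonpos le_rfl x

theorem hopfLax_of_pos {s : ℝ} (hs : 0 < s) (x : X) :
    hopfLax φ s x = ⨅ y, (φ y + dist x y ^ 2 / (2 * s)) := by
  simp [hopfLax, not_le.2 hs]

theorem hopfLax_bdd {s : ℝ} (hs : 0 < s) (hB : ∀ x, |φ x| ≤ B) (x : X) :
    BddBelow (range fun y => φ y + dist x y ^ 2 / (2 * s)) := by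
  refine ⟨-B, ?_⟩
  rintro _ ⟨y, rfl⟩
  have h1 := (abs_le.1 (hB y)).1
  have h2 : 0 ≤ dist x y ^ 2 / (2 * s) := by positivity
  simp only
  linarith

theorem hopfLax_le {s : ℝ} (hs : 0 < s) (hB : ∀ x, |φ x| ≤ B) (x y : X) :
    hopfLax φ s x ≤ φ y + dist x y ^ 2 / (2 * s) := by
  rw [hopfLax_of_pos hs]
  exact ciInf_le (hopfLax_bdd hs hB x) y

theorem hopfLax_le_self (hB : ∀ x, |φ x| ≤ B) (s : ℝ) (x : X) : hopfLax φ s x ≤ φ x := by
  rcases le_or_gt s 0 with hs | hs
  · rw [hopfLax_of_nonpos hs]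
  · simpa using hopfLax_le hs hB x x

theorem le_hopfLax {s : ℝ} {c : ℝ} {x : X} (hs : 0 < s)
    (h : ∀ y, c ≤ φ y + dist x y ^ 2 / (2 * s)) : c ≤ hopfLax φ s x := by
  rw [hopfLax_of_pos hs]
  have : Nonempty X := ⟨x⟩
  exact le_ciInf h

theorem neg_le_hopfLax (hB : ∀ x, |φ x| ≤ B) (s : ℝ) (x : X) : -B ≤ hopfLax φ s x := by
  rcases le_or_gt s 0 with hs | hs
  · rw [hopfLax_of_nonpos hs]; exact (abs_le.1 (hB x)).1
  · refine le_hopfLax hs fun y => ?_
    have h1 := (abs_le.1 (hB y)).1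
    have h2 : 0 ≤ dist x y ^ 2 / (2 * s) := by positivity
    linarith

theorem abs_hopfLax_le (hB : ∀ x, |φ x| ≤ B) (s : ℝ) (x : X) : |hopfLax φ s x| ≤ B :=
  abs_le.2 ⟨neg_le_hopfLax hB s x, (hopfLax_le_self hB s x).trans (abs_le.1 (hB x)).2⟩

theorem exists_hopfLax_lt {s : ℝ} (hs : 0 < s) (x : X) {c : ℝ}
    (hc : hopfLax φ s x < c) : ∃ y, φ y + dist x y ^ 2 / (2 * s) < c := by
  rw [hopfLax_of_pos hs] at hc
  have : Nonempty X := ⟨x⟩
  exact exists_lt_of_ciInf_lt hc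

theorem lip_sub (hL : LipschitzWith L φ) (x y : X) : φ x - φ y ≤ L * dist x y := by
  have := hL.dist_le_mul x y
  rw [Real.dist_eq] at this
  exact (le_abs_self _).trans this

theorem self_sub_le_hopfLax (hL : LipschitzWith L φ) {s : ℝ} (hs : 0 ≤ s) (x : X) :
    φ x - s * (L : ℝ) ^ 2 / 2 ≤ hopfLax φ s x := by
  rcases hs.eq_or_lt with rfl | hs
  · simp
  · refine le_hopfLax hs fun y => ?_
    have h1 := lip_sub hL x y
    have h2 : (L : ℝ) * dist x y ≤ s * (L : ℝ) ^ 2 / 2 + dist x y ^ 2 / (2 * s) := by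
      have h3 : s * (L : ℝ) ^ 2 / 2 + dist x y ^ 2 / (2 * s) - L * dist x y
          = (s * L - dist x y) ^ 2 / (2 * s) := by
        field_simp
        ring
      have h4 : 0 ≤ (s * L - dist x y) ^ 2 / (2 * s) := by positivity
      linarith
    linarith

/-- almost minimisers at distance at most `2 s L`. -/
theorem exists_near (hL : LipschitzWith L φ) {s : ℝ} (hs : 0 < s)
    (hB : ∀ x, |φ x| ≤ B) (x : X) {ε : ℝ} (hε : 0 < ε) :
    ∃ y, φ y + dist x y ^ 2 / (2 * s) ≤ hopfLax φ s x + ε ∧ dist x y ≤ 2 * s * L := by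
  rcases (hopfLax_le_self hB s x).lt_or_eq with h | h
  · obtain ⟨y, hy⟩ := exists_hopfLax_lt hs x (c := min (φ x) (hopfLax φ s x + ε))
      (lt_min h (by linarith))
    have hy1 := hy.trans_le (min_le_left _ _)
    have hy2 := hy.trans_le (min_le_right _ _)
    refine ⟨y, hy2.le, ?_⟩
    have h1 := lip_sub hL x y
    have h2 : dist x y ^ 2 / (2 * s) < L * dist x y := by linarith
    have h3 : dist x y ^ 2 < L * dist x y * (2 * s) := by
      rwa [div_lt_iff₀ (by positivity)] at h2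
    by_contra hcon
    push Not at hcon
    have h4 : 0 < dist x y := by
      have : (0:ℝ) ≤ 2 * s * L := by positivity
      linarith
    nlinarith
  · refine ⟨x, ?_, ?_⟩
    · simp [h, hε.le]
    · simp only [dist_self]
      positivity

theorem hopfLax_sub_le (hL : LipschitzWith L φ) {s : ℝ} (hs : 0 ≤ s)
    (hB : ∀ x, |φ x| ≤ B) (x x' : X) :
    hopfLax φ s x' - hopfLax φ s x ≤ 3 * L * dist x' x := by
  rcases hs.eq_or_lt with rfl | hs
  · have := lip_sub hL x' x
    simp only [hopfLax_zero]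
    have : (0:ℝ) ≤ L * dist x' x := by positivity
    linarith
  rcases le_or_gt (2 * s * L) (dist x' x) with hd | hd
  · have h1 := hopfLax_le_self hB s x'
    have h2 := self_sub_le_hopfLax hL hs.le x
    have h3 := lip_sub hL x' x
    have h4 : s * (L : ℝ) ^ 2 / 2 ≤ L * dist x' x := by
      have : (L:ℝ) * (2 * s * L) ≤ L * dist x' x := by gcongr
      nlinarith [show (0:ℝ) ≤ s * (L:ℝ)^2 by positivity]
    have : (0:ℝ) ≤ L * dist x' x := by positivity
    linarith
  · refine le_of_forall_pos_le_add fun ε hε => ?_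
    obtain ⟨y, hy, hyd⟩ := exists_near hL hs hB x hε
    have h1 := hopfLax_le hs hB x' y
    have h2 : dist x' y ≤ dist x' x + dist x y := dist_triangle _ _ _
    have h3 : dist x' y ^ 2 / (2 * s) ≤ dist x y ^ 2 / (2 * s) + 3 * L * dist x' x := by
      have h4 : dist x' y ^ 2 ≤ dist x y ^ 2 + dist x' x * (3 * L * (2 * s)) := by
        have h5 : dist x' y ^ 2 ≤ (dist x' x + dist x y) ^ 2 := by gcongr
        have h6 : (0:ℝ) ≤ dist x' x := dist_nonneg
        nlinarith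
      have h7 : dist x' y ^ 2 / (2 * s) ≤ (dist x y ^ 2 + dist x' x * (3 * L * (2 * s))) / (2 * s) := by
        gcongr
      have h8 : (dist x y ^ 2 + dist x' x * (3 * L * (2 * s))) / (2 * s)
          = dist x y ^ 2 / (2 * s) + 3 * L * dist x' x := by
        field_simp
      linarith
    linarith

theorem hopfLax_lipschitz (hL : LipschitzWith L φ) {s : ℝ} (hs : 0 ≤ s)
    (hB : ∀ x, |φ x| ≤ B) : LipschitzWith (3 * L) (hopfLax φ s) := by
  refine LipschitzWith.of_dist_le_mul fun x y => ?_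
  rw [Real.dist_eq, abs_sub_le_iff]
  have h1 := hopfLax_sub_le hL hs hB y x
  have h2 := hopfLax_sub_le hL hs hB x y
  rw [dist_comm y x] at h2
  push_cast
  exact ⟨h1, h2⟩

theorem hopfLax_antitone (hB : ∀ x, |φ x| ≤ B) (x : X) : Antitone fun s => hopfLax φ s x := by
  intro s s' hss
  simp only
  rcases le_or_gt s 0 with hs | hs
  · rw [hopfLax_of_nonpos hs]; exact hopfLax_le_self hB s' x
  · refine le_hopfLax hs fun y => (hopfLax_le (hs.trans_le hss) hB x y).trans ?_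
    gcongr

theorem hopfLax_time_sub_le (hL : LipschitzWith L φ) (hB : ∀ x, |φ x| ≤ B)
    {s s' : ℝ} (hs : 0 ≤ s) (hss : s ≤ s') (x : X) :
    hopfLax φ s x - hopfLax φ s' x ≤ 4 * (L : ℝ) ^ 2 * (s' - s) := by
  rcases le_or_gt s' (2 * s) with h2 | h2
  · rcases hs.eq_or_lt with rfl | hs
    · have : s' = 0 := le_antisymm (by linarith) hss
      subst this
      simp
    · have hs' : 0 < s' := hs.trans_le hss
      refine le_of_forall_pos_le_add fun ε hε => ?_
      obtain ⟨y, hy, hyd⟩ := exists_near hL hs' hB x hε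
      have h1 := hopfLax_le hs hB x y
      have h3 : dist x y ^ 2 / (2 * s) ≤ dist x y ^ 2 / (2 * s') + 4 * (L:ℝ) ^ 2 * (s' - s) := by
        have h4 : dist x y ^ 2 / (2 * s) - dist x y ^ 2 / (2 * s')
            = dist x y ^ 2 * (s' - s) / (2 * s * s') := by
          field_simp
        have h5 : dist x y ^ 2 * (s' - s) / (2 * s * s')
            ≤ (2 * s' * L) ^ 2 * (s' - s) / (2 * s * s') := by
          have : 0 ≤ s' - s := by linarith
          gcongr
        have h6 : (2 * s' * L) ^ 2 * (s' - s) / (2 * s * s')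
            = (2 * (L:ℝ)^2 * (s' - s)) * (s' / s) := by
          field_simp
        have h7 : s' / s ≤ 2 := by
          rw [div_le_iff₀ hs]; linarith
        have h8 : (2 * (L:ℝ)^2 * (s' - s)) * (s' / s) ≤ (2 * (L:ℝ)^2 * (s' - s)) * 2 := by
          have : 0 ≤ s' - s := by linarith
          gcongr
        linarith
      linarith
  · have h1 := hopfLax_le_self hB s x
    have h3 := self_sub_le_hopfLax hL (hs.trans hss) x
    have h4 : s' * (L : ℝ) ^ 2 / 2 ≤ (L:ℝ) ^ 2 * (s' - s) := by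
      nlinarith [sq_nonneg (L:ℝ)]
    have h5 : 0 ≤ (L:ℝ) ^ 2 * (s' - s) := mul_nonneg (sq_nonneg _) (by linarith)
    linarith

theorem hopfLax_time_lipschitz (hL : LipschitzWith L φ) (hB : ∀ x, |φ x| ≤ B) (x : X)
    {s s' : ℝ} (hs : 0 ≤ s) (hs' : 0 ≤ s') :
    |hopfLax φ s x - hopfLax φ s' x| ≤ 4 * (L : ℝ) ^ 2 * |s - s'| := by
  rcases le_total s s' with h | h
  · have h1 := hopfLax_antitone hB x h
    simp only at h1
    rw [abs_of_nonneg (by linarith), abs_of_nonpos (by linarith)]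
    have := hopfLax_time_sub_le hL hB hs h x
    linarith
  · have h1 := hopfLax_antitone hB x h
    simp only at h1
    rw [abs_of_nonpos (by linarith), abs_of_nonneg (by linarith)]
    have := hopfLax_time_sub_le hL hB hs' h x
    linarith

/-- semigroup inequality. -/
theorem hopfLax_add_le (hB : ∀ x, |φ x| ≤ B) {s r : ℝ} (hs : 0 ≤ s) (hr : 0 < r) (x y : X) :
    hopfLax φ (s + r) x ≤ hopfLax φ s y + dist x y ^ 2 / (2 * r) := by
  rcases hs.eq_or_lt with rfl | hs
  · rw [zero_add, hopfLax_zero]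
    exact hopfLax_le hr hB x y
  · refine le_of_forall_pos_le_add fun ε hε => ?_
    obtain ⟨z, hz⟩ := exists_hopfLax_lt (φ := φ) hs y (c := hopfLax φ s y + ε) (by linarith)
    have h1 := hopfLax_le (by linarith : 0 < s + r) hB x z
    have h2 : dist x z ^ 2 / (2 * (s + r)) ≤ dist y z ^ 2 / (2 * s) + dist x y ^ 2 / (2 * r) := by
      have h3 : dist x z ^ 2 ≤ (dist x y + dist y z) ^ 2 := by
        gcongr
        exact dist_triangle _ _ _
      have h4 : (dist x y + dist y z) ^ 2 / (2 * (s + r))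
          ≤ dist y z ^ 2 / (2 * s) + dist x y ^ 2 / (2 * r) := by
        have h5 : dist y z ^ 2 / (2 * s) + dist x y ^ 2 / (2 * r)
            - (dist x y + dist y z) ^ 2 / (2 * (s + r))
            = (r * dist y z - s * dist x y) ^ 2 / (2 * s * r * (s + r)) := by
          field_simp
          ring
        have h6 : 0 ≤ (r * dist y z - s * dist x y) ^ 2 / (2 * s * r * (s + r)) := by positivity
        linarith
      exact le_trans (by gcongr) h4
    linarith

/-- finite propagation: if `φ ≤ 0`... `φ = 0` on the ball of radius `2 s L` about `x`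
then `Q_s φ x = 0`. -/
theorem hopfLax_eq_zero (hL : LipschitzWith L φ) (hB : ∀ x, |φ x| ≤ B) {s : ℝ} (hs : 0 ≤ s) {x : X}
    (h0 : ∀ y, dist x y ≤ 2 * s * L → φ y = 0) : hopfLax φ s x = 0 := by
  have hx : φ x = 0 := h0 x (by rw [dist_self]; positivity)
  rcases hs.eq_or_lt with rfl | hs
  · simpa using hx
  refine le_antisymm (hx ▸ hopfLax_le_self hB s x) ?_
  refine le_of_forall_pos_le_add fun ε hε => ?_
  obtain ⟨y, hy, hyd⟩ := exists_near hL hs hB x hε
  rw [h0 y hyd] at hy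
  have : 0 ≤ dist x y ^ 2 / (2 * s) := by positivity
  linarith

/-- Hopf-Lax with clamped time is jointly Lipschitz. -/
theorem abs_hopfLax_sub_le (hL : LipschitzWith L φ) (hB : ∀ x, |φ x| ≤ B) (r r' : ℝ) (x x' : X) :
    |hopfLax φ r x - hopfLax φ r' x'| ≤ 4 * (L : ℝ) ^ 2 * |r - r'| + 3 * L * dist x x' := by
  have hmax : ∀ (r : ℝ) (x : X), hopfLax φ r x = hopfLax φ (max r 0) x := by
    intro r x
    rcases le_total r 0 with h | h
    · rw [max_eq_right h, hopfLax_of_nonpos h, hopfLax_zero]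
    · rw [max_eq_left h]
  have h1 : |hopfLax φ r x - hopfLax φ r' x| ≤ 4 * (L : ℝ) ^ 2 * |r - r'| := by
    rw [hmax r x, hmax r' x]
    refine (hopfLax_time_lipschitz hL hB x (le_max_right _ _) (le_max_right _ _)).trans ?_
    gcongr 4 * (L:ℝ)^2 * ?_
    exact abs_max_sub_max_le_abs r r' 0
  have h2 : |hopfLax φ r' x - hopfLax φ r' x'| ≤ 3 * L * dist x x' := by
    rw [hmax r' x, hmax r' x', abs_sub_le_iff]
    have h3 := hopfLax_sub_le hL (le_max_right r' 0) hB x' x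
    have h4 := hopfLax_sub_le hL (le_max_right r' 0) hB x x'
    rw [dist_comm x' x] at h4
    exact ⟨h3, h4⟩
  calc |hopfLax φ r x - hopfLax φ r' x'| = |(hopfLax φ r x - hopfLax φ r' x) + (hopfLax φ r' x - hopfLax φ r' x')| := by ring_nf
    _ ≤ |hopfLax φ r x - hopfLax φ r' x| + |hopfLax φ r' x - hopfLax φ r' x'| := abs_add_le _ _
    _ ≤ _ := add_le_add h1 h2

theorem hopfLax_continuous (hL : LipschitzWith L φ) (hB : ∀ x, |φ x| ≤ B) :
    Continuous fun q : ℝ × X => hopfLax φ q.1 q.2 := by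
  rw [continuous_iff_continuousAt]
  rintro ⟨r, x⟩
  rw [ContinuousAt, tendsto_iff_dist_tendsto_zero]
  have h1 : Tendsto (fun q : ℝ × X => 4 * (L : ℝ) ^ 2 * |q.1 - r| + 3 * L * dist q.2 x)
      (𝓝 (r, x)) (𝓝 0) := by
    have : Continuous (fun q : ℝ × X => 4 * (L : ℝ) ^ 2 * |q.1 - r| + 3 * L * dist q.2 x) := by
      fun_prop
    have h := this.tendsto (r, x)
    simpa using h
  refine squeeze_zero (fun _ => dist_nonneg) (fun q => ?_) h1
  rw [Real.dist_eq]
  exact abs_hopfLax_sub_le hL hB q.1 r q.2 x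

end hopfLax

section Slope

variable {X : Type*} [MetricSpace X]


end Slope

section Deriv

variable {X : Type*} [MetricSpace X] {φ : X → ℝ} {B : ℝ} {L : ℝ≥0}

/-- If `c < |D^- Q_s φ|(x)` then some arbitrarily small right difference quotient of
`s ↦ Q_s φ x` is at most `-c²/2`. -/
theorem exists_quot_le (hB : ∀ x, |φ x| ≤ B) {s : ℝ} (hs : 0 ≤ s) (x : X) {c : ℝ} (hc : 0 < c)
    (h : ENNReal.ofReal c < descSlope (hopfLax φ s) x) {δ : ℝ} (hδ : 0 < δ) :
    ∃ r, 0 < r ∧ r < δ ∧ hopfLax φ (s + r) x - hopfLax φ s x ≤ -(c ^ 2 / 2) * r := by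
  rw [descSlope_eq_iInf] at h
  unfold quotSup at h
  obtain ⟨n, hn⟩ := exists_nat_one_div_lt (show 0 < δ * c by positivity)
  have h1 := h.trans_le (iInf_le _ n)
  obtain ⟨y, hy⟩ := lt_iSup_iff.1 h1
  obtain ⟨hy1, hy2⟩ := lt_iSup_iff.1 hy
  rw [ENNReal.ofReal_lt_ofReal_iff_of_nonneg hc.le, lt_div_iff₀ hy1.1] at hy2
  refine ⟨dist x y / c, div_pos hy1.1 hc, ?_, ?_⟩
  · rw [div_lt_iff₀ hc]
    exact hy1.2.trans hn
  · have h2 := hopfLax_add_le hB hs (div_pos hy1.1 hc) x y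
    have h3 : dist x y ^ 2 / (2 * (dist x y / c)) = c * dist x y / 2 := by
      have := hy1.1.ne'
      field_simp
    have h4 : -(c ^ 2 / 2) * (dist x y / c) = -(c * dist x y / 2) := by
      field_simp
    rw [h3] at h2
    rw [h4]
    linarith

/-- At a point of differentiability, `(d/ds) Q_s φ x ≤ -½ |D^- Q_s φ|²(x)`. -/
theorem descSlope_sq_le (hB : ∀ x, |φ x| ≤ B) {s : ℝ} (hs : 0 ≤ s) (x : X) {D : ℝ}
    (hD : HasDerivAt (fun r => hopfLax φ r x) D s) :
    descSlope (hopfLax φ s) x ^ 2 ≤ ENNReal.ofReal (2 * (-D)) := by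
  have key : ∀ c : ℝ, 0 < c → ENNReal.ofReal c < descSlope (hopfLax φ s) x → c ^ 2 ≤ 2 * (-D) := by
    intro c hc h
    by_contra hcon
    push Not at hcon
    have h1 : -(c ^ 2 / 2) < D := by linarith
    have h2 := hD.tendsto_slope_zero_right.eventually_const_lt h1
    rw [eventually_nhdsWithin_iff, Metric.eventually_nhds_iff] at h2
    obtain ⟨δ, hδ, hδ2⟩ := h2
    obtain ⟨r, hr0, hrδ, hr⟩ := exists_quot_le hB hs x hc h hδ
    have h3 := hδ2 (y := r) (by rw [Real.dist_eq, sub_zero, abs_of_pos hr0]; exact hrδ) hr0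
    rw [smul_eq_mul, ← div_eq_inv_mul, lt_div_iff₀ hr0] at h3
    linarith
  have hne : descSlope (hopfLax φ s) x ≤ ENNReal.ofReal (Real.sqrt (2 * (-D))) := by
    refine le_of_forall_lt fun c hc => ?_
    have hctop : c ≠ ⊤ := (hc.trans_le le_top).ne
    rcases eq_or_ne c 0 with rfl | hc0
    · -- need positivity of the right side
      obtain ⟨c', hc'0, hc'⟩ := exists_between hc
      have hc't : c' ≠ ⊤ := (hc'.trans_le le_top).ne
      have hpos : 0 < c'.toReal := ENNReal.toReal_pos hc'0.ne' hc't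
      have := key c'.toReal hpos (by rwa [ENNReal.ofReal_toReal hc't])
      rw [ENNReal.ofReal_pos]
      apply Real.sqrt_pos.2
      nlinarith
    · obtain ⟨c', hc'0, hc'⟩ := exists_between hc
      have hc't : c' ≠ ⊤ := (hc'.trans_le le_top).ne
      have hpos : 0 < c'.toReal := ENNReal.toReal_pos ((bot_le.trans_lt hc'0).ne') hc't
      have h3 := key c'.toReal hpos (by rwa [ENNReal.ofReal_toReal hc't])
      refine hc'0.trans_le ?_
      rw [← ENNReal.ofReal_toReal hc't]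
      exact ENNReal.ofReal_le_ofReal (Real.le_sqrt_of_sq_le h3)
  calc descSlope (hopfLax φ s) x ^ 2 ≤ (ENNReal.ofReal (Real.sqrt (2 * (-D)))) ^ 2 := by gcongr
    _ = ENNReal.ofReal (Real.sqrt (2 * (-D)) ^ 2) := by
        rw [ENNReal.ofReal_pow (Real.sqrt_nonneg _)]
    _ ≤ ENNReal.ofReal (2 * (-D)) := by
        rcases le_total 0 (2 * (-D)) with h | h
        · rw [Real.sq_sqrt h]
        · rw [Real.sqrt_eq_zero_of_nonpos h]; simp


end Deriv

section Cone

variable {X : Type*} [MetricSpace X]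

/-- The truncated cone used as initial datum: `min (d · dist x o) (d²/2) - d²/2`. -/
def cone (o : X) (d : ℝ) (x : X) : ℝ := min (d * dist x o) (d ^ 2 / 2) - d ^ 2 / 2

variable {o : X} {d : ℝ}

theorem cone_nonpos (x : X) : cone o d x ≤ 0 := by
  simp only [cone, sub_nonpos]
  exact min_le_right _ _

theorem neg_le_cone (hd : 0 ≤ d) (x : X) : -(d ^ 2 / 2) ≤ cone o d x := by
  simp only [cone]
  have : 0 ≤ min (d * dist x o) (d ^ 2 / 2) := le_min (by positivity) (by positivity)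
  linarith

theorem abs_cone_le (hd : 0 ≤ d) (x : X) : |cone o d x| ≤ d ^ 2 / 2 :=
  abs_le.2 ⟨neg_le_cone hd x, (cone_nonpos x).trans (by positivity)⟩

theorem cone_lipschitz (hd : 0 ≤ d) : LipschitzWith ⟨d, hd⟩ (cone o d) := by
  refine LipschitzWith.of_dist_le_mul fun x y => ?_
  rw [Real.dist_eq]
  simp only [cone, sub_sub_sub_cancel_right]
  refine (abs_min_sub_min_le_max _ _ _ _).trans ?_
  simp only [sub_self, abs_zero]
  refine max_le ?_ (by positivity)
  rw [← mul_sub, abs_mul, abs_of_nonneg hd]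
  exact mul_le_mul_of_nonneg_left (abs_dist_sub_le x y o) hd

theorem cone_eq_zero (hd : 0 ≤ d) {x : X} (hx : d / 2 ≤ dist x o) : cone o d x = 0 := by
  have h : d ^ 2 / 2 ≤ d * dist x o := by nlinarith
  simp [cone, min_eq_right h]

theorem cone_self : cone o d o = -(d ^ 2 / 2) := by
  have : 0 ≤ d ^ 2 / 2 := by positivity
  simp [cone, min_eq_left this]

/-- the support of `Q_s (cone)` stays in a fixed ball -/
theorem hopfLax_cone_eq_zero (hd : 0 ≤ d) {s : ℝ} (hs : 0 ≤ s) {x : X}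
    (hx : d / 2 + 2 * s * d ≤ dist x o) : hopfLax (cone o d) s x = 0 := by
  refine hopfLax_eq_zero (L := ⟨d, hd⟩) (cone_lipschitz hd) (abs_cone_le hd) hs fun y hy => ?_
  refine cone_eq_zero hd ?_
  change dist x y ≤ 2 * s * d at hy
  have := dist_triangle x y o
  linarith

theorem hopfLax_cone_nonpos (hd : 0 ≤ d) (s : ℝ) (x : X) : hopfLax (cone o d) s x ≤ 0 :=
  (hopfLax_le_self (abs_cone_le hd) s x).trans (cone_nonpos x)

theorem hopfLax_cone_one (hd : 0 ≤ d) {x : X} (hx : dist x o = d) : hopfLax (cone o d) 1 x = 0 := by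
  refine le_antisymm (hopfLax_cone_nonpos hd 1 x) ?_
  refine le_hopfLax one_pos fun y => ?_
  have h1 : d ≤ dist x y + dist y o := hx ▸ dist_triangle x y o
  have h2 : 0 ≤ dist y o := dist_nonneg
  have h3 : 0 ≤ dist x y := dist_nonneg
  rcases le_total (d / 2) (dist y o) with h | h
  · rw [cone_eq_zero hd h]; positivity
  · have h4 : d * dist y o ≤ d ^ 2 / 2 := by nlinarith
    simp only [cone, min_eq_left h4]
    have h5 : (d - dist y o) ^ 2 ≤ dist x y ^ 2 := by
      apply pow_le_pow_left₀ <;> linarith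
    nlinarith [sq_nonneg (dist y o)]

end Cone

end Crest.Agent.R242
end
end

-- ▼ part R242/LamInst
section

/-!
Row 242, part F: instantiation of `Fin.Lam` by `Λ θ x g = Jc m δ (P (ε θ) g) x`, where `P` is the
semigroup of `Δ + ⟨∇V, ∇·⟩`, `V = F / ε`.
(statements frozen by helper193; proofs by helper151)
-/

set_option autoImplicit false
set_option linter.unusedSectionVars false
set_option linter.unusedVariables false

open MeasureTheory Filter Set
open scoped ENNReal NNReal Topology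
open Crest.GeometryTopology.SyntheticRicci

noncomputable section

namespace Crest.Agent.R242
namespace Fin

variable {X : Type*} [MetricSpace X] [ProperSpace X] [MeasurableSpace X] [BorelSpace X]
  {m : Measure X} [IsLocallyFiniteMeasure m] [m.IsOpenPosMeasure] [IsUnifLocDoublingMeasure m]
  {k N h₀ δ ε : ℝ} {F Gf : X → ℝ}

/-- the functional -/
def lam (m : Measure X) (δ ε : ℝ) (P : ℝ → (X → ℝ) → (X → ℝ)) (θ : ℝ) (x : X) (g : X → ℝ) : ℝ :=
  Jc m δ (P (ε * θ) g) x

/-! ### auxiliary facts -/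

theorem ae_neBot_of_point (x : X) : (ae m).NeBot := by
  refine ae_neBot.2 fun h => ?_
  have : m univ ≠ 0 := isOpen_univ.measure_ne_zero m ⟨x, mem_univ x⟩
  exact this (by rw [h]; rfl)

theorem nonneg_of_ae_abs_le (x : X) {g : X → ℝ} {C : ℝ} (h : ∀ᵐ y ∂m, |g y| ≤ C) : 0 ≤ C := by
  have := ae_neBot_of_point (m := m) x
  obtain ⟨y, hy⟩ := h.exists
  exact (abs_nonneg _).trans hy

/-- the semigroup preserves bounds -/
theorem sg_abs_le {V : X → ℝ} {P : ℝ → (X → ℝ) → (X → ℝ)} (hP : SemigroupSpec m V P) {t : ℝ}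
    (ht : 0 ≤ t) {g : X → ℝ} (hg : MemLp g 2 m) {C : ℝ} (hC : ∀ᵐ x ∂m, |g x| ≤ C) :
    ∀ᵐ x ∂m, |P t g x| ≤ C := by
  by_cases hC0 : 0 ≤ C
  · have h1 := hP.le_const t ht g hg C hC0 (hC.mono fun x hx => (abs_le.1 hx).2)
    have h2 := hP.le_const t ht (fun x => -1 * g x) (hg.const_mul _) C hC0
      (hC.mono fun x hx => by
        have := (abs_le.1 hx).1
        linarith)
    have h3 := hP.smul t ht (-1) g hg
    filter_upwards [h1, h2, h3] with x a1 a2 a3
    rw [a3] at a2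
    exact abs_le.2 ⟨by linarith, a1⟩
  · filter_upwards [hC] with x hx
    exact absurd ((abs_nonneg _).trans hx) hC0

theorem int_sq_le_wm {V : X → ℝ} (hV : Measurable V) {B : ℝ} (hB : ∀ x, |V x| ≤ B) {f : X → ℝ}
    (hf : MemLp f 2 m) : ∫ x, f x ^ 2 ∂m ≤ Real.exp B * ∫ x, f x ^ 2 ∂(wm m V) := by
  have hi : Integrable (fun x => f x ^ 2) m := hf.integrable_sq
  rw [integral_wm ⟨hV, B, hB⟩, ← integral_const_mul]
  refine integral_mono hi ((integrable_exp_mul ⟨hV, B, hB⟩ hi).const_mul _) fun x => ?_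
  dsimp only
  rw [← mul_assoc, ← Real.exp_add]
  have h1 : 1 ≤ Real.exp (B + V x) := Real.one_le_exp (by have := (abs_le.1 (hB x)).1; linarith)
  nlinarith [sq_nonneg (f x)]

theorem int_wm_le_sq {V : X → ℝ} (hV : Measurable V) {B : ℝ} (hB : ∀ x, |V x| ≤ B) {f : X → ℝ}
    (hf : MemLp f 2 m) : ∫ x, f x ^ 2 ∂(wm m V) ≤ Real.exp B * ∫ x, f x ^ 2 ∂m := by
  have hi : Integrable (fun x => f x ^ 2) m := hf.integrable_sq
  rw [integral_wm ⟨hV, B, hB⟩, ← integral_const_mul]
  refine integral_mono (integrable_exp_mul ⟨hV, B, hB⟩ hi) (hi.const_mul _) fun x => ?_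
  dsimp only
  have h1 : Real.exp (V x) ≤ Real.exp B := Real.exp_le_exp.2 (abs_le.1 (hB x)).2
  have := sq_nonneg (f x)
  gcongr

theorem BddLip.meas {V : X → ℝ} (hV : BddLip V) : Measurable V := by
  obtain ⟨-, L, hL⟩ := hV
  exact hL.continuous.measurable

/-- the operator `Jc ∘ P` is Lipschitz in space, uniformly -/
theorem lam_dist_le (H : Hyp m k N) (GJ : GoodJ m k h₀) (hgeo : HasBddGeoPlans m)
    (hδ : 0 < δ) (hδ' : δ ≤ h₀) {f : X → ℝ} (hf : MemLp f 2 m) {M : ℝ}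
    (hM : ∀ᵐ x ∂m, |f x| ≤ M) (x y : X) :
    |Jc m δ f y - Jc m δ f x| ≤ M / Real.sqrt δ * dist y x := by
  have hM0 : 0 ≤ M := nonneg_of_ae_abs_le x hM
  have h := (Jc_spec H (calc_of_hyp H) GJ hgeo hδ hδ' hf hM).2.dist_le_mul y x
  rw [Real.dist_eq, Real.coe_toNNReal _ (by positivity)] at h
  exact h

/-- joint continuity (field `cont`) -/
theorem lam_cont (H : Hyp m k N) (GJ : GoodJ m k h₀) (hgeo : HasBddGeoPlans m)
    (hδ : 0 < δ) (hδ' : δ ≤ h₀) (hε : 0 < ε) {V : X → ℝ} (hV : BddLip V)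
    {P : ℝ → (X → ℝ) → (X → ℝ)} (hP : SemigroupSpec m V P) {g : X → ℝ} (hg : B2 m g) :
    ContinuousOn (fun p : ℝ × X => lam m δ ε P p.1 p.2 g) (Ici 0 ×ˢ univ) := by
  obtain ⟨hg2, M, hM⟩ := hg
  have hpos : ∀ θ : ℝ, 0 ≤ ε * max θ 0 := fun θ => mul_nonneg hε.le (le_max_right _ _)
  have hmem : ∀ θ : ℝ, MemLp (P (ε * max θ 0) g) 2 m := fun θ => hP.memLp _ (hpos θ) g hg2
  have hbd : ∀ θ : ℝ, ∀ᵐ x ∂m, |P (ε * max θ 0) g x| ≤ M := fun θ => sg_abs_le hP (hpos θ) hg2 hM
  -- continuity in time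
  have htime : ∀ x : X, Continuous fun θ : ℝ => Jc m δ (P (ε * max θ 0) g) x := by
    intro x
    rw [continuous_iff_continuousAt]
    intro θ
    refine Jc_tendsto H (calc_of_hyp H) GJ hgeo hδ hδ' (M := M) hmem hbd (hmem θ) (hbd θ) ?_ x
    have h1 := hP.cont_l2 g hg2 (ε * max θ 0) (hpos θ)
    refine h1.comp ?_
    rw [tendsto_nhdsWithin_iff]
    refine ⟨?_, Eventually.of_forall fun θ' => hpos θ'⟩
    exact Continuous.tendsto (by fun_prop) θ
  have hjoint : Continuous fun p : ℝ × X => Jc m δ (P (ε * max p.1 0) g) p.2 := by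
    rw [continuous_iff_continuousAt]
    rintro ⟨θ, x⟩
    rw [ContinuousAt, tendsto_iff_dist_tendsto_zero]
    have h1 : Tendsto (fun p : ℝ × X => M / Real.sqrt δ * dist p.2 x +
        |Jc m δ (P (ε * max p.1 0) g) x - Jc m δ (P (ε * max θ 0) g) x|) (𝓝 (θ, x)) (𝓝 0) := by
      have h2 : Tendsto (fun p : ℝ × X => M / Real.sqrt δ * dist p.2 x) (𝓝 (θ, x)) (𝓝 0) := by
        have : Continuous fun p : ℝ × X => M / Real.sqrt δ * dist p.2 x := by fun_prop
        have h3 := this.tendsto (θ, x)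
        simpa using h3
      have h4 : Tendsto (fun p : ℝ × X => |Jc m δ (P (ε * max p.1 0) g) x -
          Jc m δ (P (ε * max θ 0) g) x|) (𝓝 (θ, x)) (𝓝 0) := by
        have : Continuous fun p : ℝ × X => |Jc m δ (P (ε * max p.1 0) g) x -
          Jc m δ (P (ε * max θ 0) g) x| := by
          have := (htime x).comp (continuous_fst : Continuous (Prod.fst : ℝ × X → ℝ))
          exact (this.sub continuous_const).abs
        have h5 := this.tendsto (θ, x)
        simpa using h5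
      simpa using h2.add h4
    refine squeeze_zero (fun _ => dist_nonneg) (fun p => ?_) h1
    rw [Real.dist_eq]
    have h6 := lam_dist_le H GJ hgeo hδ hδ' (hmem p.1) (hbd p.1) x p.2
    calc |Jc m δ (P (ε * max p.1 0) g) p.2 - Jc m δ (P (ε * max θ 0) g) x|
        = |(Jc m δ (P (ε * max p.1 0) g) p.2 - Jc m δ (P (ε * max p.1 0) g) x) +
          (Jc m δ (P (ε * max p.1 0) g) x - Jc m δ (P (ε * max θ 0) g) x)| := by ring_nf
      _ ≤ _ := (abs_add_le _ _).trans (add_le_add h6 le_rfl)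
  refine hjoint.continuousOn.congr fun p hp => ?_
  have hp0 : 0 ≤ p.1 := hp.1
  simp only [lam, max_eq_left hp0]

/-- small functions (field `small`) -/
theorem lam_small (H : Hyp m k N) (GJ : GoodJ m k h₀) (hgeo : HasBddGeoPlans m)
    (hδ : 0 < δ) (hδ' : δ ≤ h₀) (hε : 0 < ε) {V : X → ℝ} (hV : BddLip V)
    {P : ℝ → (X → ℝ) → (X → ℝ)} (hP : SemigroupSpec m V P)
    (θ : ℕ → ℝ) (x : ℕ → X) (g : ℕ → X → ℝ) (T C : ℝ) (x₀ : X)
    (hθ : ∀ n, θ n ∈ Icc 0 T) (hx : Tendsto x atTop (𝓝 x₀)) (hg : ∀ n, MemLp (g n) 2 m)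
    (hgC : ∀ n, ∀ᵐ y ∂m, |g n y| ≤ C)
    (hlim : Tendsto (fun n => ∫ y, (g n y) ^ 2 ∂m) atTop (𝓝 0)) :
    Tendsto (fun n => lam m δ ε P (θ n) (x n) (g n)) atTop (𝓝 0) := by
  have hC0 : 0 ≤ C := nonneg_of_ae_abs_le x₀ (hgC 0)
  have hVm := BddLip.meas hV
  obtain ⟨⟨B, hB⟩, -⟩ := hV
  have ht : ∀ n, 0 ≤ ε * θ n := fun n => mul_nonneg hε.le (hθ n).1
  have hmem : ∀ n, MemLp (P (ε * θ n) (g n)) 2 m := fun n => hP.memLp _ (ht n) _ (hg n)
  have hbd : ∀ n, ∀ᵐ y ∂m, |P (ε * θ n) (g n) y| ≤ C := fun n => sg_abs_le hP (ht n) (hg n) (hgC n)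
  have hsq : Tendsto (fun n => ∫ y, (P (ε * θ n) (g n) y) ^ 2 ∂m) atTop (𝓝 0) := by
    have h1 : Tendsto (fun n => Real.exp B * (Real.exp B * ∫ y, (g n y) ^ 2 ∂m)) atTop (𝓝 0) := by
      have := (hlim.const_mul (Real.exp B)).const_mul (Real.exp B)
      simpa using this
    refine squeeze_zero (fun n => integral_nonneg fun y => sq_nonneg _) (fun n => ?_) h1
    calc ∫ y, (P (ε * θ n) (g n) y) ^ 2 ∂m
        ≤ Real.exp B * ∫ y, (P (ε * θ n) (g n) y) ^ 2 ∂(wm m V) := int_sq_le_wm hVm hB (hmem n)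
      _ ≤ Real.exp B * ∫ y, (g n y) ^ 2 ∂(wm m V) := by
          have := hP.l2 _ (ht n) _ (hg n)
          gcongr
      _ ≤ Real.exp B * (Real.exp B * ∫ y, (g n y) ^ 2 ∂m) := by
          have := int_wm_le_sq hVm hB (hg n)
          gcongr
  have h0 : Tendsto (fun n => Jc m δ (P (ε * θ n) (g n)) x₀) atTop
      (𝓝 (Jc m δ (fun _ => 0) x₀)) := by
    refine Jc_tendsto H (calc_of_hyp H) GJ hgeo hδ hδ' (M := C) hmem hbd MemLp.zero'
      (Eventually.of_forall fun y => by simpa using hC0) ?_ x₀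
    simpa using hsq
  have hz : Jc m δ (fun _ : X => (0 : ℝ)) x₀ = 0 := by
    have := Jc_abs_le H (calc_of_hyp H) GJ hgeo hδ hδ' (f := fun _ : X => (0 : ℝ)) MemLp.zero'
      (M := 0) (Eventually.of_forall fun y => by simp) x₀
    exact abs_nonpos_iff.1 this
  rw [hz] at h0
  have h1 : Tendsto (fun n => C / Real.sqrt δ * dist (x n) x₀ +
      |Jc m δ (P (ε * θ n) (g n)) x₀|) atTop (𝓝 0) := by
    have h2 : Tendsto (fun n => C / Real.sqrt δ * dist (x n) x₀) atTop (𝓝 0) := by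
      have := (tendsto_iff_dist_tendsto_zero.1 hx).const_mul (C / Real.sqrt δ)
      simpa using this
    have h3 := h0.abs
    rw [abs_zero] at h3
    simpa using h2.add h3
  refine squeeze_zero_norm (fun n => ?_) h1
  rw [Real.norm_eq_abs, lam]
  have h6 := lam_dist_le H GJ hgeo hδ hδ' (hmem n) (hbd n) x₀ (x n)
  calc |Jc m δ (P (ε * θ n) (g n)) (x n)|
      = |(Jc m δ (P (ε * θ n) (g n)) (x n) - Jc m δ (P (ε * θ n) (g n)) x₀) +
        Jc m δ (P (ε * θ n) (g n)) x₀| := by ring_nf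
    _ ≤ _ := (abs_add_le _ _).trans (add_le_add h6 le_rfl)

/-! ### Bakry-Emery -/

theorem c_pos (H : Hyp m k N) (GJ : GoodJ m k h₀) (hδ' : δ ≤ h₀) :
    0 < 1 - 2 * δ * k := by
  have h1 := GJ.small
  have h2 := H.kpos
  nlinarith

theorem bddLip_zero : BddLip (fun _ : X => (0 : ℝ)) :=
  ⟨⟨0, fun _ => by simp⟩, 0, LipschitzWith.const 0⟩

theorem J_symm (H : Hyp m k N) (hδ : 0 < δ) {f g : X → ℝ} (hf : MemLp f 2 m)
    (hg : MemLp g 2 m) : ∫ x, J m δ f x * g x ∂m = ∫ x, f x * J m δ g x ∂m := by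
  have := Jr_symm H bddLip_zero hδ hf hg
  rwa [wm_zero] at this

/-- Bakry-Emery, pointwise a.e., for `f ∈ W^{1,2}` with `wg f ^ 2 ∈ L²` -/
theorem be_ae (H : Hyp m k N) (GJ : GoodJ m k h₀) (hδ : 0 < δ) (hδ' : δ ≤ h₀) {f : X → ℝ}
    (hf : IsSobolev m f) (hf2 : MemLp (fun x => minWeakGrad m f x ^ 2) 2 m) :
    ∀ᵐ x ∂m, minWeakGrad m (J m δ f) x ^ 2 ≤
      (1 - 2 * δ * k)⁻¹ * J m δ (fun x => minWeakGrad m f x ^ 2) x := by
  have hJf : IsSobolev m (J m δ f) := Jr_sob H bddLip_zero hδ hf.1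
  have hi1 : Integrable (fun x => minWeakGrad m (J m δ f) x ^ 2) m := integrable_wg_sq H hJf
  have hi2 : Integrable (fun x => minWeakGrad m f x ^ 2) m := integrable_wg_sq H hf
  have hi3 : Integrable (J m δ (fun x => minWeakGrad m f x ^ 2)) m :=
    (Jr_l1 H bddLip_zero hδ hf2 hi2).1
  refine ae_le_of_forall_setIntegral_le hi1 (hi3.const_mul _) fun s hs hms => ?_
  have hq2 : MemLp (s.indicator fun _ : X => (1 : ℝ)) 2 m :=
    memLp_indicator_const 2 hs 1 (Or.inr hms.ne)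
  have h := be_l2 H (calc_of_hyp H) GJ hδ hδ' hf (q := s.indicator fun _ : X => (1 : ℝ))
    (Eventually.of_forall fun x => indicator_nonneg (fun _ _ => zero_le_one) x) hq2
    ⟨1, Eventually.of_forall fun x => by
      by_cases hx : x ∈ s
      · simp [indicator_of_mem hx]
      · simp [indicator_of_notMem hx]⟩
  rw [J_symm H hδ hq2 hf2] at h
  have e : ∀ F : X → ℝ, (fun x => s.indicator (fun _ : X => (1 : ℝ)) x * F x) =
      s.indicator F := by
    intro F
    funext x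
    by_cases hx : x ∈ s
    · simp [indicator_of_mem hx]
    · simp [indicator_of_notMem hx]
  rw [e, e, integral_indicator hs, integral_indicator hs] at h
  rw [integral_const_mul]
  exact h

theorem wg_sq_memLp (H : Hyp m k N) {f : X → ℝ} (hf : IsSobolev m f) {L : ℝ}
    (hL : ∀ᵐ x ∂m, minWeakGrad m f x ≤ L) : MemLp (fun x => minWeakGrad m f x ^ 2) 2 m := by
  refine MemLp.of_le_mul (c := |L|) hf.2.2 ((aesm_wg H hf.2.1).pow 2) ?_
  filter_upwards [wg_nonneg H hf.2.1, hL] with x h1 h2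
  rw [Real.norm_of_nonneg (sq_nonneg _), Real.norm_of_nonneg h1, pow_two]
  have : L ≤ |L| := le_abs_self L
  nlinarith

/-- two steps of Bakry-Emery -/
theorem be_twice (H : Hyp m k N) (GJ : GoodJ m k h₀) (hgeo : HasBddGeoPlans m)
    (hδ : 0 < δ) (hδ' : δ ≤ h₀) {f : X → ℝ} (hf : IsSobolev m f) {L : ℝ}
    (hL : ∀ᵐ x ∂m, minWeakGrad m f x ≤ L) :
    ∀ᵐ x ∂m, minWeakGrad m (J m δ (J m δ f)) x ^ 2 ≤
      (1 - 2 * δ * k)⁻¹ ^ 2 * Jc m δ (fun x => minWeakGrad m f x ^ 2) x := by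
  have hc := c_pos H GJ hδ'
  have hc' : 0 < (1 - 2 * δ * k)⁻¹ := inv_pos.2 hc
  have hJf : IsSobolev m (J m δ f) := Jr_sob H bddLip_zero hδ hf.1
  have hw2 := wg_sq_memLp H hf hL
  have hwb : ∀ᵐ x ∂m, minWeakGrad m f x ^ 2 ≤ L ^ 2 := by
    filter_upwards [wg_nonneg H hf.2.1, hL] with x h1 h2
    exact pow_le_pow_left₀ h1 h2 2
  have b1 := be_ae H GJ hδ hδ' hf hw2
  have hJw : ∀ᵐ x ∂m, J m δ (fun x => minWeakGrad m f x ^ 2) x ≤ L ^ 2 :=
    Jr_le_const H bddLip_zero hδ hw2 (sq_nonneg L) hwb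
  have hJw2 : MemLp (J m δ (fun x => minWeakGrad m f x ^ 2)) 2 m :=
    Jr_memLp H bddLip_zero hδ hw2
  -- gradient bound of `J f`
  have hL1 : ∀ᵐ x ∂m, minWeakGrad m (J m δ f) x ≤ Real.sqrt ((1 - 2 * δ * k)⁻¹ * L ^ 2) := by
    filter_upwards [b1, hJw] with x h1 h2
    refine Real.le_sqrt_of_sq_le (h1.trans ?_)
    gcongr
  have hw2' := wg_sq_memLp H hJf hL1
  have b2 := be_ae H GJ hδ hδ' hJf hw2'
  -- monotonicity of `J`
  have hmono : ∀ᵐ x ∂m, J m δ (fun x => minWeakGrad m (J m δ f) x ^ 2) x ≤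
      J m δ (fun x => (1 - 2 * δ * k)⁻¹ * J m δ (fun x => minWeakGrad m f x ^ 2) x) x :=
    Jr_mono H bddLip_zero hδ hw2' (hJw2.const_mul _) b1
  have hsm := Jr_smul H bddLip_zero hδ (1 - 2 * δ * k)⁻¹ hJw2
  have hspec := (Jc_spec H (calc_of_hyp H) GJ hgeo hδ hδ' hw2 (M := L ^ 2) (by
    filter_upwards [hwb] with x hx
    rw [abs_of_nonneg (sq_nonneg _)]
    exact hx)).1
  filter_upwards [b2, hmono, hsm, hspec] with x h1 h2 h3 h4
  rw [h4]
  have h5 : J m δ (fun x => (1 - 2 * δ * k)⁻¹ * J m δ (fun x => minWeakGrad m f x ^ 2) x) x =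
      (1 - 2 * δ * k)⁻¹ * J m δ (J m δ (fun x => minWeakGrad m f x ^ 2)) x := h3
  rw [h5] at h2
  calc minWeakGrad m (J m δ (J m δ f)) x ^ 2
      ≤ (1 - 2 * δ * k)⁻¹ * J m δ (fun x => minWeakGrad m (J m δ f) x ^ 2) x := h1
    _ ≤ (1 - 2 * δ * k)⁻¹ * ((1 - 2 * δ * k)⁻¹ *
        J m δ (J m δ (fun x => minWeakGrad m f x ^ 2)) x) := by gcongr
    _ = _ := by ring

theorem wg_sq_congr (H : Hyp m k N) {f g : X → ℝ} (hf : IsSobolevLoc m f)
    (hg : IsSobolevLoc m g) (h : f =ᵐ[m] g) :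
    ∀ᵐ x ∂m, minWeakGrad m f x = minWeakGrad m g x := by
  filter_upwards [gp_congr H hf hf h h, gp_self H hf, gp_self H hg, wg_nonneg H hf,
    wg_nonneg H hg] with x h1 h2 h3 h4 h5
  rw [h2, h3] at h1
  exact (pow_left_inj₀ h4 h5 two_ne_zero).1 h1

/-- a continuous representative of a Sobolev function with gradient bounded near `x` -/
theorem abs_sub_le_of_wg (H : Hyp m k N) (hgeo : HasBddGeoPlans m) {u v : X → ℝ}
    (hv : IsSobolev m v) (huv : u =ᵐ[m] v) (hc : Continuous u) {y z : X} {ρ L : ℝ}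
    (hρ : dist y z < ρ) (hL : 0 ≤ L)
    (hD : ∀ᵐ x ∂m, x ∈ Metric.ball y ρ → minWeakGrad m v x ≤ L) :
    |u y - u z| ≤ L * dist y z := by
  have hu : IsSobolev m u := sob_congr H hv huv.symm
  obtain ⟨hL2, hex⟩ := hu.2.1
  have hmin : IsMinWUGLoc m u (minWeakGrad m u) := by
    have e : minWeakGrad m u = Classical.choose hex := by
      unfold minWeakGrad
      rw [dif_pos hex]
    rw [e]
    exact Classical.choose_spec hex
  refine abs_sub_le_of_wug H.fin hgeo hL2 hmin.1 hc hρ hL ?_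
  filter_upwards [hD, wg_sq_congr H hu.2.1 hv.2.1 huv] with x h1 h2 hx
  rw [h2]
  exact h1 hx

/-- spatial estimates for `Jc f`, `f ∈ W^{1,2}` with bounded gradient: local -/
theorem Jc_lip_local (H : Hyp m k N) (GJ : GoodJ m k h₀) (hgeo : HasBddGeoPlans m)
    (hδ : 0 < δ) (hδ' : δ ≤ h₀) {f : X → ℝ} (hf : IsSobolev m f)
    (hfb : ∃ C, ∀ᵐ x ∂m, |f x| ≤ C) {L : ℝ} (hL : ∀ᵐ x ∂m, minWeakGrad m f x ≤ L) (x : X)
    {ρ : ℝ} (hρ : 0 ≤ ρ)
    (h : (1 - 2 * δ * k)⁻¹ ^ 2 * Jc m δ (fun y => minWeakGrad m f y ^ 2) x < ρ ^ 2) :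
    ∀ᶠ y in 𝓝 x, |Jc m δ f y - Jc m δ f x| ≤ ρ * dist y x := by
  obtain ⟨C, hC⟩ := hfb
  have hspec := Jc_spec H (calc_of_hyp H) GJ hgeo hδ hδ' hf.1 hC
  have hJJ : IsSobolev m (J m δ (J m δ f)) :=
    Jr_sob H bddLip_zero hδ (Jr_memLp H bddLip_zero hδ hf.1)
  have hw2 := wg_sq_memLp H hf hL
  have hwc : Continuous (Jc m δ (fun y => minWeakGrad m f y ^ 2)) :=
    (Jc_spec H (calc_of_hyp H) GJ hgeo hδ hδ' hw2 (M := L ^ 2) (by
      filter_upwards [wg_nonneg H hf.2.1, hL] with x h1 h2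
      rw [abs_of_nonneg (sq_nonneg _)]
      exact pow_le_pow_left₀ h1 h2 2)).2.continuous
  have hopen : ∀ᶠ y in 𝓝 x, (1 - 2 * δ * k)⁻¹ ^ 2 *
      Jc m δ (fun y => minWeakGrad m f y ^ 2) y < ρ ^ 2 :=
    (continuous_const.mul hwc).continuousAt.eventually_lt continuousAt_const h
  obtain ⟨r, hr, hball⟩ := Metric.eventually_nhds_iff_ball.1 hopen
  filter_upwards [Metric.ball_mem_nhds x hr] with y hy
  rw [abs_sub_comm, dist_comm]
  refine abs_sub_le_of_wg H hgeo hJJ hspec.1 hspec.2.continuous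
    (ρ := r) (by rw [dist_comm]; exact hy) hρ ?_
  filter_upwards [be_twice H GJ hgeo hδ hδ' hf hL] with z h1 hz
  exact (abs_le_of_sq_le_sq' (h1.trans (hball z hz).le) hρ).2

/-- spatial estimates for `Jc f`, `f ∈ W^{1,2}` with bounded gradient: global -/
theorem Jc_lip (H : Hyp m k N) (GJ : GoodJ m k h₀) (hgeo : HasBddGeoPlans m)
    (hδ : 0 < δ) (hδ' : δ ≤ h₀) {f : X → ℝ} (hf : IsSobolev m f)
    (hfb : ∃ C, ∀ᵐ x ∂m, |f x| ≤ C) {L : ℝ} (hL : ∀ᵐ x ∂m, minWeakGrad m f x ≤ L) (x y : X) :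
    |Jc m δ f y - Jc m δ f x| ≤ (1 - 2 * δ * k)⁻¹ * L * dist y x := by
  obtain ⟨C, hC⟩ := hfb
  have := ae_neBot_of_point (m := m) x
  have hL0 : 0 ≤ L := by
    obtain ⟨z, h1, h2⟩ := ((wg_nonneg H hf.2.1).and hL).exists
    exact h1.trans h2
  have hc' : 0 < (1 - 2 * δ * k)⁻¹ := inv_pos.2 (c_pos H GJ hδ')
  have hspec := Jc_spec H (calc_of_hyp H) GJ hgeo hδ hδ' hf.1 hC
  have hJJ : IsSobolev m (J m δ (J m δ f)) :=
    Jr_sob H bddLip_zero hδ (Jr_memLp H bddLip_zero hδ hf.1)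
  have hw2 := wg_sq_memLp H hf hL
  refine abs_sub_le_of_wg H hgeo hJJ hspec.1 hspec.2.continuous
    (ρ := dist y x + 1) (by linarith) (by positivity) ?_
  filter_upwards [be_twice H GJ hgeo hδ hδ' hf hL, wg_nonneg H hJJ.2.1] with z h1 h2 _
  have h3 : Jc m δ (fun y => minWeakGrad m f y ^ 2) z ≤ L ^ 2 :=
    Jc_le_const H (calc_of_hyp H) GJ hgeo hδ hδ' hw2 ⟨L ^ 2, by
      filter_upwards [wg_nonneg H hf.2.1, hL] with x h1 h2
      rw [abs_of_nonneg (sq_nonneg _)]
      exact pow_le_pow_left₀ h1 h2 2⟩ (sq_nonneg L) (by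
      filter_upwards [wg_nonneg H hf.2.1, hL] with x h1 h2
      exact pow_le_pow_left₀ h1 h2 2) z
  refine (abs_le_of_sq_le_sq' ?_ (by positivity)).2
  calc minWeakGrad m (J m δ (J m δ f)) z ^ 2 ≤ _ := h1
    _ ≤ (1 - 2 * δ * k)⁻¹ ^ 2 * L ^ 2 := by gcongr
    _ = _ := by ring

/-! ### the generator -/

/-- averages of `Jc f` over small balls -/
theorem abs_setIntegral_Jc_sub_le (H : Hyp m k N) (GJ : GoodJ m k h₀) (hgeo : HasBddGeoPlans m)
    (hδ : 0 < δ) (hδ' : δ ≤ h₀) {f : X → ℝ} (hf : MemLp f 2 m) {M : ℝ}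
    (hM : ∀ᵐ x ∂m, |f x| ≤ M) (x : X) {r : ℝ} (hr : 0 < r) :
    |∫ y in Metric.ball x r, Jc m δ f y ∂m - m.real (Metric.ball x r) * Jc m δ f x| ≤
      m.real (Metric.ball x r) * (M / Real.sqrt δ * r) := by
  have hM0 : 0 ≤ M := nonneg_of_ae_abs_le x hM
  have hfin : m (Metric.ball x r) < ⊤ := H.fin x r
  have hcont : Continuous (Jc m δ f) :=
    (Jc_spec H (calc_of_hyp H) GJ hgeo hδ hδ' hf hM).2.continuous
  have hb : ∀ y ∈ Metric.ball x r, ‖Jc m δ f y - Jc m δ f x‖ ≤ M / Real.sqrt δ * r := by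
    intro y hy
    refine (lam_dist_le H GJ hgeo hδ hδ' hf hM x y).trans ?_
    have : dist y x ≤ r := (Metric.mem_ball.1 hy).le
    gcongr
  have h1 := norm_setIntegral_le_of_norm_le_const (μ := m) hfin hb
  have hi : IntegrableOn (Jc m δ f) (Metric.ball x r) m := by
    refine Measure.integrableOn_of_bounded (M := M) hfin.ne hcont.aestronglyMeasurable ?_
    exact Eventually.of_forall fun y => Jc_abs_le H (calc_of_hyp H) GJ hgeo hδ hδ' hf hM y
  have h2 : ∫ y in Metric.ball x r, (Jc m δ f y - Jc m δ f x) ∂m =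
      ∫ y in Metric.ball x r, Jc m δ f y ∂m - m.real (Metric.ball x r) * Jc m δ f x := by
    rw [integral_sub hi (integrableOn_const hfin.ne), setIntegral_const, smul_eq_mul]
  rw [h2, Real.norm_eq_abs] at h1
  exact h1.trans (le_of_eq (mul_comm _ _))

/-- averages of `Jc f` as a pairing in `L²(e^V m)` -/
theorem exists_dual (H : Hyp m k N) (GJ : GoodJ m k h₀) (hgeo : HasBddGeoPlans m)
    (hδ : 0 < δ) (hδ' : δ ≤ h₀) {V : X → ℝ} (hV : BddLip V) (x : X) (r : ℝ) :
    ∃ q : X → ℝ, MemLp q 2 m ∧ ∀ f : X → ℝ, B2 m f →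
      ∫ y in Metric.ball x r, Jc m δ f y ∂m = ∫ y, f y * q y ∂(wm m V) := by
  have hVm := BddLip.meas hV
  obtain ⟨B, hB⟩ := hV.1
  set q0 := J m δ (J m δ ((Metric.ball x r).indicator fun _ => 1)) with hq0
  have hi2 : MemLp ((Metric.ball x r).indicator fun _ : X => (1 : ℝ)) 2 m :=
    memLp_indicator_const 2 Metric.isOpen_ball.measurableSet 1 (Or.inr (H.fin x r).ne)
  have hJ1 : MemLp (J m δ ((Metric.ball x r).indicator fun _ : X => (1 : ℝ))) 2 m :=
    Jr_memLp H bddLip_zero hδ hi2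
  have hq02 : MemLp q0 2 m := Jr_memLp H bddLip_zero hδ hJ1
  refine ⟨fun y => Real.exp (-V y) * q0 y, ?_, ?_⟩
  · refine MemLp.of_le_mul (c := Real.exp B) hq02 (by
      exact (Real.continuous_exp.measurable.comp hVm.neg).aestronglyMeasurable.mul
        hq02.aestronglyMeasurable) (Eventually.of_forall fun y => ?_)
    rw [norm_mul, Real.norm_of_nonneg (Real.exp_pos _).le]
    have : Real.exp (-V y) ≤ Real.exp B :=
      Real.exp_le_exp.2 (by have := (abs_le.1 (hB y)).1; linarith)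
    gcongr
  · rintro f ⟨hf, M, hM⟩
    have hspec := (Jc_spec H (calc_of_hyp H) GJ hgeo hδ hδ' hf hM).1
    have hJf : MemLp (J m δ f) 2 m := Jr_memLp H bddLip_zero hδ hf
    calc ∫ y in Metric.ball x r, Jc m δ f y ∂m
        = ∫ y, (Metric.ball x r).indicator (fun _ => (1 : ℝ)) y * J m δ (J m δ f) y ∂m := by
          rw [← integral_indicator Metric.isOpen_ball.measurableSet]
          refine integral_congr_ae ?_
          filter_upwards [hspec] with y hy
          by_cases hyb : y ∈ Metric.ball x r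
          · rw [indicator_of_mem hyb, indicator_of_mem hyb, one_mul, hy]
          · rw [indicator_of_notMem hyb, indicator_of_notMem hyb, zero_mul]
      _ = ∫ y, J m δ ((Metric.ball x r).indicator fun _ => (1 : ℝ)) y * J m δ f y ∂m :=
          (J_symm H hδ hi2 hJf).symm
      _ = ∫ y, q0 y * f y ∂m := (J_symm H hδ hJ1 hf).symm
      _ = ∫ y, f y * (Real.exp (-V y) * q0 y) ∂(wm m V) := by
          rw [integral_wm ⟨hVm, B, hB⟩]
          refine integral_congr_ae (Eventually.of_forall fun y => ?_)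
          dsimp only
          have : Real.exp (V y) * Real.exp (-V y) = 1 := by
            rw [← Real.exp_add]; simp
          calc q0 y * f y = (Real.exp (V y) * Real.exp (-V y)) * (q0 y * f y) := by
                rw [this, one_mul]
            _ = _ := by ring

/-- the integrated generator identity for `Jc ∘ P` -/
theorem Jc_gen (H : Hyp m k N) (GJ : GoodJ m k h₀) (hgeo : HasBddGeoPlans m)
    (hδ : 0 < δ) (hδ' : δ ≤ h₀) {V : X → ℝ} (hV : BddLip V)
    {P : ℝ → (X → ℝ) → (X → ℝ)} (hP : SemigroupSpec m V P) {u g : X → ℝ}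
    (hug : IsWLap m V u g) (hu : B2 m u) (hg : B2 m g) (x : X) {t : ℝ} (ht : 0 ≤ t) :
    Jc m δ (P t u) x - Jc m δ u x = ∫ s in (0 : ℝ)..t, Jc m δ (P s g) x := by
  obtain ⟨hu2, Mu, hMu⟩ := hu
  obtain ⟨hg2, Mg, hMg⟩ := hg
  have hMg0 : 0 ≤ Mg := nonneg_of_ae_abs_le x hMg
  have hMu0 : 0 ≤ Mu := nonneg_of_ae_abs_le x hMu
  have hPu2 := hP.memLp t ht u hu2
  have hPu := sg_abs_le hP ht hu2 hMu
  have hd2 : MemLp (fun y => P t u y - u y) 2 m := hPu2.sub hu2
  have hd : ∀ᵐ y ∂m, |P t u y - u y| ≤ 2 * Mu := by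
    filter_upwards [hPu, hMu] with y h1 h2
    exact (abs_sub _ _).trans (by linarith)
  -- continuity of the integrand
  have hcont : ContinuousOn (fun s : ℝ => Jc m δ (P s g) x) (Ici 0) := by
    have h1 := lam_cont (ε := 1) H GJ hgeo hδ hδ' one_pos hV hP ⟨hg2, Mg, hMg⟩
    have h2 : ContinuousOn (fun s : ℝ => (s, x)) (Ici 0) := by fun_prop
    have h3 := h1.comp h2 fun s hs => ⟨hs, mem_univ _⟩
    refine h3.congr fun s _ => ?_
    simp [lam]
  have hint : IntervalIntegrable (fun s : ℝ => Jc m δ (P s g) x) volume 0 t := by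
    refine ContinuousOn.intervalIntegrable (hcont.mono ?_)
    rw [uIcc_of_le ht]
    exact Icc_subset_Ici_self
  set D := (Jc m δ (P t u) x - Jc m δ u x) - ∫ s in (0 : ℝ)..t, Jc m δ (P s g) x with hD
  -- main estimate
  have key : ∀ r : ℝ, 0 < r → |D| ≤ (2 * Mu / Real.sqrt δ + t * (Mg / Real.sqrt δ)) * r := by
    intro r hr
    obtain ⟨q, hq, hdual⟩ := exists_dual H GJ hgeo hδ hδ' hV x r
    set b := m.real (Metric.ball x r) with hb
    have hb0 : 0 < b := by
      rw [hb, Measure.real]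
      exact ENNReal.toReal_pos (Metric.measure_ball_pos m x hr).ne' (H.fin x r).ne
    obtain ⟨hint2, hgen⟩ := hP.gen_int u g hug t ht q hq
    have e1 := hdual _ ⟨hd2, 2 * Mu, hd⟩
    have e2 : ∀ s, 0 ≤ s → ∫ y, P s g y * q y ∂(wm m V) =
        ∫ y in Metric.ball x r, Jc m δ (P s g) y ∂m := fun s hs =>
      (hdual _ ⟨hP.memLp s hs g hg2, Mg, sg_abs_le hP hs hg2 hMg⟩).symm
    have a1 := abs_setIntegral_Jc_sub_le H GJ hgeo hδ hδ' hd2 hd x hr
    have a2 : ∀ s, 0 ≤ s → |(∫ y, P s g y * q y ∂(wm m V)) - b * Jc m δ (P s g) x| ≤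
        b * (Mg / Real.sqrt δ * r) := fun s hs => by
      rw [e2 s hs]
      exact abs_setIntegral_Jc_sub_le H GJ hgeo hδ hδ' (hP.memLp s hs g hg2)
        (sg_abs_le hP hs hg2 hMg) x hr
    have a3 : |∫ s in (0 : ℝ)..t, ((∫ y, P s g y * q y ∂(wm m V)) - b * Jc m δ (P s g) x)| ≤
        b * (Mg / Real.sqrt δ * r) * |t - 0| := by
      rw [← Real.norm_eq_abs]
      refine intervalIntegral.norm_integral_le_of_norm_le_const fun s hs => ?_
      rw [uIoc_of_le ht] at hs
      exact a2 s hs.1.le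
    rw [intervalIntegral.integral_sub hint2 (hint.const_mul b),
      intervalIntegral.integral_const_mul, ← hgen, ← e1, sub_zero, abs_of_nonneg ht] at a3
    have hsub : Jc m δ (fun y => P t u y - u y) x = Jc m δ (P t u) x - Jc m δ u x :=
      Jc_sub H (calc_of_hyp H) GJ hgeo hδ hδ' hPu2 ⟨Mu, hPu⟩ hu2 ⟨Mu, hMu⟩ x
    rw [hsub, ← hb] at a1
    set A := ∫ y in Metric.ball x r, Jc m δ (fun y => P t u y - u y) y ∂m with hA
    have hbD : b * |D| ≤ b * ((2 * Mu / Real.sqrt δ + t * (Mg / Real.sqrt δ)) * r) := by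
      have : b * |D| = |b * D| := by rw [abs_mul, abs_of_pos hb0]
      rw [this]
      have e3 : b * D = (A - b * ∫ s in (0 : ℝ)..t, Jc m δ (P s g) x) -
          (A - b * (Jc m δ (P t u) x - Jc m δ u x)) := by
        rw [hD]; ring
      rw [e3]
      calc _ ≤ _ := abs_sub _ _
        _ ≤ b * (Mg / Real.sqrt δ * r) * t + b * (2 * Mu / Real.sqrt δ * r) := add_le_add a3 a1
        _ = _ := by ring
    exact le_of_mul_le_mul_left hbD hb0
  have hD0 : |D| ≤ 0 := by
    have h1 : Tendsto (fun r : ℝ => (2 * Mu / Real.sqrt δ + t * (Mg / Real.sqrt δ)) * r)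
        (𝓝[>] 0) (𝓝 0) := by
      have : Continuous fun r : ℝ => (2 * Mu / Real.sqrt δ + t * (Mg / Real.sqrt δ)) * r := by
        fun_prop
      have h2 := this.tendsto 0
      rw [mul_zero] at h2
      exact h2.mono_left nhdsWithin_le_nhds
    refine ge_of_tendsto h1 ?_
    filter_upwards [self_mem_nhdsWithin] with r hr
    exact key r hr
  have := abs_nonpos_iff.1 hD0
  linarith

/-- gradient of a Lipschitz function -/
theorem wg_le_of_lip (H : Hyp m k N) {f : X → ℝ} {L : ℝ≥0} (hf : LipschitzWith L f) :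
    ∀ᵐ x ∂m, minWeakGrad m f x ≤ L := by
  have h := minWeakGrad_le_of_lipschitzOnWith H.fin (m := m) (LipschitzWith.lipOnBalls hf)
    isOpen_univ (L := L) (hf.lipschitzOnWith (s := univ))
  filter_upwards [h] with x hx
  exact hx (mem_univ x)

/-- generator (field `gen`), `V = F / ε` -/
theorem lam_gen (H : Hyp m k N) (GJ : GoodJ m k h₀) (hgeo : HasBddGeoPlans m)
    (hδ : 0 < δ) (hδ' : δ ≤ h₀) (hε : 0 < ε) (hF : BddLip F)
    {P : ℝ → (X → ℝ) → (X → ℝ)} (hP : SemigroupSpec m (fun x => F x / ε) P)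
    (u L : X → ℝ) (hu : IsWeakLaplacian m u L) (huB : B2 m u) (hL : B2 m L)
    (hw : ∃ C, ∀ᵐ x ∂m, minWeakGrad m u x ≤ C) :
    B2 m (fun y => ε * L y + gradPairing m F u y) ∧
    ∀ θ θ' x, 0 ≤ θ → 0 ≤ θ' →
      lam m δ ε P θ' x u - lam m δ ε P θ x u =
        ∫ r in θ..θ', lam m δ ε P r x (fun y => ε * L y + gradPairing m F u y) := by
  obtain ⟨-, LF, hLF⟩ := id hF
  have hFs : IsSobolevLoc m F := sobLoc_of_lipschitz H hLF
  have hus : IsSobolev m u := hu.1
  obtain ⟨C, hC⟩ := hw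
  -- the pairing is in `L² ∩ L^∞`
  have hgp : B2 m (gradPairing m F u) := by
    have hle : ∀ᵐ x ∂m, |gradPairing m F u x| ≤ LF * minWeakGrad m u x := by
      filter_upwards [gp_abs_le H hFs hus.2.1, wg_le_of_lip H hLF, wg_nonneg H hus.2.1]
        with x h1 h2 h3
      exact h1.trans (mul_le_mul_of_nonneg_right h2 h3)
    refine ⟨?_, LF * C, ?_⟩
    · refine MemLp.of_le_mul (c := LF) hus.2.2 (aesm_gp H hFs hus.2.1) ?_
      filter_upwards [hle, wg_nonneg H hus.2.1] with x h1 h2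
      rw [Real.norm_eq_abs, Real.norm_of_nonneg h2]
      exact h1
    · filter_upwards [hle, hC] with x h1 h2
      exact h1.trans (mul_le_mul_of_nonneg_left h2 LF.2)
  have hG : B2 m (fun y => ε * L y + gradPairing m F u y) := (hL.const_mul ε).add hgp
  refine ⟨hG, ?_⟩
  -- the weak generator
  have hV : BddLip (fun x => F x / ε) := by
    have := hF.const_mul ε⁻¹
    refine (congrArg BddLip ?_).mp this
    funext x
    rw [div_eq_inv_mul]
  set g' : X → ℝ := fun y => L y + gradPairing m (fun x => F x / ε) u y with hg'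
  have hug : IsWLap m (fun x => F x / ε) u g' := by
    rw [isWLap_iff H hV]
    have : (fun x => g' x - gradPairing m (fun x => F x / ε) u x) = L := by
      funext x
      rw [hg']
      ring
    rw [this]
    exact hu
  have hgpV : gradPairing m (fun x => F x / ε) u =ᵐ[m] fun x => ε⁻¹ * gradPairing m F u x := by
    have h1 := gp_smul_left H ε⁻¹ hFs hus.2.1
    have h2 : (fun x => F x / ε) = fun x => ε⁻¹ * F x := by
      funext x
      rw [div_eq_inv_mul]
    rw [h2]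
    exact h1
  have hg'ae : g' =ᵐ[m] fun y => ε⁻¹ * (ε * L y + gradPairing m F u y) := by
    filter_upwards [hgpV] with y hy
    rw [hg']
    dsimp only
    rw [hy]
    field_simp
  have hg'ae2 : (fun y => ε * L y + gradPairing m F u y) =ᵐ[m] fun y => ε * g' y := by
    filter_upwards [hg'ae] with y hy
    rw [hy]
    field_simp
  have hgB : B2 m g' := by
    obtain ⟨h1, M, h2⟩ := hG.const_mul ε⁻¹
    refine ⟨h1.ae_eq hg'ae.symm, M, ?_⟩
    filter_upwards [h2, hg'ae] with y hy hy'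
    rw [hy']
    exact hy
  have hcont : ∀ x, ContinuousOn (fun s : ℝ => Jc m δ (P s g') x) (Ici 0) := by
    intro x
    have h1 := lam_cont (ε := 1) H GJ hgeo hδ hδ' one_pos hV hP hgB
    have h2 : ContinuousOn (fun s : ℝ => (s, x)) (Ici 0) := by fun_prop
    have h3 := h1.comp h2 fun s hs => ⟨hs, mem_univ _⟩
    refine h3.congr fun s _ => ?_
    simp [lam]
  have hint : ∀ x (s t : ℝ), 0 ≤ s → 0 ≤ t →
      IntervalIntegrable (fun s : ℝ => Jc m δ (P s g') x) volume s t := by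
    intro x s t hs ht
    refine ContinuousOn.intervalIntegrable ((hcont x).mono ?_)
    intro z hz
    exact le_trans (le_min hs ht) hz.1
  intro θ θ' x hθ hθ'
  have h1 := Jc_gen H GJ hgeo hδ hδ' hV hP hug huB hgB x (mul_nonneg hε.le hθ)
  have h2 := Jc_gen H GJ hgeo hδ hδ' hV hP hug huB hgB x (mul_nonneg hε.le hθ')
  have h3 : lam m δ ε P θ' x u - lam m δ ε P θ x u = ∫ s in (ε * θ)..(ε * θ'), Jc m δ (P s g') x := by
    rw [← intervalIntegral.integral_interval_sub_left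
      (hint x 0 (ε * θ') le_rfl (mul_nonneg hε.le hθ'))
      (hint x 0 (ε * θ) le_rfl (mul_nonneg hε.le hθ)), ← h1, ← h2, lam, lam]
    ring
  rw [h3, ← intervalIntegral.smul_integral_comp_mul_left, smul_eq_mul,
    ← intervalIntegral.integral_const_mul]
  refine intervalIntegral.integral_congr fun r hr => ?_
  have hr0 : 0 ≤ r := le_trans (le_min hθ hθ') hr.1
  have hεr : 0 ≤ ε * r := mul_nonneg hε.le hr0
  dsimp only [lam]
  rw [← Jc_smul H (calc_of_hyp H) GJ hgeo hδ hδ' ε (hP.memLp _ hεr g' hgB.1)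
    (by obtain ⟨a, M, b⟩ := hgB
        exact ⟨M, sg_abs_le hP hεr a b⟩)]
  refine congrFun (Jc_congr ?_) x
  have e1 := hP.smul _ hεr ε g' hgB.1
  have e2 := hP.congr _ hεr _ _ hG.1 hg'ae2
  exact (e2.trans e1).symm

end Fin
end Crest.Agent.R242
end
end

-- ▼ part R242/DIter

/-!
Row 242 (S0375), DIter, final statements: `D6_time` (time regularity) and `D4_space` (localised
gradient estimate).
-/

set_option autoImplicit false
set_option linter.unusedSectionVars false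

open MeasureTheory Filter Set
open scoped ENNReal NNReal Topology
open Crest.GeometryTopology.SyntheticRicci

noncomputable section

namespace Crest.Agent.R242

variable {X : Type*} [MetricSpace X] [ProperSpace X] [MeasurableSpace X] [BorelSpace X]
  {m : Measure X} [IsLocallyFiniteMeasure m] [m.IsOpenPosMeasure] {k N : ℝ}
  {V : X → ℝ} {P : ℝ → (X → ℝ) → (X → ℝ)}

theorem di_sq_le_of_le {a b : ℝ} (ha : 0 ≤ a) (hab : a ≤ b) : a ^ 2 ≤ b ^ 2 :=
  pow_le_pow_left₀ ha hab 2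

/-- [D6] time regularity. -/
theorem D6_time (H : Hyp m k N) (hV : BddLip V) {LV : ℝ} (hLV : 0 ≤ LV)
    (hVL : ∀ᵐ x ∂m, minWeakGrad m V x ≤ LV) {ε B : ℝ} {G : X → ℝ} (hε : 0 < ε)
    (S : SemigroupSpec m V P) (hOS : ∀ h : ℝ, 0 < h → OneStep m V G ε k h) (hGm : Measurable G)
    (hGB : ∀ x, |G x| ≤ B) {z : X → ℝ} (hz : IsSobolev m z) {Cz : ℝ} (hCz : 0 ≤ Cz)
    (hzC : ∀ᵐ x ∂m, |z x| ≤ Cz) {Lz : ℝ} (hLz : 0 ≤ Lz)
    (hzL : ∀ᵐ x ∂m, minWeakGrad m z x ≤ Lz) {θ₁ θ₂ : ℝ} (h1 : 0 ≤ θ₁) (h12 : θ₁ ≤ θ₂) {δ : ℝ}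
    (hδ : 0 < δ) :
    ∀ᵐ x ∂m, |J m δ (J m δ (fun y => P (ε * θ₂) z y - P (ε * θ₁) z y)) x| ≤
      (θ₂ - θ₁) * (ε * (LV * (Lz * Real.exp ((B + ε * k) * θ₂)) + 2 * Cz / δ)) := by
  have hzm : MemLp z 2 m := hz.1
  have hm2 : MemLp (P (ε * θ₂) z) 2 m := S.memLp _ (mul_nonneg hε.le (h1.trans h12)) z hzm
  have hm1 : MemLp (P (ε * θ₁) z) 2 m := S.memLp _ (mul_nonneg hε.le h1) z hzm
  have hmd : MemLp (fun y => P (ε * θ₂) z y - P (ε * θ₁) z y) 2 m := hm2.sub hm1
  rcases h12.eq_or_lt with h0 | hlt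
  · subst h0
    have h2 : ∀ᵐ x ∂m, |P (ε * θ₁) z x - P (ε * θ₁) z x| ≤ 0 :=
      Eventually.of_forall fun x => by simp
    have h3 := di_J_abs_le H hδ (di_J_memLp H hδ hmd) (di_J_abs_le H hδ hmd h2)
    filter_upwards [h3] with x hx
    simpa using hx
  set z1 := P (ε * θ₁) z with hz1
  have hz1s : IsSobolev m z1 := (S.sob _ (mul_nonneg hε.le h1) z hz).1
  have hz1b : ∀ᵐ x ∂m, |z1 x| ≤ Cz := di_P_abs_le S (mul_nonneg hε.le h1) hzm hCz hzC
  set a := B + ε * k with ha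
  have hzL2 : ∀ᵐ x ∂m, minWeakGrad m z x ^ 2 ≤ Lz ^ 2 := by
    filter_upwards [hzL, wg_nonneg H hz.2.1] with x a1 a2
    exact di_sq_le_of_le a2 a1
  have hz1L := di_wg_P_sq_le H hV hε S hOS hGm hGB hz ⟨Cz, hzC⟩ hzL2 h1
  set θ := θ₂ - θ₁ with hθ
  have hθ0 : 0 < θ := sub_pos.2 hlt
  set t := ε * θ with ht
  have ht0 : 0 < t := mul_pos hε hθ0
  set D1 := Lz ^ 2 * Real.exp (2 * a * θ₁) with hD1
  have hD10 : 0 ≤ D1 := by positivity
  -- convergence of the iterates
  have hstep : ∀ n : ℕ, t / ((n : ℝ) + 1) = ε * (θ / ((n : ℝ) + 1)) := fun n => by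
    rw [ht]; ring
  have hexpo := di_expo H hV S hz1s.1 ht0
  obtain ⟨C, hC0, hC⟩ := di_n2_le_wm (m := m) hV
  set fn : ℕ → X → ℝ := fun n => J m δ (J m δ (fun y => itJ m V (t / ((n : ℝ) + 1)) (n + 1) z1 y
    - z1 y)) with hfn
  have htn : ∀ n : ℕ, 0 < t / ((n : ℝ) + 1) := fun n => by positivity
  have hmn : ∀ n : ℕ, MemLp (fun y => itJ m V (t / ((n : ℝ) + 1)) (n + 1) z1 y - z1 y) 2 m :=
    fun n => (itJ_memLp H hV (htn n) hz1s.1 (n + 1)).sub hz1s.1
  have hmP : MemLp (fun y => P t z1 y - z1 y) 2 m := (S.memLp t ht0.le z1 hz1s.1).sub hz1s.1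
  have hlim : Tendsto (fun n => n2 m (fun x => fn n x -
      J m δ (J m δ (fun y => P t z1 y - z1 y)) x)) atTop (𝓝 0) := by
    have hb : ∀ n, n2 m (fun x => fn n x - J m δ (J m δ (fun y => P t z1 y - z1 y)) x) ≤
        C * n2 (wm m V) (fun x => itJ m V (t / ((n : ℝ) + 1)) (n + 1) z1 x - P t z1 x) := by
      intro n
      have e0 := wm_zero (m := m)
      have b1 := di_n2_Jr_sub H (di_bl0 (X := X)) hδ (di_J_memLp H hδ (hmn n))
        (di_J_memLp H hδ hmP)
      have b2 := di_n2_Jr_sub H (di_bl0 (X := X)) hδ (hmn n) hmP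
      rw [e0] at b1 b2
      have b3 : (fun x => (itJ m V (t / ((n : ℝ) + 1)) (n + 1) z1 x - z1 x) -
          (P t z1 x - z1 x)) = fun x => itJ m V (t / ((n : ℝ) + 1)) (n + 1) z1 x - P t z1 x := by
        funext x; ring
      rw [b3] at b2
      refine (b1.trans b2).trans (hC _ ?_)
      exact (itJ_memLp H hV (htn n) hz1s.1 (n + 1)).sub (S.memLp t ht0.le z1 hz1s.1)
    refine squeeze_zero (fun n => n2_nonneg) hb ?_
    have := hexpo.const_mul C
    rwa [mul_zero] at this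
  -- the bound for each n
  set Mn : ℕ → ℝ := fun n =>
    Real.sqrt (D1 * ((1 - 2 * (θ / ((n : ℝ) + 1)) * a) ^ (n + 1))⁻¹) with hMn
  have hMlim : Tendsto Mn atTop (𝓝 (Lz * Real.exp (a * θ₂))) := by
    have b1 := (di_tendsto_pow_inv a θ).const_mul D1
    have b2 := (Real.continuous_sqrt.tendsto _).comp b1
    have b3 : Real.sqrt (D1 * Real.exp (2 * a * θ)) = Lz * Real.exp (a * θ₂) := by
      rw [hD1, mul_assoc, ← Real.exp_add, Real.sqrt_mul (sq_nonneg _), Real.sqrt_sq hLz]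
      congr 1
      have : 2 * a * θ₁ + 2 * a * θ = 2 * (a * θ₂) := by rw [hθ]; ring
      rw [this, di_sqrt_exp]
    rw [b3] at b2
    exact b2
  have hbound : ∀ᶠ n : ℕ in atTop, ∀ᵐ x ∂m, |fn n x| ≤
      t * (LV * Mn n + 2 * Cz / δ) := by
    filter_upwards [di_small_step a θ] with n hn
    have hhn : 0 < θ / ((n : ℝ) + 1) := by positivity
    by_cases hX : Nonempty X
    swap
    · exact Eventually.of_forall fun x => (hX ⟨x⟩).elim
    obtain ⟨x0⟩ := hX
    have hB0 : 0 ≤ B := (abs_nonneg _).trans (hGB x0)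
    have ha0 : 0 ≤ a := by
      have := H.kpos
      positivity
    have hρ1 : 0 < 1 - 2 * (θ / ((n : ℝ) + 1)) * a := by linarith
    have hρ2 : 1 - 2 * (θ / ((n : ℝ) + 1)) * a ≤ 1 := by
      have : 0 ≤ 2 * (θ / ((n : ℝ) + 1)) * a := by positivity
      linarith
    have hM : ∀ j ≤ n + 1, ∀ᵐ x ∂m,
        minWeakGrad m (itJ m V (t / ((n : ℝ) + 1)) j z1) x ≤ Mn n := by
      intro j hj
      have b1 := di_wg_itJ_sq_le H hV hε hhn (hOS _ hhn) hGm hGB hn hz1s ⟨Cz, hz1b⟩ hz1L j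
      rw [← hstep n] at b1
      filter_upwards [b1] with x b2
      apply Real.le_sqrt_of_sq_le
      refine b2.trans ?_
      refine mul_le_mul_of_nonneg_left ?_ hD10
      exact inv_anti₀ (pow_pos hρ1 _) (pow_le_pow_of_le_one hρ1.le hρ2 hj)
    have b3 := di_JJ_sub H hV hLV hVL (htn n) hz1s.1 hz1b (n + 1) hM hδ
    filter_upwards [b3] with x hx
    refine hx.trans (le_of_eq ?_)
    push_cast
    field_simp
  have hClim : Tendsto (fun n => t * (LV * Mn n + 2 * Cz / δ)) atTop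
      (𝓝 (t * (LV * (Lz * Real.exp (a * θ₂)) + 2 * Cz / δ))) :=
    (((hMlim.const_mul LV).add_const _).const_mul t)
  have hfnm : ∀ n, MemLp (fn n) 2 m := fun n => di_J_memLp H hδ (di_J_memLp H hδ (hmn n))
  have hfin := di_bound_limit hfnm (di_J_memLp H hδ (di_J_memLp H hδ hmP)) hlim hClim hbound
  -- rewrite with the semigroup property
  have hsem : (fun y => P (ε * θ₂) z y - z1 y) =ᵐ[m] fun y => P t z1 y - z1 y := by
    have b1 := S.semig t (ε * θ₁) ht0.le (mul_nonneg hε.le h1) z hzm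
    have b2 : t + ε * θ₁ = ε * θ₂ := by rw [ht, hθ]; ring
    rw [b2] at b1
    filter_upwards [b1] with x hx
    rw [hx]
  have hcongr : J m δ (J m δ (fun y => P (ε * θ₂) z y - z1 y)) =
      J m δ (J m δ (fun y => P t z1 y - z1 y)) := by
    have b1 : J m δ (fun y => P (ε * θ₂) z y - z1 y) = J m δ (fun y => P t z1 y - z1 y) :=
      Jr_congr' (di_bl0 (X := X)).bddM hsem
    rw [b1]
  rw [hcongr]
  filter_upwards [hfin] with x hx
  refine hx.trans (le_of_eq ?_)
  rw [ht]; ring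

/-- [D4'] localised gradient estimate. -/
theorem D4_space (H : Hyp m k N) (hV : BddLip V) {LV : ℝ} (hLV : 0 ≤ LV)
    (hVL : ∀ᵐ x ∂m, minWeakGrad m V x ≤ LV) {ε B : ℝ} {G : X → ℝ} (hε : 0 < ε)
    (S : SemigroupSpec m V P) (hOS : ∀ h : ℝ, 0 < h → OneStep m V G ε k h) (hGm : Measurable G)
    (hGB : ∀ x, |G x| ≤ B) {z : X → ℝ} (hz : IsSobolev m z)
    (hzb : ∃ C : ℝ, ∀ᵐ x ∂m, |z x| ≤ C) {D : ℝ} (hD : 0 ≤ D)
    (hzL : ∀ᵐ x ∂m, minWeakGrad m z x ^ 2 ≤ D) {v : X → ℝ} {c lam Lv : ℝ}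
    (hv : IsSobolev m v) (hv1 : Integrable v m) (hv0 : 0 ≤ᵐ[m] v) (hvc : ∀ᵐ x ∂m, v x ≤ c)
    (hc : 0 ≤ c) (hLv : 0 ≤ Lv) (hvL : ∀ᵐ x ∂m, minWeakGrad m v x ≤ Lv)
    (hGv : ∀ᵐ x ∂m, G x ≤ lam + c - v x) {θ : ℝ} (hθ : 0 ≤ θ) {δ : ℝ} (hδ : 0 < δ) :
    ∀ᵐ x ∂m, J m δ (J m δ (fun y => minWeakGrad m (P (ε * θ) z) y ^ 2)) x ≤
      Real.exp (2 * (lam + ε * k) * θ) *
          J m δ (J m δ (P (ε * θ) (fun y => minWeakGrad m z y ^ 2))) x +
        2 * (D * Real.exp (2 * (B + ε * k) * θ)) * Real.exp (2 * |lam + ε * k| * θ) * θ *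
          (c - J m δ (J m δ v) x +
            θ * (ε * (LV * (Lv * Real.exp ((B + ε * k) * θ)) + 2 * c / δ))) := by
  set t := ε * θ with ht
  have ht0' : 0 ≤ t := mul_nonneg hε.le hθ
  set aB := B + ε * k with haB
  set a := lam + ε * k with ha
  have hPz : IsSobolev m (P t z) := (S.sob t ht0' z hz).1
  have hzi : Integrable (fun y => minWeakGrad m z y ^ 2) m := integrable_wg_sq H hz
  have hz2 : MemLp (fun y => minWeakGrad m z y ^ 2) 2 m :=
    di_memLp_two_of_bdd hzi (Eventually.of_forall fun x => sq_nonneg _) hzL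
  have hPzi : Integrable (fun y => minWeakGrad m (P t z) y ^ 2) m := integrable_wg_sq H hPz
  have hPzL := di_wg_P_sq_le H hV hε S hOS hGm hGB hz hzb hzL hθ
  have hPz2 : MemLp (fun y => minWeakGrad m (P t z) y ^ 2) 2 m :=
    di_memLp_two_of_bdd hPzi (Eventually.of_forall fun x => sq_nonneg _) hPzL
  rcases hθ.eq_or_lt with h0 | hθ0
  · -- θ = 0
    have ht00 : t = 0 := by rw [ht, ← h0, mul_zero]
    have b1 : (fun y => minWeakGrad m (P t z) y ^ 2) =ᵐ[m] fun y => minWeakGrad m z y ^ 2 := by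
      have c1 : P t z =ᵐ[m] z := by rw [ht00]; exact S.zero z hz.1
      have c3 := gp_self H hPz.2.1
      have c4 := gp_self H hz.2.1
      have c5 : gradPairing m (P t z) (P t z) =ᵐ[m] gradPairing m z z :=
        gp_congr H hPz.2.1 hPz.2.1 c1 c1
      filter_upwards [c3, c4, c5] with x a1 a2 a3
      rw [← a1, a3, a2]
    have b2 : P t (fun y => minWeakGrad m z y ^ 2) =ᵐ[m] fun y => minWeakGrad m z y ^ 2 := by
      rw [ht00]; exact S.zero _ hz2
    have b3 : J m δ (J m δ (fun y => minWeakGrad m (P t z) y ^ 2)) =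
        J m δ (J m δ (P t (fun y => minWeakGrad m z y ^ 2))) := by
      have c1 : J m δ (fun y => minWeakGrad m (P t z) y ^ 2) =
          J m δ (P t (fun y => minWeakGrad m z y ^ 2)) :=
        Jr_congr' (di_bl0 (X := X)).bddM (b1.trans b2.symm)
      rw [c1]
    rw [b3, ← h0]
    exact Eventually.of_forall fun x => by simp
  have ht0 : 0 < t := mul_pos hε hθ0
  by_cases hX : Nonempty X
  swap
  · exact Eventually.of_forall fun x => (hX ⟨x⟩).elim
  obtain ⟨x0⟩ := hX
  have hB0 : 0 ≤ B := (abs_nonneg _).trans (hGB x0)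
  have haB0 : 0 ≤ aB := by
    have := H.kpos
    positivity
  have hstep : ∀ n : ℕ, t / ((n : ℝ) + 1) = ε * (θ / ((n : ℝ) + 1)) := fun n => by
    rw [ht]; ring
  have htn : ∀ n : ℕ, 0 < t / ((n : ℝ) + 1) := fun n => by positivity
  obtain ⟨A, hA⟩ := di_energy_bdd H hV hz
  set C1n : ℕ → ℝ := fun n => D * ((1 - 2 * (θ / ((n : ℝ) + 1)) * aB) ^ (n + 1))⁻¹ with hC1n
  set Mn : ℕ → ℝ := fun n =>
    Real.sqrt (Lv ^ 2 * ((1 - 2 * (θ / ((n : ℝ) + 1)) * aB) ^ (n + 1))⁻¹) with hMn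
  set rn : ℕ → ℝ := fun n => ((1 - 2 * (θ / ((n : ℝ) + 1)) * a) ^ (n + 1))⁻¹ with hrn
  set sn : ℕ → ℝ := fun n => ((1 - 2 * (θ / ((n : ℝ) + 1)) * |a|) ^ (n + 1))⁻¹ with hsn
  have hC1lim : Tendsto C1n atTop (𝓝 (D * Real.exp (2 * aB * θ))) :=
    (di_tendsto_pow_inv aB θ).const_mul D
  have hMlim : Tendsto Mn atTop (𝓝 (Lv * Real.exp (aB * θ))) := by
    have b1 := (di_tendsto_pow_inv aB θ).const_mul (Lv ^ 2)
    have b2 := (Real.continuous_sqrt.tendsto _).comp b1
    have b3 : Real.sqrt (Lv ^ 2 * Real.exp (2 * aB * θ)) = Lv * Real.exp (aB * θ) := by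
      rw [Real.sqrt_mul (sq_nonneg _), Real.sqrt_sq hLv]
      congr 1
      have : 2 * aB * θ = 2 * (aB * θ) := by ring
      rw [this, di_sqrt_exp]
    rw [b3] at b2
    exact b2
  have hrlim : Tendsto rn atTop (𝓝 (Real.exp (2 * a * θ))) := di_tendsto_pow_inv a θ
  have hslim : Tendsto sn atTop (𝓝 (Real.exp (2 * |a| * θ))) := di_tendsto_pow_inv |a| θ
  have hvL2 : ∀ᵐ x ∂m, minWeakGrad m v x ^ 2 ≤ Lv ^ 2 := by
    filter_upwards [hvL, wg_nonneg H hv.2.1] with x a1 a2
    exact di_sq_le_of_le a2 a1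
  have hvabs : ∀ᵐ x ∂m, |v x| ≤ c := by
    filter_upwards [hv0, hvc] with x a1 a2
    rw [abs_of_nonneg a1]; exact a2
  have hv2 : MemLp v 2 m := hv.1
  -- the test inequality
  set K' : ℝ := LV * (Lv * Real.exp (aB * θ)) + 2 * c / δ with hK'
  set C2 : ℝ := 2 * (D * Real.exp (2 * aB * θ)) * Real.exp (2 * |a| * θ) * θ with hC2
  have hJJv1 : Integrable (J m δ (J m δ v)) m := (di_JJ_l1 H hδ hv2 hv1).1
  have hPz1 : Integrable (P t (fun y => minWeakGrad m z y ^ 2)) m := (S.l1 t ht0' _ hz2 hzi).1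
  have hPz2' : MemLp (P t (fun y => minWeakGrad m z y ^ 2)) 2 m := S.memLp t ht0' _ hz2
  have hF1 : Integrable (J m δ (J m δ (fun y => minWeakGrad m (P t z) y ^ 2))) m :=
    (di_JJ_l1 H hδ hPz2 hPzi).1
  have hF2 : Integrable (J m δ (J m δ (P t (fun y => minWeakGrad m z y ^ 2)))) m :=
    (di_JJ_l1 H hδ hPz2' hPz1).1
  have key := di_ae_le_of_test (m := m) (di_bl0 (X := X))
    (F₁ := J m δ (J m δ (fun y => minWeakGrad m (P t z) y ^ 2)))
    (F₂ := fun x => Real.exp (2 * a * θ) *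
      J m δ (J m δ (P t (fun y => minWeakGrad m z y ^ 2))) x - C2 * J m δ (J m δ v) x)
    (C := C2 * (c + θ * (ε * K'))) hF1 ((hF2.const_mul _).sub (hJJv1.const_mul _))
    (fun ψ hψ2 hψ1 hψb hψ0 => by
      rw [wm_zero]
      obtain ⟨φ, hφ2, hφ1, hφb, hφ0, hφF, hφle⟩ := di_testfn H hV hδ hψ2 hψ1 hψb hψ0
      set Ψ := ∫ x, ψ x ∂m with hΨ
      set Y := ∫ x, J m δ (J m δ v) x * ψ x ∂m with hY
      have hΨ0 : 0 ≤ Ψ := integral_nonneg_of_ae hψ0
      -- the quantities
      set dn : ℕ → ℝ := fun n => n2 (wm m V) (fun x => Jr m V (t / ((n : ℝ) + 1)) φ x - φ x)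
        with hdn
      have hdlim : Tendsto dn atTop (𝓝 0) :=
        (di_Jr_tendsto_n2 H hV hφ2).comp (di_tendsto_step ht0)
      set In : ℕ → ℝ := fun n => ∫ x, minWeakGrad m z x ^ 2 *
        itJ m V (t / ((n : ℝ) + 1)) (n + 1) φ x ∂(wm m V) with hIn
      have hIlim : Tendsto In atTop (𝓝 (∫ x, minWeakGrad m z x ^ 2 * P t φ x ∂(wm m V))) := by
        rw [tendsto_iff_dist_tendsto_zero]
        have hexpo := di_expo H hV S hφ2 ht0
        refine squeeze_zero (fun n => dist_nonneg) (fun n => ?_)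
          (g := fun n : ℕ => n2 (wm m V) (fun y => minWeakGrad m z y ^ 2) *
            n2 (wm m V) (fun x => itJ m V (t / ((n : ℝ) + 1)) (n + 1) φ x - P t φ x)) ?_
        · rw [Real.dist_eq]
          have i1 : Integrable (fun x => minWeakGrad m z x ^ 2 *
              itJ m V (t / ((n : ℝ) + 1)) (n + 1) φ x) (wm m V) :=
            ((di_mem hV).2 hz2).integrable_mul
              ((di_mem hV).2 (itJ_memLp H hV (htn n) hφ2 (n + 1)))
          have i2 : Integrable (fun x => minWeakGrad m z x ^ 2 * P t φ x) (wm m V) :=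
            ((di_mem hV).2 hz2).integrable_mul ((di_mem hV).2 (S.memLp t ht0' φ hφ2))
          have e1 : In n - ∫ x, minWeakGrad m z x ^ 2 * P t φ x ∂(wm m V) =
              ∫ x, minWeakGrad m z x ^ 2 *
                (itJ m V (t / ((n : ℝ) + 1)) (n + 1) φ x - P t φ x) ∂(wm m V) := by
            rw [hIn, ← integral_sub i1 i2]
            exact integral_congr_ae (Eventually.of_forall fun x => by ring)
          rw [e1]
          exact n2_cs ((di_mem hV).2 hz2) ((di_mem hV).2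
            ((itJ_memLp H hV (htn n) hφ2 (n + 1)).sub (S.memLp t ht0' φ hφ2)))
        · have := hexpo.const_mul (n2 (wm m V) (fun y => minWeakGrad m z y ^ 2))
          rwa [mul_zero] at this
      -- right hand sides
      set Rn : ℕ → ℝ := fun n => rn n * In n + sn n * (2 * θ * (|a| *
        (Real.sqrt (C1n n * En m V z z) * dn n) +
          C1n n * (c * Ψ - Y + ε * θ * (LV * Mn n + 2 * c / δ) * Ψ))) with hRn
      set R : ℝ := Real.exp (2 * a * θ) * (∫ x, minWeakGrad m z x ^ 2 * P t φ x ∂(wm m V)) +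
        Real.exp (2 * |a| * θ) * (2 * θ * (|a| *
        (Real.sqrt (D * Real.exp (2 * aB * θ) * En m V z z) * 0) +
          D * Real.exp (2 * aB * θ) * (c * Ψ - Y + ε * θ * K' * Ψ))) with hR
      have hRlim : Tendsto Rn atTop (𝓝 R) := by
        refine (hrlim.mul hIlim).add (hslim.mul ((Tendsto.add ?_ ?_).const_mul (2 * θ)))
        · refine (Tendsto.mul ?_ hdlim).const_mul |a|
          exact (Real.continuous_sqrt.tendsto _).comp (hC1lim.mul_const _)
        · refine hC1lim.mul ((Tendsto.mul_const Ψ ?_).const_add (c * Ψ - Y))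
          exact ((hMlim.const_mul LV).add_const _).const_mul (ε * θ)
      -- finite n
      have hfinite : ∀ᶠ n : ℕ in atTop,
          ∫ x, minWeakGrad m (itJ m V (t / ((n : ℝ) + 1)) (n + 1) z) x ^ 2 * φ x ∂(wm m V) ≤
            Rn n := by
        filter_upwards [di_small_step aB θ, di_small_step |a| θ] with n hn1 hn2
        have hhn : 0 < θ / ((n : ℝ) + 1) := by positivity
        have hρ1 : 0 < 1 - 2 * (θ / ((n : ℝ) + 1)) * aB := by linarith
        have hρ2 : 1 - 2 * (θ / ((n : ℝ) + 1)) * aB ≤ 1 := by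
          have : 0 ≤ 2 * (θ / ((n : ℝ) + 1)) * aB := by positivity
          linarith
        have hC1n0 : 0 ≤ C1n n := by
          simp only [hC1n]
          have := pow_pos hρ1 (n + 1)
          positivity
        have hzC : ∀ j ≤ n + 1, ∀ᵐ x ∂m,
            minWeakGrad m (itJ m V (ε * (θ / ((n : ℝ) + 1))) j z) x ^ 2 ≤ C1n n := by
          intro j hj
          have b1 := di_wg_itJ_sq_le H hV hε hhn (hOS _ hhn) hGm hGB hn1 hz hzb hzL j
          filter_upwards [b1] with x b2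
          refine b2.trans (mul_le_mul_of_nonneg_left ?_ hD)
          exact inv_anti₀ (pow_pos hρ1 _) (pow_le_pow_of_le_one hρ1.le hρ2 hj)
        have hvM : ∀ j ≤ n + 1, ∀ᵐ x ∂m,
            minWeakGrad m (itJ m V (t / ((n : ℝ) + 1)) j v) x ≤ Mn n := by
          intro j hj
          have b1 := di_wg_itJ_sq_le H hV hε hhn (hOS _ hhn) hGm hGB hn1 hv ⟨c, hvabs⟩ hvL2 j
          rw [← hstep n] at b1
          filter_upwards [b1] with x b2
          apply Real.le_sqrt_of_sq_le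
          refine b2.trans (mul_le_mul_of_nonneg_left ?_ (sq_nonneg _))
          exact inv_anti₀ (pow_pos hρ1 _) (pow_le_pow_of_le_one hρ1.le hρ2 hj)
        have hfin := di_D4_finite H hV hε hhn (hOS _ hhn) hGm hGB hz hzb hv2 hvc hc hGv (n + 1)
          hC1n0 hzC hn2 hφ2 hφ1 hφb hφ0
        rw [← hstep n] at hfin
        refine hfin.trans ?_
        have hs0 : 0 ≤ sn n := by
          simp only [hsn]
          have : 0 < 1 - 2 * (θ / ((n : ℝ) + 1)) * |a| := by linarith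
          have := pow_pos this (n + 1)
          positivity
        -- bound of the sum
        have hsum : ∑ i ∈ Finset.range (n + 1), 2 * (θ / ((n : ℝ) + 1)) *
            (|a| * (Real.sqrt (C1n n * En m V z z) *
              n2 (wm m V) (fun x => Jr m V (t / ((n : ℝ) + 1)) φ x - φ x)) +
            C1n n * (c * ∫ x, φ x ∂(wm m V) -
              ∫ x, itJ m V (t / ((n : ℝ) + 1)) (i + 1) v x * φ x ∂(wm m V))) ≤
            2 * θ * (|a| * (Real.sqrt (C1n n * En m V z z) * dn n) +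
              C1n n * (c * Ψ - Y + ε * θ * (LV * Mn n + 2 * c / δ) * Ψ)) := by
          have hterm : ∀ i ∈ Finset.range (n + 1), 2 * (θ / ((n : ℝ) + 1)) *
            (|a| * (Real.sqrt (C1n n * En m V z z) *
              n2 (wm m V) (fun x => Jr m V (t / ((n : ℝ) + 1)) φ x - φ x)) +
            C1n n * (c * ∫ x, φ x ∂(wm m V) -
              ∫ x, itJ m V (t / ((n : ℝ) + 1)) (i + 1) v x * φ x ∂(wm m V))) ≤
            2 * (θ / ((n : ℝ) + 1)) * (|a| * (Real.sqrt (C1n n * En m V z z) * dn n) +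
              C1n n * (c * Ψ - Y + ε * θ * (LV * Mn n + 2 * c / δ) * Ψ)) := by
            intro i hi
            have hi' : i + 1 ≤ n + 1 := by
              have := Finset.mem_range.1 hi
              omega
            refine mul_le_mul_of_nonneg_left ?_ (by positivity)
            refine add_le_add le_rfl (mul_le_mul_of_nonneg_left ?_ hC1n0)
            have hvi := itJ_memLp H hV (htn n) hv2 (i + 1)
            have b1 : c * ∫ x, φ x ∂(wm m V) ≤ c * Ψ := mul_le_mul_of_nonneg_left hφle hc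
            have b2 : ∫ x, itJ m V (t / ((n : ℝ) + 1)) (i + 1) v x * φ x ∂(wm m V) =
                ∫ x, J m δ (J m δ (itJ m V (t / ((n : ℝ) + 1)) (i + 1) v)) x * ψ x ∂m := by
              rw [hφF, di_JJ_symm H hδ hvi hψ2]
            have b3 := di_JJ_sub H hV hLV hVL (htn n) hv2 hvabs (i + 1)
              (fun j hj => hvM j (hj.trans hi')) hδ
            have b4 : J m δ (J m δ (fun y => itJ m V (t / ((n : ℝ) + 1)) (i + 1) v y - v y))
                =ᵐ[m] fun x => J m δ (J m δ (itJ m V (t / ((n : ℝ) + 1)) (i + 1) v)) x -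
                  J m δ (J m δ v) x := by
              have c1 := Jr_sub H (di_bl0 (X := X)) hδ hvi hv2
              have c2 := Jr_congr H (di_bl0 (X := X)) hδ (di_J_memLp H hδ (hvi.sub hv2)) c1
              exact c2.trans (Jr_sub H (di_bl0 (X := X)) hδ (di_J_memLp H hδ hvi)
                (di_J_memLp H hδ hv2))
            have b5 : Y - ε * θ * (LV * Mn n + 2 * c / δ) * Ψ ≤
                ∫ x, J m δ (J m δ (itJ m V (t / ((n : ℝ) + 1)) (i + 1) v)) x * ψ x ∂m := by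
              have i1 : Integrable (fun x => J m δ (J m δ v) x * ψ x) m :=
                (di_J_memLp H hδ (di_J_memLp H hδ hv2)).integrable_mul hψ2
              have i2 : Integrable (fun x =>
                  J m δ (J m δ (itJ m V (t / ((n : ℝ) + 1)) (i + 1) v)) x * ψ x) m :=
                (di_J_memLp H hδ (di_J_memLp H hδ hvi)).integrable_mul hψ2
              rw [hY, hΨ, ← integral_const_mul, ← integral_sub i1 (hψ1.const_mul _)]
              refine integral_mono_ae (i1.sub (hψ1.const_mul _)) i2 ?_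
              filter_upwards [b3, b4, hψ0] with x c1 c2 c3
              have c3' : 0 ≤ ψ x := c3
              rw [c2] at c1
              have c4 := (abs_le.1 c1).1
              have c5 : ((i + 1 : ℕ) : ℝ) * (t / ((n : ℝ) + 1) * (LV * Mn n + 2 * c / δ)) ≤
                  ε * θ * (LV * Mn n + 2 * c / δ) := by
                have hK0 : 0 ≤ LV * Mn n + 2 * c / δ := by
                  have : 0 ≤ Mn n := Real.sqrt_nonneg _
                  positivity
                have c6 : ((i + 1 : ℕ) : ℝ) ≤ (n : ℝ) + 1 := by exact_mod_cast hi'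
                have hn0 : (0 : ℝ) < (n : ℝ) + 1 := by positivity
                calc ((i + 1 : ℕ) : ℝ) * (t / ((n : ℝ) + 1) * (LV * Mn n + 2 * c / δ)) ≤
                    ((n : ℝ) + 1) * (t / ((n : ℝ) + 1) * (LV * Mn n + 2 * c / δ)) :=
                      mul_le_mul_of_nonneg_right c6 (by positivity)
                  _ = t * (LV * Mn n + 2 * c / δ) := by field_simp
              have c7 : J m δ (J m δ v) x - ε * θ * (LV * Mn n + 2 * c / δ) ≤
                  J m δ (J m δ (itJ m V (t / ((n : ℝ) + 1)) (i + 1) v)) x := by linarith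
              have c8 := mul_le_mul_of_nonneg_right c7 c3'
              rw [sub_mul] at c8
              exact c8
            rw [b2]
            linarith
          refine (Finset.sum_le_sum hterm).trans (le_of_eq ?_)
          rw [Finset.sum_const, Finset.card_range, nsmul_eq_mul]
          have hn0 : ((n : ℝ) + 1) ≠ 0 := by positivity
          push_cast
          field_simp
        exact add_le_add le_rfl (mul_le_mul_of_nonneg_left hsum hs0)
      -- limit
      have hlimit : ∫ x, minWeakGrad m (P t z) x ^ 2 * φ x ∂(wm m V) ≤ R := by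
        refine le_of_forall_pos_le_add fun η hη => ?_
        have hev : ∀ᶠ n : ℕ in atTop,
            ∫ x, minWeakGrad m (itJ m V (t / ((n : ℝ) + 1)) (n + 1) z) x ^ 2 * φ x ∂(wm m V) ≤
              R + η := by
          have b1 := (tendsto_order.1 hRlim).2 (R + η) (by linarith)
          filter_upwards [hfinite, b1] with n c1 c2
          exact c1.trans c2.le
        exact (di_closed H hV (un := fun n : ℕ => itJ m V (t / ((n : ℝ) + 1)) (n + 1) z)
          (fun n => itJ_sob H hV (htn n) hz (n + 1)) hPz.1 (di_expo H hV S hz.1 ht0)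
          (fun n => hA _ (htn n) (n + 1)) hφ2.aestronglyMeasurable hφ0 hφb hev).2
      -- rewriting
      have e1 : ∫ x, J m δ (J m δ (fun y => minWeakGrad m (P t z) y ^ 2)) x * ψ x ∂m =
          ∫ x, minWeakGrad m (P t z) x ^ 2 * φ x ∂(wm m V) := by
        rw [hφF, di_JJ_symm H hδ hPz2 hψ2]
      have e2 : ∫ x, minWeakGrad m z x ^ 2 * P t φ x ∂(wm m V) =
          ∫ x, J m δ (J m δ (P t (fun y => minWeakGrad m z y ^ 2))) x * ψ x ∂m := by
        have c1 := S.symm t ht0' (fun y => minWeakGrad m z y ^ 2) φ hz2 hφ2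
        rw [← c1, hφF, di_JJ_symm H hδ hPz2' hψ2]
      have i1 : Integrable (fun x =>
          J m δ (J m δ (P t (fun y => minWeakGrad m z y ^ 2))) x * ψ x) m :=
        (di_J_memLp H hδ (di_J_memLp H hδ hPz2')).integrable_mul hψ2
      have i2 : Integrable (fun x => J m δ (J m δ v) x * ψ x) m :=
        (di_J_memLp H hδ (di_J_memLp H hδ hv2)).integrable_mul hψ2
      have e3 : ∫ x, (Real.exp (2 * a * θ) *
          J m δ (J m δ (P t (fun y => minWeakGrad m z y ^ 2))) x - C2 * J m δ (J m δ v) x) *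
            ψ x ∂m = Real.exp (2 * a * θ) *
          (∫ x, J m δ (J m δ (P t (fun y => minWeakGrad m z y ^ 2))) x * ψ x ∂m) - C2 * Y := by
        rw [hY, ← integral_const_mul, ← integral_const_mul,
          ← integral_sub (i1.const_mul _) (i2.const_mul _)]
        exact integral_congr_ae (Eventually.of_forall fun x => by ring)
      rw [e1, e3, ← e2]
      refine hlimit.trans (le_of_eq ?_)
      rw [hR, hC2]
      ring)
  filter_upwards [key] with x hx
  refine hx.trans (le_of_eq ?_)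
  rw [hC2]
  ring

end Crest.Agent.R242
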