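import Mathlib
import Crest.Agent.R242.Vol1
import Crest.Agent.R242.Defs

-- ▼ part R242/Vol2
section

/-!
# Row 242, V3 (properness) and V4 (exponential integrability)
-/

set_option autoImplicit false

open MeasureTheory Filter Set Metric
open scoped ENNReal NNReal Topology
open Crest.GeometryTopology.SyntheticRicci

namespace Crest.Agent.R242.V

variable {X : Type*} [MetricSpace X] [MeasurableSpace X]

/-- exponential volume growth with local doubling -/
def VolGrowth (m : Measure X) (N c : ℝ) : Prop :=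
  ∀ (x : X) (r s : ℝ), 0 < r → r ≤ s →
    m (ball x s) ≤ ENNReal.ofReal ((4 * s / r) ^ N * Real.exp (c * s)) * m (ball x r)

theorem IsCD.volGrowth [BorelSpace X] {m : Measure X} [m.IsOpenPosMeasure]
    (hfin : IsFiniteOnBalls m) {k N : ℝ} (hk : 0 < k) (hN : 1 < N) (hCD : IsCD m (-k) N) :
    VolGrowth m N (5 / 4 * N * Real.sqrt (k / (N - 1))) :=
  fun x _ _ hr hrs => IsCD.vol_le hfin hk hN hCD x hr hrs

/-- V3: balls are totally bounded, so `X` is proper. -/
theorem VolGrowth.properSpace [BorelSpace X] [CompleteSpace X] {m : Measure X}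
    [m.IsOpenPosMeasure] (hfin : IsFiniteOnBalls m) {N c : ℝ} (hV : VolGrowth m N c) :
    ProperSpace X := by
  refine ⟨fun o R => ?_⟩
  rw [isCompact_iff_totallyBounded_isComplete]
  refine ⟨?_, isClosed_closedBall.isComplete⟩
  rcases lt_or_ge R 0 with hR | hR
  · rw [closedBall_eq_empty.2 hR]
    exact totallyBounded_empty
  rw [Metric.totallyBounded_iff]
  intro ε hε
  by_contra hcon
  push Not at hcon
  -- a separated sequence
  obtain ⟨f, hf, hsep⟩ := exists_seq_of_forall_finset_exists (fun y => y ∈ closedBall o R)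
    (fun x y => ε ≤ dist y x) (by
      intro s hs
      have := hcon s s.finite_toSet
      rw [not_subset] at this
      obtain ⟨y, hy, hy'⟩ := this
      refine ⟨y, hy, fun x hx => ?_⟩
      by_contra hlt
      push Not at hlt
      exact hy' (mem_iUnion₂.2 ⟨x, hx, hlt⟩))
  set S := 2 * R + 2 * ε with hS
  have hS0 : 0 < S := by positivity
  have hεS : ε / 2 ≤ S := by linarith
  set K0 := (4 * S / (ε / 2)) ^ N * Real.exp (c * S) with hK0
  have hK0pos : 0 < K0 := by positivity
  -- lower bound for the measure of the small balls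
  have hlow : ∀ n, m (ball o ε) / ENNReal.ofReal K0 ≤ m (ball (f n) (ε / 2)) := by
    intro n
    have h1 := hV (f n) (ε / 2) S (by positivity) hεS
    have h2 : ball o ε ⊆ ball (f n) S := by
      intro y hy
      have h3 : dist (f n) o ≤ R := hf n
      have h4 : dist y o < ε := hy
      rw [mem_ball]
      have := dist_triangle_right y (f n) o
      linarith
    rw [ENNReal.div_le_iff_le_mul (Or.inl (by simpa using hK0pos)) (Or.inl (by simp)), mul_comm]
    exact (measure_mono h2).trans h1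
  have hdisj : Pairwise (Function.onFun Disjoint fun n => ball (f n) (ε / 2)) := by
    have key : ∀ i j, i < j → Disjoint (ball (f i) (ε / 2)) (ball (f j) (ε / 2)) := by
      intro i j hij
      apply ball_disjoint_ball
      have := hsep i j hij
      rw [dist_comm] at this
      linarith
    intro i j hij
    rcases lt_or_gt_of_ne hij with h | h
    · exact key i j h
    · exact (key j i h).symm
  have hsum := tsum_meas_le_meas_iUnion_of_disjoint m
    (As := fun n => ball (f n) (ε / 2)) (fun n => measurableSet_ball) hdisj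
  have hsub : (⋃ n, ball (f n) (ε / 2)) ⊆ ball o (R + ε) := by
    refine iUnion_subset fun n y hy => ?_
    have h3 : dist (f n) o ≤ R := hf n
    have h4 : dist y (f n) < ε / 2 := hy
    rw [mem_ball]
    have := dist_triangle y (f n) o
    linarith
  have h5 : (∑' _ : ℕ, m (ball o ε) / ENNReal.ofReal K0) < ⊤ :=
    lt_of_le_of_lt (ENNReal.tsum_le_tsum hlow)
      (hsum.trans_lt ((measure_mono hsub).trans_lt (hfin o (R + ε))))
  have h6 : m (ball o ε) / ENNReal.ofReal K0 ≠ 0 := by
    rw [Ne, ENNReal.div_eq_zero_iff]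
    push Not
    exact ⟨(measure_ball_pos m o hε).ne', ENNReal.ofReal_ne_top⟩
  rw [ENNReal.tsum_const_eq_top_of_ne_zero h6] at h5
  exact lt_irrefl _ h5

/-- integration over shells -/
theorem lintegral_shell_le [BorelSpace X] {m : Measure X} (x : X) {r : ℝ} (hr : 0 < r)
    (G : X → ℝ≥0∞) (M : ℕ → ℝ≥0∞)
    (hG : ∀ (n : ℕ) (y : X), n * r ≤ dist y x → dist y x < (n + 1) * r → G y ≤ M n) :
    ∫⁻ y, G y ∂m ≤ ∑' n : ℕ, M n * m (ball x ((n + 1) * r)) := by
  let A : ℕ → Set X := fun n => {y | n * r ≤ dist y x ∧ dist y x < (n + 1) * r}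
  have hA : ∀ n, MeasurableSet (A n) := fun n => by
    have h1 : Measurable fun y : X => dist y x := (continuous_id.dist continuous_const).measurable
    exact (measurableSet_le measurable_const h1).inter (measurableSet_lt h1 measurable_const)
  have hU : (⋃ n, A n) = univ := by
    refine eq_univ_of_forall fun y => mem_iUnion.2 ⟨⌊dist y x / r⌋₊, ?_⟩
    have h0 : 0 ≤ dist y x / r := by positivity
    constructor
    · rw [← le_div_iff₀ hr]
      exact Nat.floor_le h0
    · rw [← div_lt_iff₀ hr]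
      exact Nat.lt_floor_add_one _
  calc ∫⁻ y, G y ∂m = ∫⁻ y in ⋃ n, A n, G y ∂m := by rw [hU, Measure.restrict_univ]
    _ ≤ ∑' n, ∫⁻ y in A n, G y ∂m := lintegral_iUnion_le _ _
    _ ≤ ∑' n : ℕ, M n * m (ball x ((n + 1) * r)) := by
        refine ENNReal.tsum_le_tsum fun n => ?_
        calc ∫⁻ y in A n, G y ∂m ≤ ∫⁻ _ in A n, M n ∂m :=
              setLIntegral_mono' (hA n) fun y hy => hG n y hy.1 hy.2
          _ = M n * m (A n) := by rw [setLIntegral_const]
          _ ≤ M n * m (ball x ((n + 1) * r)) := by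
              gcongr
              exact fun y hy => hy.2

theorem summable_shift (j : ℕ) {δ : ℝ} (hδ : 0 < δ) :
    Summable fun n : ℕ => ((n : ℝ) + 2) ^ j * Real.exp (-δ * n) := by
  have h := Real.summable_pow_mul_exp_neg_nat_mul j hδ
  have h2 := (summable_nat_add_iff 2).2 h
  have h3 := h2.mul_left (Real.exp (2 * δ))
  refine h3.congr fun n => ?_
  have : Real.exp (-δ * n) = Real.exp (2 * δ) * Real.exp (-δ * ((n + 2 : ℕ) : ℝ)) := by
    rw [← Real.exp_add]
    congr 1
    push_cast
    ring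
  rw [this]
  push_cast
  ring


/-- V4, uniform version with the weight `d^p e^{-a d}` -/
theorem VolGrowth.lintegral_dist_exp_le [BorelSpace X] {m : Measure X}
    {N c : ℝ} (hV : VolGrowth m N c) (p : ℕ) :
    ∃ C : ℝ, 0 ≤ C ∧ ∀ a : ℝ, 0 < a → 2 * c ≤ a → ∀ x : X,
      ∫⁻ y, ENNReal.ofReal (dist y x ^ p * Real.exp (-a * dist y x)) ∂m ≤
        ENNReal.ofReal (C / a ^ p) * m (ball x (1 / a)) := by
  set k := ⌈N⌉₊ with hk
  have hNk : N ≤ k := Nat.le_ceil N
  have hs := (summable_shift (p + k) (show (0 : ℝ) < 1 / 2 by norm_num)).mul_left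
    (4 ^ k * Real.exp 1)
  refine ⟨∑' n : ℕ, 4 ^ k * Real.exp 1 * (((n : ℝ) + 2) ^ (p + k) * Real.exp (-(1 / 2) * n)),
    tsum_nonneg fun n => by positivity, ?_⟩
  intro a ha hca x
  have hr : 0 < 1 / a := by positivity
  have h1 := lintegral_shell_le (m := m) x hr
    (fun y => ENNReal.ofReal (dist y x ^ p * Real.exp (-a * dist y x)))
    (fun n => ENNReal.ofReal ((((n : ℝ) + 1) / a) ^ p * Real.exp (-(n : ℝ)))) (by
      intro n y h1 h2
      refine ENNReal.ofReal_le_ofReal ?_
      refine mul_le_mul ?_ ?_ (Real.exp_pos _).le (by positivity)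
      · refine pow_le_pow_left₀ dist_nonneg ?_ _
        rw [mul_one_div] at h2
        exact h2.le
      · rw [Real.exp_le_exp]
        rw [mul_one_div, div_le_iff₀ ha] at h1
        linarith)
  refine h1.trans ?_
  have hterm : ∀ n : ℕ, ENNReal.ofReal ((((n : ℝ) + 1) / a) ^ p * Real.exp (-(n : ℝ))) *
      m (ball x ((n + 1) * (1 / a))) ≤
      ENNReal.ofReal (4 ^ k * Real.exp 1 * (((n : ℝ) + 2) ^ (p + k) * Real.exp (-(1 / 2) * n))) *
        (ENNReal.ofReal (1 / a ^ p) * m (ball x (1 / a))) := by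
    intro n
    have hn0 : (0 : ℝ) ≤ n := Nat.cast_nonneg n
    have h2 := hV x (1 / a) ((n + 1) * (1 / a)) hr (by
      have : 1 * (1 / a) ≤ ((n : ℝ) + 1) * (1 / a) := by gcongr; linarith
      linarith)
    calc _ ≤ ENNReal.ofReal ((((n : ℝ) + 1) / a) ^ p * Real.exp (-(n : ℝ))) *
          (ENNReal.ofReal ((4 * (((n : ℝ) + 1) * (1 / a)) / (1 / a)) ^ N *
            Real.exp (c * (((n : ℝ) + 1) * (1 / a)))) * m (ball x (1 / a))) := by gcongr
      _ = ENNReal.ofReal ((((n : ℝ) + 1) / a) ^ p * Real.exp (-(n : ℝ)) *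
          ((4 * (((n : ℝ) + 1) * (1 / a)) / (1 / a)) ^ N *
            Real.exp (c * (((n : ℝ) + 1) * (1 / a))))) * m (ball x (1 / a)) := by
          rw [← mul_assoc, ← ENNReal.ofReal_mul (by positivity)]
      _ ≤ ENNReal.ofReal (4 ^ k * Real.exp 1 * (((n : ℝ) + 2) ^ (p + k) *
          Real.exp (-(1 / 2) * n)) * (1 / a ^ p)) * m (ball x (1 / a)) := by
          refine mul_le_mul' (ENNReal.ofReal_le_ofReal ?_) le_rfl
          have e1 : 4 * (((n : ℝ) + 1) * (1 / a)) / (1 / a) = 4 * ((n : ℝ) + 1) := by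
            field_simp
          rw [e1]
          have h3 : (4 * ((n : ℝ) + 1)) ^ N ≤ 4 ^ k * ((n : ℝ) + 2) ^ k := by
            calc (4 * ((n : ℝ) + 1)) ^ N ≤ (4 * ((n : ℝ) + 1)) ^ (k : ℝ) :=
                  Real.rpow_le_rpow_of_exponent_le (by linarith) hNk
              _ = (4 * ((n : ℝ) + 1)) ^ k := Real.rpow_natCast _ _
              _ ≤ (4 * ((n : ℝ) + 2)) ^ k :=
                  pow_le_pow_left₀ (by positivity) (by linarith) _
              _ = 4 ^ k * ((n : ℝ) + 2) ^ k := mul_pow _ _ _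
          have h4 : Real.exp (c * (((n : ℝ) + 1) * (1 / a))) ≤
              Real.exp ((1 / 2) * n) * Real.exp 1 := by
            rw [← Real.exp_add, Real.exp_le_exp]
            have h5 : c * (1 / a) ≤ 1 / 2 := by
              rw [mul_one_div, div_le_iff₀ ha]
              linarith
            calc c * (((n : ℝ) + 1) * (1 / a)) = ((n : ℝ) + 1) * (c * (1 / a)) := by ring
              _ ≤ ((n : ℝ) + 1) * (1 / 2) := by gcongr
              _ ≤ 1 / 2 * n + 1 := by linarith
          have h6 : (((n : ℝ) + 1) / a) ^ p ≤ ((n : ℝ) + 2) ^ p * (1 / a ^ p) := by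
            rw [div_pow, div_eq_mul_one_div]
            gcongr
            linarith
          calc (((n : ℝ) + 1) / a) ^ p * Real.exp (-(n : ℝ)) *
              ((4 * ((n : ℝ) + 1)) ^ N * Real.exp (c * (((n : ℝ) + 1) * (1 / a))))
              ≤ (((n : ℝ) + 2) ^ p * (1 / a ^ p)) * Real.exp (-(n : ℝ)) *
              ((4 ^ k * ((n : ℝ) + 2) ^ k) * (Real.exp ((1 / 2) * n) * Real.exp 1)) := by
                gcongr
            _ = 4 ^ k * Real.exp 1 * (((n : ℝ) + 2) ^ (p + k) *
                (Real.exp (-(n : ℝ)) * Real.exp ((1 / 2) * n))) * (1 / a ^ p) := by ring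
            _ = _ := by
                rw [← Real.exp_add]
                congr 4
                ring
      _ = _ := by rw [ENNReal.ofReal_mul (by positivity), mul_assoc]
  refine (ENNReal.tsum_le_tsum hterm).trans ?_
  rw [ENNReal.tsum_mul_right, ← ENNReal.ofReal_tsum_of_nonneg (fun n => by positivity) hs,
    ← mul_assoc, ← ENNReal.ofReal_mul (tsum_nonneg fun n => by positivity), mul_one_div]

end Crest.Agent.R242.V
end

-- ▼ part R242/Vol

/-!
# Row 242, part V: final statements (volume growth, properness, local finiteness, doubling,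
uniform exponential integrability)
-/

set_option autoImplicit false

open MeasureTheory Filter Set Metric
open scoped ENNReal NNReal Topology
open Crest.GeometryTopology.SyntheticRicci

namespace Crest.Agent.R242

section

variable {X : Type*} [MetricSpace X] [MeasurableSpace X] [BorelSpace X] {m : Measure X} {k N : ℝ}

theorem volGrowth_of_hyp [m.IsOpenPosMeasure] (H : Hyp m k N) :
    ∃ c : ℝ, 0 < c ∧ V.VolGrowth m N c := by
  refine ⟨5 / 4 * N * Real.sqrt (k / (N - 1)), ?_, V.IsCD.volGrowth H.fin H.kpos H.one_lt H.cd⟩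
  have h1 := H.one_lt
  have h2 := H.kpos
  have h3 : 0 < Real.sqrt (k / (N - 1)) := Real.sqrt_pos.2 (div_pos h2 (by linarith))
  have h4 : 0 < N := by linarith
  positivity


theorem properSpace_of_hyp [CompleteSpace X] [m.IsOpenPosMeasure] (H : Hyp m k N) :
    ProperSpace X := by
  obtain ⟨c, -, hV⟩ := volGrowth_of_hyp H
  exact hV.properSpace H.fin

omit [BorelSpace X] in
theorem isLocallyFinite_of_hyp (H : Hyp m k N) : IsLocallyFiniteMeasure m :=
  ⟨fun x => ⟨ball x 1, ball_mem_nhds x one_pos, H.fin x 1⟩⟩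

/-- local doubling at scales `≤ 1`. -/
theorem doubling [m.IsOpenPosMeasure] (H : Hyp m k N) :
    ∃ C : ℝ, 0 < C ∧ ∀ (x : X) (r : ℝ), 0 < r → r ≤ 1 →
    m (Metric.ball x (2 * r)) ≤ ENNReal.ofReal C * m (Metric.ball x r) := by
  obtain ⟨c, hc, hV⟩ := volGrowth_of_hyp H
  refine ⟨8 ^ N * Real.exp (c * 2), by positivity, fun x r hr hr1 => ?_⟩
  refine (hV x r (2 * r) hr (by linarith)).trans ?_
  refine mul_le_mul' (ENNReal.ofReal_le_ofReal ?_) le_rfl
  have e : 4 * (2 * r) / r = 8 := by field_simp; norm_num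
  rw [e]
  have : c * (2 * r) ≤ c * 2 := by
    have : 2 * r ≤ 2 := by linarith
    gcongr
  gcongr

/-- Mathlib's uniform local doubling. -/
theorem isUnifLocDoubling_of_hyp [m.IsOpenPosMeasure] (H : Hyp m k N) :
    IsUnifLocDoublingMeasure m := by
  obtain ⟨c, hc, hV⟩ := volGrowth_of_hyp H
  have hC : 0 ≤ 16 ^ N * Real.exp (c * 4) := by positivity
  refine ⟨⟨Real.toNNReal (16 ^ N * Real.exp (c * 4)), ?_⟩⟩
  have h1 : ∀ᶠ ε : ℝ in 𝓝[>] 0, 0 < ε ∧ ε ≤ 1 := by
    refine (eventually_mem_nhdsWithin.and ?_)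
    exact (eventually_le_nhds (show (0 : ℝ) < 1 by norm_num)).filter_mono nhdsWithin_le_nhds
  filter_upwards [h1] with ε hε x
  obtain ⟨h0, h1⟩ := hε
  calc m (closedBall x (2 * ε)) ≤ m (ball x (4 * ε)) :=
        measure_mono (closedBall_subset_ball (by linarith))
    _ ≤ ENNReal.ofReal ((4 * (4 * ε) / ε) ^ N * Real.exp (c * (4 * ε))) * m (ball x ε) :=
        hV x ε (4 * ε) h0 (by linarith)
    _ ≤ ENNReal.ofReal (16 ^ N * Real.exp (c * 4)) * m (closedBall x ε) := by
        refine mul_le_mul' (ENNReal.ofReal_le_ofReal ?_) (measure_mono ball_subset_closedBall)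
        have e : 4 * (4 * ε) / ε = 16 := by field_simp; norm_num
        rw [e]
        have : c * (4 * ε) ≤ c * 4 := by
          have : 4 * ε ≤ 4 := by linarith
          gcongr
        gcongr

/-- uniform exponential integrability: for `a ≥ a₀`. -/
theorem exp_integral [m.IsOpenPosMeasure] (H : Hyp m k N) :
    ∃ a₀ C : ℝ, 1 ≤ a₀ ∧ 0 < C ∧ ∀ a : ℝ, a₀ ≤ a → ∀ x : X,
    ∫⁻ y, ENNReal.ofReal ((1 + a * dist y x) ^ 4 * Real.exp (-(2 * a) * dist y x)) ∂m ≤
      ENNReal.ofReal C * m (Metric.ball x (1 / a)) := by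
  obtain ⟨c, hc, hV⟩ := volGrowth_of_hyp H
  obtain ⟨C0, hC0, h0⟩ := hV.lintegral_dist_exp_le 0
  obtain ⟨C4, hC4, h4⟩ := hV.lintegral_dist_exp_le 4
  refine ⟨max 1 c, 8 * C0 + C4 + 1, le_max_left _ _, by positivity, fun a ha x => ?_⟩
  have ha1 : 1 ≤ a := (le_max_left _ _).trans ha
  have hac : c ≤ a := (le_max_right _ _).trans ha
  have ha0 : 0 < a := by linarith
  have h2a : 0 < 2 * a := by positivity
  have h0' := h0 (2 * a) h2a (by linarith) x
  have h4' := h4 (2 * a) h2a (by linarith) x
  have hmono : m (ball x (1 / (2 * a))) ≤ m (ball x (1 / a)) := by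
    refine measure_mono (ball_subset_ball ?_)
    gcongr
    linarith
  have hpt : ∀ y : X, (1 + a * dist y x) ^ 4 * Real.exp (-(2 * a) * dist y x) ≤
      8 * (dist y x ^ 0 * Real.exp (-(2 * a) * dist y x)) +
      8 * a ^ 4 * (dist y x ^ 4 * Real.exp (-(2 * a) * dist y x)) := by
    intro y
    have h1 : (1 + a * dist y x) ^ 4 ≤ 8 + 8 * (a * dist y x) ^ 4 := by
      set t := a * dist y x with ht
      nlinarith [sq_nonneg (t - 1), sq_nonneg (t ^ 2 - 1), sq_nonneg (t ^ 2 - t),
        sq_nonneg (t + 1), sq_nonneg t, sq_nonneg (t ^ 2 - 2 * t + 1)]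
    calc (1 + a * dist y x) ^ 4 * Real.exp (-(2 * a) * dist y x)
        ≤ (8 + 8 * (a * dist y x) ^ 4) * Real.exp (-(2 * a) * dist y x) := by gcongr
      _ = _ := by ring
  have hm : Measurable fun y : X => dist y x :=
    (continuous_id.dist continuous_const).measurable
  calc ∫⁻ y, ENNReal.ofReal ((1 + a * dist y x) ^ 4 * Real.exp (-(2 * a) * dist y x)) ∂m
      ≤ ∫⁻ y, (ENNReal.ofReal 8 *
            ENNReal.ofReal (dist y x ^ 0 * Real.exp (-(2 * a) * dist y x)) +
          ENNReal.ofReal (8 * a ^ 4) *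
            ENNReal.ofReal (dist y x ^ 4 * Real.exp (-(2 * a) * dist y x))) ∂m := by
        refine lintegral_mono fun y => ?_
        dsimp only
        rw [← ENNReal.ofReal_mul (by norm_num), ← ENNReal.ofReal_mul (by positivity),
          ← ENNReal.ofReal_add (by positivity) (by positivity)]
        exact ENNReal.ofReal_le_ofReal (hpt y)
    _ = ENNReal.ofReal 8 *
          ∫⁻ y, ENNReal.ofReal (dist y x ^ 0 * Real.exp (-(2 * a) * dist y x)) ∂m +
        ENNReal.ofReal (8 * a ^ 4) *
          ∫⁻ y, ENNReal.ofReal (dist y x ^ 4 * Real.exp (-(2 * a) * dist y x)) ∂m := by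
        rw [lintegral_add_left (by fun_prop), lintegral_const_mul _ (by fun_prop),
          lintegral_const_mul _ (by fun_prop)]
    _ ≤ ENNReal.ofReal 8 * (ENNReal.ofReal (C0 / (2 * a) ^ 0) * m (ball x (1 / a))) +
        ENNReal.ofReal (8 * a ^ 4) *
          (ENNReal.ofReal (C4 / (2 * a) ^ 4) * m (ball x (1 / a))) := by
        gcongr
        · exact h0'.trans (by gcongr)
        · exact h4'.trans (by gcongr)
    _ = ENNReal.ofReal (8 * C0 + C4 / 2) * m (ball x (1 / a)) := by
        rw [← mul_assoc, ← mul_assoc, ← ENNReal.ofReal_mul (by norm_num),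
          ← ENNReal.ofReal_mul (by positivity), ← add_mul,
          ← ENNReal.ofReal_add (by positivity) (by positivity)]
        congr 2
        field_simp
        ring
    _ ≤ _ := by
        refine mul_le_mul' (ENNReal.ofReal_le_ofReal ?_) le_rfl
        linarith

end

end Crest.Agent.R242
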