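import Crest.Agent.R242.Defs
import Crest.Agent.R242.Pair
import Crest.Agent.R242.Res
import Crest.Agent.R242.Vol
import Crest.Agent.R242.SobMin
import Crest.Agent.R242.SobLip

-- ▼ part R242/Davies
section

/-!
# R3: Davies' exponential estimate for the resolvent, mass conservation (row 242)
-/

set_option autoImplicit false
set_option linter.unusedSectionVars false
set_option linter.unusedVariables false

open MeasureTheory Filter Set
open scoped ENNReal NNReal Topology
open Crest.GeometryTopology.SyntheticRicci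

noncomputable section

namespace Crest.Agent.R242

variable {X : Type*} [MetricSpace X] [ProperSpace X] [MeasurableSpace X] [BorelSpace X]
  {m : Measure X} [IsLocallyFiniteMeasure m] [m.IsOpenPosMeasure] {k N : ℝ}

/-- Lipschitz on every ball. -/
def LipBalls (f : X → ℝ) : Prop :=
  ∀ (o : X) (R : ℝ), ∃ L : ℝ≥0, LipschitzOnWith L f (Metric.ball o R)

/-- the facts of part S used in this file. -/
structure CalcD (m : Measure X) : Prop where
  aesm : ∀ u : X → ℝ, AEStronglyMeasurable (minWeakGrad m u) m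
  nonneg : ∀ u : X → ℝ, ∀ᵐ x ∂m, 0 ≤ minWeakGrad m u x
  lipLoc : ∀ ψ : X → ℝ, LipBalls ψ → IsSobolevLoc m ψ
  lipOpen : ∀ ψ : X → ℝ, LipBalls ψ → ∀ U : Set X, IsOpen U → ∀ L : ℝ≥0, LipschitzOnWith L ψ U →
    ∀ᵐ x ∂m, x ∈ U → minWeakGrad m ψ x ≤ L
  lipCpt : ∀ (ψ : X → ℝ) (L : ℝ≥0), LipschitzWith L ψ → HasCompactSupport ψ → IsSobolev m ψ
  mulLip : ∀ u ψ : X → ℝ, IsSobolev m u → BddLip ψ → IsSobolev m (fun x => ψ x * u x)
  cs : ∀ u v : X → ℝ, IsSobolevLoc m u → IsSobolevLoc m v →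
    ∀ᵐ x ∂m, |gradPairing m u v x| ≤ minWeakGrad m u x * minWeakGrad m v x
  self : ∀ u : X → ℝ, IsSobolevLoc m u →
    ∀ᵐ x ∂m, gradPairing m u u x = minWeakGrad m u x ^ 2
  symm : ∀ u v : X → ℝ, IsSobolevLoc m u → IsSobolevLoc m v →
    ∀ᵐ x ∂m, gradPairing m u v x = gradPairing m v u x
  leib : ∀ w ψ u : X → ℝ, IsSobolevLoc m w → LipBalls ψ → IsSobolevLoc m u →
    ∀ᵐ x ∂m, gradPairing m w (fun y => ψ y * u y) x =
      ψ x * gradPairing m w u x + u x * gradPairing m w ψ x

theorem dav_wm_zero (m : Measure X) : wm m (fun _ => (0 : ℝ)) = m := by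
  unfold wm
  simp

theorem CalcD.aesm_pair (S : CalcD m) (u v : X → ℝ) :
    AEStronglyMeasurable (gradPairing m u v) m := by
  have h1 := (S.aesm (fun y => u y + v y)).aemeasurable.pow_const 2
  have h2 := (S.aesm (fun y => u y - v y)).aemeasurable.pow_const 2
  exact ((h1.sub h2).div_const 4).aestronglyMeasurable

namespace Dav

/-- the truncated exponential weight. -/
def W (a : ℝ) (x₀ : X) (n : ℕ) (y : X) : ℝ := Real.exp (2 * a * min (dist y x₀) n)

theorem W_pos (a : ℝ) (x₀ : X) (n : ℕ) (y : X) : 0 < W a x₀ n y := Real.exp_pos _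

theorem W_le {a : ℝ} (ha : 0 ≤ a) (x₀ : X) (n : ℕ) (y : X) :
    W a x₀ n y ≤ Real.exp (2 * a * n) := by
  unfold W
  apply Real.exp_le_exp.2
  apply mul_le_mul_of_nonneg_left (min_le_right _ _) (by positivity)

theorem W_le' {a : ℝ} (ha : 0 ≤ a) (x₀ : X) (n : ℕ) (y : X) :
    W a x₀ n y ≤ Real.exp (2 * a * dist y x₀) := by
  unfold W
  apply Real.exp_le_exp.2
  apply mul_le_mul_of_nonneg_left (min_le_left _ _) (by positivity)

theorem W_sub {a : ℝ} (ha : 0 ≤ a) (x₀ : X) (n : ℕ) (x y : X) :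
    W a x₀ n x - W a x₀ n y ≤ 2 * a * W a x₀ n x * dist x y := by
  have h1 : min (dist x x₀) (n : ℝ) - min (dist y x₀) (n : ℝ) ≤ dist x y := by
    have h2 : dist x x₀ ≤ dist x y + dist y x₀ := dist_triangle _ _ _
    rcases le_total (dist y x₀) (n : ℝ) with h3 | h3
    · rw [min_eq_left h3]
      have := min_le_left (dist x x₀) (n : ℝ)
      linarith
    · rw [min_eq_right h3]
      have := min_le_right (dist x x₀) (n : ℝ)
      have h4 : 0 ≤ dist x y := dist_nonneg
      linarith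
  have h2 : 1 - Real.exp (-(2 * a * (min (dist x x₀) (n : ℝ) - min (dist y x₀) (n : ℝ)))) ≤
      2 * a * (min (dist x x₀) (n : ℝ) - min (dist y x₀) (n : ℝ)) := by
    have := Real.add_one_le_exp (-(2 * a * (min (dist x x₀) (n : ℝ) - min (dist y x₀) (n : ℝ))))
    linarith
  have h3 : W a x₀ n y = W a x₀ n x *
      Real.exp (-(2 * a * (min (dist x x₀) (n : ℝ) - min (dist y x₀) (n : ℝ)))) := by
    unfold W
    rw [← Real.exp_add]
    congr 1
    ring
  have h4 : W a x₀ n x - W a x₀ n y = W a x₀ n x *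
      (1 - Real.exp (-(2 * a * (min (dist x x₀) (n : ℝ) - min (dist y x₀) (n : ℝ))))) := by
    rw [h3]; ring
  rw [h4]
  calc W a x₀ n x *
      (1 - Real.exp (-(2 * a * (min (dist x x₀) (n : ℝ) - min (dist y x₀) (n : ℝ)))))
      ≤ W a x₀ n x * (2 * a * dist x y) := by
        apply mul_le_mul_of_nonneg_left _ (W_pos _ _ _ _).le
        refine h2.trans ?_
        apply mul_le_mul_of_nonneg_left h1 (by positivity)
    _ = 2 * a * W a x₀ n x * dist x y := by ring

theorem W_lip {a : ℝ} (ha : 0 ≤ a) (x₀ : X) (n : ℕ) :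
    LipschitzWith (Real.toNNReal (2 * a * Real.exp (2 * a * n))) (W a x₀ n) := by
  apply LipschitzWith.of_le_add_mul
  intro x y
  have h1 := W_sub ha x₀ n x y
  have h2 := W_le ha x₀ n x
  have h3 : 2 * a * W a x₀ n x * dist x y ≤ 2 * a * Real.exp (2 * a * n) * dist x y := by
    apply mul_le_mul_of_nonneg_right _ dist_nonneg
    apply mul_le_mul_of_nonneg_left h2 (by positivity)
  rw [Real.coe_toNNReal _ (by positivity)]
  linarith

theorem W_bddLip {a : ℝ} (ha : 0 ≤ a) (x₀ : X) (n : ℕ) : BddLip (W a x₀ n) :=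
  ⟨⟨Real.exp (2 * a * n), fun y => by
    rw [abs_of_pos (W_pos _ _ _ _)]; exact W_le ha x₀ n y⟩, _, W_lip ha x₀ n⟩

theorem _root_.Crest.Agent.R242.LipBalls.of_lip {f : X → ℝ} {L : ℝ≥0} (h : LipschitzWith L f) :
    LipBalls f := fun _ _ => ⟨L, h.lipschitzOnWith⟩

/-- bound of the weak gradient by local Lipschitz constants. -/
theorem _root_.Crest.Agent.R242.CalcD.wg_le_local (S : CalcD m) {f b : X → ℝ} (hf : LipBalls f)
    (hb : Continuous b)
    (h : ∀ x, ∀ ε : ℝ, 0 < ε → ∃ r : ℝ, 0 < r ∧ 0 ≤ b x + ε ∧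
      LipschitzOnWith (Real.toNNReal (b x + ε)) f (Metric.ball x r)) :
    ∀ᵐ x ∂m, minWeakGrad m f x ≤ b x := by
  have key : ∀ ε : ℝ, 0 < ε → ∀ᵐ x ∂m, minWeakGrad m f x ≤ b x + 2 * ε := by
    intro ε hε
    have h1 : ∀ x : X, ∃ r : ℝ, 0 < r ∧ 0 ≤ b x + ε ∧
        LipschitzOnWith (Real.toNNReal (b x + ε)) f (Metric.ball x r) ∧
        ∀ y ∈ Metric.ball x r, b x ≤ b y + ε := by
      intro x
      obtain ⟨r, hr, h0, hL⟩ := h x ε hε
      obtain ⟨r', hr', hb'⟩ := Metric.continuousAt_iff.1 hb.continuousAt ε hε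
      refine ⟨min r r', lt_min hr hr', h0,
        hL.mono (Metric.ball_subset_ball (min_le_left _ _)), fun y hy => ?_⟩
      have h2 := hb' (lt_of_lt_of_le (Metric.mem_ball.1 hy) (min_le_right _ _))
      rw [Real.dist_eq] at h2
      have := (abs_lt.1 h2).1
      linarith
    choose r hr h0 hL hbr using h1
    obtain ⟨s, hs, hU⟩ := TopologicalSpace.countable_cover_nhds
      (fun x : X => Metric.ball_mem_nhds x (hr x))
    have h2 : ∀ᵐ y ∂m, ∀ x ∈ s, y ∈ Metric.ball x (r x) → minWeakGrad m f y ≤ b x + ε := by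
      rw [ae_ball_iff hs]
      intro x _
      filter_upwards [S.lipOpen f hf _ Metric.isOpen_ball _ (hL x)] with y hy hy'
      have := hy hy'
      rwa [Real.coe_toNNReal _ (h0 x)] at this
    filter_upwards [h2] with y hy
    have h3 : y ∈ ⋃ x ∈ s, Metric.ball x (r x) := by rw [hU]; trivial
    rw [mem_iUnion₂] at h3
    obtain ⟨x, hxs, hyx⟩ := h3
    have h4 := hy x hxs hyx
    have h5 := hbr x y hyx
    linarith
  have h3 : ∀ᵐ x ∂m, ∀ n : ℕ, minWeakGrad m f x ≤ b x + 2 * (1 / ((n : ℝ) + 1)) := by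
    rw [ae_all_iff]
    intro n
    exact key _ (by positivity)
  filter_upwards [h3] with x hx
  have h4 := (tendsto_one_div_add_atTop_nhds_zero_nat (𝕜 := ℝ)).const_mul 2 |>.const_add (b x)
  rw [mul_zero, add_zero] at h4
  exact ge_of_tendsto' h4 hx

theorem wg_W (S : CalcD m) {a : ℝ} (ha : 0 ≤ a) (x₀ : X) (n : ℕ) :
    ∀ᵐ x ∂m, minWeakGrad m (W a x₀ n) x ≤ 2 * a * W a x₀ n x := by
  have hWc : Continuous (W a x₀ n) := (W_lip ha x₀ n).continuous
  refine S.wg_le_local (LipBalls.of_lip (W_lip ha x₀ n)) (by fun_prop) ?_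
  intro x ε hε
  have hx0 : 0 ≤ 2 * a * W a x₀ n x := by have := W_pos a x₀ n x; positivity
  have hbc : Continuous (fun y => 2 * a * W a x₀ n y) := by fun_prop
  obtain ⟨r, hr, hb⟩ := Metric.continuousAt_iff.1 (hbc.continuousAt (x := x)) ε hε
  refine ⟨r, hr, by linarith, ?_⟩
  apply LipschitzOnWith.of_dist_le_mul
  rw [Real.coe_toNNReal _ (by linarith)]
  have key : ∀ y ∈ Metric.ball x r, ∀ z : X, W a x₀ n y - W a x₀ n z ≤
      (2 * a * W a x₀ n x + ε) * dist y z := by
    intro y hy z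
    refine (W_sub ha x₀ n y z).trans ?_
    apply mul_le_mul_of_nonneg_right _ dist_nonneg
    have h2 := hb (Metric.mem_ball.1 hy)
    rw [Real.dist_eq] at h2
    have := (abs_lt.1 h2).2
    linarith
  intro y hy z hz
  rw [Real.dist_eq, abs_sub_le_iff]
  refine ⟨key y hy z, ?_⟩
  rw [dist_comm]
  exact key z hz y

/-- pointwise inequality behind Davies' estimate. -/
theorem point_ineq {h a w u f G P : ℝ} (hh : 0 < h) (ha : 0 ≤ a) (hah : 4 * h * a ^ 2 ≤ 1)
    (hw : 0 ≤ w) (hG : 0 ≤ G) (hP : w * G ^ 2 - 2 * a * w * |u| * G ≤ P) :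
    1 / 4 * (w * (u ^ 2 + h * G ^ 2)) - w * f ^ 2 ≤ h * P + w * u ^ 2 - w * (f * u) := by
  have h1 : h * (w * G ^ 2 - 2 * a * w * |u| * G) ≤ h * P := mul_le_mul_of_nonneg_left hP hh.le
  have h2 : 1 / 4 * (u ^ 2 + h * G ^ 2) - f ^ 2 ≤
      h * (G ^ 2 - 2 * a * |u| * G) + u ^ 2 - f * u := by
    have e1 : f * u ≤ f ^ 2 + u ^ 2 / 4 := by nlinarith [sq_nonneg (f - u / 2)]
    have e2 : 2 * a * |u| * G ≤ 1 / 2 * G ^ 2 + 2 * a ^ 2 * u ^ 2 := by
      have : u ^ 2 = |u| ^ 2 := (sq_abs u).symm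
      rw [this]
      nlinarith [sq_nonneg (G - 2 * a * |u|)]
    have e3 : h * (2 * a * |u| * G) ≤ h * (1 / 2 * G ^ 2 + 2 * a ^ 2 * u ^ 2) :=
      mul_le_mul_of_nonneg_left e2 hh.le
    have e4 : 2 * h * a ^ 2 * u ^ 2 ≤ 1 / 2 * u ^ 2 := by
      apply mul_le_mul_of_nonneg_right _ (sq_nonneg u)
      linarith
    have e5 : 0 ≤ h * G ^ 2 := by positivity
    nlinarith
  have h3 := mul_le_mul_of_nonneg_left h2 hw
  nlinarith

end Dav

/-- the pointwise inequality as a hypothesis. -/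
def Dav.PI (h a K : ℝ) : Prop :=
  ∀ w u f G P : ℝ, 0 ≤ w → 0 ≤ G → w * G ^ 2 - 2 * a * w * |u| * G ≤ P →
    1 / K * (w * (u ^ 2 + h * G ^ 2)) - w * f ^ 2 ≤ h * P + w * u ^ 2 - w * (f * u)

theorem Dav.pi_four {h a : ℝ} (hh : 0 < h) (ha : 0 ≤ a) (hah : 4 * h * a ^ 2 ≤ 1) :
    Dav.PI h a 4 := fun _ _ _ _ _ hw hG hP => Dav.point_ineq hh ha hah hw hG hP

theorem Dav.pi_two {h a : ℝ} (hh : 0 < h) (ha : 0 ≤ a) (hah : 8 * h * a ^ 2 ≤ 1) :
    Dav.PI h a 2 := by
  intro w u f G P hw hG hP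
  have h1 : h * (w * G ^ 2 - 2 * a * w * |u| * G) ≤ h * P := mul_le_mul_of_nonneg_left hP hh.le
  have h2 : 1 / 2 * (u ^ 2 + h * G ^ 2) - f ^ 2 ≤
      h * (G ^ 2 - 2 * a * |u| * G) + u ^ 2 - f * u := by
    have e1 : f * u ≤ f ^ 2 + u ^ 2 / 4 := by nlinarith [sq_nonneg (f - u / 2)]
    have e2 : 2 * a * |u| * G ≤ 1 / 2 * G ^ 2 + 2 * a ^ 2 * u ^ 2 := by
      have : u ^ 2 = |u| ^ 2 := (sq_abs u).symm
      rw [this]
      nlinarith [sq_nonneg (G - 2 * a * |u|)]
    have e3 : h * (2 * a * |u| * G) ≤ h * (1 / 2 * G ^ 2 + 2 * a ^ 2 * u ^ 2) :=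
      mul_le_mul_of_nonneg_left e2 hh.le
    have e4 : 2 * h * a ^ 2 * u ^ 2 ≤ 1 / 4 * u ^ 2 := by
      apply mul_le_mul_of_nonneg_right _ (sq_nonneg u)
      linarith
    nlinarith
  have h3 := mul_le_mul_of_nonneg_left h2 hw
  nlinarith

/-- truncated Davies estimate. -/
theorem Dav.trunc (S : CalcD m) {h a K : ℝ} (hh : 0 < h) (ha : 0 ≤ a) (hK : 0 < K)
    (hPI : Dav.PI h a K)
    (x₀ : X) {f u : X → ℝ} (hf : MemLp f 2 m) (hu : IsRes m (fun _ => 0) h f u) (n : ℕ) :
    ∫⁻ y, ENNReal.ofReal (Dav.W a x₀ n y * (u y ^ 2 + h * minWeakGrad m u y ^ 2)) ∂m ≤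
      ENNReal.ofReal K * ∫⁻ y, ENNReal.ofReal (Dav.W a x₀ n y * f y ^ 2) ∂m := by
  obtain ⟨hus, hweak⟩ := hu
  rw [dav_wm_zero] at hweak
  have hu2 : MemLp u 2 m := hus.1
  have hG2 : MemLp (minWeakGrad m u) 2 m := hus.2.2
  have hWc : Continuous (Dav.W a x₀ n) := (Dav.W_lip ha x₀ n).continuous
  have hWm : AEStronglyMeasurable (Dav.W a x₀ n) m := hWc.aestronglyMeasurable
  have hWb : ∀ᵐ y ∂m, ‖Dav.W a x₀ n y‖ ≤ Real.exp (2 * a * n) :=
    Filter.Eventually.of_forall fun y => by
      rw [Real.norm_eq_abs, abs_of_pos (Dav.W_pos _ _ _ _)]; exact Dav.W_le ha x₀ n y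
  have iu : Integrable (fun y => Dav.W a x₀ n y * u y ^ 2) m :=
    hu2.integrable_sq.bdd_mul hWm hWb
  have iG : Integrable (fun y => Dav.W a x₀ n y * minWeakGrad m u y ^ 2) m :=
    hG2.integrable_sq.bdd_mul hWm hWb
  have iff : Integrable (fun y => Dav.W a x₀ n y * f y ^ 2) m :=
    hf.integrable_sq.bdd_mul hWm hWb
  have ifu : Integrable (fun y => Dav.W a x₀ n y * (f y * u y)) m :=
    (hf.integrable_mul hu2).bdd_mul hWm hWb
  have hv : IsSobolev m (fun y => Dav.W a x₀ n y * u y) := S.mulLip _ _ hus (Dav.W_bddLip ha x₀ n)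
  have hLB : LipBalls (Dav.W a x₀ n) := LipBalls.of_lip (Dav.W_lip ha x₀ n)
  have iP : Integrable (gradPairing m u (fun y => Dav.W a x₀ n y * u y)) m := by
    have i1 : Integrable (fun y => minWeakGrad m u y *
        minWeakGrad m (fun y => Dav.W a x₀ n y * u y) y) m := hG2.integrable_mul hv.2.2
    refine i1.mono (S.aesm_pair _ _) ?_
    filter_upwards [S.cs _ _ hus.2.1 hv.2.1] with y hy
    rw [Real.norm_eq_abs, Real.norm_eq_abs]
    exact hy.trans (le_abs_self _)
  have hweak1 := hweak _ hv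
  have hpt : ∀ᵐ y ∂m, 1 / K * (Dav.W a x₀ n y * (u y ^ 2 + h * minWeakGrad m u y ^ 2)) -
      Dav.W a x₀ n y * f y ^ 2 ≤
      h * gradPairing m u (fun y => Dav.W a x₀ n y * u y) y + Dav.W a x₀ n y * u y ^ 2 -
        Dav.W a x₀ n y * (f y * u y) := by
    filter_upwards [S.leib u _ u hus.2.1 hLB hus.2.1, S.self u hus.2.1, S.nonneg u,
      S.cs u _ hus.2.1 (S.lipLoc _ hLB), Dav.wg_W S ha x₀ n] with y h1 h2 h3 h4 h5
    apply hPI _ _ _ _ _ (Dav.W_pos _ _ _ _).le h3
    rw [h1, h2]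
    have h6 : |u y * gradPairing m u (Dav.W a x₀ n) y| ≤
        |u y| * (minWeakGrad m u y * (2 * a * Dav.W a x₀ n y)) := by
      rw [abs_mul]
      apply mul_le_mul_of_nonneg_left _ (abs_nonneg _)
      exact h4.trans (mul_le_mul_of_nonneg_left h5 h3)
    have h7 := neg_abs_le (u y * gradPairing m u (Dav.W a x₀ n) y)
    nlinarith
  have hint := integral_mono_ae (μ := m)
    (f := fun y => 1 / K * (Dav.W a x₀ n y * (u y ^ 2 + h * minWeakGrad m u y ^ 2)) -
      Dav.W a x₀ n y * f y ^ 2)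
    (g := fun y => h * gradPairing m u (fun y => Dav.W a x₀ n y * u y) y +
      Dav.W a x₀ n y * u y ^ 2 - Dav.W a x₀ n y * (f y * u y)) ?_ ?_ hpt
  · have iuG : Integrable (fun y => Dav.W a x₀ n y * (u y ^ 2 + h * minWeakGrad m u y ^ 2)) m := by
      refine (iu.add (iG.const_mul h)).congr (Filter.Eventually.of_forall fun y => ?_)
      simp only [Pi.add_apply]
      ring
    have r1 : ∫ y, (h * gradPairing m u (fun y => Dav.W a x₀ n y * u y) y +
        Dav.W a x₀ n y * u y ^ 2 - Dav.W a x₀ n y * (f y * u y)) ∂m =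
        h * (∫ y, gradPairing m u (fun y => Dav.W a x₀ n y * u y) y ∂m) +
        (∫ y, Dav.W a x₀ n y * u y ^ 2 ∂m) - ∫ y, Dav.W a x₀ n y * (f y * u y) ∂m := by
      have i3 : Integrable (fun y => h * gradPairing m u (fun y => Dav.W a x₀ n y * u y) y +
        Dav.W a x₀ n y * u y ^ 2) m := (iP.const_mul h).add iu
      rw [integral_sub i3 ifu, integral_add (iP.const_mul h) iu, integral_const_mul]
    rw [integral_sub (iuG.const_mul _) iff, integral_const_mul, r1] at hint
    have e1 : ∫ y, u y * (Dav.W a x₀ n y * u y) ∂m = ∫ y, Dav.W a x₀ n y * u y ^ 2 ∂m := by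
      congr 1; funext y; ring
    have e2 : ∫ y, f y * (Dav.W a x₀ n y * u y) ∂m = ∫ y, Dav.W a x₀ n y * (f y * u y) ∂m := by
      congr 1; funext y; ring
    rw [e1, e2] at hweak1
    have hfin : ∫ y, Dav.W a x₀ n y * (u y ^ 2 + h * minWeakGrad m u y ^ 2) ∂m ≤
        K * ∫ y, Dav.W a x₀ n y * f y ^ 2 ∂m := by
      have h0 : 1 / K * ∫ y, Dav.W a x₀ n y * (u y ^ 2 + h * minWeakGrad m u y ^ 2) ∂m ≤
        ∫ y, Dav.W a x₀ n y * f y ^ 2 ∂m := by linarith
      rw [one_div, inv_mul_le_iff₀ hK] at h0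
      exact h0
    rw [← ofReal_integral_eq_lintegral_ofReal iuG
      (Filter.Eventually.of_forall fun y => by
        have := Dav.W_pos a x₀ n y
        simp only [Pi.zero_apply]; positivity),
      ← ofReal_integral_eq_lintegral_ofReal iff
      (Filter.Eventually.of_forall fun y => by
        have := Dav.W_pos a x₀ n y
        simp only [Pi.zero_apply]; positivity)]
    rw [← ENNReal.ofReal_mul hK.le]
    exact ENNReal.ofReal_le_ofReal hfin
  · refine Integrable.sub (Integrable.const_mul ?_ _) iff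
    refine (iu.add (iG.const_mul h)).congr (Filter.Eventually.of_forall fun y => ?_)
    simp only [Pi.add_apply]
    ring
  · exact ((iP.const_mul h).add iu).sub ifu

/-- **Davies' estimate.** -/
theorem daviesK (S : CalcD m) {h a K : ℝ} (hh : 0 < h) (ha : 0 ≤ a) (hK : 0 < K)
    (hPI : Dav.PI h a K)
    (x₀ : X) {f u : X → ℝ} (hf : MemLp f 2 m) (hu : IsRes m (fun _ => 0) h f u) :
    ∫⁻ y, ENNReal.ofReal ((u y ^ 2 + h * minWeakGrad m u y ^ 2) *
        Real.exp (2 * a * dist y x₀)) ∂m ≤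
      ENNReal.ofReal K * ∫⁻ y, ENNReal.ofReal (f y ^ 2 * Real.exp (2 * a * dist y x₀)) ∂m := by
  have hlim : ∀ y, ENNReal.ofReal ((u y ^ 2 + h * minWeakGrad m u y ^ 2) *
        Real.exp (2 * a * dist y x₀)) ≤
      Filter.liminf (fun n : ℕ => ENNReal.ofReal (Dav.W a x₀ n y *
        (u y ^ 2 + h * minWeakGrad m u y ^ 2))) atTop := by
    intro y
    apply le_of_eq
    symm
    apply Tendsto.liminf_eq
    apply tendsto_const_nhds.congr'
    obtain ⟨n0, hn0⟩ := exists_nat_ge (dist y x₀)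
    filter_upwards [eventually_ge_atTop n0] with n hn
    have : min (dist y x₀) (n : ℝ) = dist y x₀ := by
      apply min_eq_left
      exact hn0.trans (by exact_mod_cast hn)
    unfold Dav.W
    rw [this, mul_comm]
  refine (lintegral_mono hlim).trans ?_
  refine (lintegral_liminf_le' ?_).trans ?_
  · intro n
    apply AEMeasurable.ennreal_ofReal
    have hWc : Continuous (Dav.W a x₀ n) := (Dav.W_lip ha x₀ n).continuous
    have h1 : AEMeasurable u m := hu.1.1.1.aemeasurable
    have h2 : AEMeasurable (minWeakGrad m u) m := hu.1.2.2.1.aemeasurable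
    exact (hWc.measurable.aemeasurable).mul ((h1.pow_const 2).add ((h2.pow_const 2).const_mul h))
  · refine Filter.liminf_le_of_frequently_le' (Filter.Eventually.frequently
      (Filter.Eventually.of_forall fun n => ?_))
    refine (Dav.trunc S hh ha hK hPI x₀ hf hu n).trans ?_
    refine mul_le_mul' le_rfl (lintegral_mono fun y => ?_)
    apply ENNReal.ofReal_le_ofReal
    rw [mul_comm]
    exact mul_le_mul_of_nonneg_left (Dav.W_le' ha x₀ n y) (sq_nonneg _)

theorem davies' (S : CalcD m) {h a : ℝ} (hh : 0 < h) (ha : 0 ≤ a) (hah : 4 * h * a ^ 2 ≤ 1)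
    (x₀ : X) {f u : X → ℝ} (hf : MemLp f 2 m) (hu : IsRes m (fun _ => 0) h f u) :
    ∫⁻ y, ENNReal.ofReal ((u y ^ 2 + h * minWeakGrad m u y ^ 2) *
        Real.exp (2 * a * dist y x₀)) ∂m ≤
      ENNReal.ofReal 4 * ∫⁻ y, ENNReal.ofReal (f y ^ 2 * Real.exp (2 * a * dist y x₀)) ∂m :=
  daviesK S hh ha (by norm_num) (Dav.pi_four hh ha hah) x₀ hf hu

/-- exponential integrability at rate `2 a₀`. -/
structure ExpInt (m : Measure X) (a₀ : ℝ) : Prop where
  pos : 0 < a₀
  int : ∀ x : X, ∫⁻ y, ENNReal.ofReal (Real.exp (-(2 * a₀) * dist y x)) ∂m < ⊤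

theorem ExpInt.integrable {a₀ : ℝ} (E : ExpInt m a₀) (x : X) :
    Integrable (fun y => Real.exp (-(2 * a₀) * dist y x)) m := by
  have hc : Continuous (fun y => Real.exp (-(2 * a₀) * dist y x)) := by fun_prop
  refine ⟨hc.aestronglyMeasurable, ?_⟩
  rw [hasFiniteIntegral_iff_ofReal (Filter.Eventually.of_forall fun y => (Real.exp_pos _).le)]
  exact E.int x

theorem Dav.integrable_of_expo {a₀ b : ℝ} (E : ExpInt m a₀) (x : X) {g : X → ℝ}
    (hg : AEStronglyMeasurable g m)
    (h2 : ∫⁻ y, ENNReal.ofReal (g y ^ 2 * Real.exp (2 * (a₀ + b) * dist y x)) ∂m < ⊤) :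
    Integrable (fun y => Real.exp (b * dist y x) * g y) m := by
  have i1 : Integrable (fun y => g y ^ 2 * Real.exp (2 * (a₀ + b) * dist y x)) m := by
    have hc : Continuous (fun y => Real.exp (2 * (a₀ + b) * dist y x)) := by fun_prop
    refine ⟨((hg.aemeasurable.pow_const 2).mul hc.measurable.aemeasurable).aestronglyMeasurable,
      ?_⟩
    rw [hasFiniteIntegral_iff_ofReal (Filter.Eventually.of_forall fun y => by positivity)]
    exact h2
  have i2 := i1.add (E.integrable x)
  have hc : Continuous (fun y => Real.exp (b * dist y x)) := by fun_prop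
  refine i2.mono (hc.aestronglyMeasurable.mul hg) (Filter.Eventually.of_forall fun y => ?_)
  rw [Pi.add_apply, Real.norm_eq_abs, Real.norm_eq_abs, abs_mul, abs_of_pos (Real.exp_pos _)]
  refine le_trans ?_ (le_abs_self _)
  have e1 : Real.exp (b * dist y x) * |g y| =
      (|g y| * Real.exp ((a₀ + b) * dist y x)) * Real.exp (-a₀ * dist y x) := by
    rw [mul_assoc, ← Real.exp_add]
    have : (a₀ + b) * dist y x + -a₀ * dist y x = b * dist y x := by ring
    rw [this]; ring
  have e2 : g y ^ 2 * Real.exp (2 * (a₀ + b) * dist y x) =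
      (|g y| * Real.exp ((a₀ + b) * dist y x)) ^ 2 := by
    rw [mul_pow, sq_abs, ← Real.exp_nat_mul]
    congr 2
    push_cast
    ring
  have e3 : Real.exp (-(2 * a₀) * dist y x) = Real.exp (-a₀ * dist y x) ^ 2 := by
    rw [← Real.exp_nat_mul]
    congr 1
    push_cast
    ring
  rw [e1, e2, e3]
  have h5 : 0 ≤ |g y| * Real.exp ((a₀ + b) * dist y x) := by positivity
  have h6 : 0 ≤ Real.exp (-a₀ * dist y x) := (Real.exp_pos _).le
  nlinarith [sq_nonneg (|g y| * Real.exp ((a₀ + b) * dist y x) - Real.exp (-a₀ * dist y x)),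
    sq_nonneg (|g y| * Real.exp ((a₀ + b) * dist y x)), sq_nonneg (Real.exp (-a₀ * dist y x))]

theorem Dav.lintegral_bddSupp {a : ℝ} (ha : 0 ≤ a) {f : X → ℝ} (hf : MemLp f 2 m)
    (hs : BddSupp m f) (x : X) :
    ∫⁻ y, ENNReal.ofReal (f y ^ 2 * Real.exp (2 * a * dist y x)) ∂m < ⊤ := by
  obtain ⟨o, R, hR⟩ := hs
  have i1 : Integrable (fun y => f y ^ 2 * Real.exp (2 * a * (R + dist o x))) m :=
    hf.integrable_sq.mul_const _
  refine lt_of_le_of_lt ?_ i1.lintegral_lt_top
  refine lintegral_mono_ae ?_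
  filter_upwards [hR] with y hy
  apply ENNReal.ofReal_le_ofReal
  by_cases hyR : y ∈ Metric.closedBall o R
  · apply mul_le_mul_of_nonneg_left _ (sq_nonneg _)
    apply Real.exp_le_exp.2
    apply mul_le_mul_of_nonneg_left _ (by positivity)
    rw [Metric.mem_closedBall] at hyR
    have := dist_triangle y o x
    linarith
  · rw [hy hyR]; simp

/-- real form of Davies' estimate. -/
theorem Dav.real_form {h a K : ℝ} (hh : 0 < h) (hK : 0 < K) (x₀ : X) {f u : X → ℝ}
    (hfm : AEStronglyMeasurable f m) (hum : AEStronglyMeasurable u m)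
    (hGm : AEStronglyMeasurable (minWeakGrad m u) m)
    (hmain : ∫⁻ y, ENNReal.ofReal ((u y ^ 2 + h * minWeakGrad m u y ^ 2) *
        Real.exp (2 * a * dist y x₀)) ∂m ≤
      ENNReal.ofReal K * ∫⁻ y, ENNReal.ofReal (f y ^ 2 * Real.exp (2 * a * dist y x₀)) ∂m)
    (hfi : Integrable (fun x => f x ^ 2 * Real.exp (2 * a * dist x x₀)) m) :
    Integrable (fun x => u x ^ 2 * Real.exp (2 * a * dist x x₀)) m ∧
    Integrable (fun x => minWeakGrad m u x ^ 2 * Real.exp (2 * a * dist x x₀)) m ∧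
    (∫ x, u x ^ 2 * Real.exp (2 * a * dist x x₀) ∂m) +
      h * (∫ x, minWeakGrad m u x ^ 2 * Real.exp (2 * a * dist x x₀) ∂m) ≤
      K * ∫ x, f x ^ 2 * Real.exp (2 * a * dist x x₀) ∂m := by
  have hc : Continuous (fun y => Real.exp (2 * a * dist y x₀)) := by fun_prop
  have hF : ∫⁻ y, ENNReal.ofReal (f y ^ 2 * Real.exp (2 * a * dist y x₀)) ∂m =
      ENNReal.ofReal (∫ y, f y ^ 2 * Real.exp (2 * a * dist y x₀) ∂m) :=
    (ofReal_integral_eq_lintegral_ofReal hfi
      (Filter.Eventually.of_forall fun y => by simp only [Pi.zero_apply]; positivity)).symm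
  rw [hF, ← ENNReal.ofReal_mul hK.le] at hmain
  have hI : Integrable (fun y => (u y ^ 2 + h * minWeakGrad m u y ^ 2) *
      Real.exp (2 * a * dist y x₀)) m := by
    refine ⟨(((hum.aemeasurable.pow_const 2).add
      ((hGm.aemeasurable.pow_const 2).const_mul h)).mul
        hc.measurable.aemeasurable).aestronglyMeasurable, ?_⟩
    rw [hasFiniteIntegral_iff_ofReal (Filter.Eventually.of_forall fun y => by positivity)]
    exact lt_of_le_of_lt hmain ENNReal.ofReal_lt_top
  have i1 : Integrable (fun x => u x ^ 2 * Real.exp (2 * a * dist x x₀)) m := by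
    refine hI.mono (((hum.aemeasurable.pow_const 2).mul
        hc.measurable.aemeasurable).aestronglyMeasurable)
        (Filter.Eventually.of_forall fun y => ?_)
    rw [Real.norm_eq_abs, Real.norm_eq_abs, abs_of_nonneg (by positivity),
      abs_of_nonneg (by positivity)]
    apply mul_le_mul_of_nonneg_right _ (Real.exp_pos _).le
    have : 0 ≤ h * minWeakGrad m u y ^ 2 := by positivity
    linarith
  have i2' : Integrable (fun x => h * (minWeakGrad m u x ^ 2 * Real.exp (2 * a * dist x x₀))) m := by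
    refine (hI.sub i1).congr (Filter.Eventually.of_forall fun y => ?_)
    simp only [Pi.sub_apply]
    ring
  have i2 : Integrable (fun x => minWeakGrad m u x ^ 2 * Real.exp (2 * a * dist x x₀)) m := by
    refine (i2'.const_mul h⁻¹).congr (Filter.Eventually.of_forall fun y => ?_)
    simp only
    rw [← mul_assoc, inv_mul_cancel₀ hh.ne', one_mul]
  refine ⟨i1, i2, ?_⟩
  rw [← ofReal_integral_eq_lintegral_ofReal hI
      (Filter.Eventually.of_forall fun y => by simp only [Pi.zero_apply]; positivity)] at hmain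
  have h0 : 0 ≤ K * ∫ y, f y ^ 2 * Real.exp (2 * a * dist y x₀) ∂m :=
    mul_nonneg hK.le (integral_nonneg fun y => by simp only [Pi.zero_apply]; positivity)
  have h1 := (ENNReal.ofReal_le_ofReal_iff h0).1 hmain
  rw [← integral_const_mul, ← integral_add i1 (i2.const_mul h)]
  refine le_trans (le_of_eq ?_) h1
  congr 1
  funext y
  ring

/-- exponential moments of the resolvent. -/
theorem IsRes.expo (S : CalcD m) {a₀ b : ℝ} (E : ExpInt m a₀) (hb : 0 ≤ b) {h : ℝ} (hh : 0 < h)
    (hs : 4 * h * (a₀ + b) ^ 2 ≤ 1) {f u : X → ℝ} (hf : MemLp f 2 m) (hfs : BddSupp m f)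
    (hu : IsRes m (fun _ => 0) h f u) (x : X) :
    Integrable (fun y => Real.exp (b * dist y x) * u y) m ∧
      Integrable (fun y => Real.exp (b * dist y x) * minWeakGrad m u y) m := by
  have hab : 0 ≤ a₀ + b := by have := E.pos; linarith
  have h1 := davies' S hh hab hs x hf hu
  have h2 := Dav.lintegral_bddSupp hab hf hfs x
  have h3 : ∫⁻ y, ENNReal.ofReal ((u y ^ 2 + h * minWeakGrad m u y ^ 2) *
        Real.exp (2 * (a₀ + b) * dist y x)) ∂m < ⊤ :=
    lt_of_le_of_lt h1 (ENNReal.mul_lt_top (by simp) h2)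
  refine ⟨Dav.integrable_of_expo E x hu.1.1.1 (lt_of_le_of_lt (lintegral_mono fun y => ?_) h3),
    Dav.integrable_of_expo E x hu.1.2.2.1 (lt_of_le_of_lt (?_ : _ ≤ ENNReal.ofReal h⁻¹ *
      ∫⁻ y, ENNReal.ofReal ((u y ^ 2 + h * minWeakGrad m u y ^ 2) *
        Real.exp (2 * (a₀ + b) * dist y x)) ∂m) (ENNReal.mul_lt_top (by simp) h3))⟩
  · apply ENNReal.ofReal_le_ofReal
    apply mul_le_mul_of_nonneg_right _ (Real.exp_pos _).le
    have : 0 ≤ h * minWeakGrad m u y ^ 2 := by positivity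
    linarith
  · rw [← lintegral_const_mul' _ _ (by simp)]
    refine lintegral_mono fun y => ?_
    rw [← ENNReal.ofReal_mul (by positivity)]
    apply ENNReal.ofReal_le_ofReal
    rw [← mul_assoc]
    apply mul_le_mul_of_nonneg_right _ (Real.exp_pos _).le
    have : h⁻¹ * (u y ^ 2 + h * minWeakGrad m u y ^ 2) =
      h⁻¹ * u y ^ 2 + minWeakGrad m u y ^ 2 := by
      field_simp
    rw [this]
    have : 0 ≤ h⁻¹ * u y ^ 2 := by positivity
    linarith

namespace Dav

/-- Lipschitz cut-off: `1` on the ball of radius `n+1`, `0` outside the ball of radius `2(n+1)`. -/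
def chi (o : X) (n : ℕ) (x : X) : ℝ := max 0 (min 1 (2 - dist x o / ((n : ℝ) + 1)))

theorem chi_nonneg (o : X) (n : ℕ) (x : X) : 0 ≤ chi o n x := le_max_left _ _

theorem chi_le_one (o : X) (n : ℕ) (x : X) : chi o n x ≤ 1 :=
  max_le (by norm_num) (min_le_left _ _)

theorem chi_eq_one {o : X} {n : ℕ} {x : X} (h : dist x o ≤ (n : ℝ) + 1) : chi o n x = 1 := by
  have h1 : dist x o / ((n : ℝ) + 1) ≤ 1 := by
    rw [div_le_one (by positivity)]; exact h
  unfold chi
  rw [min_eq_left (by linarith)]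
  norm_num

theorem chi_eq_zero {o : X} {n : ℕ} {x : X} (h : 2 * ((n : ℝ) + 1) ≤ dist x o) :
    chi o n x = 0 := by
  have h1 : 2 ≤ dist x o / ((n : ℝ) + 1) := by
    rw [le_div_iff₀ (by positivity)]; exact h
  unfold chi
  apply max_eq_left
  exact (min_le_right _ _).trans (by linarith)

theorem chi_lip (o : X) (n : ℕ) :
    LipschitzWith (Real.toNNReal (1 / ((n : ℝ) + 1))) (chi o n) := by
  have h : LipschitzWith (Real.toNNReal (1 / ((n : ℝ) + 1)))
      (fun x : X => 2 - dist x o / ((n : ℝ) + 1)) := by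
    apply LipschitzWith.of_le_add_mul
    intro x y
    rw [Real.coe_toNNReal _ (by positivity)]
    have h1 : dist y o ≤ dist x y + dist x o := by
      rw [dist_comm x y]; exact dist_triangle _ _ _
    have h2 : dist y o / ((n : ℝ) + 1) ≤ (dist x y + dist x o) / ((n : ℝ) + 1) := by gcongr
    rw [add_div] at h2
    have h3 : 1 / ((n : ℝ) + 1) * dist x y = dist x y / ((n : ℝ) + 1) := by ring
    linarith
  exact (h.const_min 1).const_max 0

theorem chi_cpt (o : X) (n : ℕ) (φ : X → ℝ) :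
    HasCompactSupport (fun x => chi o n x * φ x) := by
  apply HasCompactSupport.intro (isCompact_closedBall o (2 * ((n : ℝ) + 1)))
  intro x hx
  rw [Metric.mem_closedBall, not_le] at hx
  rw [chi_eq_zero hx.le, zero_mul]

/-- quadratic growth in the sense of the Kantorovich potentials. -/
def QG (o : X) (C : ℝ) (φ : X → ℝ) : Prop :=
  ∀ x x', |φ x - φ x'| ≤ C * dist x x' * (1 + dist x o + dist x' o)

theorem QG.lipBalls {o : X} {C : ℝ} {φ : X → ℝ} (hC : 0 ≤ C) (h : QG o C φ) : LipBalls φ := by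
  intro o' R
  refine ⟨Real.toNNReal (C * (1 + 2 * (|R| + dist o' o))), ?_⟩
  apply LipschitzOnWith.of_dist_le_mul
  intro x hx y hy
  rw [Real.coe_toNNReal _ (by positivity), Real.dist_eq]
  refine (h x y).trans ?_
  rw [Metric.mem_ball] at hx hy
  have h1 : dist x o ≤ |R| + dist o' o := by
    have := dist_triangle x o' o
    have := le_abs_self R
    linarith
  have h2 : dist y o ≤ |R| + dist o' o := by
    have := dist_triangle y o' o
    have := le_abs_self R
    linarith
  have h3 : 1 + dist x o + dist y o ≤ 1 + 2 * (|R| + dist o' o) := by linarith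
  calc C * dist x y * (1 + dist x o + dist y o)
      ≤ C * dist x y * (1 + 2 * (|R| + dist o' o)) := by gcongr
    _ = C * (1 + 2 * (|R| + dist o' o)) * dist x y := by ring

theorem QG.abs_le {o : X} {C : ℝ} {φ : X → ℝ} (hC : 0 ≤ C) (h : QG o C φ) (x : X) :
    |φ x| ≤ (|φ o| + C) * (1 + dist x o) ^ 2 := by
  have h1 := h x o
  rw [dist_self] at h1
  have h2 : |φ x| ≤ |φ x - φ o| + |φ o| := by
    have := abs_add_le (φ x - φ o) (φ o)
    simpa using this
  have h3 : 0 ≤ dist x o := dist_nonneg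
  have h4 : 0 ≤ |φ o| := abs_nonneg _
  have h5 : 0 ≤ C * dist x o := by positivity
  have h6 : 0 ≤ |φ o| * dist x o := by positivity
  have h7 : 0 ≤ |φ o| * dist x o ^ 2 := by positivity
  nlinarith

theorem QG.wg_le (S : CalcD m) {o : X} {C : ℝ} {φ : X → ℝ} (hC : 0 ≤ C) (h : QG o C φ) :
    ∀ᵐ x ∂m, minWeakGrad m φ x ≤ 2 * C * (1 + dist x o) := by
  refine S.wg_le_local (h.lipBalls hC) (by fun_prop) ?_
  intro x ε hε
  have h0 : 0 ≤ 2 * C * (1 + dist x o) := by
    have := dist_nonneg (x := x) (y := o)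
    positivity
  refine ⟨1 / 2, by norm_num, by linarith, ?_⟩
  apply LipschitzOnWith.of_dist_le_mul
  rw [Real.coe_toNNReal _ (by linarith)]
  intro y hy z hz
  rw [Metric.mem_ball] at hy hz
  rw [Real.dist_eq]
  refine (h y z).trans ?_
  have h1 : dist y o ≤ 1 / 2 + dist x o := by
    have := dist_triangle y x o
    linarith
  have h2 : dist z o ≤ 1 / 2 + dist x o := by
    have := dist_triangle z x o
    linarith
  have h3 : 1 + dist y o + dist z o ≤ 2 * (1 + dist x o) := by linarith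
  calc C * dist y z * (1 + dist y o + dist z o)
      ≤ C * dist y z * (2 * (1 + dist x o)) := by gcongr
    _ = (2 * C * (1 + dist x o)) * dist y z := by ring
    _ ≤ (2 * C * (1 + dist x o) + ε) * dist y z := by
        apply mul_le_mul_of_nonneg_right _ dist_nonneg
        linarith

theorem chi_wg (S : CalcD m) (o : X) (n : ℕ) :
    ∀ᵐ x ∂m, minWeakGrad m (chi o n) x ≤ 1 / ((n : ℝ) + 1) := by
  filter_upwards [S.lipOpen _ (LipBalls.of_lip (chi_lip o n)) univ isOpen_univ _
    ((chi_lip o n).lipschitzOnWith)] with x hx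
  have h1 := hx (mem_univ _)
  rwa [Real.coe_toNNReal _ (by positivity)] at h1

/-- cut-off of a function of quadratic growth is Lipschitz. -/
theorem QG.cut_lip {o : X} {C : ℝ} {φ : X → ℝ} (hC : 0 ≤ C) (h : QG o C φ) (n : ℕ) :
    ∃ L : ℝ≥0, LipschitzWith L (fun x => chi o n x * φ x) := by
  set ρ : ℝ := 2 * ((n : ℝ) + 1) with hρ
  have hρ0 : 0 ≤ ρ := by positivity
  set M : ℝ := (|φ o| + C) * (1 + ρ) ^ 2 with hM
  have hM0 : 0 ≤ M := by positivity
  refine ⟨Real.toNNReal (M + C * (1 + 2 * ρ)), ?_⟩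
  have key : ∀ x y : X, dist x o ≤ ρ → |chi o n x * φ x - chi o n y * φ y| ≤
      (M + C * (1 + 2 * ρ)) * dist x y := by
    intro x y hx
    have hφx : |φ x| ≤ M := by
      refine (h.abs_le hC x).trans ?_
      rw [hM]; gcongr
    have hχ : |chi o n x - chi o n y| ≤ dist x y := by
      have := (chi_lip o n).dist_le_mul x y
      rw [Real.dist_eq, Real.coe_toNNReal _ (by positivity)] at this
      refine this.trans ?_
      have h1 : 1 / ((n : ℝ) + 1) ≤ 1 := by
        rw [div_le_one (by positivity)]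
        have : (0 : ℝ) ≤ n := by positivity
        linarith
      have h2 : 0 ≤ dist x y := dist_nonneg
      nlinarith
    have h1 : chi o n x * φ x - chi o n y * φ y =
        (chi o n x - chi o n y) * φ x + chi o n y * (φ x - φ y) := by ring
    rw [h1]
    refine (abs_add_le _ _).trans ?_
    rw [abs_mul, abs_mul]
    have h2 : |chi o n x - chi o n y| * |φ x| ≤ dist x y * M :=
      mul_le_mul hχ hφx (abs_nonneg _) dist_nonneg
    have h3 : |chi o n y| * |φ x - φ y| ≤ C * (1 + 2 * ρ) * dist x y := by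
      rcases le_total ρ (dist y o) with h4 | h4
      · rw [chi_eq_zero h4, abs_zero, zero_mul]; positivity
      · have h5 : |chi o n y| ≤ 1 := by
          rw [abs_of_nonneg (chi_nonneg _ _ _)]; exact chi_le_one _ _ _
        have h6 : |φ x - φ y| ≤ C * (1 + 2 * ρ) * dist x y := by
          refine (h x y).trans ?_
          have : 1 + dist x o + dist y o ≤ 1 + 2 * ρ := by linarith
          calc C * dist x y * (1 + dist x o + dist y o)
              ≤ C * dist x y * (1 + 2 * ρ) := by gcongr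
            _ = C * (1 + 2 * ρ) * dist x y := by ring
        calc |chi o n y| * |φ x - φ y| ≤ 1 * |φ x - φ y| := by gcongr
          _ ≤ _ := by rw [one_mul]; exact h6
    linarith
  apply LipschitzWith.of_dist_le_mul
  intro x y
  rw [Real.coe_toNNReal _ (by positivity), Real.dist_eq]
  rcases le_total (dist x o) ρ with hx | hx
  · exact key x y hx
  · rcases le_total (dist y o) ρ with hy | hy
    · rw [abs_sub_comm, dist_comm]; exact key y x hy
    · rw [chi_eq_zero hx, chi_eq_zero hy]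
      simp only [zero_mul, sub_self, abs_zero]
      positivity

end Dav

namespace Dav

theorem sq_le_exp {t : ℝ} (ht : 0 ≤ t) : (1 + t) ^ 2 ≤ 2 * Real.exp (1 * t) := by
  have := Real.quadratic_le_exp_of_nonneg ht
  rw [one_mul]
  nlinarith

/-- multiplication by weights of quadratic growth. -/
theorem integrable_mul_of_expo {o : X} {g q : X → ℝ} {A : ℝ}
    (hg : Integrable (fun y => Real.exp (1 * dist y o) * g y) m)
    (hgm : AEStronglyMeasurable g m) (hq : AEStronglyMeasurable q m)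
    (hb : ∀ᵐ y ∂m, |q y| ≤ A * (1 + dist y o) ^ 2) : Integrable (fun y => q y * g y) m := by
  refine (hg.const_mul (2 * |A|)).mono (hq.mul hgm) ?_
  filter_upwards [hb] with y hy
  rw [Real.norm_eq_abs, Real.norm_eq_abs, abs_mul (q y), abs_mul (2 * |A|), abs_mul 2, abs_abs,
    abs_mul (Real.exp _), abs_of_pos (Real.exp_pos _)]
  have h1 := sq_le_exp (dist_nonneg (x := y) (y := o))
  have h2 : A * (1 + dist y o) ^ 2 ≤ |A| * (2 * Real.exp (1 * dist y o)) := by
    calc A * (1 + dist y o) ^ 2 ≤ |A| * (1 + dist y o) ^ 2 := by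
          apply mul_le_mul_of_nonneg_right (le_abs_self _) (sq_nonneg _)
      _ ≤ |A| * (2 * Real.exp (1 * dist y o)) := by
          apply mul_le_mul_of_nonneg_left h1 (abs_nonneg _)
  calc |q y| * |g y| ≤ (|A| * (2 * Real.exp (1 * dist y o))) * |g y| :=
        mul_le_mul_of_nonneg_right (hy.trans h2) (abs_nonneg _)
    _ = |2| * |A| * (Real.exp (1 * dist y o) * |g y|) := by
        rw [abs_of_pos (by norm_num : (0 : ℝ) < 2)]; ring

theorem tendsto_chi (o : X) {g : X → ℝ} (hg : Integrable g m) :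
    Tendsto (fun n : ℕ => ∫ x, chi o n x * g x ∂m) atTop (𝓝 (∫ x, g x ∂m)) := by
  apply tendsto_integral_of_dominated_convergence (fun x => |g x|)
  · intro n
    exact ((chi_lip o n).continuous.aestronglyMeasurable).mul hg.1
  · exact hg.abs
  · intro n
    refine Filter.Eventually.of_forall fun x => ?_
    rw [Real.norm_eq_abs, abs_mul, abs_of_nonneg (chi_nonneg _ _ _)]
    calc chi o n x * |g x| ≤ 1 * |g x| :=
          mul_le_mul_of_nonneg_right (chi_le_one _ _ _) (abs_nonneg _)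
      _ = |g x| := one_mul _
  · refine Filter.Eventually.of_forall fun x => ?_
    apply tendsto_const_nhds.congr'
    obtain ⟨n0, hn0⟩ := exists_nat_ge (dist x o)
    filter_upwards [eventually_ge_atTop n0] with n hn
    have h1 : (n0 : ℝ) ≤ n := by exact_mod_cast hn
    rw [chi_eq_one (by linarith), one_mul]

end Dav

/-- **Testing the resolvent equation** with functions of quadratic growth. -/
theorem IsRes.test (S : CalcD m) {a₀ : ℝ} (E : ExpInt m a₀) {h : ℝ} (hh : 0 < h)
    (hs : 4 * h * (a₀ + 1) ^ 2 ≤ 1) {f u : X → ℝ} (hf : MemLp f 2 m) (hfs : BddSupp m f)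
    (hu : IsRes m (fun _ => 0) h f u) {o : X} {C : ℝ} {φ : X → ℝ} (hC : 0 ≤ C)
    (hφ : Dav.QG o C φ) :
    Integrable (gradPairing m φ u) m ∧ Integrable (fun x => φ x * u x) m ∧
      Integrable (fun x => φ x * f x) m ∧
      h * (∫ x, gradPairing m φ u x ∂m) + ∫ x, φ x * u x ∂m = ∫ x, φ x * f x ∂m := by
  obtain ⟨hEu, hEG⟩ := IsRes.expo S E zero_le_one hh hs hf hfs hu o
  have hEf : Integrable (fun y => Real.exp (1 * dist y o) * f y) m :=
    Dav.integrable_of_expo E o hf.1
      (Dav.lintegral_bddSupp (by have := E.pos; linarith) hf hfs o)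
  have hφL : LipBalls φ := hφ.lipBalls hC
  have hφs : IsSobolevLoc m φ := S.lipLoc _ hφL
  have hφc : Continuous φ := by
    rw [continuous_iff_continuousAt]
    intro x
    obtain ⟨L, hL⟩ := hφL x 1
    exact hL.continuousOn.continuousAt (Metric.ball_mem_nhds x one_pos)
  have hφm : AEStronglyMeasurable φ m := hφc.aestronglyMeasurable
  have hum : AEStronglyMeasurable u m := hu.1.1.1
  have hGm : AEStronglyMeasurable (minWeakGrad m u) m := S.aesm _
  have iφu : Integrable (fun x => φ x * u x) m :=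
    Dav.integrable_mul_of_expo hEu hum hφm (Filter.Eventually.of_forall (hφ.abs_le hC))
  have iφf : Integrable (fun x => φ x * f x) m :=
    Dav.integrable_mul_of_expo hEf hf.1 hφm (Filter.Eventually.of_forall (hφ.abs_le hC))
  have iφG : Integrable (fun x => |φ x| * minWeakGrad m u x) m :=
    Dav.integrable_mul_of_expo hEG hGm hφc.abs.aestronglyMeasurable
      (Filter.Eventually.of_forall fun y => by rw [abs_abs]; exact hφ.abs_le hC y)
  have idG : Integrable (fun x => (2 * C * (1 + dist x o)) * minWeakGrad m u x) m := by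
    have hc : Continuous (fun x : X => 2 * C * (1 + dist x o)) := by fun_prop
    refine Dav.integrable_mul_of_expo (A := 2 * C) hEG hGm hc.aestronglyMeasurable
      (Filter.Eventually.of_forall fun y => ?_)
    have h1 : 0 ≤ dist y o := dist_nonneg
    rw [abs_of_nonneg (by positivity)]
    apply mul_le_mul_of_nonneg_left _ (by positivity)
    nlinarith
  have iP' : Integrable (gradPairing m u φ) m := by
    refine idG.mono (S.aesm_pair _ _) ?_
    filter_upwards [S.cs u φ hu.1.2.1 hφs, hφ.wg_le S hC, S.nonneg u] with x h1 h2 h3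
    rw [Real.norm_eq_abs, Real.norm_eq_abs]
    refine h1.trans ?_
    rw [abs_of_nonneg (mul_nonneg (by have := dist_nonneg (x := x) (y := o); positivity) h3)]
    rw [mul_comm]
    exact mul_le_mul_of_nonneg_right h2 h3
  have iP : Integrable (gradPairing m φ u) m := by
    refine iP'.congr ?_
    filter_upwards [S.symm u φ hu.1.2.1 hφs] with x hx using hx
  refine ⟨iP, iφu, iφf, ?_⟩
  -- the equation for the truncated functions
  have heq : ∀ n : ℕ, h * ((∫ x, Dav.chi o n x * gradPairing m u φ x ∂m) +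
      ∫ x, φ x * gradPairing m u (Dav.chi o n) x ∂m) +
      ∫ x, Dav.chi o n x * (φ x * u x) ∂m = ∫ x, Dav.chi o n x * (φ x * f x) ∂m := by
    intro n
    obtain ⟨L, hL⟩ := hφ.cut_lip hC n
    have hv : IsSobolev m (fun x => Dav.chi o n x * φ x) :=
      S.lipCpt _ L hL (Dav.chi_cpt o n φ)
    have h1 := hu.2 _ hv
    rw [dav_wm_zero] at h1
    have hχL : LipBalls (Dav.chi o n) := LipBalls.of_lip (Dav.chi_lip o n)
    have hχm : AEStronglyMeasurable (Dav.chi o n) m := (Dav.chi_lip o n).continuous.aestronglyMeasurable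
    have i1 : Integrable (fun x => Dav.chi o n x * gradPairing m u φ x) m := by
      refine iP'.bdd_mul (c := 1) hχm (Filter.Eventually.of_forall fun x => ?_)
      rw [Real.norm_eq_abs, abs_of_nonneg (Dav.chi_nonneg _ _ _)]
      exact Dav.chi_le_one _ _ _
    have i2 : Integrable (fun x => φ x * gradPairing m u (Dav.chi o n) x) m := by
      refine iφG.mono (hφm.mul (S.aesm_pair _ _)) ?_
      filter_upwards [S.cs u _ hu.1.2.1 (S.lipLoc _ hχL), Dav.chi_wg S o n, S.nonneg u]
        with x h2 h3 h4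
      rw [Real.norm_eq_abs, Real.norm_eq_abs, abs_mul, abs_mul, abs_abs]
      apply mul_le_mul_of_nonneg_left _ (abs_nonneg _)
      refine h2.trans ?_
      rw [abs_of_nonneg h4]
      have h5 : 1 / ((n : ℝ) + 1) ≤ 1 := by
        rw [div_le_one (by positivity)]
        have : (0 : ℝ) ≤ n := by positivity
        linarith
      calc minWeakGrad m u x * minWeakGrad m (Dav.chi o n) x ≤ minWeakGrad m u x * 1 :=
            mul_le_mul_of_nonneg_left (h3.trans h5) h4
        _ = minWeakGrad m u x := mul_one _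
    have e1 : ∫ x, gradPairing m u (fun x => Dav.chi o n x * φ x) x ∂m =
        (∫ x, Dav.chi o n x * gradPairing m u φ x ∂m) +
        ∫ x, φ x * gradPairing m u (Dav.chi o n) x ∂m := by
      rw [← integral_add i1 i2]
      apply integral_congr_ae
      filter_upwards [S.leib u _ φ hu.1.2.1 hχL hφs] with x hx using hx
    rw [e1] at h1
    have e2 : ∫ x, u x * (Dav.chi o n x * φ x) ∂m = ∫ x, Dav.chi o n x * (φ x * u x) ∂m := by
      congr 1; funext x; ring
    have e3 : ∫ x, f x * (Dav.chi o n x * φ x) ∂m = ∫ x, Dav.chi o n x * (φ x * f x) ∂m := by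
      congr 1; funext x; ring
    rw [e2, e3] at h1
    exact h1
  have hlim0 : Tendsto (fun n : ℕ => ∫ x, φ x * gradPairing m u (Dav.chi o n) x ∂m) atTop
      (𝓝 0) := by
    have hb : ∀ n : ℕ, |∫ x, φ x * gradPairing m u (Dav.chi o n) x ∂m| ≤
        1 / ((n : ℝ) + 1) * ∫ x, |φ x| * minWeakGrad m u x ∂m := by
      intro n
      have hχL : LipBalls (Dav.chi o n) := LipBalls.of_lip (Dav.chi_lip o n)
      rw [← integral_const_mul, ← Real.norm_eq_abs]
      apply norm_integral_le_of_norm_le (iφG.const_mul _)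
      filter_upwards [S.cs u _ hu.1.2.1 (S.lipLoc _ hχL), Dav.chi_wg S o n, S.nonneg u]
        with x h2 h3 h4
      rw [Real.norm_eq_abs, abs_mul]
      calc |φ x| * |gradPairing m u (Dav.chi o n) x| ≤
            |φ x| * (minWeakGrad m u x * (1 / ((n : ℝ) + 1))) := by
            apply mul_le_mul_of_nonneg_left _ (abs_nonneg _)
            exact h2.trans (mul_le_mul_of_nonneg_left h3 h4)
        _ = 1 / ((n : ℝ) + 1) * (|φ x| * minWeakGrad m u x) := by ring
    refine squeeze_zero_norm (a := fun n : ℕ => 1 / ((n : ℝ) + 1) *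
      ∫ x, |φ x| * minWeakGrad m u x ∂m) (fun n => hb n) ?_
    have h1 := (tendsto_one_div_add_atTop_nhds_zero_nat (𝕜 := ℝ)).mul_const
      (∫ x, |φ x| * minWeakGrad m u x ∂m)
    rw [zero_mul] at h1
    exact h1
  have hL := ((((Dav.tendsto_chi o iP').add hlim0).const_mul h).add (Dav.tendsto_chi o iφu))
  have hR := Dav.tendsto_chi o iφf
  have hfin := tendsto_nhds_unique (hL.congr heq) hR
  rw [add_zero] at hfin
  rw [← hfin]
  congr 2
  apply integral_congr_ae
  filter_upwards [S.symm u φ hu.1.2.1 hφs] with x hx using hx.symm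

/-- **Mass conservation.** -/
theorem IsRes.mass (S : CalcD m) {a₀ : ℝ} (E : ExpInt m a₀) {h : ℝ} (hh : 0 < h)
    (hs : 4 * h * (a₀ + 1) ^ 2 ≤ 1) {f u : X → ℝ} (hf : MemLp f 2 m) (hfs : BddSupp m f)
    (hu : IsRes m (fun _ => 0) h f u) :
    Integrable u m ∧ ∫ x, u x ∂m = ∫ x, f x ∂m := by
  rcases isEmpty_or_nonempty X with hX | ⟨⟨o⟩⟩
  · rw [Measure.eq_zero_of_isEmpty m]
    simp
  have hφ : Dav.QG o 0 (fun _ : X => (1 : ℝ)) := by intro x x'; simp
  obtain ⟨h1, h2, h3, h4⟩ := IsRes.test S E hh hs hf hfs hu le_rfl hφ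
  have h5 : ∫ x, gradPairing m (fun _ => (1 : ℝ)) u x ∂m = 0 := by
    have hL : LipBalls (fun _ : X => (1 : ℝ)) := hφ.lipBalls le_rfl
    rw [← integral_zero X ℝ (μ := m)]
    apply integral_congr_ae
    filter_upwards [S.cs _ u (S.lipLoc _ hL) hu.1.2.1, hφ.wg_le S le_rfl, S.nonneg u,
      S.nonneg (fun _ => (1 : ℝ))] with x h1 h2 h3 h4
    have h6 : minWeakGrad m (fun _ => (1 : ℝ)) x = 0 := by
      apply le_antisymm _ h4
      simpa using h2
    rw [h6, zero_mul] at h1
    exact abs_eq_zero.1 (le_antisymm h1 (abs_nonneg _))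
  rw [h5] at h4
  simp only [one_mul, mul_zero, zero_add] at h2 h4
  exact ⟨h2, h4⟩

end Crest.Agent.R242
end
end

-- ▼ part R242/DaviesFin

/-!
# R3, final statements (row 242): Davies' estimate, moments, mass conservation
-/

set_option autoImplicit false
set_option linter.unusedSectionVars false
set_option linter.unusedVariables false

open MeasureTheory Filter Set
open scoped ENNReal NNReal Topology
open Crest.GeometryTopology.SyntheticRicci

noncomputable section

namespace Crest.Agent.R242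

variable {X : Type*} [MetricSpace X] [ProperSpace X] [MeasurableSpace X] [BorelSpace X]
  {m : Measure X} [IsLocallyFiniteMeasure m] [m.IsOpenPosMeasure] {k N : ℝ}

/-- truncation at level `T`. -/
def dvTr (T r : ℝ) : ℝ := max (-T) (min r T)

theorem dvTr_lip (T : ℝ) : LipschitzWith 1 (dvTr T) :=
  (LipschitzWith.id.min_const T).const_max (-T)

theorem dvTr_abs_le {T : ℝ} (hT : 0 ≤ T) (r : ℝ) : |dvTr T r| ≤ T := by
  rw [abs_le]
  exact ⟨le_max_left _ _, max_le (by linarith) (min_le_right _ _)⟩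

theorem dvTr_eq {T r : ℝ} (h : |r| ≤ T) : dvTr T r = r := by
  rw [abs_le] at h
  unfold dvTr
  rw [min_eq_left h.2, max_eq_right h.1]

/-- Leibniz rule without boundedness assumptions. -/
theorem gp_mul_right_gen (H : Hyp m k N) {w f g : X → ℝ} (hw : IsSobolevLoc m w)
    (hf : IsSobolevLoc m f) (hg : IsSobolevLoc m g)
    (hfg : IsSobolevLoc m (fun x => f x * g x)) :
    ∀ᵐ x ∂m, gradPairing m w (fun y => f y * g y) x =
      f x * gradPairing m w g x + g x * gradPairing m w f x := by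
  have key : ∀ n : ℕ, ∀ᵐ x ∂m, |f x| ≤ n → |g x| ≤ n →
      gradPairing m w (fun y => f y * g y) x =
      f x * gradPairing m w g x + g x * gradPairing m w f x := by
    intro n
    have hn : (0 : ℝ) ≤ n := by positivity
    have hf' : IsSobolevLoc m (fun x => dvTr n (f x)) :=
      IsSobolevLoc.comp_lipschitz H.fin hf (dvTr_lip n)
    have hg' : IsSobolevLoc m (fun x => dvTr n (g x)) :=
      IsSobolevLoc.comp_lipschitz H.fin hg (dvTr_lip n)
    have hfb : LocBdd m (fun x => dvTr n (f x)) := fun _ _ =>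
      ⟨n, Filter.Eventually.of_forall fun x => dvTr_abs_le hn _⟩
    have hgb : LocBdd m (fun x => dvTr n (g x)) := fun _ _ =>
      ⟨n, Filter.Eventually.of_forall fun x => dvTr_abs_le hn _⟩
    have hfg' := sobLoc_mul H hf' hg' hfb hgb
    filter_upwards [gp_mul_right H hw hf' hg' hfb hgb, gp_local_right H hw hfg hfg',
      gp_local_right H hw hf hf', gp_local_right H hw hg hg'] with x h1 h2 h3 h4 hx hy
    rw [h2 (by rw [dvTr_eq hx, dvTr_eq hy]), h1, h3 (dvTr_eq hx).symm, h4 (dvTr_eq hy).symm,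
      dvTr_eq hx, dvTr_eq hy]
  filter_upwards [ae_all_iff.2 key] with x hx
  obtain ⟨n, hn⟩ := exists_nat_ge (max |f x| |g x|)
  exact hx n ((le_max_left _ _).trans hn) ((le_max_right _ _).trans hn)

/-- product of a Sobolev function with a bounded Lipschitz function. -/
theorem sob_bddLip_mul (H : Hyp m k N) {u ψ : X → ℝ} (hu : IsSobolev m u) (hψ : BddLip ψ) :
    IsSobolev m (fun x => ψ x * u x) := by
  obtain ⟨⟨B, hB⟩, L, hL⟩ := hψ
  have hLB : LipOnBalls ψ := fun _ _ => ⟨L, hL.lipschitzOnWith⟩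
  obtain ⟨h1, h2⟩ := IsSobolevLoc.mul_lipOnBalls H.fin hu.2.1 hLB
  have e : (fun x => u x * ψ x) = fun x => ψ x * u x := by funext x; ring
  rw [e] at h1 h2
  have h3 := minWeakGrad_le_of_lipschitzOnWith H.fin hLB isOpen_univ
    (L := L) (hL.lipschitzOnWith (s := univ))
  have hψm : AEStronglyMeasurable ψ m := hL.continuous.aestronglyMeasurable
  have hum : AEStronglyMeasurable u m := hu.1.1
  have b1 : MemLp (fun x => B * ‖u x‖) 2 m := hu.1.norm.const_mul B
  have b2 : MemLp (fun x => ‖u x‖ * L + B * minWeakGrad m u x) 2 m :=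
    (hu.1.norm.mul_const (L : ℝ)).add (hu.2.2.const_mul B)
  refine ⟨b1.mono (hψm.mul hum) (Filter.Eventually.of_forall fun x => ?_), h1,
    b2.mono (minWeakGrad_aestronglyMeasurable H.fin _) ?_⟩
  · rw [norm_mul, norm_mul, norm_norm]
    apply mul_le_mul_of_nonneg_right _ (norm_nonneg _)
    rw [Real.norm_eq_abs, Real.norm_eq_abs]
    exact (hB x).trans (le_abs_self _)
  · filter_upwards [h2, h3, minWeakGrad_nonneg (m := m) (fun y => ψ y * u y),
      minWeakGrad_nonneg (m := m) u] with x g1 g2 g3 g4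
    rw [Real.norm_eq_abs, abs_of_nonneg g3]
    refine (g1.trans ?_).trans (le_abs_self _)
    have g5 := g2 (mem_univ _)
    have g6 : |u x| * minWeakGrad m ψ x ≤ |u x| * L := mul_le_mul_of_nonneg_left g5 (abs_nonneg _)
    have g7 : |ψ x| * minWeakGrad m u x ≤ B * minWeakGrad m u x :=
      mul_le_mul_of_nonneg_right (hB x) g4
    rw [Real.norm_eq_abs]
    linarith

theorem calcD_of_hyp (H : Hyp m k N) : CalcD m where
  aesm u := minWeakGrad_aestronglyMeasurable H.fin u
  nonneg u := minWeakGrad_nonneg u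
  lipLoc ψ hψ := LipOnBalls.isSobolevLoc H.fin hψ
  lipOpen ψ hψ U hU L hL := minWeakGrad_le_of_lipschitzOnWith H.fin hψ hU hL
  lipCpt ψ L hL hc := isSobolev_of_lipschitz_hasCompactSupport H.fin hL hc
  mulLip u ψ hu hψ := sob_bddLip_mul H hu hψ
  cs u v hu hv := gp_abs_le H hu hv
  self u hu := gp_self H hu
  symm u v hu hv := gp_comm H hu hv
  leib w ψ u hw hψ hu := by
    have h1 := LipOnBalls.isSobolevLoc H.fin (f := ψ) hψ
    have h2 := (IsSobolevLoc.mul_lipOnBalls H.fin hu (g := ψ) hψ).1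
    have e : (fun x => u x * ψ x) = fun x => ψ x * u x := by funext x; ring
    rw [e] at h2
    exact gp_mul_right_gen H hw h1 hu h2

theorem bddLip_zero : BddLip (fun _ : X => (0 : ℝ)) :=
  ⟨⟨0, fun _ => by simp⟩, 0, LipschitzWith.const 0⟩

/-- Davies' estimate, constant `4`, `4 h a² ≤ 1`. -/
theorem davies4 (H : Hyp m k N) {h : ℝ} (hh : 0 < h) {a : ℝ} (ha : 0 ≤ a)
    (ha4 : 4 * h * a ^ 2 ≤ 1) {f : X → ℝ} (hf : MemLp f 2 m) (x₀ : X)
    (hfi : Integrable (fun x => f x ^ 2 * Real.exp (2 * a * dist x x₀)) m) :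
    Integrable (fun x => J m h f x ^ 2 * Real.exp (2 * a * dist x x₀)) m ∧
    Integrable (fun x => minWeakGrad m (J m h f) x ^ 2 * Real.exp (2 * a * dist x x₀)) m ∧
    (∫ x, J m h f x ^ 2 * Real.exp (2 * a * dist x x₀) ∂m) +
      h * (∫ x, minWeakGrad m (J m h f) x ^ 2 * Real.exp (2 * a * dist x x₀) ∂m) ≤
      4 * ∫ x, f x ^ 2 * Real.exp (2 * a * dist x x₀) ∂m := by
  have hu := Jr_isRes H bddLip_zero hh hf
  have S := calcD_of_hyp H
  exact Dav.real_form hh (by norm_num) x₀ hf.1 hu.1.1.1 (S.aesm _)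
    (daviesK S hh ha (by norm_num) (Dav.pi_four hh ha ha4) x₀ hf hu) hfi

/-- Davies estimate, `V = 0`. -/
theorem davies (H : Hyp m k N) {h : ℝ} (hh : 0 < h) {a : ℝ} (ha : 0 ≤ a)
    (ha8 : 8 * h * a ^ 2 ≤ 1)
    {f : X → ℝ} (hf : MemLp f 2 m) (x₀ : X)
    (hfi : Integrable (fun x => f x ^ 2 * Real.exp (2 * a * dist x x₀)) m) :
    Integrable (fun x => J m h f x ^ 2 * Real.exp (2 * a * dist x x₀)) m ∧
    Integrable (fun x => minWeakGrad m (J m h f) x ^ 2 * Real.exp (2 * a * dist x x₀)) m ∧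
    ∫ x, J m h f x ^ 2 * Real.exp (2 * a * dist x x₀) ∂m ≤
      2 * ∫ x, f x ^ 2 * Real.exp (2 * a * dist x x₀) ∂m ∧
    h * ∫ x, minWeakGrad m (J m h f) x ^ 2 * Real.exp (2 * a * dist x x₀) ∂m ≤
      2 * ∫ x, f x ^ 2 * Real.exp (2 * a * dist x x₀) ∂m := by
  have hu := Jr_isRes H bddLip_zero hh hf
  have S := calcD_of_hyp H
  obtain ⟨h1, h2, h3⟩ := Dav.real_form hh (by norm_num) x₀ hf.1 hu.1.1.1 (S.aesm _)
    (daviesK S hh ha (by norm_num) (Dav.pi_two hh ha ha8) x₀ hf hu) hfi
  have h4 : 0 ≤ ∫ x, J m h f x ^ 2 * Real.exp (2 * a * dist x x₀) ∂m :=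
    integral_nonneg fun y => by simp only [Pi.zero_apply]; positivity
  have h5 : 0 ≤ h * ∫ x, minWeakGrad m (J m h f) x ^ 2 * Real.exp (2 * a * dist x x₀) ∂m :=
    mul_nonneg hh.le (integral_nonneg fun y => by simp only [Pi.zero_apply]; positivity)
  refine ⟨h1, h2, ?_, ?_⟩
  · unfold J at *; linarith
  · unfold J at *; linarith

theorem expInt_of_hyp (H : Hyp m k N) : ∃ a₀ : ℝ, ExpInt m a₀ := by
  obtain ⟨a₀, C, h1, hC, h2⟩ := exp_integral H
  refine ⟨a₀, by linarith, fun x => ?_⟩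
  refine lt_of_le_of_lt (lintegral_mono fun y => ?_) (lt_of_le_of_lt (h2 a₀ le_rfl x)
    (ENNReal.mul_lt_top ENNReal.ofReal_lt_top (H.fin x _)))
  apply ENNReal.ofReal_le_ofReal
  have h3 : 1 ≤ (1 + a₀ * dist y x) ^ 4 := by
    apply one_le_pow₀
    have : 0 ≤ a₀ * dist y x := by positivity
    linarith
  calc Real.exp (-(2 * a₀) * dist y x) = 1 * Real.exp (-(2 * a₀) * dist y x) := (one_mul _).symm
    _ ≤ _ := mul_le_mul_of_nonneg_right h3 (Real.exp_pos _).le


/-- consequences of Davies + exponential integrability for small `h`: moments, mass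
conservation, weak equation against functions of quadratic growth. -/
theorem J_mass (H : Hyp m k N) : ∃ h₀ : ℝ, 0 < h₀ ∧ ∀ h, 0 < h → h ≤ h₀ → ∀ f : X → ℝ,
    MemLp f 2 m → BddSupp m f → ∀ o : X,
      Integrable (fun x => (1 + dist x o ^ 2) * |J m h f x|) m ∧
      Integrable (fun x => (1 + dist x o) * minWeakGrad m (J m h f) x) m ∧
      ∫ x, J m h f x ∂m = ∫ x, f x ∂m ∧
      ∀ φ : X → ℝ, (∃ A : ℝ, ∀ x x', |φ x - φ x'| ≤ A * dist x x' * (1 + dist x o + dist x' o)) →
        Integrable (fun x => gradPairing m φ (J m h f) x) m ∧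
        h * ∫ x, gradPairing m φ (J m h f) x ∂m + ∫ x, φ x * J m h f x ∂m =
          ∫ x, φ x * f x ∂m := by
  obtain ⟨a₀, E⟩ := expInt_of_hyp H
  have ha0 := E.pos
  refine ⟨1 / (4 * (a₀ + 1) ^ 2), by positivity, fun h hh hh0 f hf hfs o => ?_⟩
  have hs : 4 * h * (a₀ + 1) ^ 2 ≤ 1 := by
    rw [le_div_iff₀ (by positivity)] at hh0
    linarith
  have hu := Jr_isRes H bddLip_zero hh hf
  have S := calcD_of_hyp H
  obtain ⟨h1, h2⟩ := IsRes.expo S E zero_le_one hh hs hf hfs hu o
  have hJm : AEStronglyMeasurable (J m h f) m := hu.1.1.1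
  have hGm : AEStronglyMeasurable (minWeakGrad m (J m h f)) m := S.aesm _
  refine ⟨?_, ?_, (IsRes.mass S E hh hs hf hfs hu).2, ?_⟩
  · have hc : Continuous (fun x : X => 1 + dist x o ^ 2) := by fun_prop
    have h3 := Dav.integrable_mul_of_expo (A := 1) (q := fun x : X => 1 + dist x o ^ 2) h1 hJm
      hc.aestronglyMeasurable (Filter.Eventually.of_forall fun y => by
        have := dist_nonneg (x := y) (y := o)
        rw [abs_of_nonneg (by positivity)]
        nlinarith)
    refine h3.abs.congr (Filter.Eventually.of_forall fun x => ?_)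
    simp only [abs_mul]
    rw [abs_of_nonneg (by positivity : (0 : ℝ) ≤ 1 + dist x o ^ 2)]
    rfl
  · have hc : Continuous (fun x : X => 1 + dist x o) := by fun_prop
    exact Dav.integrable_mul_of_expo (A := 1) (q := fun x : X => 1 + dist x o) h2 hGm
      hc.aestronglyMeasurable (Filter.Eventually.of_forall fun y => by
        have := dist_nonneg (x := y) (y := o)
        rw [abs_of_nonneg (by positivity)]
        nlinarith)
  · rintro φ ⟨A, hA⟩
    have hQ : Dav.QG o |A| φ := by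
      intro x x'
      refine (hA x x').trans ?_
      have h3 : 0 ≤ dist x x' * (1 + dist x o + dist x' o) := by positivity
      have h4 := mul_le_mul_of_nonneg_right (le_abs_self A) h3
      calc A * dist x x' * (1 + dist x o + dist x' o)
          = A * (dist x x' * (1 + dist x o + dist x' o)) := by ring
        _ ≤ |A| * (dist x x' * (1 + dist x o + dist x' o)) := h4
        _ = _ := by ring
    obtain ⟨g1, g2, g3, g4⟩ := IsRes.test S E hh hs hf hfs hu (abs_nonneg A) hQ
    exact ⟨g1, g4⟩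

end Crest.Agent.R242
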