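import Crest.Agent.R242.Defs
import Mathlib
import Crest.Agent.R242.Vol1
import Crest.Agent.R242.Opt
import Crest.Agent.R242.Kant
import Crest.Agent.R242.Sob2Lip

-- ▼ part R242/Phi
section

/-!
Row 242: the truncated entropy functional `Φ_C` and its lower semicontinuity (used in [MID]).
-/

set_option autoImplicit false

open MeasureTheory Filter Set
open scoped ENNReal NNReal Topology BoundedContinuousFunction
open InformationTheory

noncomputable section

namespace Crest.Agent.R242

/-- entropy integrand, continued linearly above level `C`. -/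
def uC (C r : ℝ) : ℝ := if r ≤ C then klFun r else klFun C + Real.log C * (r - C)

lemma uC_of_le {C r : ℝ} (h : r ≤ C) : uC C r = klFun r := by simp [uC, h]

lemma uC_of_ge {C r : ℝ} (h : C ≤ r) : uC C r = klFun C + Real.log C * (r - C) := by
  rcases h.eq_or_lt with rfl | h'
  · simp [uC]
  · simp [uC, not_le.mpr h']

/-- tangent line inequality for `klFun`: `klFun r ≥ v r - (e^v - 1)`. -/
lemma klFun_young {r : ℝ} (hr : 0 ≤ r) (v : ℝ) : v * r - (Real.exp v - 1) ≤ klFun r := by
  rcases hr.eq_or_lt with rfl | hr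
  · simp [klFun]; positivity
  · have h1 : Real.log r - v + 1 ≥ 0 ∨ True := Or.inr trivial
    have h2 : 1 + (v - Real.log r) ≤ Real.exp (v - Real.log r) := by
      have := Real.add_one_le_exp (v - Real.log r); linarith
    have h3 : Real.exp (v - Real.log r) * r = Real.exp v := by
      rw [Real.exp_sub, Real.exp_log hr]; field_simp
    have h4 : (1 + (v - Real.log r)) * r ≤ Real.exp v := by
      rw [← h3]; exact mul_le_mul_of_nonneg_right h2 hr.le
    unfold klFun
    nlinarith

lemma klFun_eq_young {r : ℝ} (hr : 0 < r) :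
    klFun r = Real.log r * r - (Real.exp (Real.log r) - 1) := by
  rw [Real.exp_log hr]; unfold klFun; ring

lemma uC_young {C r v : ℝ} (hC : 0 < C) (hr : 0 ≤ r) (hv : v ≤ Real.log C) :
    v * r - (Real.exp v - 1) ≤ uC C r := by
  rcases le_total r C with h | h
  · rw [uC_of_le h]; exact klFun_young hr v
  · rw [uC_of_ge h]
    have h1 := klFun_young hC.le v
    have h2 : v * (r - C) ≤ Real.log C * (r - C) :=
      mul_le_mul_of_nonneg_right hv (by linarith)
    nlinarith

lemma uC_eq_young {C r : ℝ} (hC : 0 < C) (hr : 0 < r) :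
    uC C r = min (Real.log r) (Real.log C) * r -
      (Real.exp (min (Real.log r) (Real.log C)) - 1) := by
  rcases le_total r C with h | h
  · rw [uC_of_le h, min_eq_left (Real.log_le_log hr h)]
    exact klFun_eq_young hr
  · rw [uC_of_ge h, min_eq_right (Real.log_le_log hC h), klFun_eq_young hC]
    ring

lemma uC_zero {C : ℝ} (hC : 0 ≤ C) : uC C 0 = 1 := by
  rw [uC_of_le hC]; simp [klFun]

lemma uC_nonneg {C r : ℝ} (hC : 1 ≤ C) (hr : 0 ≤ r) : 0 ≤ uC C r := by
  have := uC_young (C := C) (v := 0) (by linarith) hr (Real.log_nonneg hC)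
  simpa using this

lemma continuous_uC {C : ℝ} : Continuous (uC C) := by
  unfold uC
  refine Continuous.if_le ?_ ?_ continuous_id continuous_const ?_
  · exact continuous_klFun
  · fun_prop
  · intro x hx; subst hx; simp

/-- slope bound -/
lemma uC_sub_le {C r r' : ℝ} (hC : 0 < C) (hr : 0 ≤ r) (h : r ≤ r') :
    uC C r' - uC C r ≤ Real.log C * (r' - r) := by
  rcases h.eq_or_lt with rfl | hlt
  · simp
  have hr' : 0 < r' := lt_of_le_of_lt hr hlt
  rw [uC_eq_young hC hr']
  set v := min (Real.log r') (Real.log C) with hv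
  have h1 := uC_young hC hr (v := v) (min_le_right _ _)
  have h2 : v * (r' - r) ≤ Real.log C * (r' - r) :=
    mul_le_mul_of_nonneg_right (min_le_right _ _) (by linarith)
  nlinarith

/-- strict slope bound below level `C` -/
lemma uC_sub_lt {C r r' : ℝ} (hC : 0 < C) (hr : 0 ≤ r) (h : r < r') (hrC : r < C) :
    uC C r' - uC C r < Real.log C * (r' - r) := by
  -- go through the point `s = min r' ((r+C)/2)`
  set s := min r' ((r + C) / 2) with hs
  have hrs : r < s := lt_min h (by linarith)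
  have hsC : s < C := lt_of_le_of_lt (min_le_right _ _) (by linarith)
  have hsr' : s ≤ r' := min_le_left _ _
  have hs0 : 0 < s := lt_of_le_of_lt hr hrs
  have h1 := uC_sub_le hC hs0.le hsr'
  have h2 : uC C s - uC C r ≤ Real.log s * (s - r) := by
    rw [uC_eq_young hC hs0, min_eq_left (Real.log_le_log hs0 hsC.le)]
    have := uC_young hC hr (v := Real.log s) (Real.log_le_log hs0 hsC.le)
    nlinarith
  have h3 : Real.log s < Real.log C := Real.log_lt_log hs0 hsC
  have h4 : Real.log s * (s - r) < Real.log C * (s - r) :=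
    mul_lt_mul_of_pos_right h3 (by linarith)
  nlinarith

lemma uC_sub_eq {C r r' : ℝ} (h : C ≤ r) (h' : C ≤ r') :
    uC C r' - uC C r = Real.log C * (r' - r) := by
  rw [uC_of_ge h, uC_of_ge h']; ring

lemma uC_le_klFun {C r : ℝ} (hC : 0 < C) (hr : 0 ≤ r) : uC C r ≤ klFun r := by
  rcases hr.eq_or_lt with rfl | hr0
  · rw [uC_of_le hC.le]
  · rw [uC_eq_young hC hr0]; exact klFun_young hr _

lemma uC_le_linear {C r : ℝ} (hC : 1 ≤ C) (hr : 0 ≤ r) : uC C r ≤ 1 + Real.log C * r := by
  have := uC_sub_le (C := C) (by linarith) le_rfl hr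
  rw [uC_zero (by linarith)] at this
  linarith


section Functional

variable {X : Type*} [MeasurableSpace X]

/-- `Φ_C(μ) = ∫ u_C(ρ) dκ + log C · μ^s(X)`. -/
def Phi (κ : Measure X) (C : ℝ) (μ : Measure X) : ℝ :=
  ∫ x, uC C (μ.rnDeriv κ x).toReal ∂κ + Real.log C * (μ.singularPart κ).real univ

/-- the value of the dual functional at `v`. -/
def dualVal (κ μ : Measure X) (v : X → ℝ) : ℝ := ∫ x, v x ∂μ - ∫ x, (Real.exp (v x) - 1) ∂κ

lemma integrable_uC {κ : Measure X} [IsFiniteMeasure κ] {C : ℝ} (hC : 1 ≤ C) {f : X → ℝ≥0∞}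
    (hf : Measurable f) (hfi : ∫⁻ x, f x ∂κ ≠ ⊤) :
    Integrable (fun x => uC C (f x).toReal) κ := by
  have h1 : Integrable (fun x => (f x).toReal) κ :=
    integrable_toReal_of_lintegral_ne_top hf.aemeasurable hfi
  have h2 : Integrable (fun x => 1 + Real.log C * (f x).toReal) κ :=
    (integrable_const _).add (h1.const_mul _)
  refine h2.mono' ?_ ?_
  · exact (continuous_uC.measurable.comp hf.ennreal_toReal).aestronglyMeasurable
  · refine ae_of_all _ (fun x => ?_)
    rw [Real.norm_of_nonneg (uC_nonneg hC ENNReal.toReal_nonneg)]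
    exact uC_le_linear hC ENNReal.toReal_nonneg

lemma Phi_of_decomp {κ μ s : Measure X} [IsFiniteMeasure κ] {f : X → ℝ≥0∞}
    (hf : Measurable f) (hs : s ⟂ₘ κ) (hμ : μ = s + κ.withDensity f) (C : ℝ) :
    Phi κ C μ = ∫ x, uC C (f x).toReal ∂κ + Real.log C * s.real univ := by
  unfold Phi
  rw [← Measure.eq_singularPart hf hs hμ]
  congr 1
  refine integral_congr_ae ?_
  filter_upwards [Measure.eq_rnDeriv hf hs hμ] with x hx
  rw [hx]

lemma finite_of_decomp {κ μ s : Measure X} [IsFiniteMeasure μ] {f : X → ℝ≥0∞}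
    (hμ : μ = s + κ.withDensity f) : IsFiniteMeasure s ∧ ∫⁻ x, f x ∂κ ≠ ⊤ := by
  have h : μ univ = s univ + (κ.withDensity f) univ := by rw [hμ]; rfl
  have h' : μ univ ≠ ⊤ := measure_ne_top _ _
  rw [h] at h'
  rw [ENNReal.add_ne_top] at h'
  refine ⟨⟨lt_top_iff_ne_top.mpr h'.1⟩, ?_⟩
  have := h'.2
  rwa [withDensity_apply _ MeasurableSet.univ, Measure.restrict_univ] at this

/-- integral against a decomposed measure. -/
lemma integral_decomp {κ μ s : Measure X} [IsFiniteMeasure κ] [IsFiniteMeasure μ]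
    {f : X → ℝ≥0∞} (hf : Measurable f) (hμ : μ = s + κ.withDensity f) {v : X → ℝ}
    (hv : Measurable v) {b : ℝ} (hb : ∀ x, |v x| ≤ b) :
    ∫ x, v x ∂μ = ∫ x, v x ∂s + ∫ x, v x * (f x).toReal ∂κ ∧
      Integrable (fun x => v x * (f x).toReal) κ := by
  obtain ⟨hs, hfi⟩ := finite_of_decomp hμ
  have hft : ∀ᵐ x ∂κ, f x < ⊤ := ae_lt_top hf hfi
  have hfin : IsFiniteMeasure (κ.withDensity f) := isFiniteMeasure_withDensity hfi
  have hvs : ∀ (η : Measure X) [IsFiniteMeasure η], Integrable v η := fun η _ =>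
    Integrable.of_bound hv.aestronglyMeasurable b (ae_of_all _ hb)
  have h1 : Integrable (fun x => (f x).toReal) κ :=
    integrable_toReal_of_lintegral_ne_top hf.aemeasurable hfi
  constructor
  · rw [hμ, integral_add_measure (hvs s) (hvs _),
      integral_withDensity_eq_integral_toReal_smul hf hft]
    simp only [smul_eq_mul, mul_comm]
  · exact h1.bdd_mul hv.aestronglyMeasurable (ae_of_all _ hb)

lemma dualVal_le_Phi {κ μ : Measure X} [IsFiniteMeasure κ] [IsFiniteMeasure μ] {C : ℝ}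
    (hC : 1 ≤ C) {v : X → ℝ} (hv : Measurable v) {b : ℝ} (hb : ∀ x, |v x| ≤ b)
    (hvC : ∀ x, v x ≤ Real.log C) : dualVal κ μ v ≤ Phi κ C μ := by
  set s := μ.singularPart κ with hs
  set f := μ.rnDeriv κ with hf
  have hfm : Measurable f := Measure.measurable_rnDeriv _ _
  have hμ : μ = s + κ.withDensity f := (Measure.singularPart_add_rnDeriv μ κ).symm
  obtain ⟨hsf, hfi⟩ := finite_of_decomp hμ
  obtain ⟨h1, h2⟩ := integral_decomp hfm hμ hv hb
  have hexp : Integrable (fun x => Real.exp (v x) - 1) κ := by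
    refine Integrable.of_bound (by fun_prop) (Real.exp b + 1) (ae_of_all _ fun x => ?_)
    rw [Real.norm_eq_abs, abs_le]
    have := Real.exp_pos (v x)
    have h3 : Real.exp (v x) ≤ Real.exp b := Real.exp_le_exp.mpr ((le_abs_self _).trans (hb x))
    have h4 := Real.exp_pos b
    constructor <;> linarith
  unfold dualVal
  have h3 : ∫ x, v x ∂s ≤ Real.log C * s.real univ := by
    calc ∫ x, v x ∂s ≤ ∫ _, Real.log C ∂s := by
          refine integral_mono (Integrable.of_bound hv.aestronglyMeasurable b (ae_of_all _ hb))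
            (integrable_const _) hvC
      _ = Real.log C * s.real univ := by simp [mul_comm]
  have h4 : ∫ x, v x * (f x).toReal ∂κ - ∫ x, (Real.exp (v x) - 1) ∂κ ≤
      ∫ x, uC C (f x).toReal ∂κ := by
    rw [← integral_sub h2 hexp]
    refine integral_mono (h2.sub hexp) (integrable_uC hC hfm hfi) (fun x => ?_)
    exact uC_young (by linarith) ENNReal.toReal_nonneg (hvC x)
  rw [h1]
  unfold Phi
  linarith

lemma exp_sub_le {C a b : ℝ} (hC : 0 < C) (ha : a ≤ Real.log C) (hb : b ≤ Real.log C) :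
    |Real.exp a - Real.exp b| ≤ C * |a - b| := by
  have key : ∀ a b : ℝ, a ≤ Real.log C → Real.exp a - Real.exp b ≤ C * |a - b| := by
    intro a b ha
    have h1 : Real.exp a ≤ C := (Real.le_log_iff_exp_le hC).mp ha
    have h2 : Real.exp b ≥ Real.exp a * (1 + (b - a)) := by
      have : Real.exp b = Real.exp a * Real.exp (b - a) := by rw [← Real.exp_add]; ring_nf
      rw [this]
      exact mul_le_mul_of_nonneg_left (by linarith [Real.add_one_le_exp (b - a)])
        (Real.exp_pos a).le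
    have h3 : Real.exp a * (a - b) ≤ C * |a - b| :=
      (mul_le_mul_of_nonneg_left (le_abs_self _) (Real.exp_pos a).le).trans
        (mul_le_mul_of_nonneg_right h1 (abs_nonneg _))
    nlinarith
  rw [abs_le]
  constructor
  · have := key b a hb
    rw [abs_sub_comm] at this; linarith
  · exact key a b ha

/-- pointwise near-optimal exponent: `log` of the clamp of `r` to `[e^{-n}, C]`. -/
lemma clamp_val {C r : ℝ} (hC : 1 ≤ C) (hr : 0 ≤ r) (n : ℕ) :
    uC C r - Real.exp (-n) ≤
      Real.log (min (max r (Real.exp (-n))) C) * r -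
        (Real.exp (Real.log (min (max r (Real.exp (-n))) C)) - 1) := by
  have hC0 : 0 < C := by linarith
  have hE : 0 < Real.exp (-(n : ℝ)) := Real.exp_pos _
  have hE1 : Real.exp (-(n : ℝ)) ≤ 1 := by
    rw [Real.exp_le_one_iff]; simp
  rcases le_total (Real.exp (-(n : ℝ))) r with h | h
  · rw [max_eq_left h]
    have hr0 : 0 < r := lt_of_lt_of_le hE h
    rw [uC_eq_young hC0 hr0]
    rcases le_total r C with h' | h'
    · rw [min_eq_left h', min_eq_left (Real.log_le_log hr0 h')]; linarith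
    · rw [min_eq_right h', min_eq_right (Real.log_le_log hC0 h')]; linarith
  · rw [max_eq_right h, min_eq_left (hE1.trans hC), Real.log_exp, uC_of_le (h.trans (hE1.trans hC))]
    unfold klFun
    have : r * Real.log r ≤ r * (-(n : ℝ)) := by
      rcases hr.eq_or_lt with rfl | hr0
      · simp
      · refine mul_le_mul_of_nonneg_left ?_ hr
        calc Real.log r ≤ Real.log (Real.exp (-(n : ℝ))) := Real.log_le_log hr0 h
          _ = _ := Real.log_exp _
    nlinarith

end Functional

section Topological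

variable {X : Type*} [PseudoMetricSpace X] [MeasurableSpace X] [BorelSpace X]

lemma exists_dualVal_gt {κ μ : Measure X} [IsFiniteMeasure κ] [IsFiniteMeasure μ] {C : ℝ}
    (hC : 1 ≤ C) {ε : ℝ} (hε : 0 < ε) :
    ∃ v : X →ᵇ ℝ, (∀ x, v x ≤ Real.log C) ∧ Phi κ C μ - ε < dualVal κ μ v := by
  classical
  have hC0 : 0 < C := by linarith
  set s := μ.singularPart κ with hs
  set f := μ.rnDeriv κ with hf
  have hfm : Measurable f := Measure.measurable_rnDeriv _ _
  have hμ : μ = s + κ.withDensity f := (Measure.singularPart_add_rnDeriv μ κ).symm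
  obtain ⟨hsf, hfi⟩ := finite_of_decomp hμ
  have hms : s ⟂ₘ κ := Measure.mutuallySingular_singularPart μ κ
  set S : Set X := hms.nullSetᶜ with hS
  have hSm : MeasurableSet S := hms.measurableSet_nullSet.compl
  have hκS : κ S = 0 := hms.measure_compl_nullSet
  have hsS : s Sᶜ = 0 := by rw [hS, compl_compl]; exact hms.measure_nullSet
  -- choose n
  obtain ⟨n, hn⟩ : ∃ n : ℕ, Real.exp (-(n : ℝ)) * κ.real univ < ε / 2 := by
    have h1 : Tendsto (fun n : ℕ => Real.exp (-(n : ℝ)) * κ.real univ) atTop (𝓝 (0 * κ.real univ)) :=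
      (Real.tendsto_exp_neg_atTop_nhds_zero.comp tendsto_natCast_atTop_atTop).mul_const _
    rw [zero_mul] at h1
    exact (h1.eventually (gt_mem_nhds (by positivity : (0 : ℝ) < ε / 2))).exists
  set w0 : X → ℝ := fun x => Real.log (min (max (f x).toReal (Real.exp (-n))) C) with hw0
  set w : X → ℝ := fun x => if x ∈ S then Real.log C else w0 x with hw
  have hE : 0 < Real.exp (-(n : ℝ)) := Real.exp_pos _
  have hE1 : Real.exp (-(n : ℝ)) ≤ 1 := by
    rw [Real.exp_le_one_iff]; simp
  have hw0m : Measurable w0 := by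
    apply Real.measurable_log.comp
    exact (hfm.ennreal_toReal.max measurable_const).min measurable_const
  have hwm : Measurable w := Measurable.ite hSm measurable_const hw0m
  have hw0C : ∀ x, w0 x ≤ Real.log C := fun x =>
    Real.log_le_log (lt_min (lt_of_lt_of_le hE (le_max_right _ _)) hC0) (min_le_right _ _)
  have hw0n : ∀ x, -(n : ℝ) ≤ w0 x := fun x => by
    rw [← Real.log_exp (-(n : ℝ))]
    exact Real.log_le_log hE (le_min (le_max_right _ _) (hE1.trans hC))
  have hlogC : 0 ≤ Real.log C := Real.log_nonneg hC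
  have hwC : ∀ x, w x ≤ Real.log C := fun x => by
    simp only [hw]; split_ifs
    · exact le_rfl
    · exact hw0C x
  have hwn : ∀ x, -(n : ℝ) ≤ w x := fun x => by
    simp only [hw]; split_ifs
    · have : (0:ℝ) ≤ n := Nat.cast_nonneg n
      linarith
    · exact hw0n x
  set b : ℝ := n + Real.log C with hb
  have habs : ∀ t : ℝ, -(n : ℝ) ≤ t → t ≤ Real.log C → |t| ≤ b := fun t h1 h2 => by
    have : (0:ℝ) ≤ n := Nat.cast_nonneg n
    rw [abs_le]; constructor <;> simp only [hb] <;> linarith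
  have hwb : ∀ x, |w x| ≤ b := fun x => habs _ (hwn x) (hwC x)
  have hexpI : ∀ v : X → ℝ, Measurable v → (∀ x, |v x| ≤ b) →
      Integrable (fun x => Real.exp (v x) - 1) κ := by
    intro v hvm hvb
    refine Integrable.of_bound (by fun_prop) (Real.exp b + 1) (ae_of_all _ fun x => ?_)
    rw [Real.norm_eq_abs, abs_le]
    have := Real.exp_pos (v x)
    have h3 : Real.exp (v x) ≤ Real.exp b := Real.exp_le_exp.mpr ((le_abs_self _).trans (hvb x))
    have h4 := Real.exp_pos b
    constructor <;> linarith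
  -- value at `w`
  have hval : Phi κ C μ - ε / 2 < dualVal κ μ w := by
    obtain ⟨h1, h2⟩ := integral_decomp hfm hμ hwm hwb
    unfold dualVal
    rw [h1]
    have h3 : ∫ x, w x ∂s = Real.log C * s.real univ := by
      have : ∀ᵐ x ∂s, w x = Real.log C := by
        have : ∀ᵐ x ∂s, x ∈ S := by
          rw [ae_iff]; exact hsS
        filter_upwards [this] with x hx
        simp [hw, hx]
      rw [integral_congr_ae this]
      simp [mul_comm]
    have h4 : ∫ x, uC C (f x).toReal ∂κ - Real.exp (-(n : ℝ)) * κ.real univ ≤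
        ∫ x, w x * (f x).toReal ∂κ - ∫ x, (Real.exp (w x) - 1) ∂κ := by
      rw [← integral_sub h2 (hexpI w hwm hwb)]
      have : Real.exp (-(n : ℝ)) * κ.real univ = ∫ _, Real.exp (-(n : ℝ)) ∂κ := by
        simp [mul_comm]
      rw [this, ← integral_sub (integrable_uC hC hfm hfi) (integrable_const _)]
      refine integral_mono_ae ((integrable_uC hC hfm hfi).sub (integrable_const _))
        (h2.sub (hexpI w hwm hwb)) ?_
      have hnS : ∀ᵐ x ∂κ, x ∉ S := by
        rw [ae_iff]; simpa using hκS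
      filter_upwards [hnS] with x hx
      simp only [hw, hx, if_false, hw0]
      exact clamp_val hC ENNReal.toReal_nonneg n
    unfold Phi
    rw [h3]
    linarith
  -- approximation by continuous functions
  set η : ℝ := ε / (4 * (1 + C)) with hη
  have hη0 : 0 < η := by positivity
  have hwi : Integrable w (μ + κ) :=
    Integrable.of_bound hwm.aestronglyMeasurable b (ae_of_all _ hwb)
  obtain ⟨g, hg, -⟩ := hwi.exists_boundedContinuous_integral_sub_le hη0
  -- clamp
  let v : X →ᵇ ℝ := BoundedContinuousFunction.ofNormedAddCommGroup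
    (fun x => max (-(n : ℝ)) (min (g x) (Real.log C))) (by fun_prop) b (by
      intro x
      rw [Real.norm_eq_abs]
      have : (0:ℝ) ≤ n := Nat.cast_nonneg n
      exact habs _ (le_max_left _ _) (max_le (by linarith) (min_le_right _ _)))
  have hv : ∀ x, v x = max (-(n : ℝ)) (min (g x) (Real.log C)) := fun x => rfl
  have hn0 : (0:ℝ) ≤ n := Nat.cast_nonneg n
  have hvC : ∀ x, v x ≤ Real.log C := fun x => by
    rw [hv]; exact max_le (by linarith) (min_le_right _ _)
  have hvn : ∀ x, -(n : ℝ) ≤ v x := fun x => by rw [hv]; exact le_max_left _ _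
  have hvb : ∀ x, |v x| ≤ b := fun x => habs _ (hvn x) (hvC x)
  have hvw : ∀ x, |v x - w x| ≤ |w x - g x| := fun x => by
    rw [hv, abs_sub_comm (w x) (g x)]
    have h1 := hwn x; have h2 := hwC x
    rcases le_total (g x) (Real.log C) with h3 | h3
    · rw [min_eq_left h3]
      rcases le_total (g x) (-(n:ℝ)) with h4 | h4
      · rw [max_eq_left h4]
        rw [abs_of_nonpos (by linarith), abs_of_nonpos (by linarith)]
        linarith
      · rw [max_eq_right h4]
    · rw [min_eq_right h3, max_eq_right (by linarith)]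
      rw [abs_of_nonneg (by linarith), abs_of_nonneg (by linarith)]
      linarith
  have hvm : Measurable v := v.continuous.measurable
  have hdiff : ∀ (ν : Measure X) [IsFiniteMeasure ν], Integrable (fun x => |v x - w x|) ν := by
    intro ν _
    have h5 : Integrable (fun x => v x - w x) ν :=
      (Integrable.of_bound hvm.aestronglyMeasurable b (ae_of_all _ hvb)).sub
        (Integrable.of_bound hwm.aestronglyMeasurable b (ae_of_all _ hwb))
    exact h5.abs
  have hsum : ∫ x, |v x - w x| ∂μ + ∫ x, |v x - w x| ∂κ ≤ η := by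
    rw [← integral_add_measure (hdiff μ) (hdiff κ)]
    refine le_trans ?_ hg
    refine integral_mono (hdiff _) ?_ (fun x => ?_)
    · exact (hwi.sub (g.integrable _)).norm
    · simp only [Real.norm_eq_abs]; exact hvw x
  have hI1 : 0 ≤ ∫ x, |v x - w x| ∂μ := integral_nonneg fun x => abs_nonneg _
  have hI2 : 0 ≤ ∫ x, |v x - w x| ∂κ := integral_nonneg fun x => abs_nonneg _
  refine ⟨v, hvC, ?_⟩
  have hd1 : ∫ x, w x ∂μ - ∫ x, |v x - w x| ∂μ ≤ ∫ x, v x ∂μ := by
    have hwI : Integrable w μ := Integrable.of_bound hwm.aestronglyMeasurable b (ae_of_all _ hwb)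
    have hvI : Integrable v μ := Integrable.of_bound hvm.aestronglyMeasurable b (ae_of_all _ hvb)
    rw [← integral_sub hwI (hdiff μ)]
    refine integral_mono (hwI.sub (hdiff μ)) hvI (fun x => ?_)
    have := neg_abs_le (v x - w x)
    simp only; linarith
  have hd2 : ∫ x, (Real.exp (v x) - 1) ∂κ ≤
      ∫ x, (Real.exp (w x) - 1) ∂κ + C * ∫ x, |v x - w x| ∂κ := by
    rw [← integral_const_mul, ← integral_add (hexpI w hwm hwb) ((hdiff κ).const_mul C)]
    refine integral_mono (hexpI v hvm hvb) ((hexpI w hwm hwb).add ((hdiff κ).const_mul C))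
      (fun x => ?_)
    have := (le_abs_self _).trans (exp_sub_le hC0 (hvC x) (hwC x))
    simp only; linarith
  unfold dualVal at hval ⊢
  have hfin : (1 + C) * η = ε / 4 := by
    rw [hη]; field_simp
  have h7 : ∫ x, |v x - w x| ∂μ + C * ∫ x, |v x - w x| ∂κ ≤ (1 + C) * η := by
    nlinarith
  linarith

/-- the dual functional is weakly continuous. -/
lemma continuous_dualVal (κ : Measure X) (v : X →ᵇ ℝ) :
    Continuous (fun μ : ProbabilityMeasure X => dualVal κ (μ : Measure X) v) := by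
  unfold dualVal
  refine Continuous.sub ?_ continuous_const
  exact continuous_iff_continuousAt.mpr fun μ =>
    (ProbabilityMeasure.tendsto_iff_forall_integral_tendsto.mp tendsto_id) v

/-- lower semicontinuity of `Φ_C`. -/
lemma lowerSemicontinuous_Phi (κ : Measure X) [IsFiniteMeasure κ] {C : ℝ} (hC : 1 ≤ C) :
    LowerSemicontinuous (fun μ : ProbabilityMeasure X => Phi κ C (μ : Measure X)) := by
  intro μ y hy
  obtain ⟨v, hvC, hv⟩ := exists_dualVal_gt (κ := κ) (μ := (μ : Measure X)) hC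
    (sub_pos.mpr hy)
  have hv' : y < dualVal κ (μ : Measure X) v := by
    have : Phi κ C (μ : Measure X) - (Phi κ C (μ : Measure X) - y) = y := by ring
    rw [this] at hv; exact hv
  have := ((continuous_dualVal κ v).tendsto μ).eventually (lt_mem_nhds hv')
  filter_upwards [this] with μ' hμ'
  refine lt_of_lt_of_le hμ' ?_
  exact dualVal_le_Phi hC v.continuous.measurable (b := ‖v‖) (fun x => v.norm_coe_le_norm x) hvC

end Topological

end Crest.Agent.R242
end
end

-- ▼ part R242/MinArg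
section

/-!
Row 242: abstract form of Rajala's argument: minimisers of `Φ_C` in a class of measures closed
under replacement have density at most `C`.
-/

set_option autoImplicit false

open MeasureTheory Filter Set
open scoped ENNReal NNReal Topology
open InformationTheory

noncomputable section

namespace Crest.Agent.R242

variable {X : Type*} [MeasurableSpace X]

/-- mass of the super level set of the density. -/
def lev (κ : Measure X) (C : ℝ) (ν : Measure X) : ℝ :=
  κ.real {x | C < (ν.rnDeriv κ x).toReal}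

/-- the modified measure. -/
def modif (ν κ : Measure X) (T : Set X) (g : X → ℝ≥0∞) (δ : ℝ≥0) : Measure X :=
  (1 - δ) • ν.restrict T + ν.restrict Tᶜ + ((δ : ℝ≥0∞) * ν T) • κ.withDensity g

lemma modif_step {κ : Measure X} [IsFiniteMeasure κ] {C e : ℝ} (hC : 1 ≤ C) (he : 0 < e)
    {ν : Measure X} [IsProbabilityMeasure ν] {S0 : Set X} (hS0 : MeasurableSet S0)
    (hκS : κ S0 = 0) (hsS : ν.singularPart κ S0ᶜ = 0)
    {A : Set X} (hA : A = {x | C + e < (ν.rnDeriv κ x).toReal})
    {g : X → ℝ≥0∞} (hg : Measurable g) (hg1 : ∫⁻ x, g x ∂κ = 1)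
    (hp : 0 < ν.real (A ∪ S0))
    {δ : ℝ≥0} (hδ0 : 0 < δ) (hδ1 : δ < 1) (hδ : C < (1 - (δ : ℝ)) * (C + e))
    (hmin : Phi κ C ν ≤ Phi κ C (modif ν κ (A ∪ S0) g δ)) :
    Phi κ C (modif ν κ (A ∪ S0) g δ) ≤ Phi κ C ν ∧
      κ.real {x | g x ≠ 0} ≤ lev κ C (modif ν κ (A ∪ S0) g δ) := by
  classical
  set s := ν.singularPart κ with hs
  set f := ν.rnDeriv κ with hf
  set T := A ∪ S0 with hT
  have hfm : Measurable f := Measure.measurable_rnDeriv _ _
  have hν : ν = s + κ.withDensity f := (Measure.singularPart_add_rnDeriv ν κ).symm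
  obtain ⟨hsf, hfi⟩ := finite_of_decomp hν
  have hms : s ⟂ₘ κ := Measure.mutuallySingular_singularPart ν κ
  have hAm : MeasurableSet A := by
    rw [hA]; exact measurableSet_lt measurable_const hfm.ennreal_toReal
  have hTm : MeasurableSet T := hAm.union hS0
  have hft : ∀ᵐ x ∂κ, f x < ⊤ := ae_lt_top hfm hfi
  have hgt : ∀ᵐ x ∂κ, g x < ⊤ := ae_lt_top hg (by rw [hg1]; exact ENNReal.one_ne_top)
  set p : ℝ≥0∞ := ν T with hpdef
  have hpt : p ≠ ⊤ := measure_ne_top _ _
  have hp0 : 0 < p.toReal := hp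
  -- decomposition of the modified measure
  have hTA : (T : Set X) =ᵐ[κ] A := by
    have : κ (T \ A) = 0 := measure_mono_null (by
      rw [hT, union_sdiff_left]; exact sdiff_subset) hκS
    exact (ae_le_set.mpr this).antisymm (ae_le_set.mpr (by
      rw [hT, sdiff_eq_bot_iff.mpr subset_union_left]; exact measure_empty))
  have hTAc : (Tᶜ : Set X) =ᵐ[κ] Aᶜ := hTA.compl
  have hsT : s.restrict T = s := by
    rw [Measure.restrict_eq_self_of_ae_mem]
    rw [ae_iff]
    refine measure_mono_null ?_ hsS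
    intro x hx hx'
    exact hx (Or.inr hx')
  have hsTc : s.restrict Tᶜ = 0 := by
    rw [Measure.restrict_eq_zero]
    refine measure_mono_null ?_ hsS
    intro x hx hx'
    exact hx (Or.inr hx')
  have h1 : ν.restrict T = s + κ.withDensity (A.indicator f) := by
    conv_lhs => rw [hν]
    rw [Measure.restrict_add, hsT, restrict_withDensity hTm, Measure.restrict_congr_set hTA,
      withDensity_indicator hAm]
  have h2 : ν.restrict Tᶜ = κ.withDensity (Aᶜ.indicator f) := by
    conv_lhs => rw [hν]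
    rw [Measure.restrict_add, hsTc, zero_add, restrict_withDensity hTm.compl,
      Measure.restrict_congr_set hTAc]
    exact (withDensity_indicator hAm.compl f).symm
  set d : ℝ≥0∞ := ((1 - δ : ℝ≥0) : ℝ≥0∞) with hd
  set h : X → ℝ≥0∞ := fun x => d * A.indicator f x + Aᶜ.indicator f x + ((δ : ℝ≥0∞) * p) * g x
    with hh
  have hhm : Measurable h := by
    have := hfm.indicator hAm
    have := hfm.indicator hAm.compl
    fun_prop
  have hdec : modif ν κ T g δ = d • s + κ.withDensity h := by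
    unfold modif
    rw [h1, h2]
    have e1 : κ.withDensity h = d • κ.withDensity (A.indicator f) + κ.withDensity (Aᶜ.indicator f)
        + ((δ : ℝ≥0∞) * p) • κ.withDensity g := by
      have : h = (d • A.indicator f + Aᶜ.indicator f) + ((δ : ℝ≥0∞) * p) • g := by
        funext x; simp [hh]
      rw [this, withDensity_add_left (by
          have := hfm.indicator hAm
          have := hfm.indicator hAm.compl
          fun_prop),
        withDensity_add_left (by
          have := hfm.indicator hAm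
          fun_prop), withDensity_smul _ (hfm.indicator hAm), withDensity_smul _ hg]
    rw [e1]
    have e2 : ((1 - δ : ℝ≥0) • (s + κ.withDensity (A.indicator f)) : Measure X)
        = d • s + d • κ.withDensity (A.indicator f) := by
      rw [hd, smul_add]; rfl
    rw [e2]
    abel
  have hms' : (d • s) ⟂ₘ κ := hms.smul d
  have hPhi' := Phi_of_decomp hhm hms' hdec C
  have hPhi := Phi_of_decomp hfm hms hν C
  have hdr : d.toReal = 1 - (δ : ℝ) := by
    rw [hd, ENNReal.coe_toReal, NNReal.coe_sub hδ1.le, NNReal.coe_one]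
  have hds : (d • s).real univ = (1 - (δ : ℝ)) * s.real univ := by
    simp only [Measure.real, Measure.smul_apply, smul_eq_mul, ENNReal.toReal_mul, hdr]
  rw [hds] at hPhi'
  -- total mass of `f` on `A`
  have hfint : Integrable (fun x => (f x).toReal) κ :=
    integrable_toReal_of_lintegral_ne_top hfm.aemeasurable hfi
  have hgint : Integrable (fun x => (g x).toReal) κ :=
    integrable_toReal_of_lintegral_ne_top hg.aemeasurable (by rw [hg1]; exact ENNReal.one_ne_top)
  have hg1' : ∫ x, (g x).toReal ∂κ = 1 := by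
    rw [integral_toReal hg.aemeasurable hgt, hg1]; simp
  have hpval : p.toReal = s.real univ + ∫ x in A, (f x).toReal ∂κ := by
    have : p = s univ + ∫⁻ x in A, f x ∂κ := by
      rw [hpdef]
      have := congrArg (fun η : Measure X => η univ) h1
      simp only [Measure.restrict_apply_univ, Measure.add_apply] at this
      rw [this, withDensity_apply _ MeasurableSet.univ, Measure.restrict_univ,
        lintegral_indicator hAm]
    rw [this, ENNReal.toReal_add (measure_ne_top _ _), integral_toReal hfm.aemeasurable]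
    · rfl
    · exact ae_restrict_of_ae hft
    · exact (lt_of_le_of_lt (setLIntegral_le_lintegral _ _) (lt_top_iff_ne_top.mpr hfi)).ne
  -- real valued version of `h`
  have hhr : ∀ᵐ x ∂κ, (h x).toReal =
      (if x ∈ A then (1 - (δ : ℝ)) * (f x).toReal else (f x).toReal)
        + (δ : ℝ) * p.toReal * (g x).toReal := by
    filter_upwards [hft, hgt] with x hx hx'
    simp only [hh]
    rw [ENNReal.toReal_add, ENNReal.toReal_add, ENNReal.toReal_mul, ENNReal.toReal_mul,
      ENNReal.toReal_mul, hdr]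
    · by_cases hxA : x ∈ A
      · simp [hxA]
      · simp [hxA]
    · refine ENNReal.mul_ne_top (by rw [hd]; exact ENNReal.coe_ne_top) ?_
      by_cases hxA : x ∈ A
      · simp [hxA, hx.ne]
      · simp [hxA]
    · by_cases hxA : x ∈ A
      · simp [hxA]
      · simp [hxA, hx.ne]
    · refine ENNReal.add_ne_top.mpr ⟨?_, ?_⟩
      · refine ENNReal.mul_ne_top (by rw [hd]; exact ENNReal.coe_ne_top) ?_
        by_cases hxA : x ∈ A
        · simp [hxA, hx.ne]
        · simp [hxA]
      · by_cases hxA : x ∈ A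
        · simp [hxA]
        · simp [hxA, hx.ne]
    · exact ENNReal.mul_ne_top (ENNReal.mul_ne_top ENNReal.coe_ne_top hpt) hx'.ne
  have hδp : 0 < (δ : ℝ) * p.toReal := mul_pos (by exact_mod_cast hδ0) hp0
  have hδ1' : (δ : ℝ) < 1 := by exact_mod_cast hδ1
  have hδ0' : 0 < (δ : ℝ) := by exact_mod_cast hδ0
  have hhi : ∫⁻ x, h x ∂κ ≠ ⊤ := by
    have hfin : IsFiniteMeasure (modif ν κ T g δ) := by
      unfold modif
      have : IsFiniteMeasure (κ.withDensity g) :=
        isFiniteMeasure_withDensity (by rw [hg1]; exact ENNReal.one_ne_top)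
      have h3 : IsFiniteMeasure (((δ : ℝ≥0∞) * ν T) • κ.withDensity g) :=
        Measure.smul_finite _ (ENNReal.mul_ne_top ENNReal.coe_ne_top hpt)
      infer_instance
    exact (finite_of_decomp hdec).2
  have hhint : Integrable (fun x => (h x).toReal) κ :=
    integrable_toReal_of_lintegral_ne_top hhm.aemeasurable hhi
  have hlogC : 0 ≤ Real.log C := Real.log_nonneg hC
  have hC0 : 0 < C := by linarith
  -- value of the integral of `h - f`
  have hdiff : ∫ x, ((h x).toReal - (f x).toReal) ∂κ = (δ : ℝ) * s.real univ := by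
    have e1 : ∀ᵐ x ∂κ, (h x).toReal - (f x).toReal =
        (-(δ : ℝ)) * A.indicator (fun x => (f x).toReal) x + (δ : ℝ) * p.toReal * (g x).toReal := by
      filter_upwards [hhr] with x hx
      rw [hx]
      by_cases hxA : x ∈ A
      · simp only [hxA, if_true, indicator_of_mem]; ring
      · simp only [hxA, if_false, indicator_of_notMem, not_false_eq_true]; ring
    rw [integral_congr_ae e1, integral_add ((hfint.indicator hAm).const_mul _)
      (hgint.const_mul _), integral_const_mul, integral_const_mul, integral_indicator hAm, hg1',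
      hpval]
    ring
  -- pointwise inequality
  set D : X → ℝ := fun x => Real.log C * ((h x).toReal - (f x).toReal) -
    (uC C (h x).toReal - uC C (f x).toReal) with hD
  have hUh := integrable_uC hC hhm hhi
  have hUf := integrable_uC hC hfm hfi
  have hI1 : Integrable (fun x => Real.log C * ((h x).toReal - (f x).toReal)) κ :=
    (hhint.sub hfint).const_mul _
  have hI2 : Integrable (fun x => uC C (h x).toReal - uC C (f x).toReal) κ := hUh.sub hUf
  have hDint : Integrable D κ := hI1.sub hI2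
  have hDnn : ∀ᵐ x ∂κ, 0 ≤ D x := by
    filter_upwards [hhr] with x hx
    simp only [hD]
    rw [sub_nonneg]
    by_cases hxA : x ∈ A
    · have hfx : C + e < (f x).toReal := by rw [hA] at hxA; exact hxA
      have hhx : C ≤ (h x).toReal := by
        rw [hx, if_pos hxA]
        have h3 : (1 - (δ : ℝ)) * (C + e) ≤ (1 - (δ : ℝ)) * (f x).toReal :=
          mul_le_mul_of_nonneg_left hfx.le (by linarith)
        have h4 : 0 ≤ (δ : ℝ) * p.toReal * (g x).toReal :=
          mul_nonneg hδp.le ENNReal.toReal_nonneg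
        linarith
      exact (uC_sub_eq (by linarith) hhx).le
    · have hhx : (f x).toReal ≤ (h x).toReal := by
        rw [hx, if_neg hxA]
        have h4 : 0 ≤ (δ : ℝ) * p.toReal * (g x).toReal :=
          mul_nonneg hδp.le ENNReal.toReal_nonneg
        linarith
      exact uC_sub_le hC0 ENNReal.toReal_nonneg hhx
  have hDval : ∫ x, D x ∂κ = Phi κ C ν - Phi κ C (modif ν κ T g δ) := by
    simp only [hD]
    rw [integral_sub hI1 hI2, integral_const_mul, hdiff, integral_sub hUh hUf, hPhi, hPhi']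
    ring
  have hD0 : 0 ≤ ∫ x, D x ∂κ := integral_nonneg_of_ae hDnn
  have hle : Phi κ C (modif ν κ T g δ) ≤ Phi κ C ν := by
    rw [hDval] at hD0; linarith
  refine ⟨hle, ?_⟩
  have hDz : D =ᵐ[κ] 0 := by
    rw [← integral_eq_zero_iff_of_nonneg_ae hDnn hDint, hDval]
    linarith
  unfold lev
  refine ENNReal.toReal_mono (measure_ne_top _ _) (measure_mono_ae ?_)
  filter_upwards [hDz, hhr, Measure.eq_rnDeriv hhm hms' hdec, hgt] with x hx0 hx hxr hxg hgx
  change C < ((modif ν κ T g δ).rnDeriv κ x).toReal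
  rw [← hxr]
  have hgx' : 0 < (g x).toReal := ENNReal.toReal_pos hgx hxg.ne
  have hpos : 0 < (δ : ℝ) * p.toReal * (g x).toReal := mul_pos hδp hgx'
  by_cases hxA : x ∈ A
  · have hfx : C + e < (f x).toReal := by rw [hA] at hxA; exact hxA
    rw [hx, if_pos hxA]
    have h3 : (1 - (δ : ℝ)) * (C + e) ≤ (1 - (δ : ℝ)) * (f x).toReal :=
      mul_le_mul_of_nonneg_left hfx.le (by linarith)
    linarith
  · rw [hx, if_neg hxA]
    by_contra hcon
    rw [not_lt] at hcon
    have hfC : (f x).toReal < C := by linarith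
    have hlt := uC_sub_lt (C := C) hC0 (r := (f x).toReal) (r' := (h x).toReal)
      ENNReal.toReal_nonneg (by rw [hx, if_neg hxA]; linarith) hfC
    have : D x = 0 := hx0
    simp only [hD] at this
    linarith

/-- Abstract form of Rajala's argument. -/
theorem density_bound_of_min {κ : Measure X} [IsFiniteMeasure κ] {C c0 : ℝ} (hC : 1 ≤ C)
    (hc0 : 0 < c0) (hCc : 1 < C * c0) (𝒞 : Set (Measure X))
    (hprob : ∀ ν ∈ 𝒞, IsProbabilityMeasure ν)
    (hrep : ∀ ν ∈ 𝒞, ∀ T, MeasurableSet T → 0 < ν.real T →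
      ∃ g : X → ℝ≥0∞, Measurable g ∧ ∫⁻ x, g x ∂κ = 1 ∧ ν.real T * c0 ≤ κ.real {x | g x ≠ 0} ∧
        ∀ δ : ℝ≥0, δ < 1 → modif ν κ T g δ ∈ 𝒞)
    {μ : Measure X} (hμ : μ ∈ 𝒞) (hmin : ∀ ν ∈ 𝒞, Phi κ C μ ≤ Phi κ C ν) :
    (∀ᵐ x ∂κ, (μ.rnDeriv κ x).toReal ≤ C) ∧ μ.singularPart κ = 0 := by
  classical
  set Mn : Set (Measure X) := {ν | ν ∈ 𝒞 ∧ Phi κ C ν ≤ Phi κ C μ} with hMn
  set S : Set ℝ := (fun ν => lev κ C ν) '' Mn with hS
  have hbdd : BddAbove S := by
    refine ⟨κ.real univ, ?_⟩
    rintro _ ⟨ν, -, rfl⟩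
    exact measureReal_mono (subset_univ _)
  set σ := sSup S with hσ
  have hμM : μ ∈ Mn := ⟨hμ, le_rfl⟩
  -- key inequality
  have key : ∀ ν ∈ Mn, c0 * (C * lev κ C ν + (ν.singularPart κ).real univ) ≤ σ := by
    intro ν hν
    have hνp : IsProbabilityMeasure ν := hprob ν hν.1
    set s := ν.singularPart κ with hs
    set f := ν.rnDeriv κ with hf
    have hfm : Measurable f := Measure.measurable_rnDeriv _ _
    have hdecν : ν = s + κ.withDensity f := (Measure.singularPart_add_rnDeriv ν κ).symm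
    obtain ⟨hsf, hfi⟩ := finite_of_decomp hdecν
    have hms : s ⟂ₘ κ := Measure.mutuallySingular_singularPart ν κ
    set S0 : Set X := hms.nullSetᶜ with hS0
    have hS0m : MeasurableSet S0 := hms.measurableSet_nullSet.compl
    have hκS : κ S0 = 0 := hms.measure_compl_nullSet
    have hsS : s S0ᶜ = 0 := by rw [hS0, compl_compl]; exact hms.measure_nullSet
    -- level sets `A n`
    set A : ℕ → Set X := fun n => {x | C + 1 / ((n : ℝ) + 1) < (f x).toReal} with hA
    have hAm : ∀ n, MeasurableSet (A n) := fun n =>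
      measurableSet_lt measurable_const hfm.ennreal_toReal
    have step : ∀ n, c0 * (C * κ.real (A n) + s.real univ) ≤ σ := by
      intro n
      set e : ℝ := 1 / ((n : ℝ) + 1) with he
      have he0 : 0 < e := by positivity
      -- lower bound of the mass
      have hmass : C * κ.real (A n) + s.real univ ≤ ν.real (A n ∪ S0) := by
        have h1 : s.real univ ≤ s.real (A n ∪ S0) := by
          refine ENNReal.toReal_mono (measure_ne_top _ _) ?_
          have : s univ ≤ s S0 + s S0ᶜ := by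
            rw [← union_compl_self S0]; exact measure_union_le _ _
          rw [hsS, add_zero] at this
          exact this.trans (measure_mono subset_union_right)
        have hfin : IsFiniteMeasure (κ.withDensity f) := isFiniteMeasure_withDensity hfi
        have h2 : C * κ.real (A n) ≤ (κ.withDensity f).real (A n ∪ S0) := by
          have h3 : ENNReal.ofReal C * κ (A n) ≤ (κ.withDensity f) (A n) := by
            rw [withDensity_apply _ (hAm n), ← setLIntegral_const]
            refine setLIntegral_mono' (hAm n) (fun x hx => ?_)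
            have hx' : C + e < (f x).toReal := hx
            exact ENNReal.ofReal_le_of_le_toReal (by linarith)
          have h4 : C * κ.real (A n) = (ENNReal.ofReal C * κ (A n)).toReal := by
            rw [ENNReal.toReal_mul, ENNReal.toReal_ofReal (by linarith)]; rfl
          rw [h4]
          exact ENNReal.toReal_mono (measure_ne_top _ _)
            (h3.trans (measure_mono subset_union_left))
        have h5 : ν.real (A n ∪ S0) = s.real (A n ∪ S0) + (κ.withDensity f).real (A n ∪ S0) := by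
          conv_lhs => rw [hdecν]
          exact measureReal_add_apply
        linarith
      by_cases hp : 0 < ν.real (A n ∪ S0)
      · obtain ⟨g, hgm, hg1, hgc, hgrep⟩ := hrep ν hν.1 _ ((hAm n).union hS0m) hp
        set δ : ℝ≥0 := ⟨e / (2 * (C + e)), by positivity⟩ with hδ
        have hδr : (δ : ℝ) = e / (2 * (C + e)) := rfl
        have hδ0 : 0 < δ := by
          rw [← NNReal.coe_pos, hδr]; positivity
        have hδ1 : δ < 1 := by
          rw [← NNReal.coe_lt_coe, hδr, NNReal.coe_one, div_lt_one (by positivity)]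
          linarith
        have hδ2 : C < (1 - (δ : ℝ)) * (C + e) := by
          rw [hδr]
          have : (1 - e / (2 * (C + e))) * (C + e) = C + e / 2 := by
            field_simp; ring
          rw [this]; linarith
        have hmem := hgrep δ hδ1
        have hminν : Phi κ C ν ≤ Phi κ C (modif ν κ (A n ∪ S0) g δ) :=
          hν.2.trans (hmin _ hmem)
        obtain ⟨hle, hlev⟩ := modif_step hC he0 hS0m hκS hsS (A := A n) rfl hgm hg1 hp hδ0 hδ1 hδ2
          hminν
        have hin : lev κ C (modif ν κ (A n ∪ S0) g δ) ∈ S :=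
          ⟨_, ⟨hmem, hle.trans hν.2⟩, rfl⟩
        calc c0 * (C * κ.real (A n) + s.real univ) ≤ c0 * ν.real (A n ∪ S0) :=
              mul_le_mul_of_nonneg_left hmass hc0.le
          _ = ν.real (A n ∪ S0) * c0 := mul_comm _ _
          _ ≤ _ := hgc
          _ ≤ _ := hlev
          _ ≤ σ := le_csSup hbdd hin
      · have h0 : ν.real (A n ∪ S0) = 0 :=
          le_antisymm (not_lt.mp hp) measureReal_nonneg
        have h1 : C * κ.real (A n) + s.real univ ≤ 0 := h0 ▸ hmass
        have h2 : 0 ≤ σ := le_trans (measureReal_nonneg) (le_csSup hbdd ⟨ν, hν, rfl⟩)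
        exact (mul_nonpos_of_nonneg_of_nonpos hc0.le h1).trans h2
    -- pass to the limit
    have hmono : Monotone A := by
      intro i j hij x hx
      have hx' : C + 1 / ((i : ℝ) + 1) < (f x).toReal := hx
      change C + 1 / ((j : ℝ) + 1) < (f x).toReal
      have : 1 / ((j : ℝ) + 1) ≤ 1 / ((i : ℝ) + 1) := by
        apply one_div_le_one_div_of_le (by positivity)
        have : (i : ℝ) ≤ j := by exact_mod_cast hij
        linarith
      linarith
    have hunion : (⋃ n, A n) = {x | C < (f x).toReal} := by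
      ext x
      simp only [mem_iUnion]
      constructor
      · rintro ⟨n, hx⟩
        have hx' : C + 1 / ((n : ℝ) + 1) < (f x).toReal := hx
        change C < _
        have : 0 < 1 / ((n : ℝ) + 1) := by positivity
        linarith
      · intro hx
        have hx' : C < (f x).toReal := hx
        obtain ⟨n, hn⟩ := exists_nat_one_div_lt (sub_pos.mpr hx')
        refine ⟨n, ?_⟩
        change C + 1 / ((n : ℝ) + 1) < (f x).toReal
        linarith
    have htend : Tendsto (fun n => κ.real (A n)) atTop (𝓝 (lev κ C ν)) := by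
      unfold lev
      rw [← hunion]
      exact (ENNReal.tendsto_toReal (measure_ne_top _ _)).comp
        (tendsto_measure_iUnion_atTop hmono)
    have hlim : Tendsto (fun n => c0 * (C * κ.real (A n) + s.real univ)) atTop
        (𝓝 (c0 * (C * lev κ C ν + s.real univ))) :=
      ((htend.const_mul C).add_const _).const_mul c0
    exact le_of_tendsto hlim (Eventually.of_forall step)
  have hσ0 : σ ≤ 0 := by
    by_contra hpos
    rw [not_le] at hpos
    have hne : S.Nonempty := ⟨_, μ, hμM, rfl⟩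
    have h1 : σ ≤ σ / (c0 * C) := by
      refine csSup_le hne ?_
      rintro _ ⟨ν, hν, rfl⟩
      have := key ν hν
      have h2 : 0 ≤ (ν.singularPart κ).real univ := measureReal_nonneg
      have h3 : c0 * C * lev κ C ν ≤ σ := by nlinarith
      rw [le_div_iff₀ (by positivity)]
      linarith
    have h2 : σ / (c0 * C) < σ := by
      rw [div_lt_iff₀ (by positivity)]
      nlinarith
    linarith
  have hkμ := key μ hμM
  have hl : 0 ≤ lev κ C μ := measureReal_nonneg
  have hμp : IsProbabilityMeasure μ := hprob μ hμ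
  have hs0 : 0 ≤ (μ.singularPart κ).real univ := measureReal_nonneg
  have hC0 : 0 < C := by linarith
  have hsum : C * lev κ C μ + (μ.singularPart κ).real univ ≤ 0 := by
    by_contra hcon
    rw [not_le] at hcon
    have := mul_pos hc0 hcon
    linarith
  have hl0 : lev κ C μ = 0 := by nlinarith
  have hs00 : (μ.singularPart κ).real univ = 0 := by nlinarith
  constructor
  · have : κ {x | C < (μ.rnDeriv κ x).toReal} = 0 := by
      rwa [lev, measureReal_eq_zero_iff] at hl0
    rw [ae_iff]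
    convert this using 2
    ext x; simp
  · rw [measureReal_eq_zero_iff] at hs00
    exact Measure.measure_univ_eq_zero.mp hs00

end Crest.Agent.R242
end
end

-- ▼ part R242/MidEnt
section

/-!
Row 242: relations between `entB`, `Phi` and density bounds (used in [MID] and [DYAD]).
-/

set_option autoImplicit false
set_option linter.unusedSectionVars false

open MeasureTheory Filter Set
open scoped ENNReal NNReal Topology BoundedContinuousFunction
open InformationTheory

noncomputable section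

namespace Crest.Agent.R242

section

variable {X : Type*} [MetricSpace X] [MeasurableSpace X] {m : Measure X}

lemma mid_ofReal_integral_le {α : Type*} [MeasurableSpace α] {κ : Measure α} {F : α → ℝ}
    (hF : Integrable F κ) :
    ENNReal.ofReal (∫ x, F x ∂κ) ≤ ∫⁻ x, ENNReal.ofReal (F x) ∂κ := by
  have h1 : ∫ x, F x ∂κ ≤ ∫ x, max (F x) 0 ∂κ :=
    integral_mono hF hF.pos_part (fun x => le_max_left _ _)
  refine (ENNReal.ofReal_le_ofReal h1).trans ?_
  rw [ofReal_integral_eq_lintegral_ofReal hF.pos_part (ae_of_all _ fun x => le_max_right _ _)]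
  refine lintegral_mono fun x => ?_
  rcases le_total (F x) 0 with h | h
  · rw [max_eq_right h]; simp
  · rw [max_eq_left h]

/-- a measure carried by `B` and absolutely continuous has the same density with respect to `m`
and to its restriction. -/
lemma mid_rnDeriv_restrict [SigmaFinite m] {μ : Measure X} [IsFiniteMeasure μ] {B : Set X}
    (hB : MeasurableSet B) (hμ : μ ≪ m) (hμB : μ Bᶜ = 0) :
    μ.rnDeriv (m.restrict B) =ᵐ[m.restrict B] μ.rnDeriv m ∧
      (m.restrict B).withDensity (μ.rnDeriv m) = μ := by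
  have h1 : m.withDensity (μ.rnDeriv m) = μ := Measure.withDensity_rnDeriv_eq _ _ hμ
  have h2 : (m.restrict B).withDensity (μ.rnDeriv m) = μ := by
    rw [← restrict_withDensity hB, h1]
    exact Measure.restrict_eq_self_of_ae_mem (by rw [ae_iff]; exact hμB)
  refine ⟨?_, h2⟩
  have h3 := Measure.rnDeriv_withDensity (m.restrict B) (Measure.measurable_rnDeriv μ m)
  rwa [h2] at h3

lemma mid_entB_eq [SigmaFinite m] {μ : Measure X} [IsFiniteMeasure μ] {B : Set X}
    (hB : MeasurableSet B) (hμ : μ ≪ m) (hμB : μ Bᶜ = 0) :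
    entB m B μ = ∫⁻ x, ENNReal.ofReal (klFun (μ.rnDeriv (m.restrict B) x).toReal)
      ∂(m.restrict B) := by
  unfold entB
  refine lintegral_congr_ae ?_
  filter_upwards [(mid_rnDeriv_restrict hB hμ hμB).1] with x hx
  rw [hx]

lemma mid_singularPart [SigmaFinite m] {μ : Measure X} [IsFiniteMeasure μ] {B : Set X}
    (hB : MeasurableSet B) (hμ : μ ≪ m) (hμB : μ Bᶜ = 0) :
    μ.singularPart (m.restrict B) = 0 := by
  have h := (mid_rnDeriv_restrict hB hμ hμB).2
  rw [Measure.singularPart_eq_zero]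
  rw [← h]
  exact withDensity_absolutelyContinuous _ _

/-- `Phi ≤ entB`. -/
lemma mid_ofReal_Phi_le [SigmaFinite m] {μ : Measure X} [IsFiniteMeasure μ] {B : Set X}
    (hB : MeasurableSet B) (hmB : m B ≠ ⊤) (hμ : μ ≪ m) (hμB : μ Bᶜ = 0) {C : ℝ} (hC : 1 ≤ C) :
    ENNReal.ofReal (Phi (m.restrict B) C μ) ≤ entB m B μ := by
  have : IsFiniteMeasure (m.restrict B) := ⟨by
    rw [Measure.restrict_apply_univ]; exact lt_top_iff_ne_top.mpr hmB⟩
  rw [mid_entB_eq hB hμ hμB]
  unfold Phi
  rw [mid_singularPart hB hμ hμB]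
  simp only [Measure.real, Measure.coe_zero, Pi.zero_apply, ENNReal.toReal_zero, mul_zero,
    add_zero]
  have hi : Integrable (fun x => uC C (μ.rnDeriv (m.restrict B) x).toReal) (m.restrict B) :=
    integrable_uC hC (Measure.measurable_rnDeriv _ _) (Measure.lintegral_rnDeriv_lt_top _ _).ne
  refine (mid_ofReal_integral_le hi).trans ?_
  refine lintegral_mono fun x => ENNReal.ofReal_le_ofReal ?_
  exact uC_le_klFun (by linarith) ENNReal.toReal_nonneg

lemma mid_density_le [SigmaFinite m] {μ : Measure X} [IsFiniteMeasure μ] {B : Set X}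
    (hμB : μ Bᶜ = 0) {L : ℝ≥0∞} (hμL : μ ≤ L • m) :
    μ.rnDeriv (m.restrict B) ≤ᵐ[m.restrict B] fun _ => L := by
  have hμC' : μ ≤ L • m.restrict B := by
    have : μ = μ.restrict B :=
      (Measure.restrict_eq_self_of_ae_mem (by rw [ae_iff]; exact hμB)).symm
    rw [this, ← Measure.restrict_smul]
    exact Measure.restrict_mono_measure hμL B
  refine ae_le_of_forall_setLIntegral_le_of_sigmaFinite (Measure.measurable_rnDeriv _ _) ?_
  intro s hs _
  rw [setLIntegral_const]
  calc ∫⁻ x in s, μ.rnDeriv (m.restrict B) x ∂(m.restrict B) ≤ μ s :=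
        Measure.setLIntegral_rnDeriv_le s
    _ ≤ (L • m.restrict B) s := hμC' s
    _ = L * (m.restrict B) s := rfl

/-- `Phi = entB` when the density is at most `C`. -/
lemma mid_ofReal_Phi_eq [SigmaFinite m] {μ : Measure X} [IsFiniteMeasure μ] {B : Set X}
    (hB : MeasurableSet B) (hmB : m B ≠ ⊤) (hμB : μ Bᶜ = 0) {C : ℝ} (hC : 1 ≤ C)
    (hμC : μ ≤ ENNReal.ofReal C • m) :
    ENNReal.ofReal (Phi (m.restrict B) C μ) = entB m B μ := by
  have : IsFiniteMeasure (m.restrict B) := ⟨by
    rw [Measure.restrict_apply_univ]; exact lt_top_iff_ne_top.mpr hmB⟩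
  have hμ : μ ≪ m := Measure.absolutelyContinuous_of_le_smul hμC
  rw [mid_entB_eq hB hμ hμB]
  unfold Phi
  rw [mid_singularPart hB hμ hμB]
  simp only [Measure.real, Measure.coe_zero, Pi.zero_apply, ENNReal.toReal_zero, mul_zero,
    add_zero]
  have hi : Integrable (fun x => uC C (μ.rnDeriv (m.restrict B) x).toReal) (m.restrict B) :=
    integrable_uC hC (Measure.measurable_rnDeriv _ _) (Measure.lintegral_rnDeriv_lt_top _ _).ne
  rw [ofReal_integral_eq_lintegral_ofReal hi
    (ae_of_all _ fun x => uC_nonneg hC ENNReal.toReal_nonneg)]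
  refine lintegral_congr_ae ?_
  filter_upwards [mid_density_le hμB hμC] with x hx
  rw [uC_of_le]
  calc (μ.rnDeriv (m.restrict B) x).toReal ≤ (ENNReal.ofReal C).toReal :=
        ENNReal.toReal_mono ENNReal.ofReal_ne_top hx
    _ = C := ENNReal.toReal_ofReal (by linarith)

/-- upper bound of the entropy of a measure with density at most `L`. -/
lemma mid_entB_le [SigmaFinite m] {μ : Measure X} [IsProbabilityMeasure μ] {B : Set X}
    (hB : MeasurableSet B) (hmB : m B ≠ ⊤) (hμB : μ Bᶜ = 0) {L : ℝ} (hL : 0 < L)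
    (hμL : μ ≤ ENNReal.ofReal L • m) :
    entB m B μ ≤ ENNReal.ofReal (Real.log L + (m B).toReal - 1) ∧
      0 ≤ Real.log L + (m B).toReal - 1 := by
  have hfin : IsFiniteMeasure (m.restrict B) := ⟨by
    rw [Measure.restrict_apply_univ]; exact lt_top_iff_ne_top.mpr hmB⟩
  have hμ : μ ≪ m := Measure.absolutelyContinuous_of_le_smul hμL
  rw [mid_entB_eq hB hμ hμB]
  set κ := m.restrict B with hκ
  set f := μ.rnDeriv κ with hf
  have hfm : Measurable f := Measure.measurable_rnDeriv _ _
  have hfL : ∀ᵐ x ∂κ, f x ≤ ENNReal.ofReal L := mid_density_le hμB hμL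
  have hf1 : ∫⁻ x, f x ∂κ = 1 := by
    have h1 := (mid_rnDeriv_restrict hB hμ hμB)
    rw [lintegral_congr_ae h1.1, ← setLIntegral_univ, ← withDensity_apply _ MeasurableSet.univ,
      h1.2]
    exact measure_univ
  have hfi : Integrable (fun x => (f x).toReal) κ :=
    integrable_toReal_of_lintegral_ne_top hfm.aemeasurable (by rw [hf1]; simp)
  have hf1' : ∫ x, (f x).toReal ∂κ = 1 := by
    rw [integral_toReal hfm.aemeasurable (ae_lt_top hfm (by rw [hf1]; simp)), hf1]
    simp
  have hle : ∀ᵐ x ∂κ, klFun (f x).toReal ≤ Real.log L * (f x).toReal + 1 - (f x).toReal := by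
    filter_upwards [hfL] with x hx
    have h0 : 0 ≤ (f x).toReal := ENNReal.toReal_nonneg
    have h1 : (f x).toReal ≤ L := by
      calc (f x).toReal ≤ (ENNReal.ofReal L).toReal :=
            ENNReal.toReal_mono ENNReal.ofReal_ne_top hx
        _ = L := ENNReal.toReal_ofReal hL.le
    unfold klFun
    rcases h0.eq_or_lt with h | h
    · rw [← h]; simp
    · have : Real.log (f x).toReal ≤ Real.log L := Real.log_le_log h h1
      nlinarith
  have hG : Integrable (fun x => Real.log L * (f x).toReal + 1 - (f x).toReal) κ :=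
    ((hfi.const_mul _).add (integrable_const _)).sub hfi
  have hGi : ∫ x, (Real.log L * (f x).toReal + 1 - (f x).toReal) ∂κ =
      Real.log L + (m B).toReal - 1 := by
    have i1 : Integrable (fun x => Real.log L * (f x).toReal) κ := hfi.const_mul _
    have i2 : Integrable (fun x => Real.log L * (f x).toReal + 1) κ :=
      i1.add (integrable_const _)
    rw [integral_sub i2 hfi, integral_add i1 (integrable_const _), integral_const_mul, hf1',
      integral_const]
    simp [hκ, Measure.real]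
  have h0 : 0 ≤ᵐ[κ] fun x => Real.log L * (f x).toReal + 1 - (f x).toReal := by
    filter_upwards [hle] with x hx
    exact (klFun_nonneg ENNReal.toReal_nonneg).trans hx
  constructor
  · rw [← hGi, ofReal_integral_eq_lintegral_ofReal hG h0]
    refine lintegral_mono_ae ?_
    filter_upwards [hle] with x hx
    exact ENNReal.ofReal_le_ofReal hx
  · rw [← hGi]
    exact integral_nonneg_of_ae h0

/-- lower bound of the entropy of a measure in terms of the mass of the set where the density is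
positive. -/
lemma mid_le_entB {μ : Measure X} {B : Set X}
    (hmB : m B ≠ ⊤) {g : X → ℝ≥0∞} (hg : Measurable g) (hg1 : ∫⁻ x in B, g x ∂m = 1)
    (hμg : (μ.rnDeriv m) =ᵐ[m.restrict B] g) :
    0 < (m.restrict B).real {x | g x ≠ 0} ∧
    ENNReal.ofReal (-Real.log ((m.restrict B).real {x | g x ≠ 0}) + (m B).toReal - 1) ≤
      entB m B μ := by
  have hfin : IsFiniteMeasure (m.restrict B) := ⟨by
    rw [Measure.restrict_apply_univ]; exact lt_top_iff_ne_top.mpr hmB⟩
  have hent : entB m B μ = ∫⁻ x in B, ENNReal.ofReal (klFun (g x).toReal) ∂m := by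
    unfold entB
    refine lintegral_congr_ae ?_
    filter_upwards [hμg] with x hx
    rw [hx]
  rw [hent]
  set κ := m.restrict B with hκ
  set A : Set X := {x | g x ≠ 0} with hA
  have hAm : MeasurableSet A := hg (measurableSet_singleton 0).compl
  set a := κ.real A with ha
  have hpos : 0 < a := by
    rcases (measureReal_nonneg : 0 ≤ a).eq_or_lt with h | h
    · exfalso
      have h1 : κ A = 0 := by
        have := (measureReal_eq_zero_iff (μ := κ) (s := A)).mp h.symm
        exact this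
      have h2 : g =ᵐ[κ] 0 := by
        rw [Filter.EventuallyEq, ae_iff]
        exact h1
      rw [lintegral_congr_ae h2] at hg1
      simp at hg1
    · exact h
  refine ⟨hpos, ?_⟩
  set v := -Real.log a with hv
  have hev : Real.exp v * a = 1 := by
    rw [hv, Real.exp_neg, Real.exp_log hpos]
    field_simp
  have hgi : Integrable (fun x => (g x).toReal) κ :=
    integrable_toReal_of_lintegral_ne_top hg.aemeasurable (by rw [hg1]; simp)
  have hg1' : ∫ x, (g x).toReal ∂κ = 1 := by
    rw [integral_toReal hg.aemeasurable (ae_lt_top hg (by rw [hg1]; simp)), hg1]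
    simp
  set F : X → ℝ := fun x => v * (g x).toReal - Real.exp v * A.indicator (fun _ => (1 : ℝ)) x + 1
    with hF
  have hi1 : Integrable (A.indicator (fun _ => (1 : ℝ))) κ :=
    (integrable_const _).indicator hAm
  have hFi : Integrable F κ :=
    ((hgi.const_mul _).sub (hi1.const_mul _)).add (integrable_const _)
  have hFint : ∫ x, F x ∂κ = -Real.log a + (m B).toReal - 1 := by
    have i1 : Integrable (fun x => v * (g x).toReal) κ := hgi.const_mul _
    have i2 : Integrable (fun x => Real.exp v * A.indicator (fun _ => (1 : ℝ)) x) κ :=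
      hi1.const_mul _
    have i3 : Integrable (fun x => v * (g x).toReal -
      Real.exp v * A.indicator (fun _ => (1 : ℝ)) x) κ := i1.sub i2
    simp only [hF]
    rw [integral_add i3 (integrable_const _), integral_sub i1 i2, integral_const_mul,
      integral_const_mul, hg1', integral_indicator_const _ hAm, integral_const]
    simp only [smul_eq_mul, mul_one]
    rw [← ha, hev]
    simp only [hκ, Measure.real, Measure.restrict_apply_univ]
    ring
  rw [← hFint]
  refine (mid_ofReal_integral_le hFi).trans (lintegral_mono fun x => ENNReal.ofReal_le_ofReal ?_)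
  simp only [hF]
  by_cases hx : x ∈ A
  · rw [indicator_of_mem hx]
    have := klFun_young (r := (g x).toReal) ENNReal.toReal_nonneg v
    linarith
  · rw [indicator_of_notMem hx]
    have h0 : g x = 0 := by
      by_contra h
      exact hx h
    rw [h0]
    simp [klFun]

end

end Crest.Agent.R242
end
end

-- ▼ part R242/EntA
section

/-!
# Row 242, part ENT: auxiliary real analysis
-/

set_option autoImplicit false

open MeasureTheory Filter Set Metric
open scoped ENNReal NNReal Topology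
open Crest.GeometryTopology.SyntheticRicci

noncomputable section

namespace Crest.Agent.R242.EntAux

/-! ### lower bound for `τ` at the midpoint -/

theorem sigma_half_ge {k n θ : ℝ} (hk : 0 < k) (hn : 0 < n) (hθ : 0 ≤ θ) :
    ENNReal.ofReal (1 / 2 * Real.exp (-(k * θ ^ 2 / (8 * n)))) ≤
      distortSigma (-k) n (1 / 2) θ := by
  unfold distortSigma
  rw [if_neg (by norm_num), if_neg (by norm_num)]
  by_cases h0 : θ = 0
  · rw [if_pos h0, h0]
    simp
  · rw [if_neg h0, if_neg (by linarith), if_neg (by linarith)]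
    have hθ' : 0 < θ := lt_of_le_of_ne hθ (Ne.symm h0)
    rw [neg_neg]
    refine ENNReal.ofReal_le_ofReal ?_
    set b := θ * Real.sqrt (k / n) with hb
    have hb0 : 0 < b := mul_pos hθ' (Real.sqrt_pos.2 (div_pos hk hn))
    have e1 : 1 / 2 * θ * Real.sqrt (k / n) = b / 2 := by rw [hb]; ring
    rw [e1]
    have hs2 : 0 < Real.sinh (b / 2) := Real.sinh_pos_iff.2 (by positivity)
    have e2 : Real.sinh b = 2 * Real.sinh (b / 2) * Real.cosh (b / 2) := by
      rw [← Real.sinh_two_mul]; congr 1; ring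
    have hc : 0 < Real.cosh (b / 2) := Real.cosh_pos _
    have e3 : Real.sinh (b / 2) / Real.sinh b = 1 / 2 * (Real.cosh (b / 2))⁻¹ := by
      rw [e2]; field_simp
    rw [e3]
    have h1 : Real.cosh (b / 2) ≤ Real.exp ((b / 2) ^ 2 / 2) := Real.cosh_le_exp_half_sq _
    have e4 : (b / 2) ^ 2 / 2 = k * θ ^ 2 / (8 * n) := by
      rw [hb, div_pow, mul_pow, Real.sq_sqrt (div_pos hk hn).le]
      field_simp
      ring
    rw [e4] at h1
    rw [Real.exp_neg]
    gcongr

theorem tau_half_ge {k N θ : ℝ} (hk : 0 < k) (hN : 1 < N) (hθ : 0 ≤ θ) :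
    ENNReal.ofReal (1 / 2 * Real.exp (-(k * θ ^ 2 / 8) / N)) ≤
      distortTau (-k) N (1 / 2) θ := by
  have hN0 : 0 < N := by linarith
  have hN1 : 0 < N - 1 := by linarith
  have hs := sigma_half_ge hk hN1 hθ
  unfold distortTau
  have he : 0 ≤ (N - 1) / N := div_nonneg hN1.le hN0.le
  refine le_trans ?_ (mul_le_mul' le_rfl (ENNReal.rpow_le_rpow hs he))
  rw [ENNReal.ofReal_rpow_of_pos (by norm_num), ENNReal.ofReal_rpow_of_pos (by positivity),
    ← ENNReal.ofReal_mul (by positivity)]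
  refine le_of_eq ?_
  congr 1
  rw [Real.mul_rpow (by norm_num) (Real.exp_pos _).le, ← Real.exp_mul, ← mul_assoc,
    ← Real.rpow_add (by norm_num)]
  have e1 : 1 / N + (N - 1) / N = 1 := by field_simp; ring
  rw [e1, Real.rpow_one]
  congr 2
  field_simp

/-! ### the approximating entropies -/

/-- `N (r - r^{1-1/N}) + 1 - r`. -/
def KN (N r : ℝ) : ℝ := N * (r - r ^ (1 - 1 / N)) + 1 - r

theorem KN_nonneg {N r : ℝ} (hN : 1 < N) (hr : 0 ≤ r) : 0 ≤ KN N r := by
  have hN0 : 0 < N := by linarith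
  have h1 : 1 / N < 1 := by rw [div_lt_one hN0]; exact hN
  -- Bernoulli: `r^{1-1/N} ≤ 1 + (1-1/N)(r-1)`
  have hN' : 0 < 1 / N := by positivity
  have h := rpow_one_add_le_one_add_mul_self (s := r - 1) (by linarith)
    (p := 1 - 1 / N) (by linarith) (by linarith)
  rw [add_sub_cancel] at h
  unfold KN
  have h2 : N * (r - r ^ (1 - 1 / N)) ≥ N * (r - (1 + (1 - 1 / N) * (r - 1))) := by
    have := mul_le_mul_of_nonneg_left h hN0.le
    nlinarith
  have h3 : N * (r - (1 + (1 - 1 / N) * (r - 1))) = r - 1 := by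
    field_simp
    ring
  linarith

theorem measurable_KN (N : ℝ) : Measurable (KN N) := by
  unfold KN
  fun_prop

theorem tendsto_KN {N : ℝ} (hN : 1 < N) {r : ℝ} (hr : 0 ≤ r) :
    Tendsto (fun n : ℕ => KN (N + n) r) atTop (𝓝 (InformationTheory.klFun r)) := by
  have hlim : Tendsto (fun n : ℕ => (N + n)⁻¹) atTop (𝓝[≠] 0) := by
    rw [tendsto_nhdsWithin_iff]
    constructor
    · refine tendsto_inv_atTop_zero.comp ?_
      exact tendsto_atTop_add_const_left _ _ tendsto_natCast_atTop_atTop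
    · refine Eventually.of_forall fun n => ?_
      have : (0 : ℝ) ≤ n := Nat.cast_nonneg n
      have h2 : 0 < N + n := by linarith
      exact (inv_pos.2 h2).ne'
  rcases hr.eq_or_lt with h0 | hpos
  · have : ∀ n : ℕ, KN (N + n) r = InformationTheory.klFun r := by
      intro n
      have : (0 : ℝ) ≤ n := Nat.cast_nonneg n
      have hn : 1 < N + n := by linarith
      have h1 : 1 / (N + n) < 1 := by rw [div_lt_one (by linarith)]; exact hn
      rw [← h0, KN, InformationTheory.klFun, Real.zero_rpow (by linarith)]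
      simp
    simp only [this]
    exact tendsto_const_nhds
  · -- derivative of `s ↦ exp (-ℓ s)` at `0`
    have hd : HasDerivAt (fun s : ℝ => Real.exp (-(Real.log r) * s)) (-(Real.log r)) 0 := by
      have h1 : HasDerivAt (fun s : ℝ => -(Real.log r) * s) (-(Real.log r)) 0 := by
        simpa using (hasDerivAt_id (0 : ℝ)).const_mul (-(Real.log r))
      have h2 := h1.exp
      simpa using h2
    have h3 := (hasDerivAt_iff_tendsto_slope_zero.1 hd).comp hlim
    have h4 : Tendsto (fun n : ℕ => 1 - r - r * (((N + n)⁻¹)⁻¹ • (Real.exp (-(Real.log r) *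
        (0 + (N + n)⁻¹)) - Real.exp (-(Real.log r) * 0)))) atTop
        (𝓝 (1 - r - r * -(Real.log r))) := (h3.const_mul r).const_sub (1 - r)
    have e1 : 1 - r - r * -(Real.log r) = InformationTheory.klFun r := by
      rw [InformationTheory.klFun]; ring
    rw [e1] at h4
    refine h4.congr fun n => ?_
    have : (0 : ℝ) ≤ n := Nat.cast_nonneg n
    have hn : 0 < N + n := by linarith
    have e2 : r ^ (1 - 1 / (N + n)) = r * Real.exp (-(Real.log r) * (N + n)⁻¹) := by
      rw [Real.rpow_def_of_pos hpos]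
      have : Real.log r * (1 - 1 / (N + n)) = Real.log r + -(Real.log r) * (N + n)⁻¹ := by
        rw [one_div]; ring
      rw [this, Real.exp_add, Real.exp_log hpos]
    rw [KN, e2, zero_add, mul_zero, Real.exp_zero, inv_inv, smul_eq_mul]
    ring

theorem one_sub_div_le_exp (N x : ℝ) : 1 - x / N ≤ Real.exp (-x / N) := by
  have := Real.add_one_le_exp (-x / N)
  have h2 : -x / N = -(x / N) := by ring
  rw [h2] at this ⊢
  linarith

theorem ofReal_integral_le {Y : Type*} [MeasurableSpace Y] {μ : Measure Y} {f : Y → ℝ}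
    (hf : Integrable f μ) : ENNReal.ofReal (∫ x, f x ∂μ) ≤ ∫⁻ x, ENNReal.ofReal (f x) ∂μ := by
  rw [integral_eq_lintegral_pos_part_sub_lintegral_neg_part hf]
  have h1 : (∫⁻ x, ENNReal.ofReal (f x) ∂μ).toReal - (∫⁻ x, ENNReal.ofReal (-f x) ∂μ).toReal ≤
      (∫⁻ x, ENNReal.ofReal (f x) ∂μ).toReal := by
    have : 0 ≤ (∫⁻ x, ENNReal.ofReal (-f x) ∂μ).toReal := ENNReal.toReal_nonneg
    linarith
  exact (ENNReal.ofReal_le_ofReal h1).trans ENNReal.ofReal_toReal_le

end Crest.Agent.R242.EntAux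
end
end

-- ▼ part R242/EntB
section

/-!
# Row 242, part ENT: measure part
-/

set_option autoImplicit false

open MeasureTheory Filter Set Metric
open scoped ENNReal NNReal Topology
open Crest.GeometryTopology.SyntheticRicci

noncomputable section

namespace Crest.Agent.R242.EntAux

section meas

variable {X : Type*} [MeasurableSpace X] {m μ : Measure X}

/-- logarithm of the density -/
def lg (m μ : Measure X) (x : X) : ℝ := Real.log (μ.rnDeriv m x).toReal

theorem measurable_lg : Measurable (lg m μ) :=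
  Real.measurable_log.comp (Measure.measurable_rnDeriv μ m).ennreal_toReal

theorem rnDeriv_le_of_le_smul [SigmaFinite m] {M : ℝ≥0∞} (h : μ ≤ M • m) :
    ∀ᵐ x ∂m, μ.rnDeriv m x ≤ M := by
  refine ae_le_of_forall_setLIntegral_le_of_sigmaFinite (μ.measurable_rnDeriv m)
    (g := fun _ => M) fun s _ _ ↦ ?_
  rw [setLIntegral_const]
  exact (Measure.setLIntegral_rnDeriv_le s).trans (h s)

theorem ac_of_le_smul {M : ℝ≥0∞} (h : μ ≤ M • m) : μ ≪ m :=
  (Measure.absolutelyContinuous_of_le h).trans (Measure.AbsolutelyContinuous.rfl.smul_left M)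

theorem rnDeriv_zero_off [SigmaFinite m] {B : Set X} (hB : MeasurableSet B) (h : μ Bᶜ = 0) :
    ∀ᵐ x ∂m, x ∉ B → μ.rnDeriv m x = 0 := by
  have h1 : ∫⁻ x in Bᶜ, μ.rnDeriv m x ∂m = 0 :=
    le_antisymm ((Measure.setLIntegral_rnDeriv_le _).trans h.le) zero_le
  have h2 := (lintegral_eq_zero_iff (Measure.measurable_rnDeriv μ m)).1 h1
  rw [Filter.EventuallyEq, ae_restrict_iff' hB.compl] at h2
  filter_upwards [h2] with x hx hxB
  exact hx hxB

/-- `ρ` is the exponential of its logarithm, `μ`-a.e. -/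
theorem ofReal_exp_lg [SigmaFinite m] [IsFiniteMeasure μ] (hac : μ ≪ m) :
    ∀ᵐ x ∂μ, μ.rnDeriv m x = ENNReal.ofReal (Real.exp (lg m μ x)) := by
  filter_upwards [Measure.rnDeriv_pos hac, hac.ae_le (Measure.rnDeriv_lt_top μ m)] with x h1 h2
  rw [lg, Real.exp_log (ENNReal.toReal_pos h1.ne' h2.ne), ENNReal.ofReal_toReal h2.ne]

theorem integrable_mul_log [SigmaFinite m] [IsFiniteMeasure μ] {M : ℝ≥0∞} (hM : M ≠ ⊤)
    (h : μ ≤ M • m) {B : Set X} (hB : MeasurableSet B) (hmB : m B ≠ ⊤) (hμB : μ Bᶜ = 0) :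
    Integrable (fun x => (μ.rnDeriv m x).toReal * lg m μ x) m := by
  obtain ⟨C, hC⟩ := isCompact_Icc.exists_bound_of_continuousOn (s := Icc (0 : ℝ) M.toReal)
    (f := fun r : ℝ => r * Real.log r) Real.continuous_mul_log.continuousOn
  have hind : IntegrableOn (fun _ : X => C) B m := integrableOn_const hmB
  have hind' : Integrable (B.indicator fun _ : X => C) m :=
    (integrable_indicator_iff hB).2 hind
  refine hind'.mono' ?_ ?_
  · exact ((Measure.measurable_rnDeriv μ m).ennreal_toReal.mul measurable_lg).aestronglyMeasurable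
  · filter_upwards [rnDeriv_le_of_le_smul h, rnDeriv_zero_off hB hμB] with x h1 h2
    by_cases hx : x ∈ B
    · rw [indicator_of_mem hx]
      exact hC _ ⟨ENNReal.toReal_nonneg, ENNReal.toReal_mono hM h1⟩
    · rw [indicator_of_notMem hx, h2 hx]
      simp

theorem integrable_lg [SigmaFinite m] [IsFiniteMeasure μ] {M : ℝ≥0∞} (hM : M ≠ ⊤)
    (h : μ ≤ M • m) {B : Set X} (hB : MeasurableSet B) (hmB : m B ≠ ⊤) (hμB : μ Bᶜ = 0) :
    Integrable (lg m μ) μ :=
  (integrable_toReal_rnDeriv_mul_iff (ac_of_le_smul h)).1 (integrable_mul_log hM h hB hmB hμB)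

theorem setIntegral_rnDeriv_eq [SigmaFinite m] [IsProbabilityMeasure μ] (hac : μ ≪ m)
    {B : Set X} (hB : MeasurableSet B) (hμB : μ Bᶜ = 0) :
    ∫ x in B, (μ.rnDeriv m x).toReal ∂m = 1 := by
  rw [Measure.setIntegral_toReal_rnDeriv hac]
  rw [Measure.real, (prob_compl_eq_zero_iff hB).1 hμB, ENNReal.toReal_one]

/-- the entropy of a measure with bounded density -/
theorem entB_eq [SigmaFinite m] [IsProbabilityMeasure μ] {M : ℝ≥0∞} (hM : M ≠ ⊤)
    (h : μ ≤ M • m) {B : Set X} (hB : MeasurableSet B) (hmB : m B ≠ ⊤) (hμB : μ Bᶜ = 0)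
    [MetricSpace X] :
    0 ≤ ∫ x, lg m μ x ∂μ + (m B).toReal - 1 ∧
    entB m B μ = ENNReal.ofReal (∫ x, lg m μ x ∂μ + (m B).toReal - 1) := by
  have hac := ac_of_le_smul h
  have i1 : IntegrableOn (fun x => (μ.rnDeriv m x).toReal * lg m μ x) B m :=
    (integrable_mul_log hM h hB hmB hμB).integrableOn
  have i2 : IntegrableOn (fun x => (μ.rnDeriv m x).toReal) B m :=
    Measure.integrable_toReal_rnDeriv.integrableOn
  have i3 : IntegrableOn (fun _ : X => (1 : ℝ)) B m := integrableOn_const hmB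
  have e1 : ∫ x in B, (μ.rnDeriv m x).toReal * lg m μ x ∂m = ∫ x, lg m μ x ∂μ := by
    rw [setIntegral_toReal_rnDeriv_mul hac hB]
    refine Measure.restrict_eq_self_of_ae_mem (ae_iff.2 ?_) ▸ rfl
    exact hμB
  have e2 := setIntegral_rnDeriv_eq hac hB hμB
  have e3 : ∫ _ in B, (1 : ℝ) ∂m = (m B).toReal := by
    rw [setIntegral_const, smul_eq_mul, mul_one, Measure.real]
  have hkl : ∀ x, InformationTheory.klFun (μ.rnDeriv m x).toReal =
      (μ.rnDeriv m x).toReal * lg m μ x + 1 - (μ.rnDeriv m x).toReal := fun x => rfl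
  have i4 : IntegrableOn (fun x => InformationTheory.klFun (μ.rnDeriv m x).toReal) B m := by
    simp only [hkl]
    exact (i1.add i3).sub i2
  have e4 : ∫ x in B, InformationTheory.klFun (μ.rnDeriv m x).toReal ∂m =
      ∫ x, lg m μ x ∂μ + (m B).toReal - 1 := by
    simp only [hkl]
    have h1 := integral_sub (i1.add i3) i2
    have h2 := integral_add i1 i3
    simp only [Pi.add_apply] at h1
    rw [h1, h2, e1, e2, e3]
  have hnn : ∀ x, 0 ≤ InformationTheory.klFun (μ.rnDeriv m x).toReal := fun x =>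
    InformationTheory.klFun_nonneg ENNReal.toReal_nonneg
  refine ⟨?_, ?_⟩
  · rw [← e4]
    exact integral_nonneg fun x => hnn x
  · rw [entB, ← e4, ofReal_integral_eq_lintegral_ofReal i4 (Eventually.of_forall hnn)]

end meas

end Crest.Agent.R242.EntAux
end
end

-- ▼ part R242/EntC
section

/-!
# Row 242, part ENT: Rényi power inequality and passage to the entropy
-/

set_option autoImplicit false

open MeasureTheory Filter Set Metric
open scoped ENNReal NNReal Topology
open Crest.GeometryTopology.SyntheticRicci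

noncomputable section

namespace Crest.Agent.R242.EntAux

section renyi

variable {X : Type*} [MetricSpace X] [MeasurableSpace X] {m μ : Measure X}

theorem level [SigmaFinite m] [IsProbabilityMeasure μ] {N T : ℝ} (hN : 1 < N)
    {B : Set X} (hB : MeasurableSet B) (hmB : m B ≠ ⊤) (hμB : μ Bᶜ = 0)
    (h : ENNReal.ofReal (1 - T / N) ≤ renyiPower m μ N) :
    IntegrableOn (fun x => KN N (μ.rnDeriv m x).toReal) B m ∧
    ∫ x in B, KN N (μ.rnDeriv m x).toReal ∂m ≤
      (N - 1) * ∫ x in B, (μ.rnDeriv m x).toReal ∂m - N + T + (m B).toReal := by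
  have hN0 : 0 < N := by linarith
  have hN1 : 1 / N < 1 := by rw [div_lt_one hN0]; exact hN
  have hNp : 0 < 1 / N := by positivity
  have hρm : Measurable fun x => (μ.rnDeriv m x).toReal :=
    (Measure.measurable_rnDeriv μ m).ennreal_toReal
  have i2 : IntegrableOn (fun x => (μ.rnDeriv m x).toReal) B m :=
    Measure.integrable_toReal_rnDeriv.integrableOn
  have i3 : IntegrableOn (fun _ : X => (1 : ℝ)) B m := integrableOn_const hmB
  have i4 : IntegrableOn (fun x => (μ.rnDeriv m x).toReal ^ (1 - 1 / N)) B m := by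
    refine (i3.add i2).mono' (hρm.pow_const _).aestronglyMeasurable
      (Eventually.of_forall fun x => ?_)
    have h0 : 0 ≤ (μ.rnDeriv m x).toReal := ENNReal.toReal_nonneg
    rw [Real.norm_of_nonneg (Real.rpow_nonneg h0 _)]
    simp only [Pi.add_apply]
    rcases le_total (μ.rnDeriv m x).toReal 1 with h1 | h1
    · have := Real.rpow_le_one h0 h1 (z := 1 - 1 / N) (by linarith)
      linarith
    · have := Real.rpow_le_rpow_of_exponent_le h1 (show 1 - 1 / N ≤ 1 by linarith)
      rw [Real.rpow_one] at this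
      linarith
  set a := ∫ x in B, (μ.rnDeriv m x).toReal ∂m with ha
  set b := ∫ x in B, (μ.rnDeriv m x).toReal ^ (1 - 1 / N) ∂m with hb
  have hb0 : 0 ≤ b := integral_nonneg fun x => Real.rpow_nonneg ENNReal.toReal_nonneg _
  have hren : renyiPower m μ N = ENNReal.ofReal b := by
    rw [hb, ofReal_integral_eq_lintegral_ofReal i4
      (Eventually.of_forall fun x => Real.rpow_nonneg ENNReal.toReal_nonneg _), renyiPower,
      ← lintegral_indicator hB]
    refine lintegral_congr_ae ?_
    filter_upwards [rnDeriv_zero_off hB hμB, Measure.rnDeriv_lt_top μ m] with x h1 h2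
    by_cases hx : x ∈ B
    · rw [indicator_of_mem hx, ← ENNReal.ofReal_rpow_of_nonneg ENNReal.toReal_nonneg
        (by linarith), ENNReal.ofReal_toReal h2.ne]
    · rw [indicator_of_notMem hx, h1 hx, ENNReal.zero_rpow_of_pos (by linarith)]
  rw [hren, ENNReal.ofReal_le_ofReal_iff hb0] at h
  have hNb : N - T ≤ N * b := by
    have := mul_le_mul_of_nonneg_left h hN0.le
    have e : N * (1 - T / N) = N - T := by field_simp
    linarith
  have hK : ∀ x, KN N (μ.rnDeriv m x).toReal = N * ((μ.rnDeriv m x).toReal -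
      (μ.rnDeriv m x).toReal ^ (1 - 1 / N)) + 1 - (μ.rnDeriv m x).toReal := fun x => rfl
  have i5 := (i2.sub i4).const_mul N
  refine ⟨?_, ?_⟩
  · simp only [hK]
    exact (i5.add i3).sub i2
  · have h1 := integral_sub (i5.add i3) i2
    have h2 := integral_add i5 i3
    have h3 := integral_sub i2 i4
    simp only [Pi.add_apply, Pi.sub_apply] at h1 h2 h3
    simp only [hK]
    rw [h1, h2, integral_const_mul, h3, setIntegral_const, smul_eq_mul, mul_one, Measure.real]
    nlinarith

theorem setIntegral_le_one [SigmaFinite m] [IsProbabilityMeasure μ] (B : Set X) :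
    ∫ x in B, (μ.rnDeriv m x).toReal ∂m ≤ 1 := by
  rw [integral_toReal (Measure.measurable_rnDeriv μ m).aemeasurable
    (ae_restrict_of_ae (Measure.rnDeriv_lt_top μ m))]
  refine ENNReal.toReal_le_of_le_ofReal zero_le_one ?_
  rw [ENNReal.ofReal_one]
  exact (Measure.setLIntegral_rnDeriv_le B).trans prob_le_one

theorem ac_of_renyi [SigmaFinite m] [IsProbabilityMeasure μ] {N T : ℝ} (hN : 1 < N)
    {B : Set X} (hB : MeasurableSet B) (hmB : m B ≠ ⊤) (hμB : μ Bᶜ = 0)
    (h : ∀ n : ℕ, ENNReal.ofReal (1 - T / (N + n)) ≤ renyiPower m μ (N + n)) : μ ≪ m := by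
  set a := ∫ x in B, (μ.rnDeriv m x).toReal ∂m with ha
  have ha1 : 1 ≤ a := by
    by_contra hlt
    push Not at hlt
    obtain ⟨n, hn⟩ := exists_nat_gt ((T + (m B).toReal - 1) / (1 - a))
    rw [div_lt_iff₀ (by linarith)] at hn
    have hn0 : (0 : ℝ) ≤ n := Nat.cast_nonneg n
    have hN' : 1 < N + n := by linarith
    obtain ⟨-, h2⟩ := level hN' hB hmB hμB (h n)
    have h3 : 0 ≤ ∫ x in B, KN (N + n) (μ.rnDeriv m x).toReal ∂m :=
      integral_nonneg fun x => KN_nonneg hN' ENNReal.toReal_nonneg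
    have h4 : 0 ≤ (N - 1) * (1 - a) := mul_nonneg (by linarith) (by linarith)
    nlinarith
  have hle : 1 ≤ ∫⁻ x, μ.rnDeriv m x ∂m := by
    have h1 : ENNReal.ofReal a ≤ ∫⁻ x in B, μ.rnDeriv m x ∂m := by
      rw [ha, integral_toReal (Measure.measurable_rnDeriv μ m).aemeasurable
        (ae_restrict_of_ae (Measure.rnDeriv_lt_top μ m))]
      exact ENNReal.ofReal_toReal_le
    calc (1 : ℝ≥0∞) = ENNReal.ofReal 1 := ENNReal.ofReal_one.symm
      _ ≤ ENNReal.ofReal a := ENNReal.ofReal_le_ofReal ha1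
      _ ≤ _ := h1.trans (setLIntegral_le_lintegral B _)
  have hdec := Measure.haveLebesgueDecomposition_add μ m
  have hu : μ.singularPart m univ = 0 := by
    have h1 : μ univ = μ.singularPart m univ + (m.withDensity (μ.rnDeriv m)) univ := by
      conv_lhs => rw [hdec]
      rfl
    rw [withDensity_apply _ MeasurableSet.univ, Measure.restrict_univ, measure_univ] at h1
    by_contra hne
    have h2 : (1 : ℝ≥0∞) < μ.singularPart m univ + 1 := by
      rw [add_comm]
      exact ENNReal.lt_add_right ENNReal.one_ne_top hne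
    exact absurd h1 (h2.trans_le (by gcongr)).ne
  have hs : μ.singularPart m = 0 := Measure.measure_univ_eq_zero.1 hu
  rw [hs, zero_add] at hdec
  rw [hdec]
  exact withDensity_absolutelyContinuous _ _

theorem entB_le_of_renyi [SigmaFinite m] [IsProbabilityMeasure μ] {N T : ℝ} (hN : 1 < N)
    {B : Set X} (hB : MeasurableSet B) (hmB : m B ≠ ⊤) (hμB : μ Bᶜ = 0)
    (h : ∀ n : ℕ, ENNReal.ofReal (1 - T / (N + n)) ≤ renyiPower m μ (N + n)) :
    entB m B μ ≤ ENNReal.ofReal (T + (m B).toReal - 1) := by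
  have hρm : Measurable fun x => (μ.rnDeriv m x).toReal :=
    (Measure.measurable_rnDeriv μ m).ennreal_toReal
  have h1 : entB m B μ = ∫⁻ x in B, liminf (fun n : ℕ =>
      ENNReal.ofReal (KN (N + n) (μ.rnDeriv m x).toReal)) atTop ∂m := by
    rw [entB]
    refine lintegral_congr fun x => ?_
    exact ((ENNReal.tendsto_ofReal (tendsto_KN hN ENNReal.toReal_nonneg)).liminf_eq).symm
  rw [h1]
  refine (lintegral_liminf_le fun n => ?_).trans ?_
  · exact ENNReal.measurable_ofReal.comp ((measurable_KN _).comp hρm)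
  · refine liminf_le_of_le (by isBoundedDefault) fun c hc => ?_
    obtain ⟨n, hn⟩ := hc.exists
    refine hn.trans ?_
    have hn0 : (0 : ℝ) ≤ n := Nat.cast_nonneg n
    have hN' : 1 < N + n := by linarith
    obtain ⟨i, h2⟩ := level hN' hB hmB hμB (h n)
    rw [← ofReal_integral_eq_lintegral_ofReal i
      (Eventually.of_forall fun x => KN_nonneg hN' ENNReal.toReal_nonneg)]
    refine ENNReal.ofReal_le_ofReal (h2.trans ?_)
    have h3 := setIntegral_le_one (m := m) (μ := μ) B
    nlinarith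

end renyi

section plan

variable {X : Type*} [MetricSpace X] [MeasurableSpace X] [BorelSpace X] {m μ₀ μ₁ : Measure X}

theorem rpow_lg [SigmaFinite m] {P : Measure (UCurve X)} {μ : Measure X} [IsFiniteMeasure μ]
    {t : unitInterval} (h : timeMarginal P t = μ) (hac : μ ≪ m) (N : ℝ) :
    ∀ᵐ γ ∂P, μ.rnDeriv m (γ.toMap t) ^ (-1 / N) =
      ENNReal.ofReal (Real.exp (-(lg m μ (γ.toMap t)) / N)) := by
  have h1 : ∀ᵐ x ∂(timeMarginal P t), μ.rnDeriv m x = ENNReal.ofReal (Real.exp (lg m μ x)) := by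
    rw [h]; exact ofReal_exp_lg hac
  have h2 := ae_of_ae_map (V.measurable_eval t).aemeasurable h1
  filter_upwards [h2] with γ hγ
  rw [hγ, ENNReal.ofReal_rpow_of_pos (Real.exp_pos _), ← Real.exp_mul]
  congr 2
  ring

theorem integrable_lg_comp {P : Measure (UCurve X)} {μ : Measure X}
    {t : unitInterval} (h : timeMarginal P t = μ) (hi : Integrable (lg m μ) μ) :
    Integrable (fun γ : UCurve X => lg m μ (γ.toMap t)) P ∧
      ∫ γ, lg m μ (γ.toMap t) ∂P = ∫ x, lg m μ x ∂μ := by
  have hi' : Integrable (lg m μ) (timeMarginal P t) := by rw [h]; exact hi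
  refine ⟨?_, ?_⟩
  · exact hi'.comp_aemeasurable (V.measurable_eval t).aemeasurable
  · have := integral_map (μ := P) (V.measurable_eval t).aemeasurable
      (f := lg m μ) hi'.aestronglyMeasurable
    rw [← this]
    change ∫ x, lg m μ x ∂(timeMarginal P t) = _
    rw [h]

/-- the Rényi inequality gives a linear lower bound -/
theorem renyi_ge [SigmaFinite m] {k N : ℝ} (hk : 0 < k) (hN : 1 < N) {P : Measure (UCurve X)}
    [IsProbabilityMeasure P] [IsProbabilityMeasure μ₀] [IsProbabilityMeasure μ₁]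
    (h0 : timeMarginal P 0 = μ₀) (h1 : timeMarginal P 1 = μ₁) (hac0 : μ₀ ≪ m) (hac1 : μ₁ ≪ m)
    (hi0 : Integrable (lg m μ₀) μ₀) (hi1 : Integrable (lg m μ₁) μ₁)
    (hd : Integrable (fun γ : UCurve X => dist (γ.toMap 0) (γ.toMap 1) ^ 2) P) {c : ℝ≥0∞}
    (h : ∫⁻ γ, (distortTau (-k) N (1 / 2) (dist (γ.toMap 0) (γ.toMap 1)) *
              μ₀.rnDeriv m (γ.toMap 0) ^ (-1 / N) +
            distortTau (-k) N (1 / 2) (dist (γ.toMap 0) (γ.toMap 1)) *
              μ₁.rnDeriv m (γ.toMap 1) ^ (-1 / N)) ∂P ≤ c) :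
    ENNReal.ofReal (1 - (k / 8 * ∫ γ, dist (γ.toMap 0) (γ.toMap 1) ^ 2 ∂P +
      (∫ x, lg m μ₀ x ∂μ₀ + ∫ x, lg m μ₁ x ∂μ₁) / 2) / N) ≤ c := by
  obtain ⟨j0, e0⟩ := integrable_lg_comp (m := m) h0 hi0
  obtain ⟨j1, e1⟩ := integrable_lg_comp (m := m) h1 hi1
  rw [← e0, ← e1]
  have hint : Integrable (fun γ : UCurve X => 1 - (k / 8 * dist (γ.toMap 0) (γ.toMap 1) ^ 2 +
      (lg m μ₀ (γ.toMap 0) + lg m μ₁ (γ.toMap 1)) / 2) / N) P :=
    (integrable_const 1).sub (((hd.const_mul _).add ((j0.add j1).div_const 2)).div_const N)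
  have hval : ∫ γ : UCurve X, (1 - (k / 8 * dist (γ.toMap 0) (γ.toMap 1) ^ 2 +
      (lg m μ₀ (γ.toMap 0) + lg m μ₁ (γ.toMap 1)) / 2) / N) ∂P =
      1 - (k / 8 * ∫ γ, dist (γ.toMap 0) (γ.toMap 1) ^ 2 ∂P +
      (∫ γ, lg m μ₀ (γ.toMap 0) ∂P + ∫ γ, lg m μ₁ (γ.toMap 1) ∂P) / 2) / N := by
    have a1 := integral_sub (integrable_const (μ := P) (1 : ℝ))
      (((hd.const_mul (k / 8)).add ((j0.add j1).div_const 2)).div_const N)
    have a2 := integral_add (hd.const_mul (k / 8)) ((j0.add j1).div_const 2)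
    have a3 := integral_add j0 j1
    simp only [Pi.add_apply] at a1 a2 a3
    rw [a1, integral_div, a2, integral_const_mul, integral_div, a3]
    simp
  rw [← hval]
  refine (ofReal_integral_le hint).trans (le_trans ?_ h)
  refine lintegral_mono_ae ?_
  filter_upwards [rpow_lg h0 hac0 N, rpow_lg h1 hac1 N] with γ hγ0 hγ1
  rw [hγ0, hγ1]
  set d := dist (γ.toMap 0) (γ.toMap 1) with hd'
  have hτ := tau_half_ge hk hN (θ := d) dist_nonneg
  refine le_trans ?_ (add_le_add (mul_le_mul' hτ le_rfl) (mul_le_mul' hτ le_rfl))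
  rw [← ENNReal.ofReal_mul (by positivity), ← ENNReal.ofReal_mul (by positivity),
    ← ENNReal.ofReal_add (by positivity) (by positivity)]
  refine ENNReal.ofReal_le_ofReal ?_
  rw [mul_assoc, mul_assoc, ← Real.exp_add, ← Real.exp_add]
  have b0 := one_sub_div_le_exp N (k * d ^ 2 / 8 + lg m μ₀ (γ.toMap 0))
  have b1 := one_sub_div_le_exp N (k * d ^ 2 / 8 + lg m μ₁ (γ.toMap 1))
  have c0 : -(k * d ^ 2 / 8 + lg m μ₀ (γ.toMap 0)) / N =
      -(k * d ^ 2 / 8) / N + -(lg m μ₀ (γ.toMap 0)) / N := by ring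
  have c1 : -(k * d ^ 2 / 8 + lg m μ₁ (γ.toMap 1)) / N =
      -(k * d ^ 2 / 8) / N + -(lg m μ₁ (γ.toMap 1)) / N := by ring
  rw [c0] at b0
  rw [c1] at b1
  have e : 1 - (k / 8 * d ^ 2 + (lg m μ₀ (γ.toMap 0) + lg m μ₁ (γ.toMap 1)) / 2) / N =
      1 / 2 * (1 - (k * d ^ 2 / 8 + lg m μ₀ (γ.toMap 0)) / N) +
      1 / 2 * (1 - (k * d ^ 2 / 8 + lg m μ₁ (γ.toMap 1)) / N) := by ring
  rw [e]
  gcongr

end plan

end Crest.Agent.R242.EntAux
end
end

-- ▼ part R242/Ent
section

/-!
# Row 242, part ENT: convexity of the entropy at the midpoint, from `IsCD`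

`ENT_gen` is the form with a general set `B` of finite measure carrying the three measures;
`ENT` is the interface form on the ball of radius `3 R`.
-/

set_option autoImplicit false

open MeasureTheory Filter Set Metric
open scoped ENNReal NNReal Topology
open Crest.GeometryTopology.SyntheticRicci

noncomputable section

namespace Crest.Agent.R242

variable {X : Type*} [MetricSpace X] [ProperSpace X] [MeasurableSpace X] [BorelSpace X]
  {m : Measure X} [IsLocallyFiniteMeasure m] [m.IsOpenPosMeasure] {k N : ℝ}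

namespace EntAux

omit [ProperSpace X] [BorelSpace X] in
theorem secondMoment_of_ball {o : X} {R : ℝ} {μ : Measure X} [IsProbabilityMeasure μ]
    (h : μ (Metric.closedBall o R)ᶜ = 0) : HasFiniteSecondMoment μ := by
  refine ⟨o, ?_⟩
  calc ∫⁻ x, edist x o ^ 2 ∂μ ≤ ∫⁻ _, ENNReal.ofReal R ^ 2 ∂μ := by
        refine lintegral_mono_ae ?_
        have h1 : ∀ᵐ x ∂μ, x ∈ closedBall o R := ae_iff.2 h
        filter_upwards [h1] with x hx
        gcongr
        rw [edist_dist]
        exact ENNReal.ofReal_le_ofReal (mem_closedBall.1 hx)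
    _ < ⊤ := by simp

omit [ProperSpace X] [BorelSpace X] [MeasurableSpace X] in
/-- points of a geodesic -/
theorem dist_half_le {γ : UCurve X} (hγ : IsCSGeodesic γ) {o : X} {R : ℝ}
    (h0 : γ.toMap 0 ∈ closedBall o R) (h1 : γ.toMap 1 ∈ closedBall o R) (t : unitInterval) :
    dist (γ.toMap 0) (γ.toMap 1) ≤ 2 * R ∧ γ.toMap t ∈ closedBall o (2 * R) := by
  have d0 : dist (γ.toMap 0) o ≤ R := h0
  have d1 : dist (γ.toMap 1) o ≤ R := h1
  have d01 : dist (γ.toMap 0) (γ.toMap 1) ≤ 2 * R := by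
    have := dist_triangle_right (γ.toMap 0) (γ.toMap 1) o
    linarith
  refine ⟨d01, ?_⟩
  have e0 := hγ t 0
  have e1 := hγ t 1
  simp only [Icc.coe_zero, sub_zero, Icc.coe_one] at e0 e1
  have ht0 : 0 ≤ (t : ℝ) := t.2.1
  have ht1 : (t : ℝ) ≤ 1 := t.2.2
  rw [abs_of_nonneg ht0] at e0
  rw [abs_of_nonpos (by linarith)] at e1
  rw [mem_closedBall]
  have hd : 0 ≤ dist (γ.toMap 0) (γ.toMap 1) := dist_nonneg
  rcases le_total (t : ℝ) (1 / 2) with h | h
  · have := dist_triangle (γ.toMap t) (γ.toMap 0) o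
    nlinarith
  · have := dist_triangle (γ.toMap t) (γ.toMap 1) o
    nlinarith

end EntAux

open EntAux

theorem ENT_gen (H : Hyp m k N) {o : X} {R : ℝ} {M : ℝ≥0∞} (hM : M ≠ ⊤) {μ₀ μ₁ : Measure X}
    [IsProbabilityMeasure μ₀] [IsProbabilityMeasure μ₁]
    (h₀ : μ₀ (Metric.closedBall o R)ᶜ = 0) (h₁ : μ₁ (Metric.closedBall o R)ᶜ = 0)
    (hM₀ : μ₀ ≤ M • m) (hM₁ : μ₁ ≤ M • m) :
    ∃ P, IsOptGeo P μ₀ μ₁ ∧ timeMarginal P half ≪ m ∧
      ∀ B : Set X, MeasurableSet B → m B ≠ ⊤ → μ₀ Bᶜ = 0 → μ₁ Bᶜ = 0 →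
        timeMarginal P half Bᶜ = 0 →
        entB m B (timeMarginal P half) ≤ (entB m B μ₀ + entB m B μ₁) / 2 +
          ENNReal.ofReal (k / 8) * w2sq μ₀ μ₁ := by
  have hk := H.kpos
  have hN := H.one_lt
  have hac0 : μ₀ ≪ m := ac_of_le_smul hM₀
  have hac1 : μ₁ ≪ m := ac_of_le_smul hM₁
  obtain ⟨P, hP, hgeo, hopt, hineq⟩ := H.cd μ₀ μ₁ inferInstance inferInstance
    (secondMoment_of_ball h₀) (secondMoment_of_ball h₁) hac0 hac1
  have m0 : timeMarginal P 0 = μ₀ := V.marginal_zero hopt.1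
  have m1 : timeMarginal P 1 = μ₁ := V.marginal_one hopt.1
  have hmB0 : m (closedBall o R) ≠ ⊤ := measure_closedBall_lt_top.ne
  have hi0 : Integrable (lg m μ₀) μ₀ := integrable_lg hM hM₀ measurableSet_closedBall hmB0 h₀
  have hi1 : Integrable (lg m μ₁) μ₁ := integrable_lg hM hM₁ measurableSet_closedBall hmB0 h₁
  -- the curves
  have hc0 : ∀ᵐ γ ∂P, γ.toMap 0 ∈ closedBall o R :=
    ae_of_ae_map (V.measurable_eval 0).aemeasurable (p := fun x => x ∈ closedBall o R) (by
      change ∀ᵐ x ∂(timeMarginal P 0), x ∈ closedBall o R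
      rw [m0]
      exact ae_iff.2 h₀)
  have hc1 : ∀ᵐ γ ∂P, γ.toMap 1 ∈ closedBall o R :=
    ae_of_ae_map (V.measurable_eval 1).aemeasurable (p := fun x => x ∈ closedBall o R) (by
      change ∀ᵐ x ∂(timeMarginal P 1), x ∈ closedBall o R
      rw [m1]
      exact ae_iff.2 h₁)
  have hcur : ∀ᵐ γ ∂P, dist (γ.toMap 0) (γ.toMap 1) ≤ 2 * R ∧
      γ.toMap half ∈ closedBall o (2 * R) := by
    filter_upwards [hc0, hc1, hgeo] with γ a0 a1 hg
    exact dist_half_le hg a0 a1 half
  have hdm : Measurable fun γ : UCurve X => dist (γ.toMap 0) (γ.toMap 1) :=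
    ((V.continuous_eval 0).dist (V.continuous_eval 1)).measurable
  have hd : Integrable (fun γ : UCurve X => dist (γ.toMap 0) (γ.toMap 1) ^ 2) P := by
    refine (integrable_const ((2 * R) ^ 2)).mono' (hdm.pow_const 2).aestronglyMeasurable ?_
    filter_upwards [hcur] with γ hγ
    rw [Real.norm_of_nonneg (by positivity)]
    exact pow_le_pow_left₀ dist_nonneg hγ.1 2
  set μ := timeMarginal P half with hμ
  have : IsProbabilityMeasure μ :=
    Measure.isProbabilityMeasure_map (V.measurable_eval half).aemeasurable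
  have hμB : μ (closedBall o (2 * R))ᶜ = 0 := by
    rw [hμ, timeMarginal, Measure.map_apply (V.measurable_eval half)
      measurableSet_closedBall.compl]
    exact ae_iff.1 (hcur.mono fun γ hγ => hγ.2)
  set T := k / 8 * ∫ γ, dist (γ.toMap 0) (γ.toMap 1) ^ 2 ∂P +
      (∫ x, lg m μ₀ x ∂μ₀ + ∫ x, lg m μ₁ x ∂μ₁) / 2 with hT
  have hren : ∀ n : ℕ, ENNReal.ofReal (1 - T / (N + n)) ≤ renyiPower m μ (N + n) := by
    intro n
    have hn0 : (0 : ℝ) ≤ n := Nat.cast_nonneg n
    refine renyi_ge hk (by linarith) m0 m1 hac0 hac1 hi0 hi1 hd ?_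
    have h := hineq (N + n) (by linarith) half
    have e1 : ((half : unitInterval) : ℝ) = 1 / 2 := rfl
    have e2 : (1 : ℝ) - 1 / 2 = 1 / 2 := by norm_num
    rw [e1, e2] at h
    exact h
  refine ⟨P, ⟨hP, hgeo, hopt⟩, ac_of_renyi hN measurableSet_closedBall
    measure_closedBall_lt_top.ne hμB hren, ?_⟩
  intro B hB hmB hB0 hB1 hBμ
  obtain ⟨p0, q0⟩ := entB_eq hM hM₀ hB hmB hB0
  obtain ⟨p1, q1⟩ := entB_eq hM hM₁ hB hmB hB1
  have hmain := entB_le_of_renyi hN hB hmB hBμ hren
  refine hmain.trans ?_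
  rw [q0, q1]
  -- the transport cost
  have hcost : ENNReal.ofReal (∫ γ, dist (γ.toMap 0) (γ.toMap 1) ^ 2 ∂P) ≤ w2sq μ₀ μ₁ := by
    refine le_iInf₂ fun q' hq' => ?_
    refine le_trans (le_of_eq ?_) (hopt.2 q' hq')
    rw [quadCost, endpointLaw, lintegral_map (by fun_prop) V.measurable_ends,
      ofReal_integral_eq_lintegral_ofReal hd (Eventually.of_forall fun γ => by positivity)]
    refine lintegral_congr fun γ => ?_
    rw [edist_dist, ENNReal.ofReal_pow dist_nonneg]
  have hI : 0 ≤ ∫ γ, dist (γ.toMap 0) (γ.toMap 1) ^ 2 ∂P := integral_nonneg fun γ => by positivity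
  have e : T + (m B).toReal - 1 =
      ((∫ x, lg m μ₀ x ∂μ₀ + (m B).toReal - 1) + (∫ x, lg m μ₁ x ∂μ₁ + (m B).toReal - 1)) / 2 +
      k / 8 * ∫ γ, dist (γ.toMap 0) (γ.toMap 1) ^ 2 ∂P := by
    rw [hT]; ring
  rw [e, ENNReal.ofReal_add (by positivity) (by positivity), ENNReal.ofReal_mul (by positivity),
    ENNReal.ofReal_div_of_pos (by norm_num), ENNReal.ofReal_add p0 p1]
  have e2 : ENNReal.ofReal 2 = 2 := by simp
  rw [e2]
  gcongr


end Crest.Agent.R242
end
end

-- ▼ part R242/Mid
section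

/-!
Row 242: [MID], the good midpoint (Rajala's argument).
-/

set_option autoImplicit false
set_option linter.unusedSectionVars false

open MeasureTheory Filter Set
open scoped ENNReal NNReal Topology
open Crest.GeometryTopology.SyntheticRicci
open InformationTheory

noncomputable section

namespace Crest.Agent.R242

variable {X : Type*} [MetricSpace X] [ProperSpace X] [MeasurableSpace X] [BorelSpace X]
  {m : Measure X} [IsLocallyFiniteMeasure m] [m.IsOpenPosMeasure] {k N : ℝ}

lemma mid_timeMarginal_add (P Q : Measure (UCurve X)) (t : unitInterval) :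
    timeMarginal (P + Q) t = timeMarginal P t + timeMarginal Q t :=
  Measure.map_add _ _ (measurable_ev t)

lemma mid_timeMarginal_smul (c : ℝ≥0∞) (P : Measure (UCurve X)) (t : unitInterval) :
    timeMarginal (c • P) t = c • timeMarginal P t :=
  Measure.map_smul _ _ _

lemma mid_timeMarginal_apply (P : Measure (UCurve X)) (t : unitInterval) {T : Set X}
    (hT : MeasurableSet T) : timeMarginal P t T = P {γ | γ.toMap t ∈ T} :=
  Measure.map_apply (measurable_ev t) hT

lemma mid_timeMarginal_restrict (P : Measure (UCurve X)) (t : unitInterval) {T : Set X}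
    (hT : MeasurableSet T) :
    timeMarginal (P.restrict {γ | γ.toMap t ∈ T}) t = (timeMarginal P t).restrict T :=
  (Measure.restrict_map (measurable_ev t) hT).symm

lemma mid_timeMarginal_mono {P Q : Measure (UCurve X)} (h : P ≤ Q) (t : unitInterval) :
    timeMarginal P t ≤ timeMarginal Q t :=
  Measure.map_mono h (measurable_ev t)

lemma mid_cost_le {P : Measure (UCurve X)} {μ₀ μ₁ : Measure X} (hP : IsOptGeo P μ₀ μ₁) {D : ℝ}
    (hD : ∀ᵐ γ ∂P, dist (γ.toMap 0) (γ.toMap 1) ≤ D) : w2sq μ₀ μ₁ ≤ ENNReal.ofReal (D ^ 2) := by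
  have := hP.prob
  rw [← hP.cost]
  calc ∫⁻ γ, edist (γ.toMap 0) (γ.toMap 1) ^ 2 ∂P ≤ ∫⁻ _, ENNReal.ofReal (D ^ 2) ∂P := by
        refine lintegral_mono_ae ?_
        filter_upwards [hD] with γ hγ
        rw [edist_dist, ← ENNReal.ofReal_pow dist_nonneg]
        exact ENNReal.ofReal_le_ofReal (pow_le_pow_left₀ dist_nonneg hγ 2)
    _ = ENNReal.ofReal (D ^ 2) := by simp

/-- replacement of a part of the plan by the plan of [ENT]. -/
lemma mid_rep (H : Hyp m k N) {o : X} {R M D : ℝ} (hM : 0 < M) {μ₀ μ₁ : Measure X}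
    [IsProbabilityMeasure μ₀] [IsProbabilityMeasure μ₁]
    (h₀ : μ₀ (Metric.closedBall o R)ᶜ = 0)
    (h₁ : μ₁ (Metric.closedBall o R)ᶜ = 0) (hM₀ : μ₀ ≤ ENNReal.ofReal M • m)
    (hM₁ : μ₁ ≤ ENNReal.ofReal M • m)
    {B : Set X} (hB : MeasurableSet B) (hmB : m B ≠ ⊤) (hB₀ : μ₀ Bᶜ = 0) (hB₁ : μ₁ Bᶜ = 0)
    (hBh : ∀ P, IsOptGeo P μ₀ μ₁ → timeMarginal P half Bᶜ = 0) (hfin : w2sq μ₀ μ₁ ≠ ⊤)
    {Q : Measure (UCurve X)} (hQ : IsOptGeo Q μ₀ μ₁)
    (hQD : ∀ᵐ γ ∂Q, dist (γ.toMap 0) (γ.toMap 1) ≤ D) {T : Set X} (hT : MeasurableSet T)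
    (hpos : 0 < (timeMarginal Q half).real T) :
    ∃ g : X → ℝ≥0∞, Measurable g ∧ ∫⁻ x, g x ∂(m.restrict B) = 1 ∧
      (timeMarginal Q half).real T * (Real.exp (-(k * D ^ 2 / 8)) / M) ≤
        (m.restrict B).real {x | g x ≠ 0} ∧
      ∀ δ : ℝ≥0, δ < 1 → ∃ Q', IsOptGeo Q' μ₀ μ₁ ∧
        timeMarginal Q' half = modif (timeMarginal Q half) (m.restrict B) T g δ := by
  classical
  have hQp : IsProbabilityMeasure Q := hQ.prob
  set Γ : Set (UCurve X) := {γ | γ.toMap half ∈ T} with hΓ
  have hΓm : MeasurableSet Γ := measurable_ev half hT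
  have hQT : timeMarginal Q half T = Q Γ := mid_timeMarginal_apply Q half hT
  have hp : 0 < (Q Γ).toReal := by
    have : (timeMarginal Q half).real T = (Q Γ).toReal := by rw [Measure.real, hQT]
    rwa [this] at hpos
  set p := (Q Γ).toReal with hpdef
  have hQΓt : Q Γ ≠ ⊤ := measure_ne_top _ _
  have hQΓ0 : Q Γ ≠ 0 := by
    intro h
    rw [hpdef, h] at hp
    simp at hp
  have hQΓ : Q Γ = ENNReal.ofReal p := (ENNReal.ofReal_toReal hQΓt).symm
  set Qc : Measure (UCurve X) := (Q Γ)⁻¹ • Q.restrict Γ with hQc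
  have hcond := hQ.cond hfin hΓm hQΓ0
  rw [← hQc] at hcond
  have hQcp : IsProbabilityMeasure Qc := hcond.prob
  set ν₀ := timeMarginal Qc 0 with hν₀
  set ν₁ := timeMarginal Qc 1 with hν₁
  have hν₀p : IsProbabilityMeasure ν₀ := hcond.prob_left
  have hν₁p : IsProbabilityMeasure ν₁ := hcond.prob_right
  have hle : Qc ≤ (Q Γ)⁻¹ • Q := by
    rw [hQc]
    intro s
    simp only [Measure.smul_apply, smul_eq_mul]
    exact mul_le_mul_right (Measure.restrict_le_self s) _
  have hν₀le : ν₀ ≤ (Q Γ)⁻¹ • μ₀ := by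
    rw [hν₀]
    refine (mid_timeMarginal_mono hle 0).trans ?_
    rw [mid_timeMarginal_smul, hQ.marg_zero]
  have hν₁le : ν₁ ≤ (Q Γ)⁻¹ • μ₁ := by
    rw [hν₁]
    refine (mid_timeMarginal_mono hle 1).trans ?_
    rw [mid_timeMarginal_smul, hQ.marg_one]
  have hnull : ∀ {ν μ : Measure X} {c : ℝ≥0∞} {s : Set X}, ν ≤ c • μ → μ s = 0 → ν s = 0 := by
    intro ν μ c s h hs
    have h1 := h s
    rw [Measure.smul_apply, hs, smul_zero] at h1
    exact le_antisymm h1 zero_le
  have hbd : ∀ {ν μ : Measure X}, ν ≤ (Q Γ)⁻¹ • μ → μ ≤ ENNReal.ofReal M • m →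
      ν ≤ ENNReal.ofReal (M / p) • m := by
    intro ν μ h1 h2
    refine h1.trans ?_
    have h3 : (Q Γ)⁻¹ • μ ≤ (Q Γ)⁻¹ • (ENNReal.ofReal M • m) := by
      intro s
      simp only [Measure.smul_apply, smul_eq_mul]
      exact mul_le_mul_right (h2 s) _
    refine h3.trans (le_of_eq ?_)
    rw [smul_smul, hQΓ, ← ENNReal.ofReal_inv_of_pos hp, ← ENNReal.ofReal_mul (by positivity)]
    congr 2
    field_simp
  have hν₀M := hbd hν₀le hM₀
  have hν₁M := hbd hν₁le hM₁
  have hMp : 0 < M / p := div_pos hM hp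
  obtain ⟨P', hP', hP'm, hP'e⟩ := ENT_gen H ENNReal.ofReal_ne_top (hnull hν₀le h₀)
    (hnull hν₁le h₁) hν₀M hν₁M
  have hP'p : IsProbabilityMeasure P' := hP'.prob
  have hrepl : ∀ δ : ℝ≥0∞, δ ≤ 1 →
      IsOptGeo (Q.restrict Γᶜ + (1 - δ) • Q.restrict Γ + (δ * Q Γ) • P') μ₀ μ₁ := by
    intro δ hδ
    exact hQ.replace hfin hΓm hQΓ0 hP' hδ
  set ν' := timeMarginal P' half with hν'
  have hν'p : IsProbabilityMeasure ν' := by rw [hν']; infer_instance
  have hν'B : ν' Bᶜ = 0 := by
    have h1 := hBh _ (hrepl 1 le_rfl)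
    have h2 : (1 * Q Γ) • ν' ≤ timeMarginal
        (Q.restrict Γᶜ + (1 - 1 : ℝ≥0∞) • Q.restrict Γ + (1 * Q Γ) • P') half := by
      rw [mid_timeMarginal_add, mid_timeMarginal_smul]
      exact Measure.le_add_left le_rfl
    have h3 := le_antisymm ((h2 Bᶜ).trans h1.le) zero_le
    rw [Measure.smul_apply, smul_eq_mul, one_mul, mul_eq_zero] at h3
    exact h3.resolve_left hQΓ0
  have hrn := mid_rnDeriv_restrict hB hP'm hν'B
  set g := ν'.rnDeriv m with hg
  have hgm : Measurable g := Measure.measurable_rnDeriv _ _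
  have hg1 : ∫⁻ x in B, g x ∂m = 1 := by
    rw [← setLIntegral_univ, ← withDensity_apply _ MeasurableSet.univ, hrn.2]
    exact measure_univ
  refine ⟨g, hgm, hg1, ?_, ?_⟩
  · -- Jensen
    obtain ⟨ha, hae⟩ := mid_le_entB (μ := ν') hmB hgm hg1 (ae_of_all _ fun x => rfl)
    set a := (m.restrict B).real {x | g x ≠ 0} with hadef
    have hub₀ := mid_entB_le hB hmB (hnull hν₀le hB₀) hMp hν₀M
    have hub₁ := mid_entB_le hB hmB (hnull hν₁le hB₁) hMp hν₁M
    have hw : w2sq ν₀ ν₁ ≤ ENNReal.ofReal (D ^ 2) := by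
      refine mid_cost_le hcond ?_
      rw [hQc]
      exact Measure.ae_smul_measure (ae_restrict_of_ae hQD) _
    have hmain := hP'e B hB hmB (hnull hν₀le hB₀) (hnull hν₁le hB₁) hν'B
    set U := Real.log (M / p) + (m B).toReal - 1 with hU
    have h1 : ENNReal.ofReal (-Real.log a + (m B).toReal - 1) ≤
        ENNReal.ofReal (U + k / 8 * D ^ 2) := by
      calc ENNReal.ofReal (-Real.log a + (m B).toReal - 1) ≤ entB m B ν' := hae
        _ ≤ (entB m B ν₀ + entB m B ν₁) / 2 + ENNReal.ofReal (k / 8) * w2sq ν₀ ν₁ := hmain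
        _ ≤ (ENNReal.ofReal U + ENNReal.ofReal U) / 2 +
            ENNReal.ofReal (k / 8) * ENNReal.ofReal (D ^ 2) := by
          gcongr
          · exact hub₀.1
          · exact hub₁.1
        _ = ENNReal.ofReal (U + k / 8 * D ^ 2) := by
          have hk := H.kpos
          rw [ENNReal.ofReal_add hub₀.2 (by positivity), ENNReal.ofReal_mul (by positivity)]
          congr 1
          rw [← two_mul, mul_comm]
          exact ENNReal.mul_div_cancel_right (by simp) (by simp)
    have h2 : -Real.log a + (m B).toReal - 1 ≤ U + k / 8 * D ^ 2 := by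
      have hk := H.kpos
      rwa [ENNReal.ofReal_le_ofReal_iff (add_nonneg hub₀.2 (by positivity))] at h1
    have h3 : -(Real.log (M / p)) - k * D ^ 2 / 8 ≤ Real.log a := by
      rw [hU] at h2
      linarith
    have h4 : Real.exp (-(Real.log (M / p)) - k * D ^ 2 / 8) ≤ a := by
      calc _ ≤ Real.exp (Real.log a) := Real.exp_le_exp.mpr h3
        _ = a := Real.exp_log ha
    have h5 : (timeMarginal Q half).real T = p := by rw [Measure.real, hQT]
    rw [h5]
    refine le_trans (le_of_eq ?_) h4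
    rw [Real.exp_sub, Real.exp_neg (Real.log (M / p)), Real.exp_log hMp, Real.exp_neg]
    field_simp
  · intro δ hδ
    refine ⟨_, hrepl δ (by exact_mod_cast hδ.le), ?_⟩
    rw [mid_timeMarginal_add, mid_timeMarginal_add, mid_timeMarginal_smul, mid_timeMarginal_smul]
    unfold modif
    rw [hrn.2, hQT, mid_timeMarginal_restrict Q half hT]
    have : timeMarginal (Q.restrict Γᶜ) half = (timeMarginal Q half).restrict Tᶜ :=
      mid_timeMarginal_restrict Q half hT.compl
    rw [this, add_comm ((timeMarginal Q half).restrict Tᶜ)]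
    congr 2

/-- general form of [MID]. -/
theorem MID_gen (H : Hyp m k N) {o : X} {R M D C : ℝ} {μ₀ μ₁ : Measure X}
    [IsProbabilityMeasure μ₀] [IsProbabilityMeasure μ₁]
    (h₀ : μ₀ (Metric.closedBall o R)ᶜ = 0)
    (h₁ : μ₁ (Metric.closedBall o R)ᶜ = 0) (hM₀ : μ₀ ≤ ENNReal.ofReal M • m)
    (hM₁ : μ₁ ≤ ENNReal.ofReal M • m)
    (hD : ∀ P, IsOptGeo P μ₀ μ₁ → ∀ᵐ γ ∂P, dist (γ.toMap 0) (γ.toMap 1) ≤ D)
    {B : Set X} (hB : MeasurableSet B) (hmB : m B ≠ ⊤) (hB₀ : μ₀ Bᶜ = 0) (hB₁ : μ₁ Bᶜ = 0)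
    (hBh : ∀ P, IsOptGeo P μ₀ μ₁ → timeMarginal P half Bᶜ = 0)
    (hC : M * Real.exp (k * D ^ 2 / 8) < C) (hC1 : 1 ≤ C) :
    ∃ P, IsOptGeo P μ₀ μ₁ ∧ timeMarginal P half ≤ ENNReal.ofReal C • m ∧
      entB m B (timeMarginal P half) ≤ (entB m B μ₀ + entB m B μ₁) / 2 +
          ENNReal.ofReal (k / 8) * w2sq μ₀ μ₁ := by
  classical
  have hMpos : 0 < M := by
    by_contra h
    have : ENNReal.ofReal M = 0 := ENNReal.ofReal_of_nonpos (not_lt.mp h)
    rw [this, zero_smul] at hM₀
    have h1 : μ₀ univ ≤ (0 : Measure X) univ := hM₀ univ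
    simp at h1
  have hκfin : IsFiniteMeasure (m.restrict B) := ⟨by
    rw [Measure.restrict_apply_univ]; exact lt_top_iff_ne_top.mpr hmB⟩
  set κ := m.restrict B with hκ
  obtain ⟨P₀, hP₀, hP₀m, hP₀e⟩ := ENT_gen H ENNReal.ofReal_ne_top h₀ h₁ hM₀ hM₁
  have hfin : w2sq μ₀ μ₁ ≠ ⊤ :=
    ((mid_cost_le hP₀ (hD _ hP₀)).trans_lt ENNReal.ofReal_lt_top).ne
  set S := {P : ProbabilityMeasure (UCurve X) | IsOptGeo (P : Measure (UCurve X)) μ₀ μ₁} with hS
  have hScomp : IsCompact S := isCompact_optGeo h₀ h₁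
  have hSne : S.Nonempty := ⟨⟨P₀, hP₀.prob⟩, hP₀⟩
  have hlsc : LowerSemicontinuous (fun P : ProbabilityMeasure (UCurve X) =>
      Phi κ C (tmP half P : Measure X)) :=
    (lowerSemicontinuous_Phi κ hC1).comp (continuous_tmP half)
  obtain ⟨P, hPS, hPmin⟩ := LowerSemicontinuousOn.exists_isMinOn hSne hScomp
    (hlsc.lowerSemicontinuousOn S)
  have hP : IsOptGeo (P : Measure (UCurve X)) μ₀ μ₁ := hPS
  have hmin : ∀ Q, IsOptGeo Q μ₀ μ₁ →
      Phi κ C (timeMarginal (P : Measure (UCurve X)) half) ≤ Phi κ C (timeMarginal Q half) := by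
    intro Q hQ
    have h1 : (⟨Q, hQ.prob⟩ : ProbabilityMeasure (UCurve X)) ∈ S := hQ
    exact hPmin h1
  set 𝒞 : Set (Measure X) := {ν | ∃ Q, IsOptGeo Q μ₀ μ₁ ∧ ν = timeMarginal Q half} with h𝒞
  set ν := timeMarginal (P : Measure (UCurve X)) half with hν
  have hνB : ν Bᶜ = 0 := hBh _ hP
  have hc0 : 0 < Real.exp (-(k * D ^ 2 / 8)) / M := by positivity
  have hCc : 1 < C * (Real.exp (-(k * D ^ 2 / 8)) / M) := by
    rw [Real.exp_neg]
    have h1 : 0 < Real.exp (k * D ^ 2 / 8) := Real.exp_pos _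
    rw [← mul_div_assoc, one_lt_div hMpos, ← div_eq_mul_inv, lt_div_iff₀ h1]
    exact hC
  have hbound := density_bound_of_min (κ := κ) hC1 hc0 hCc 𝒞
    (by
      rintro ν ⟨Q, hQ, rfl⟩
      have := hQ.prob
      infer_instance)
    (by
      rintro ν ⟨Q, hQ, rfl⟩ T hT hpos
      obtain ⟨g, hg, hg1, hg2, hg3⟩ := mid_rep H hMpos h₀ h₁ hM₀ hM₁ hB hmB hB₀ hB₁ hBh hfin hQ
        (hD _ hQ) hT hpos
      refine ⟨g, hg, hg1, hg2, ?_⟩
      intro δ hδ
      obtain ⟨Q', hQ', hQ'e⟩ := hg3 δ hδ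
      exact ⟨Q', hQ', hQ'e.symm⟩)
    (μ := ν) ⟨_, hP, rfl⟩
    (by
      rintro _ ⟨Q, hQ, rfl⟩
      exact hmin Q hQ)
  obtain ⟨hb1, hb2⟩ := hbound
  have hPp := P.2
  have hνp : IsProbabilityMeasure ν := by rw [hν]; infer_instance
  have hνC : ν ≤ ENNReal.ofReal C • m := by
    have h1 : ν = κ.withDensity (ν.rnDeriv κ) := by
      conv_lhs => rw [← Measure.singularPart_add_rnDeriv ν κ, hb2, zero_add]
    have h2 : κ.withDensity (ν.rnDeriv κ) ≤ κ.withDensity (fun _ => ENNReal.ofReal C) := by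
      refine withDensity_mono ?_
      have hft : ∀ᵐ x ∂κ, ν.rnDeriv κ x < ⊤ :=
        ae_lt_top (Measure.measurable_rnDeriv _ _) (Measure.lintegral_rnDeriv_lt_top _ _).ne
      filter_upwards [hb1, hft] with x hx hx'
      rw [← ENNReal.ofReal_toReal hx'.ne]
      exact ENNReal.ofReal_le_ofReal hx
    rw [h1]
    refine h2.trans ?_
    rw [withDensity_const]
    intro s
    simp only [Measure.smul_apply, smul_eq_mul]
    exact mul_le_mul_right (Measure.restrict_le_self s) _
  refine ⟨P, hP, hνC, ?_⟩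
  rw [← mid_ofReal_Phi_eq hB hmB hνB hC1 hνC]
  have hP₀p := hP₀.prob
  calc ENNReal.ofReal (Phi κ C ν) ≤ ENNReal.ofReal (Phi κ C (timeMarginal P₀ half)) :=
        ENNReal.ofReal_le_ofReal (hmin P₀ hP₀)
    _ ≤ entB m B (timeMarginal P₀ half) :=
        mid_ofReal_Phi_le hB hmB hP₀m (hBh _ hP₀) hC1
    _ ≤ _ := hP₀e B hB hmB hB₀ hB₁ (hBh _ hP₀)

lemma mid_geod_mem {γ : UCurve X} (hγ : IsCSGeodesic γ) {o : X} {R : ℝ}
    (h0 : γ.toMap 0 ∈ Metric.closedBall o R) (h1 : γ.toMap 1 ∈ Metric.closedBall o R) :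
    (∀ t, γ.toMap t ∈ Metric.closedBall o (2 * R)) ∧ dist (γ.toMap 0) (γ.toMap 1) ≤ 2 * R := by
  rw [Metric.mem_closedBall] at h0 h1
  have hd : dist (γ.toMap 0) (γ.toMap 1) ≤ 2 * R := by
    have := dist_triangle_right (γ.toMap 0) (γ.toMap 1) o
    linarith
  have hR : 0 ≤ R := dist_nonneg.trans h0
  refine ⟨fun t => ?_, hd⟩
  rw [Metric.mem_closedBall]
  have ht0 := t.2.1
  have ht1 := t.2.2
  have e0 := hγ t 0
  have e1 := hγ t 1
  rw [Set.Icc.coe_zero, sub_zero, abs_of_nonneg ht0] at e0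
  rw [Set.Icc.coe_one, abs_sub_comm, abs_of_nonneg (by linarith)] at e1
  have t0 := dist_triangle (γ.toMap t) (γ.toMap 0) o
  have t1 := dist_triangle (γ.toMap t) (γ.toMap 1) o
  have hdn : (0 : ℝ) ≤ dist (γ.toMap 0) (γ.toMap 1) := dist_nonneg
  rcases le_total (t : ℝ) (1 / 2) with h | h
  · nlinarith
  · nlinarith

lemma mid_ae_endpoints {P : Measure (UCurve X)} {μ₀ μ₁ : Measure X} (hP : IsOptGeo P μ₀ μ₁)
    {S : Set X} (h₀ : μ₀ Sᶜ = 0) (h₁ : μ₁ Sᶜ = 0) :
    ∀ᵐ γ ∂P, γ.toMap 0 ∈ S ∧ γ.toMap 1 ∈ S := by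
  have h4 : ∀ᵐ γ ∂P, γ.toMap 0 ∈ S := by
    have : ∀ᵐ x ∂(timeMarginal P 0), x ∈ S := by
      rw [hP.marg_zero]; exact h₀
    exact ae_of_ae_map (measurable_ev 0).aemeasurable this
  have h5 : ∀ᵐ γ ∂P, γ.toMap 1 ∈ S := by
    have : ∀ᵐ x ∂(timeMarginal P 1), x ∈ S := by
      rw [hP.marg_one]; exact h₁
    exact ae_of_ae_map (measurable_ev 1).aemeasurable this
  exact h4.and h5

lemma mid_supp {P : Measure (UCurve X)} {μ₀ μ₁ : Measure X} (hP : IsOptGeo P μ₀ μ₁) {o : X}
    {R : ℝ} (h₀ : μ₀ (Metric.closedBall o R)ᶜ = 0) (h₁ : μ₁ (Metric.closedBall o R)ᶜ = 0) :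
    ∀ᵐ γ ∂P, (∀ t, γ.toMap t ∈ Metric.closedBall o (2 * R)) ∧
      dist (γ.toMap 0) (γ.toMap 1) ≤ 2 * R := by
  filter_upwards [hP.geod, mid_ae_endpoints hP h₀ h₁] with γ hγ hγ'
  exact mid_geod_mem hγ hγ'.1 hγ'.2

lemma mid_marg_null {P : Measure (UCurve X)} {S : Set X} (hS : MeasurableSet S) {t : unitInterval}
    (h : ∀ᵐ γ ∂P, γ.toMap t ∈ S) : timeMarginal P t Sᶜ = 0 := by
  rw [mid_timeMarginal_apply P t hS.compl]
  exact h


end Crest.Agent.R242
end
end

-- ▼ part R242/Dyad

/-!
Row 242: [DYAD], geodesic plans with bounded compression and entropy bounds at dyadic times.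
-/

set_option autoImplicit false
set_option linter.unusedSectionVars false

open MeasureTheory Filter Set
open scoped ENNReal NNReal Topology
open Crest.GeometryTopology.SyntheticRicci
open InformationTheory

noncomputable section

namespace Crest.Agent.R242

variable {X : Type*} [MetricSpace X] [ProperSpace X] [MeasurableSpace X] [BorelSpace X]
  {m : Measure X} [IsLocallyFiniteMeasure m] [m.IsOpenPosMeasure] {k N : ℝ}

/-- all optimal plans stay in the ball and have displacement at most `D`. -/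
def DyTr (o : X) (R D : ℝ) (μ₀ μ₁ : Measure X) : Prop :=
  ∀ Q, IsOptGeo Q μ₀ μ₁ → ∀ᵐ γ ∂Q, (∀ t, γ.toMap t ∈ Metric.closedBall o R) ∧
    dist (γ.toMap 0) (γ.toMap 1) ≤ D

/-- the time `t / 2`. -/
def leftT (t : unitInterval) : unitInterval :=
  ⟨(t : ℝ) / 2, by have := t.2.1; positivity, by have := t.2.2; linarith⟩

/-- the time `1 / 2 + t / 2`. -/
def rightT (t : unitInterval) : unitInterval :=
  ⟨1 / 2 + (t : ℝ) / 2, by have := t.2.1; positivity, by have := t.2.2; linarith⟩

lemma dy_subCurve_left (γ : UCurve X) (t : unitInterval) :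
    (subCurve 0 (1 / 2) γ).toMap t = γ.toMap (leftT t) := by
  change γ.toMap (Set.projIcc (0 : ℝ) 1 zero_le_one (0 + (t : ℝ) * (1 / 2 - 0))) = _
  congr 1
  have h : (0 : ℝ) + (t : ℝ) * (1 / 2 - 0) = (t : ℝ) / 2 := by ring
  rw [h]
  exact Set.projIcc_of_mem zero_le_one (leftT t).2

lemma dy_subCurve_right (γ : UCurve X) (t : unitInterval) :
    (subCurve (1 / 2) 1 γ).toMap t = γ.toMap (rightT t) := by
  change γ.toMap (Set.projIcc (0 : ℝ) 1 zero_le_one (1 / 2 + (t : ℝ) * (1 - 1 / 2))) = _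
  congr 1
  have h : (1 / 2 : ℝ) + (t : ℝ) * (1 - 1 / 2) = 1 / 2 + (t : ℝ) / 2 := by ring
  rw [h]
  exact Set.projIcc_of_mem zero_le_one (rightT t).2

lemma dy_marg_left (P : Measure (UCurve X)) (t : unitInterval) :
    timeMarginal (P.map (subCurve 0 (1 / 2))) t = timeMarginal P (leftT t) := by
  unfold timeMarginal
  rw [Measure.map_map (measurable_ev t) (measurable_subCurve _ _)]
  congr 1
  funext γ
  exact dy_subCurve_left γ t

lemma dy_marg_right (P : Measure (UCurve X)) (t : unitInterval) :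
    timeMarginal (P.map (subCurve (1 / 2) 1)) t = timeMarginal P (rightT t) := by
  unfold timeMarginal
  rw [Measure.map_map (measurable_ev t) (measurable_subCurve _ _)]
  congr 1
  funext γ
  exact dy_subCurve_right γ t

lemma leftT_zero : leftT 0 = 0 := by
  apply Subtype.ext
  simp [leftT]

lemma leftT_one : leftT 1 = half := by
  apply Subtype.ext
  simp [leftT, half]

lemma rightT_zero : rightT 0 = half := by
  apply Subtype.ext
  simp [rightT, half]

lemma rightT_one : rightT 1 = 1 := by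
  apply Subtype.ext
  simp [rightT]; norm_num

lemma dy_closed_tr (o : X) (R D : ℝ) :
    IsClosed {γ : UCurve X | (∀ t, γ.toMap t ∈ Metric.closedBall o R) ∧
      dist (γ.toMap 0) (γ.toMap 1) ≤ D} := by
  refine IsClosed.inter ?_ ?_
  · have : {γ : UCurve X | ∀ t, γ.toMap t ∈ Metric.closedBall o R} =
        ⋂ t, (fun γ : UCurve X => γ.toMap t) ⁻¹' (Metric.closedBall o R) := by
      ext γ; simp
    change IsClosed {γ : UCurve X | ∀ t, γ.toMap t ∈ Metric.closedBall o R}
    rw [this]
    exact isClosed_iInter fun t => Metric.isClosed_closedBall.preimage (continuous_ev t)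
  · exact isClosed_le ((continuous_ev 0).dist (continuous_ev 1)) continuous_const

lemma dyTr_left {o : X} {R D : ℝ} {μ₀ μ₁ : Measure X} (h : DyTr o R D μ₀ μ₁)
    (hfin : w2sq μ₀ μ₁ ≠ ⊤) {P : Measure (UCurve X)} (hP : IsOptGeo P μ₀ μ₁) :
    DyTr o R (D / 2) μ₀ (timeMarginal P half) := by
  intro Q hQ
  have hP2 : IsOptGeo (P.map (subCurve (1 / 2) 1)) (timeMarginal P half) μ₁ := by
    have := hP.subCurve hfin half 1
    rwa [hP.marg_one] at this
  obtain ⟨P', hP', hP'1, -⟩ := IsOptGeo.glue hQ hP2 hfin (hP.w2sq_half_left hfin)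
    (hP.w2sq_half_right hfin)
  rw [← hP'1, ae_map_iff (measurable_subCurve _ _).aemeasurable
    (dy_closed_tr o R (D / 2)).measurableSet]
  filter_upwards [h P' hP', hP'.geod] with γ hγ hg
  refine ⟨fun t => ?_, ?_⟩
  · rw [dy_subCurve_left]; exact hγ.1 _
  · rw [dy_subCurve_left, dy_subCurve_left, leftT_zero, leftT_one, hg 0 half]
    have h2 := hγ.2
    have : |(((0 : unitInterval) : ℝ)) - (half : ℝ)| = 1 / 2 := by
      simp [half]
    rw [this]
    linarith

lemma dyTr_right {o : X} {R D : ℝ} {μ₀ μ₁ : Measure X} (h : DyTr o R D μ₀ μ₁)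
    (hfin : w2sq μ₀ μ₁ ≠ ⊤) {P : Measure (UCurve X)} (hP : IsOptGeo P μ₀ μ₁) :
    DyTr o R (D / 2) (timeMarginal P half) μ₁ := by
  intro Q hQ
  have hP1 : IsOptGeo (P.map (subCurve 0 (1 / 2))) μ₀ (timeMarginal P half) := by
    have := hP.subCurve hfin 0 half
    rwa [hP.marg_zero] at this
  obtain ⟨P', hP', -, hP'2⟩ := IsOptGeo.glue hP1 hQ hfin (hP.w2sq_half_left hfin)
    (hP.w2sq_half_right hfin)
  rw [← hP'2, ae_map_iff (measurable_subCurve _ _).aemeasurable
    (dy_closed_tr o R (D / 2)).measurableSet]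
  filter_upwards [h P' hP', hP'.geod] with γ hγ hg
  refine ⟨fun t => ?_, ?_⟩
  · rw [dy_subCurve_right]; exact hγ.1 _
  · rw [dy_subCurve_right, dy_subCurve_right, rightT_zero, rightT_one, hg half 1]
    have h2 := hγ.2
    have : |((half : unitInterval) : ℝ) - (((1 : unitInterval) : ℝ))| = 1 / 2 := by
      simp [half]; norm_num
    rw [this]
    linarith

/-- right side of the entropy inequality. -/
def dyRHS (m : Measure X) (k : ℝ) (B : Set X) (μ₀ μ₁ : Measure X) (i : ℕ) : ℝ≥0∞ :=
  ENNReal.ofReal (1 - (1 / 2) ^ i) * entB m B μ₀ + ENNReal.ofReal ((1 / 2) ^ i) * entB m B μ₁ +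
    ENNReal.ofReal (k / 2 * (1 / 2) ^ i * (1 - (1 / 2) ^ i)) * w2sq μ₀ μ₁

lemma dy_zero : dy 0 = 1 := by
  apply Subtype.ext
  simp [dy]

lemma dy_succ (i : ℕ) : dy (i + 1) = leftT (dy i) := by
  apply Subtype.ext
  simp only [dy, leftT, pow_succ]
  ring

lemma dyRHS_zero (B : Set X) (μ₀ μ₁ : Measure X) : dyRHS m k B μ₀ μ₁ 0 = entB m B μ₁ := by
  simp [dyRHS]

/-- the recursion of the entropy bounds. -/
lemma dyRHS_succ (hk : 0 < k) {B : Set X} {μ₀ μ₁ ν : Measure X} {e : ℝ≥0∞} (i : ℕ)
    (he : e ≤ ENNReal.ofReal (1 - (1 / 2) ^ i) * entB m B μ₀ +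
      ENNReal.ofReal ((1 / 2) ^ i) * entB m B ν +
      ENNReal.ofReal (k / 2 * (1 / 2) ^ i * (1 - (1 / 2) ^ i)) * w2sq μ₀ ν)
    (hν : entB m B ν ≤ (entB m B μ₀ + entB m B μ₁) / 2 + ENNReal.ofReal (k / 8) * w2sq μ₀ μ₁)
    (hw : 4 * w2sq μ₀ ν = w2sq μ₀ μ₁) :
    e ≤ dyRHS m k B μ₀ μ₁ (i + 1) := by
  set s : ℝ := (1 / 2) ^ i with hs
  have hs0 : 0 ≤ s := by positivity
  have hs1 : s ≤ 1 := pow_le_one₀ (by norm_num) (by norm_num)
  have hw' : w2sq μ₀ ν = ENNReal.ofReal (1 / 4) * w2sq μ₀ μ₁ := by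
    rw [← hw, ← mul_assoc]
    have : ENNReal.ofReal (1 / 4) * 4 = 1 := by
      rw [show (4 : ℝ≥0∞) = ENNReal.ofReal 4 by simp, ← ENNReal.ofReal_mul (by norm_num)]
      norm_num
    rw [this, one_mul]
  have hhalf : ∀ x : ℝ≥0∞, x / 2 = x * ENNReal.ofReal (1 / 2) := by
    intro x
    rw [ENNReal.div_eq_inv_mul, mul_comm]
    congr 1
    rw [one_div, ENNReal.ofReal_inv_of_pos (by norm_num)]
    simp
  have hpow : ((1 : ℝ) / 2) ^ (i + 1) = s / 2 := by rw [hs, pow_succ]; ring
  unfold dyRHS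
  rw [hpow]
  have e1 : ENNReal.ofReal (1 - s / 2) =
      ENNReal.ofReal (1 - s) + ENNReal.ofReal s * ENNReal.ofReal (1 / 2) := by
    rw [← ENNReal.ofReal_mul hs0, ← ENNReal.ofReal_add (by linarith) (by positivity)]
    congr 1; ring
  have e2 : ENNReal.ofReal (s / 2) = ENNReal.ofReal s * ENNReal.ofReal (1 / 2) := by
    rw [← ENNReal.ofReal_mul hs0]
    congr 1; ring
  have e3 : ENNReal.ofReal (k / 2 * (s / 2) * (1 - s / 2)) =
      ENNReal.ofReal s * ENNReal.ofReal (k / 8) +
        ENNReal.ofReal (k / 2 * s * (1 - s)) * ENNReal.ofReal (1 / 4) := by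
    have h1 : 0 ≤ 1 - s := by linarith
    rw [← ENNReal.ofReal_mul hs0, ← ENNReal.ofReal_mul (by positivity),
      ← ENNReal.ofReal_add (by positivity) (by positivity)]
    congr 1; ring
  rw [e1, e2, e3]
  rw [hhalf] at hν
  calc e ≤ _ := he
    _ ≤ ENNReal.ofReal (1 - s) * entB m B μ₀ +
      ENNReal.ofReal s * ((entB m B μ₀ + entB m B μ₁) * ENNReal.ofReal (1 / 2) +
        ENNReal.ofReal (k / 8) * w2sq μ₀ μ₁) +
      ENNReal.ofReal (k / 2 * s * (1 - s)) * (ENNReal.ofReal (1 / 4) * w2sq μ₀ μ₁) := by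
        rw [hw']
        gcongr
    _ = _ := by ring

/-- the induction over dyadic levels. -/
theorem dyad_claim (H : Hyp m k N) {o : X} {R : ℝ} {B : Set X} (hB : MeasurableSet B)
    (hmB : m B ≠ ⊤) (hBR : Metric.closedBall o R ⊆ B) (n : ℕ) :
    ∀ (M D : ℝ) (μ₀ μ₁ : Measure X), 1 ≤ M → 0 < D → IsProbabilityMeasure μ₀ →
      IsProbabilityMeasure μ₁ → μ₀ (Metric.closedBall o R)ᶜ = 0 →
      μ₁ (Metric.closedBall o R)ᶜ = 0 → μ₀ ≤ ENNReal.ofReal M • m → μ₁ ≤ ENNReal.ofReal M • m →
      DyTr o R D μ₀ μ₁ →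
      ∃ P, IsOptGeo P μ₀ μ₁ ∧
        (∀ (j : ℕ) (t : unitInterval), (t : ℝ) * 2 ^ n = j →
          timeMarginal P t ≤ ENNReal.ofReal (M * Real.exp (k * D ^ 2 / 3)) • m) ∧
        ∀ i ≤ n, entB m B (timeMarginal P (dy i)) ≤ dyRHS m k B μ₀ μ₁ i := by
  have hk := H.kpos
  have hmonoB : ∀ {μ : Measure X}, μ (Metric.closedBall o R)ᶜ = 0 → μ Bᶜ = 0 := fun h =>
    measure_mono_null (compl_subset_compl.mpr hBR) h
  have hmono : ∀ {a b : ℝ} {μ : Measure X}, a ≤ b → μ ≤ ENNReal.ofReal a • m →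
      μ ≤ ENNReal.ofReal b • m := by
    intro a b μ hab h
    refine h.trans ?_
    intro s
    simp only [Measure.smul_apply, smul_eq_mul]
    gcongr
  induction n with
  | zero =>
    intro M D μ₀ μ₁ hM hD hp₀ hp₁ h₀ h₁ hM₀ hM₁ htr
    obtain ⟨P, hP, -, -⟩ := ENT_gen H ENNReal.ofReal_ne_top h₀ h₁ hM₀ hM₁
    have hexp : M ≤ M * Real.exp (k * D ^ 2 / 3) :=
      le_mul_of_one_le_right (by linarith) (Real.one_le_exp (by positivity))
    refine ⟨P, hP, ?_, ?_⟩
    · intro j t hj
      rw [pow_zero, mul_one] at hj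
      have hj1 : j ≤ 1 := by
        have : (j : ℝ) ≤ 1 := by rw [← hj]; exact t.2.2
        exact_mod_cast this
      interval_cases j
      · have : t = 0 := Subtype.ext (by simpa using hj)
        rw [this, hP.marg_zero]
        exact hmono hexp hM₀
      · have : t = 1 := Subtype.ext (by simpa using hj)
        rw [this, hP.marg_one]
        exact hmono hexp hM₁
    · intro i hi
      obtain rfl : i = 0 := by omega
      rw [dy_zero, dyRHS_zero, hP.marg_one]
  | succ n ih =>
    intro M D μ₀ μ₁ hM hD hp₀ hp₁ h₀ h₁ hM₀ hM₁ htr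
    set M' := M * Real.exp (k * D ^ 2 / 4) with hM'
    have hMM' : M ≤ M' :=
      le_mul_of_one_le_right (by linarith) (Real.one_le_exp (by positivity))
    have hM'1 : 1 ≤ M' := hM.trans hMM'
    have hlt : M * Real.exp (k * D ^ 2 / 8) < M' := by
      refine mul_lt_mul_of_pos_left (Real.exp_lt_exp.mpr ?_) (by linarith)
      have : 0 < k * D ^ 2 := by positivity
      linarith
    have hhalf : ∀ P, IsOptGeo P μ₀ μ₁ → timeMarginal P half (Metric.closedBall o R)ᶜ = 0 := by
      intro P hP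
      refine mid_marg_null Metric.isClosed_closedBall.measurableSet ?_
      filter_upwards [htr P hP] with γ hγ using hγ.1 half
    obtain ⟨P', hP', hC', he'⟩ := MID_gen H h₀ h₁ hM₀ hM₁
      (fun P hP => (htr P hP).mono fun γ hγ => hγ.2) hB hmB (hmonoB h₀) (hmonoB h₁)
      (fun P hP => hmonoB (hhalf P hP)) hlt hM'1
    have hfin : w2sq μ₀ μ₁ ≠ ⊤ :=
      ((mid_cost_le hP' ((htr P' hP').mono fun γ hγ => hγ.2)).trans_lt ENNReal.ofReal_lt_top).ne
    set ν := timeMarginal P' half with hν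
    have hPp' := hP'.prob
    have hνp : IsProbabilityMeasure ν := by rw [hν]; infer_instance
    have hwl := hP'.w2sq_half_left hfin
    have hwr := hP'.w2sq_half_right hfin
    obtain ⟨P₁, hP₁, hd₁, he₁⟩ := ih M' (D / 2) μ₀ ν hM'1 (by linarith) hp₀ hνp h₀
      (hhalf _ hP') (hmono hMM' hM₀) hC' (dyTr_left htr hfin hP')
    obtain ⟨P₂, hP₂, hd₂, -⟩ := ih M' (D / 2) ν μ₁ hM'1 (by linarith) hνp hp₁ (hhalf _ hP')
      h₁ hC' (hmono hMM' hM₁) (dyTr_right htr hfin hP')
    have hconst : M' * Real.exp (k * (D / 2) ^ 2 / 3) = M * Real.exp (k * D ^ 2 / 3) := by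
      rw [hM', mul_assoc, ← Real.exp_add]
      congr 2; ring
    rw [hconst] at hd₁ hd₂
    obtain ⟨P, hP, hPl, hPr⟩ := IsOptGeo.glue hP₁ hP₂ hfin hwl hwr
    refine ⟨P, hP, ?_, ?_⟩
    · intro j t hj
      rw [pow_succ] at hj
      rcases le_total (t : ℝ) (1 / 2) with h | h
      · set s : unitInterval := ⟨2 * (t : ℝ), by have := t.2.1; positivity, by linarith⟩ with hs
        have hts : t = leftT s := Subtype.ext (by simp [leftT, hs])
        rw [hts, ← dy_marg_left, hPl]
        refine hd₁ j s ?_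
        rw [← hj]; simp only [hs]; ring
      · set s : unitInterval := ⟨2 * (t : ℝ) - 1, by linarith, by have := t.2.2; linarith⟩ with hs
        have hts : t = rightT s := Subtype.ext (by simp [rightT, hs]; ring)
        rw [hts, ← dy_marg_right, hPr]
        have hj2 : 2 ^ n ≤ j := by
          have : (2 : ℝ) ^ n ≤ j := by
            rw [← hj]
            have : (0 : ℝ) < 2 ^ n := by positivity
            nlinarith
          exact_mod_cast this
        refine hd₂ (j - 2 ^ n) s ?_
        rw [Nat.cast_sub hj2, ← hj]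
        simp only [hs]; push_cast; ring
    · intro i hi
      rcases i with _ | i
      · rw [dy_zero, dyRHS_zero, hP.marg_one]
      · rw [dy_succ, ← dy_marg_left, hPl]
        exact dyRHS_succ hk i (he₁ i (by omega)) he' hwl

/-- dyadic times are dense: a closed set of times containing them is everything. -/
lemma dy_dense {F : Set unitInterval} (hF : IsClosed F)
    (h : ∀ (n j : ℕ) (t : unitInterval), (t : ℝ) * 2 ^ n = j → t ∈ F) (t : unitInterval) :
    t ∈ F := by
  have ht0 := t.2.1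
  have ht1 := t.2.2
  have hle : ∀ n : ℕ, (⌊(t : ℝ) * 2 ^ n⌋₊ : ℝ) / 2 ^ n ≤ t := by
    intro n
    rw [div_le_iff₀ (by positivity)]
    exact Nat.floor_le (by positivity)
  set u : ℕ → unitInterval := fun n =>
    ⟨(⌊(t : ℝ) * 2 ^ n⌋₊ : ℝ) / 2 ^ n, by positivity, (hle n).trans ht1⟩ with hu
  have hlim : Tendsto u atTop (𝓝 t) := by
    rw [tendsto_subtype_rng]
    have h1 : Tendsto (fun n : ℕ => (t : ℝ) - (1 / 2) ^ n) atTop (𝓝 ((t : ℝ) - 0)) :=
      tendsto_const_nhds.sub (tendsto_pow_atTop_nhds_zero_of_lt_one (by norm_num) (by norm_num))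
    rw [sub_zero] at h1
    refine tendsto_of_tendsto_of_tendsto_of_le_of_le h1 tendsto_const_nhds ?_ hle
    intro n
    simp only [hu]
    rw [le_div_iff₀ (by positivity)]
    have h2 := (Nat.lt_floor_add_one ((t : ℝ) * 2 ^ n)).le
    have h3 : ((1 : ℝ) / 2) ^ n * 2 ^ n = 1 := by
      rw [← mul_pow]; norm_num
    nlinarith
  refine hF.mem_of_tendsto hlim (Eventually.of_forall fun n => h n ⌊(t : ℝ) * 2 ^ n⌋₊ (u n) ?_)
  simp only [hu]
  field_simp

/-- [DYAD], general ball. -/
theorem DYAD_gen (H : Hyp m k N) (R M : ℝ) :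
    ∃ C : ℝ, 1 ≤ C ∧ ∀ (o : X) (B : Set X), MeasurableSet B → m B ≠ ⊤ →
      Metric.closedBall o (2 * R) ⊆ B → ∀ μ₀ μ₁ : Measure X, IsProbabilityMeasure μ₀ →
      IsProbabilityMeasure μ₁ → μ₀ (Metric.closedBall o R)ᶜ = 0 →
      μ₁ (Metric.closedBall o R)ᶜ = 0 → μ₀ ≤ ENNReal.ofReal M • m → μ₁ ≤ ENNReal.ofReal M • m →
      ∃ P, IsOptGeo P μ₀ μ₁ ∧ (∀ t, timeMarginal P t ≤ ENNReal.ofReal C • m) ∧
        ∀ n : ℕ, entB m B (timeMarginal P (dy n)) ≤
          ENNReal.ofReal (1 - (1 / 2) ^ n) * entB m B μ₀ +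
          ENNReal.ofReal ((1 / 2) ^ n) * entB m B μ₁ +
          ENNReal.ofReal (k / 2 * (1 / 2) ^ n * (1 - (1 / 2) ^ n)) * w2sq μ₀ μ₁ := by
  have hk := H.kpos
  set M' := max M 1 with hM'
  set D := max (2 * R) 1 with hD
  have hM'1 : 1 ≤ M' := le_max_right _ _
  have hD0 : 0 < D := lt_of_lt_of_le one_pos (le_max_right _ _)
  set C := M' * Real.exp (k * D ^ 2 / 3) with hC
  have hC1 : 1 ≤ C := by
    have : 1 ≤ Real.exp (k * D ^ 2 / 3) := Real.one_le_exp (by positivity)
    nlinarith
  refine ⟨C, hC1, ?_⟩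
  intro o B hB hmB hBR μ₀ μ₁ hp₀ hp₁ h₀ h₁ hM₀ hM₁
  have hR : 0 ≤ R := by
    by_contra hR
    rw [Metric.closedBall_eq_empty.mpr (not_le.mp hR), compl_empty, measure_univ] at h₀
    exact one_ne_zero h₀
  have hmono : ∀ {μ : Measure X}, μ ≤ ENNReal.ofReal M • m → μ ≤ ENNReal.ofReal M' • m := by
    intro μ h
    refine h.trans ?_
    intro s
    simp only [Measure.smul_apply, smul_eq_mul]
    gcongr
    exact le_max_left _ _
  have hsub : ∀ {μ : Measure X}, μ (Metric.closedBall o R)ᶜ = 0 →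
      μ (Metric.closedBall o (2 * R))ᶜ = 0 := fun h => measure_mono_null
    (compl_subset_compl.mpr (Metric.closedBall_subset_closedBall (by linarith))) h
  have htr : DyTr o (2 * R) D μ₀ μ₁ := by
    intro Q hQ
    filter_upwards [mid_supp hQ h₀ h₁] with γ hγ using ⟨hγ.1, hγ.2.trans (le_max_left _ _)⟩
  have hκfin : IsFiniteMeasure (m.restrict B) := ⟨by
    rw [Measure.restrict_apply_univ]; exact lt_top_iff_ne_top.mpr hmB⟩
  have hcarr : ∀ P, IsOptGeo P μ₀ μ₁ → ∀ t, timeMarginal P t Bᶜ = 0 := by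
    intro P hP t
    refine mid_marg_null hB ?_
    filter_upwards [htr P hP] with γ hγ using hBR (hγ.1 t)
  -- the closed sets
  set K := {P : ProbabilityMeasure (UCurve X) | IsOptGeo (P : Measure (UCurve X)) μ₀ μ₁} with hK
  have hKc : IsCompact K := isCompact_optGeo h₀ h₁
  set F : Set (ProbabilityMeasure X) :=
    {ν | (ν : Measure X) ≤ ENNReal.ofReal C • m} with hF
  have hFc : IsClosed F := by
    have := isClosed_le_measure (m := m) (Real.toNNReal C)
    exact this
  set T : ℕ → Set unitInterval := fun n => {t | ∃ j : ℕ, (t : ℝ) * 2 ^ n = j} with hT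
  set E : ℕ → Set (ProbabilityMeasure (UCurve X)) := fun i =>
    {P | ENNReal.ofReal (Phi (m.restrict B) C (tmP (dy i) P : Measure X)) ≤
      dyRHS m k B μ₀ μ₁ i} with hE
  have hEc : ∀ i, IsClosed (E i) := by
    intro i
    have h1 : LowerSemicontinuous (fun P : ProbabilityMeasure (UCurve X) =>
        Phi (m.restrict B) C (tmP (dy i) P : Measure X)) :=
      (lowerSemicontinuous_Phi (m.restrict B) hC1).comp (continuous_tmP (dy i))
    have h2 := ENNReal.continuous_ofReal.comp_lowerSemicontinuous h1 ENNReal.ofReal_mono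
    exact h2.isClosed_preimage _
  set S : ℕ → Set (ProbabilityMeasure (UCurve X)) := fun n =>
    K ∩ ((⋂ t ∈ T n, (tmP t) ⁻¹' F) ∩ ⋂ i ≤ n, E i) with hS
  have hSc : ∀ n, IsClosed (S n) := by
    intro n
    refine hKc.isClosed.inter (IsClosed.inter ?_ ?_)
    · exact isClosed_biInter fun t _ => hFc.preimage (continuous_tmP t)
    · exact isClosed_biInter fun i _ => hEc i
  have hSne : ∀ n, (S n).Nonempty := by
    intro n
    obtain ⟨P, hP, hPd, hPe⟩ := dyad_claim H hB hmB hBR n M' D μ₀ μ₁ hM'1 hD0 hp₀ hp₁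
      (hsub h₀) (hsub h₁) (hmono hM₀) (hmono hM₁) htr
    have hPp := hP.prob
    refine ⟨⟨P, hPp⟩, hP, ?_, ?_⟩
    · refine mem_iInter₂.mpr ?_
      rintro t ⟨j, hj⟩
      exact hPd j t hj
    · refine mem_iInter₂.mpr ?_
      intro i hi
      have hdi : timeMarginal P (dy i) ≤ ENNReal.ofReal C • m := by
        refine hPd (2 ^ (n - i)) (dy i) ?_
        simp only [dy]
        push_cast
        rw [show (2 : ℝ) ^ n = 2 ^ i * 2 ^ (n - i) by rw [← pow_add]; congr 1; omega,
          ← mul_assoc, ← mul_pow]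
        norm_num
      refine (mid_ofReal_Phi_le hB hmB (Measure.absolutelyContinuous_of_le_smul hdi)
        (hcarr P hP _) hC1).trans (hPe i hi)
  have hSmono : ∀ n, S (n + 1) ⊆ S n := by
    rintro n P ⟨h1, h2, h3⟩
    refine ⟨h1, ?_, ?_⟩
    · simp only [mem_iInter] at h2 ⊢
      rintro t ⟨j, hj⟩
      refine h2 t ⟨2 * j, ?_⟩
      rw [pow_succ]
      push_cast
      rw [← hj]; ring
    · simp only [mem_iInter] at h3 ⊢
      intro i hi
      exact h3 i (by omega)
  have hS0 : IsCompact (S 0) := hKc.of_isClosed_subset (hSc 0) inter_subset_left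
  obtain ⟨P, hP⟩ := IsCompact.nonempty_iInter_of_sequence_nonempty_isCompact_isClosed S hSmono
    hSne hS0 hSc
  rw [mem_iInter] at hP
  have hPK : IsOptGeo (P : Measure (UCurve X)) μ₀ μ₁ := (hP 0).1
  have hall : ∀ t, timeMarginal (P : Measure (UCurve X)) t ≤ ENNReal.ofReal C • m := by
    intro t
    have hcl : IsClosed {t : unitInterval | tmP t P ∈ F} :=
      hFc.preimage (continuous_time_tmP P)
    refine dy_dense hcl ?_ t
    intro n j t ht
    have := (hP n).2.1
    simp only [mem_iInter] at this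
    exact this t ⟨j, ht⟩
  refine ⟨P, hPK, hall, fun n => ?_⟩
  have h3 := (hP n).2.2
  simp only [mem_iInter] at h3
  have h4 : ENNReal.ofReal (Phi (m.restrict B) C (timeMarginal (P : Measure (UCurve X)) (dy n))) ≤
    dyRHS m k B μ₀ μ₁ n := h3 n le_rfl
  rwa [mid_ofReal_Phi_eq hB hmB (hcarr _ hPK _) hC1 (hall _)] at h4


/-- the geodesic plans needed for the local-to-Lipschitz statements. -/
theorem hasBddGeoPlans (H : Hyp m k N) : HasBddGeoPlans m := by
  intro o R M μ₀ μ₁ hp₀ hp₁ hM₀ hM₁ h₀ h₁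
  obtain ⟨C, hC1, hC⟩ := DYAD_gen H R (M : ℝ)
  obtain ⟨P, hP, hPC, -⟩ := hC o _ Metric.isClosed_closedBall.measurableSet
    (isCompact_closedBall o (2 * R)).measure_lt_top.ne subset_rfl μ₀ μ₁ hp₀ hp₁ h₀ h₁
    (by simpa using hM₀) (by simpa using hM₁)
  exact ⟨P, hP.prob, hP.geod, hP.marg_zero, hP.marg_one, Real.toNNReal C, hPC⟩

end Crest.Agent.R242
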