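import Crest.Agent.R242.Fin2

-- ▼ part R242/Fin3
section

/-!
Row 242, part F, file 3: the differential inequality at a fixed time.
-/

set_option autoImplicit false
set_option linter.unusedSectionVars false
set_option linter.unusedVariables false

open MeasureTheory Filter Set
open scoped ENNReal NNReal Topology
open Crest.GeometryTopology.SyntheticRicci

noncomputable section

namespace Crest.Agent.R242
namespace Fin

variable {X : Type*} [MetricSpace X] [MeasurableSpace X] {m : Measure X}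
variable {F Gf : X → ℝ} {ε k A Bd a0 a1 c4 CE CL zδ : ℝ} {Λ : ℝ → X → (X → ℝ) → ℝ}

/-- the differential inequality at one time `s`, in terms of the limits of the three pieces -/
theorem deriv_bound_aux (hΛ : Lam m F Gf ε k A Bd a0 a1 c4 CE CL zδ Λ)
    {s H' β' d Ls M Lpt Mf Lf Cz Lz θd N : ℝ} {σ : ℝ → X} {θ : ℝ → ℝ} {pt : ℝ → X → ℝ}
    {lp D f : X → ℝ} (hs0 : 0 < s) (hs1 : s < 1) (hd : 0 ≤ d)
    (hσ : ∀ t, dist (σ t) (σ s) ≤ d * |t - s|)
    (hθ : ∀ t, 0 ≤ θ t ∧ θ t ≤ 1) (hθd : HasDerivAt θ θd s)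
    (hθN : ∀ t, |θ t - θ s| ≤ N * |t - s|)
    (hpt : ∀ t ∈ Icc (0 : ℝ) 1, B2 m (pt t)) (hpts : IsSobolev m (pt s))
    (hptt : ∀ t ∈ Icc (0 : ℝ) 1, ∀ᵐ x ∂m, |pt t x - pt s x| ≤ Ls * |t - s|)
    (hlap : IsWeakLaplacian m (pt s) lp) (hlpB : B2 m lp)
    (hwg : ∀ᵐ x ∂m, minWeakGrad m (pt s) x ≤ Lpt)
    (hD2 : MemLp D 2 m) (hDL : ∀ᵐ x ∂m, |D x| ≤ Ls)
    (hDlim : ∀ h : ℕ → ℝ, (∀ n, 0 < h n ∧ s + h n ≤ 1) → Tendsto h atTop (𝓝 0) →
      Tendsto (fun n => ∫ x, ((h n)⁻¹ * (pt (s + h n) x - pt s x) - D x) ^ 2 ∂m) atTop (𝓝 0))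
    (hf : IsSobolev m f) (hfM : ∀ᵐ x ∂m, |f x| ≤ Mf) (hfL : ∀ᵐ x ∂m, minWeakGrad m f x ≤ Lf)
    (hz : IsSobolev m (fun y => pt s y - θd * f y))
    (hzM : ∀ᵐ x ∂m, |pt s x - θd * f x| ≤ Cz)
    (hzL : ∀ᵐ x ∂m, minWeakGrad m (fun y => pt s y - θd * f y) x ≤ Lz)
    (hH : HasDerivAt (fun t => Λ (θ t) (σ t) (pt t)) H' s)
    (hβ : HasDerivAt (fun t => Λ (θ t) (σ t) f) β' s)
    {ρ : ℝ} (hρ0 : 0 ≤ ρ)
    (hρ : c4 * (Real.exp (2 * (Gf (σ s) + ε * k) * θ s) *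
        Λ (θ s) (σ s) (fun y => minWeakGrad m (fun y => pt s y - θd * f y) y ^ 2)
        + CE * Lz ^ 2 * θ s * (a0 + a1 * θ s)) < ρ ^ 2) :
    H' ≤ Λ (θ s) (σ s) D +
      θd * Λ (θ s) (σ s) (fun y => ε * lp y + gradPairing m F (pt s) y) +
      ρ * d + θd * β' + |θd| * (N * (A * Lf + Bd * Mf)) := by
  -- the sequence
  set h : ℕ → ℝ := fun n => (1 - s) / ((n : ℝ) + 1) with hh
  have hhpos : ∀ n, 0 < h n := fun n => div_pos (by linarith) (by positivity)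
  have hhle : ∀ n, s + h n ≤ 1 := by
    intro n
    have : h n ≤ (1 - s) / 1 :=
      div_le_div_of_nonneg_left (by linarith) one_pos (by
        have : (0 : ℝ) ≤ n := Nat.cast_nonneg n
        linarith)
    rw [div_one] at this
    linarith
  have hh0 : Tendsto h atTop (𝓝 0) := by
    have h1 := (tendsto_one_div_add_atTop_nhds_zero_nat (𝕜 := ℝ)).const_mul (1 - s)
    rw [mul_zero] at h1
    refine h1.congr fun n => ?_
    rw [hh, mul_one_div]
  have hsn : Tendsto (fun n => s + h n) atTop (𝓝 s) := by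
    have := hh0.const_add s
    rwa [add_zero] at this
  have hsne : Tendsto (fun n => s + h n) atTop (𝓝[≠] s) := by
    rw [tendsto_nhdsWithin_iff]
    refine ⟨hsn, Eventually.of_forall fun n => ?_⟩
    rw [mem_compl_iff, mem_singleton_iff]
    have := hhpos n
    intro hc
    linarith
  have hmem : ∀ n, s + h n ∈ Icc (0 : ℝ) 1 := fun n => ⟨by have := hhpos n; linarith, hhle n⟩
  have hsI : s ∈ Icc (0 : ℝ) 1 := ⟨hs0.le, hs1.le⟩
  have quot : ∀ (φ : ℝ → ℝ) (φ' : ℝ), HasDerivAt φ φ' s →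
      Tendsto (fun n => (h n)⁻¹ * (φ (s + h n) - φ s)) atTop (𝓝 φ') := by
    intro φ φ' hφ
    have h1 := (hasDerivAt_iff_tendsto_slope.mp hφ).comp hsne
    refine h1.congr fun n => ?_
    simp only [Function.comp_def, slope, vsub_eq_sub, smul_eq_mul]
    rw [add_sub_cancel_left]
  have hσlim : Tendsto (fun n => σ (s + h n)) atTop (𝓝 (σ s)) := by
    rw [tendsto_iff_dist_tendsto_zero]
    refine squeeze_zero (fun n => dist_nonneg) (fun n => hσ (s + h n)) ?_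
    have h1 : Tendsto (fun n => d * |s + h n - s|) atTop (𝓝 (d * |s - s|)) :=
      (hsn.sub_const s).abs.const_mul d
    simpa using h1
  have hθlim : Tendsto (fun n => θ (s + h n)) atTop (𝓝 (θ s)) := hθd.continuousAt.tendsto.comp hsn
  -- quantities
  have hptsB : B2 m (pt s) := hpt s hsI
  have hptsM := hptsB.2
  have hfB : B2 m f := ⟨hf.1, Mf, hfM⟩
  have hzB : B2 m (fun y => pt s y - θd * f y) := ⟨hz.1, Cz, hzM⟩
  obtain ⟨hLB, hgen⟩ := hΛ.gen (pt s) lp hlap hptsB hlpB ⟨Lpt, hwg⟩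
  -- T1
  have T1 : Tendsto (fun n => (h n)⁻¹ *
      Λ (θ (s + h n)) (σ (s + h n)) (fun y => pt (s + h n) y - pt s y)) atTop
      (𝓝 (Λ (θ s) (σ s) D)) := by
    have hB : ∀ n, B2 m (fun y => pt (s + h n) y - pt s y) := fun n =>
      (hpt _ (hmem n)).sub hptsB
    have h1 := hΛ.tendsto (θ := fun n => θ (s + h n)) (x := fun n => σ (s + h n))
      (g := fun n y => (h n)⁻¹ * (pt (s + h n) y - pt s y)) (T := 1) (C := Ls)
      (θ₀ := θ s) (x₀ := σ s) (g₀ := D) (fun n => hθ _) hθlim hσlim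
      (fun n => ((hB n).const_mul _).1)
      (fun n => by
        filter_upwards [hptt _ (hmem n)] with y hy
        rw [abs_mul, abs_of_pos (inv_pos.mpr (hhpos n)), inv_mul_le_iff₀ (hhpos n)]
        refine hy.trans (le_of_eq ?_)
        rw [add_sub_cancel_left, abs_of_pos (hhpos n), mul_comm])
      ⟨hD2, Ls, hDL⟩ (hDlim h (fun n => ⟨hhpos n, hhle n⟩) hh0)
    refine h1.congr fun n => ?_
    exact hΛ.smul _ (hθ _).1 _ _ _ (hB n)
  -- T2
  have T2 : Tendsto (fun n => (h n)⁻¹ *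
      (Λ (θ (s + h n)) (σ (s + h n)) (pt s) - Λ (θ s) (σ (s + h n)) (pt s))) atTop
      (𝓝 (θd * Λ (θ s) (σ s) (fun y => ε * lp y + gradPairing m F (pt s) y))) := by
    have h1 := tendsto_quot (φ := fun r x => Λ r x
        (fun y => ε * lp y + gradPairing m F (pt s) y)) (hΛ.cont _ hLB)
      (θ := fun n => θ (s + h n)) (x := fun n => σ (s + h n)) (h := h) (θ₀ := θ s) (θd := θd)
      (N := N) (x₀ := σ s) (fun n => (hθ _).1) hhpos (hθ s).1
      (fun n => by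
        have := hθN (s + h n)
        rwa [add_sub_cancel_left, abs_of_pos (hhpos n)] at this) hh0 (quot θ θd hθd) hσlim
    refine h1.congr fun n => ?_
    rw [hgen (θ s) (θ (s + h n)) (σ (s + h n)) (hθ s).1 (hθ _).1]
  -- beta
  have Tβ : Tendsto (fun n => (h n)⁻¹ *
      (Λ (θ (s + h n)) (σ (s + h n)) f - Λ (θ s) (σ s) f)) atTop (𝓝 β') := quot _ _ hβ
  have Tθ : Tendsto (fun n => (h n)⁻¹ * (θ (s + h n) - θ s)) atTop (𝓝 θd) := quot _ _ hθd
  have TH : Tendsto (fun n => (h n)⁻¹ *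
      (Λ (θ (s + h n)) (σ (s + h n)) (pt (s + h n)) - Λ (θ s) (σ s) (pt s))) atTop (𝓝 H') :=
    quot _ _ hH
  -- spatial
  have hsp := hΛ.space _ hz Cz Lz hzM hzL (θ s) (σ s) (hθ s).1 (hθ s).2 ρ hρ0 hρ
  have hspn : ∀ᶠ n in atTop, |Λ (θ s) (σ (s + h n)) (fun y => pt s y - θd * f y) -
      Λ (θ s) (σ s) (fun y => pt s y - θd * f y)| ≤ ρ * dist (σ (s + h n)) (σ s) :=
    hσlim.eventually hsp
  have hCb : 0 ≤ A * Lf + Bd * Mf ∨ True := Or.inr trivial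
  -- combine
  have hlim := ((((T1.add T2).add_const (ρ * d)).add (Tβ.const_mul θd)).add_const
    (|θd| * (N * (A * Lf + Bd * Mf))))
  refine le_of_tendsto_of_tendsto TH hlim ?_
  filter_upwards [hspn] with n hn
  set θn := θ (s + h n) with hθn
  set σn := σ (s + h n) with hσn
  have hθn0 : 0 ≤ θn := (hθ _).1
  have hhn := hhpos n
  have e1 : Λ θn σn (fun y => pt (s + h n) y - pt s y) =
      Λ θn σn (pt (s + h n)) - Λ θn σn (pt s) := hΛ.sub hθn0 _ (hpt _ (hmem n)) hptsB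
  have e2 : ∀ x, Λ (θ s) x (fun y => pt s y - θd * f y) =
      Λ (θ s) x (pt s) - θd * Λ (θ s) x f := by
    intro x
    rw [hΛ.sub (hθ s).1 x hptsB (hfB.const_mul θd), hΛ.smul _ (hθ s).1 x θd f hfB]
  have e3 : |Λ θn σn f - Λ (θ s) σn f| ≤ |θn - θ s| * (A * Lf + Bd * Mf) :=
    hΛ.time f hf Mf Lf hfM hfL (θ s) θn σn (hθ s).1 (hθ s).2 (hθ _).1 (hθ _).2
  have e4 : |θn - θ s| ≤ N * h n := by
    have := hθN (s + h n)
    rwa [add_sub_cancel_left, abs_of_pos (hhpos n)] at this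
  have e5 : dist σn (σ s) ≤ d * h n := by
    have := hσ (s + h n)
    rwa [add_sub_cancel_left, abs_of_pos (hhpos n)] at this
  rw [e2, e2] at hn
  -- cases on sign of A Lf + Bd Mf
  have e6 : |θd * (Λ θn σn f - Λ (θ s) σn f)| ≤ |θd| * (N * (A * Lf + Bd * Mf)) * h n := by
    rw [abs_mul, mul_assoc]
    refine mul_le_mul_of_nonneg_left (e3.trans ?_) (abs_nonneg _)
    rcases eq_or_lt_of_le (abs_nonneg (θn - θ s)) with h0 | h0
    · rw [← h0, zero_mul]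
      have hN0 : 0 ≤ N * h n := (abs_nonneg _).trans e4
      have hcb : 0 ≤ A * Lf + Bd * Mf := by
        -- use times 0 and 1
        have := hΛ.time f hf Mf Lf hfM hfL 0 1 σn le_rfl zero_le_one zero_le_one le_rfl
        have h2 := (abs_nonneg _).trans this
        simpa using h2
      calc (0 : ℝ) ≤ (N * h n) * (A * Lf + Bd * Mf) := mul_nonneg hN0 hcb
        _ = N * (A * Lf + Bd * Mf) * h n := by ring
    · have hcb : 0 ≤ A * Lf + Bd * Mf := by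
        have h2 := (abs_nonneg _).trans e3
        exact nonneg_of_mul_nonneg_right h2 h0
      calc |θn - θ s| * (A * Lf + Bd * Mf) ≤ (N * h n) * (A * Lf + Bd * Mf) :=
            mul_le_mul_of_nonneg_right e4 hcb
        _ = N * (A * Lf + Bd * Mf) * h n := by ring
  have e7 : (Λ (θ s) σn (pt s) - θd * Λ (θ s) σn f) -
      (Λ (θ s) (σ s) (pt s) - θd * Λ (θ s) (σ s) f) ≤ ρ * d * h n := by
    refine (le_abs_self _).trans (hn.trans ?_)
    rw [mul_assoc]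
    exact mul_le_mul_of_nonneg_left e5 hρ0
  have e8 := neg_le_of_abs_le e6
  rw [← sub_nonneg]
  have e9 : (h n)⁻¹ * (h n) = 1 := inv_mul_cancel₀ hhn.ne'
  have e10 : (h n)⁻¹ * Λ θn σn (fun y => pt (s + h n) y - pt s y) +
        (h n)⁻¹ * (Λ θn σn (pt s) - Λ (θ s) σn (pt s)) + ρ * d +
        θd * ((h n)⁻¹ * (Λ θn σn f - Λ (θ s) (σ s) f)) +
        |θd| * (N * (A * Lf + Bd * Mf)) -
      (h n)⁻¹ * (Λ θn σn (pt (s + h n)) - Λ (θ s) (σ s) (pt s)) =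
      (h n)⁻¹ * ((ρ * d * h n - ((Λ (θ s) σn (pt s) - θd * Λ (θ s) σn f) -
        (Λ (θ s) (σ s) (pt s) - θd * Λ (θ s) (σ s) f))) +
        (|θd| * (N * (A * Lf + Bd * Mf)) * h n + θd * (Λ θn σn f - Λ (θ s) σn f))) := by
    rw [e1]
    have hne := hhn.ne'
    field_simp
    ring
  rw [e10]
  refine mul_nonneg (inv_pos.mpr hhn).le (add_nonneg (by linarith) (by linarith))

/-- the differential inequality at one time `s` -/
theorem deriv_bound (hΛ : Lam m F Gf ε k A Bd a0 a1 c4 CE CL zδ Λ)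
    {s H' β' d Ls Lpt Mf Lf Cz Lz θd N Cl cinv : ℝ} {σ : ℝ → X} {θ : ℝ → ℝ} {pt : ℝ → X → ℝ}
    {lp D f g : X → ℝ} (hs0 : 0 < s) (hs1 : s < 1) (hd : 0 ≤ d) (hc4 : 0 ≤ c4) (hCE : 0 ≤ CE)
    (ha0 : 0 ≤ a0) (ha1 : 0 ≤ a1) (hcinv : cinv ≤ 1)
    (hσ : ∀ t, dist (σ t) (σ s) ≤ d * |t - s|)
    (hθ : ∀ t, 0 ≤ θ t ∧ θ t ≤ 1) (hθd : HasDerivAt θ θd s)
    (hθN : ∀ t, |θ t - θ s| ≤ N * |t - s|)
    (hpt : ∀ t ∈ Icc (0 : ℝ) 1, B2 m (pt t)) (hpts : IsSobolev m (pt s))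
    (hptt : ∀ t ∈ Icc (0 : ℝ) 1, ∀ᵐ x ∂m, |pt t x - pt s x| ≤ Ls * |t - s|)
    (hlap : IsWeakLaplacian m (pt s) lp) (hlpB : B2 m lp) (hlpC : ∀ᵐ x ∂m, |lp x| ≤ Cl)
    (hwg : ∀ᵐ x ∂m, minWeakGrad m (pt s) x ≤ Lpt)
    (hD2 : MemLp D 2 m) (hDL : ∀ᵐ x ∂m, |D x| ≤ Ls)
    (hDle : ∀ᵐ x ∂m, D x ≤ -(1 / 2) * (cinv * minWeakGrad m (pt s) x ^ 2))
    (hDlim : ∀ h : ℕ → ℝ, (∀ n, 0 < h n ∧ s + h n ≤ 1) → Tendsto h atTop (𝓝 0) →
      Tendsto (fun n => ∫ x, ((h n)⁻¹ * (pt (s + h n) x - pt s x) - D x) ^ 2 ∂m) atTop (𝓝 0))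
    (hf : IsSobolev m f) (hfM : ∀ᵐ x ∂m, |f x| ≤ Mf) (hfL : ∀ᵐ x ∂m, minWeakGrad m f x ≤ Lf)
    (hz : IsSobolev m (fun y => pt s y - θd * f y))
    (hzM : ∀ᵐ x ∂m, |pt s x - θd * f x| ≤ Cz)
    (hzL : ∀ᵐ x ∂m, minWeakGrad m (fun y => pt s y - θd * f y) x ≤ Lz)
    (hg : B2 m g)
    (hcalc : ∀ᵐ x ∂m, θd * gradPairing m F (pt s) x ≤ (1 / 2) * minWeakGrad m (pt s) x ^ 2
      - (1 / 2) * minWeakGrad m (fun y => pt s y - θd * f y) x ^ 2 + (1 / 2) * (θd ^ 2 * Lf ^ 2)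
      + |θd| * g x)
    (hH : HasDerivAt (fun t => Λ (θ t) (σ t) (pt t)) H' s)
    (hβ : HasDerivAt (fun t => Λ (θ t) (σ t) f) β' s)
    (hCl0 : 0 ≤ Cl) :
    H' ≤ (1 / 2) * (d ^ 2 * c4 * Real.exp (2 * (Gf (σ s) + ε * k) * θ s)) +
      (1 / 2) * (CE * Lz ^ 2 * θ s * (a0 + a1 * θ s) /
        Real.exp (2 * (Gf (σ s) + ε * k) * θ s)) +
      ((1 / 2) * (1 - cinv) * Lpt ^ 2 + |θd| * (|ε| * Cl) + (1 / 2) * (θd ^ 2 * Lf ^ 2)) +
      |θd| * Λ (θ s) (σ s) g + θd * β' + |θd| * (N * (A * Lf + Bd * Mf)) := by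
  set e := Real.exp (2 * (Gf (σ s) + ε * k) * θ s) with he
  have he0 : 0 < e := Real.exp_pos _
  set E := CE * Lz ^ 2 * θ s * (a0 + a1 * θ s) with hE
  have hθ0 := (hθ s).1
  have hE0 : 0 ≤ E := by positivity
  set Z : X → ℝ := fun y => minWeakGrad m (fun y => pt s y - θd * f y) y ^ 2 with hZ
  have hZB : B2 m Z := B2_wg_sq hz hzL
  set AZ := Λ (θ s) (σ s) Z with hAZ
  have hAZ0 : 0 ≤ AZ := by
    have h0 : B2 m (fun _ : X => (0 : ℝ)) := ⟨MemLp.zero', 0, by simp⟩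
    have h1 := hΛ.mono (θ s) hθ0 (σ s) _ Z h0 hZB (Eventually.of_forall fun y => by
      show (0 : ℝ) ≤ _
      positivity)
    have h2 := hΛ.smul (θ s) hθ0 (σ s) 0 Z hZB
    rw [zero_mul] at h2
    have h3 : (fun y => 0 * Z y) = fun _ : X => (0 : ℝ) := by funext y; ring
    rw [h3] at h2
    rw [h2] at h1
    exact h1
  set S := c4 * (e * AZ + E) with hS
  have hS0 : 0 ≤ S := by positivity
  -- pass to the limit in rho
  have key1 : H' ≤ Λ (θ s) (σ s) D +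
      θd * Λ (θ s) (σ s) (fun y => ε * lp y + gradPairing m F (pt s) y) +
      √S * d + θd * β' + |θd| * (N * (A * Lf + Bd * Mf)) := by
    have h1 : ∀ n : ℕ, H' ≤ Λ (θ s) (σ s) D +
        θd * Λ (θ s) (σ s) (fun y => ε * lp y + gradPairing m F (pt s) y) +
        (√S + 1 / ((n : ℝ) + 1)) * d + θd * β' + |θd| * (N * (A * Lf + Bd * Mf)) := by
      intro n
      have hn : 0 < 1 / ((n : ℝ) + 1) := by positivity
      refine deriv_bound_aux hΛ (M := 0) hs0 hs1 hd hσ hθ hθd hθN hpt hpts hptt hlap hlpB hwg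
        hD2 hDL hDlim hf hfM hfL hz hzM hzL hH hβ (by positivity) ?_
      have h2 := Real.sq_sqrt hS0
      have h3 := Real.sqrt_nonneg S
      rw [← hE]
      nlinarith
    have h2 : Tendsto (fun n : ℕ => Λ (θ s) (σ s) D +
        θd * Λ (θ s) (σ s) (fun y => ε * lp y + gradPairing m F (pt s) y) +
        (√S + 1 / ((n : ℝ) + 1)) * d + θd * β' + |θd| * (N * (A * Lf + Bd * Mf))) atTop
        (𝓝 (Λ (θ s) (σ s) D +
        θd * Λ (θ s) (σ s) (fun y => ε * lp y + gradPairing m F (pt s) y) +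
        (√S + 0) * d + θd * β' + |θd| * (N * (A * Lf + Bd * Mf)))) := by
      refine Tendsto.add_const _ (Tendsto.add_const _ (Tendsto.const_add _ ?_))
      exact (tendsto_one_div_add_atTop_nhds_zero_nat.const_add _).mul_const d
    have h3 := ge_of_tendsto' h2 h1
    rwa [add_zero] at h3
  -- AM-GM
  have key2 : √S * d ≤ (1 / 2) * (d ^ 2 * c4 * e) + (1 / 2) * AZ + (1 / 2) * (E / e) := by
    have h1 : √S * d = √((d ^ 2 * c4 * e) * (AZ + E / e)) := by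
      have : (d ^ 2 * c4 * e) * (AZ + E / e) = S * d ^ 2 := by
        rw [hS]; field_simp
      rw [this, Real.sqrt_mul hS0, Real.sqrt_sq hd]
    rw [h1]
    have ha : 0 ≤ d ^ 2 * c4 * e := by positivity
    have hb : 0 ≤ AZ + E / e := by positivity
    have h2 : √((d ^ 2 * c4 * e) * (AZ + E / e)) ≤ (1 / 2) * (d ^ 2 * c4 * e + (AZ + E / e)) := by
      rw [Real.sqrt_le_left (by positivity)]
      nlinarith [sq_nonneg (d ^ 2 * c4 * e - (AZ + E / e))]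
    linarith
  -- linear part
  obtain ⟨hLB, -⟩ := hΛ.gen (pt s) lp hlap (hpt s ⟨hs0.le, hs1.le⟩) hlpB ⟨Lpt, hwg⟩
  have hDB : B2 m D := ⟨hD2, Ls, hDL⟩
  set Lf' : X → ℝ := fun y => ε * lp y + gradPairing m F (pt s) y with hLf'
  have key3 : Λ (θ s) (σ s) D + θd * Λ (θ s) (σ s) Lf' + ((1 / 2) * AZ
      - |θd| * Λ (θ s) (σ s) g) ≤
      (1 / 2) * (1 - cinv) * Lpt ^ 2 + |θd| * (|ε| * Cl) + (1 / 2) * (θd ^ 2 * Lf ^ 2) := by
    have h1 : Λ (θ s) (σ s) (fun y => (D y + θd * Lf' y) + ((1 / 2) * Z y - |θd| * g y)) =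
        Λ (θ s) (σ s) D + θd * Λ (θ s) (σ s) Lf' + ((1 / 2) * AZ
          - |θd| * Λ (θ s) (σ s) g) := by
      rw [hΛ.add _ hθ0 _ _ _ (hDB.add (hLB.const_mul θd))
        ((hZB.const_mul _).sub (hg.const_mul _)),
        hΛ.add _ hθ0 _ _ _ hDB (hLB.const_mul θd), hΛ.smul _ hθ0 _ _ _ hLB,
        hΛ.sub hθ0 _ (hZB.const_mul _) (hg.const_mul _), hΛ.smul _ hθ0 _ _ _ hZB,
        hΛ.smul _ hθ0 _ _ _ hg]
    rw [← h1]
    refine hΛ.le_const _ hθ0 _ _ ((hDB.add (hLB.const_mul θd)).add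
      ((hZB.const_mul _).sub (hg.const_mul _))) _ ?_ ?_
    · have : 0 ≤ 1 - cinv := by linarith
      positivity
    · filter_upwards [hDle, hlpC, hcalc, hwg, wg_nonneg hpts] with y h1 h2 h3 h4 h5
      have h6 : θd * (ε * lp y) ≤ |θd| * (|ε| * Cl) := by
        refine (le_abs_self _).trans ?_
        rw [abs_mul, abs_mul]
        gcongr
      have h7 : minWeakGrad m (pt s) y ^ 2 ≤ Lpt ^ 2 := pow_le_pow_left₀ h5 h4 2
      have h8 : (1 / 2) * (1 - cinv) * minWeakGrad m (pt s) y ^ 2 ≤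
          (1 / 2) * (1 - cinv) * Lpt ^ 2 :=
        mul_le_mul_of_nonneg_left h7 (by linarith)
      simp only [hLf', hZ]
      nlinarith
  linarith

end Fin
end Crest.Agent.R242
end
end

-- ▼ part R242/Fin4

/-!
Row 242, part F, file 4: the integrated inequality for one set of parameters.
-/

set_option autoImplicit false
set_option linter.unusedSectionVars false
set_option linter.unusedVariables false

open MeasureTheory Filter Set
open scoped ENNReal NNReal Topology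
open Crest.GeometryTopology.SyntheticRicci

noncomputable section

namespace Crest.Agent.R242
namespace Fin

variable {X : Type*} [MetricSpace X] [MeasurableSpace X] {m : Measure X}
variable {F Gf : X → ℝ} {ε k A Bd a0 a1 c4 CE CL zδ : ℝ} {Λ : ℝ → X → (X → ℝ) → ℝ}

theorem lipschitz_of_pieces (hΛ : Lam m F Gf ε k A Bd a0 a1 c4 CE CL zδ Λ)
    {Ls M L d N : ℝ} {σ : ℝ → X} {θ : ℝ → ℝ} {pt : ℝ → X → ℝ} (hd : 0 ≤ d)
    (hσ : ∀ s t, dist (σ t) (σ s) ≤ d * |t - s|)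
    (hθ : ∀ t, 0 ≤ θ t ∧ θ t ≤ 1) (hθN : ∀ s t, |θ t - θ s| ≤ N * |t - s|)
    (hpt : ∀ t ∈ Icc (0 : ℝ) 1, IsSobolev m (pt t))
    (hptM : ∀ t ∈ Icc (0 : ℝ) 1, ∀ᵐ x ∂m, |pt t x| ≤ M)
    (hptL : ∀ t ∈ Icc (0 : ℝ) 1, ∀ᵐ x ∂m, minWeakGrad m (pt t) x ≤ L)
    (hptt : ∀ s ∈ Icc (0 : ℝ) 1, ∀ t ∈ Icc (0 : ℝ) 1, ∀ᵐ x ∂m, |pt t x - pt s x| ≤ Ls * |t - s|) :
    LipschitzOnWith (Real.toNNReal (|Ls| + N * |A * L + Bd * M| + |CL * L| * d))
      (fun t => Λ (θ t) (σ t) (pt t)) (uIcc 0 1) := by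
  have hN0 : 0 ≤ N := by
    have h1 := (abs_nonneg _).trans (hθN 0 1)
    simpa using h1
  rw [uIcc_of_le zero_le_one]
  refine LipschitzOnWith.of_dist_le_mul fun t ht s hs => ?_
  rw [Real.coe_toNNReal _ (by positivity), Real.dist_eq, Real.dist_eq]
  have hB : ∀ t ∈ Icc (0 : ℝ) 1, B2 m (pt t) := fun t ht => ⟨(hpt t ht).1, M, hptM t ht⟩
  have h1 : |Λ (θ t) (σ t) (fun y => pt t y - pt s y)| ≤ |Ls| * |t - s| := by
    refine hΛ.abs_le (hθ t).1 _ ((hB t ht).sub (hB s hs)).1 (by positivity) ?_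
    filter_upwards [hptt s hs t ht] with y hy
    exact hy.trans (mul_le_mul_of_nonneg_right (le_abs_self _) (abs_nonneg _))
  rw [hΛ.sub (hθ t).1 _ (hB t ht) (hB s hs)] at h1
  have h2 : |Λ (θ t) (σ t) (pt s) - Λ (θ s) (σ t) (pt s)| ≤ N * |A * L + Bd * M| * |t - s| := by
    refine (hΛ.time _ (hpt s hs) M L (hptM s hs) (hptL s hs) (θ s) (θ t) (σ t) (hθ s).1 (hθ s).2
      (hθ t).1 (hθ t).2).trans ?_
    calc |θ t - θ s| * (A * L + Bd * M) ≤ |θ t - θ s| * |A * L + Bd * M| :=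
          mul_le_mul_of_nonneg_left (le_abs_self _) (abs_nonneg _)
      _ ≤ (N * |t - s|) * |A * L + Bd * M| :=
          mul_le_mul_of_nonneg_right (hθN s t) (abs_nonneg _)
      _ = _ := by ring
  have h3 : |Λ (θ s) (σ t) (pt s) - Λ (θ s) (σ s) (pt s)| ≤ |CL * L| * d * |t - s| := by
    refine (hΛ.lip _ (hpt s hs) M L (hptM s hs) (hptL s hs) (θ s) (σ s) (σ t) (hθ s).1
      (hθ s).2).trans ?_
    calc CL * L * dist (σ t) (σ s) ≤ |CL * L| * dist (σ t) (σ s) :=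
          mul_le_mul_of_nonneg_right (le_abs_self _) dist_nonneg
      _ ≤ |CL * L| * (d * |t - s|) := mul_le_mul_of_nonneg_left (hσ s t) (abs_nonneg _)
      _ = _ := by ring
  calc |Λ (θ t) (σ t) (pt t) - Λ (θ s) (σ s) (pt s)|
      = |(Λ (θ t) (σ t) (pt t) - Λ (θ t) (σ t) (pt s)) +
          ((Λ (θ t) (σ t) (pt s) - Λ (θ s) (σ t) (pt s)) +
            (Λ (θ s) (σ t) (pt s) - Λ (θ s) (σ s) (pt s)))| := by congr 1; ring
    _ ≤ |Ls| * |t - s| + (N * |A * L + Bd * M| * |t - s| + |CL * L| * d * |t - s|) :=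
        (abs_add_le _ _).trans (add_le_add h1 ((abs_add_le _ _).trans (add_le_add h2 h3)))
    _ = _ := by ring

/-- **F-inequality** for one set of parameters -/
theorem F_ineq (hΛ : Lam m F Gf ε k A Bd a0 a1 c4 CE CL zδ Λ)
    {Ls M d Lpt Mf Lf Cz Lz N N0 Cl cinv B : ℝ} {σ : ℝ → X} {θ : ℝ → ℝ} {pt lp : ℝ → X → ℝ}
    {f g : X → ℝ} (hd : 0 ≤ d) (hc4 : 0 ≤ c4) (hCE : 0 ≤ CE)
    (ha0 : 0 ≤ a0) (ha1 : 0 ≤ a1) (hcinv : cinv ≤ 1) (hCl0 : 0 ≤ Cl)
    (hP : PtFam m M Lpt Cl Ls cinv pt lp)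
    (hσ : ∀ s t, dist (σ t) (σ s) ≤ d * |t - s|) (hGc : Continuous Gf) (hGB : ∀ x, |Gf x| ≤ B)
    (hθ : ∀ t, 0 ≤ θ t ∧ θ t ≤ 1) (hθN0 : ∀ t, θ t ≤ N0) (hθs : ContDiff ℝ 2 θ)
    (hθN : ∀ t, |deriv θ t| ≤ N) (hθ0 : deriv θ 0 = 0) (hθ1 : deriv θ 1 = 0)
    (hf : IsSobolev m f) (hfM : ∀ᵐ x ∂m, |f x| ≤ Mf) (hfL : ∀ᵐ x ∂m, minWeakGrad m f x ≤ Lf)
    (hz : ∀ s ∈ Ioo (0 : ℝ) 1, IsSobolev m (fun y => pt s y - deriv θ s * f y))
    (hzM : ∀ s ∈ Ioo (0 : ℝ) 1, ∀ᵐ x ∂m, |pt s x - deriv θ s * f x| ≤ Cz)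
    (hzL : ∀ s ∈ Ioo (0 : ℝ) 1,
      ∀ᵐ x ∂m, minWeakGrad m (fun y => pt s y - deriv θ s * f y) x ≤ Lz)
    (hg : B2 m g) (hCb : 0 ≤ A * Lf + Bd * Mf)
    (hcalc : ∀ s ∈ Ioo (0 : ℝ) 1, ∀ᵐ x ∂m, deriv θ s * gradPairing m F (pt s) x ≤
      (1 / 2) * minWeakGrad m (pt s) x ^ 2
      - (1 / 2) * minWeakGrad m (fun y => pt s y - deriv θ s * f y) x ^ 2
      + (1 / 2) * ((deriv θ s) ^ 2 * Lf ^ 2) + |deriv θ s| * g x) :
    Λ (θ 1) (σ 1) (pt 1) - Λ (θ 0) (σ 0) (pt 0) ≤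
      (∫ s in (0 : ℝ)..1,
        (1 / 2) * (d ^ 2 * c4 * Real.exp (2 * (Gf (σ s) + ε * k) * θ s))) +
      (1 / 2) * (CE * Lz ^ 2 * N0 * (a0 + a1 * N0) * Real.exp (2 * (B + |ε * k|))) +
      ((1 / 2) * (1 - cinv) * Lpt ^ 2 + N * (|ε| * Cl) + (1 / 2) * (N ^ 2 * Lf ^ 2)) +
      (∫ s in (0 : ℝ)..1, |deriv θ s| * Λ (θ s) (σ s) g) +
      (-∫ s in (0 : ℝ)..1, deriv (deriv θ) s * Λ (θ s) (σ s) f) +
      N * (N * (A * Lf + Bd * Mf)) := by
  have hN0 : 0 ≤ N := (abs_nonneg _).trans (hθN 0)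
  have hdiff : Differentiable ℝ θ := hθs.differentiable (by norm_num)
  have hθc : Continuous θ := hθs.continuous
  have hθ's : ContDiff ℝ 1 (deriv θ) := by
    have := (contDiff_succ_iff_deriv (𝕜 := ℝ) (n := 1) (f := θ)).mp (by simpa [one_add_one_eq_two] using hθs)
    exact this.2.2
  have hθ'c : Continuous (deriv θ) := hθ's.continuous
  have hθ''c : Continuous (deriv (deriv θ)) := hθ's.continuous_deriv (by norm_num)
  have hθlip : ∀ s t, |θ t - θ s| ≤ N * |t - s| := by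
    intro s t
    have := Convex.norm_image_sub_le_of_norm_deriv_le (s := (univ : Set ℝ)) (f := θ) (C := N)
      (fun x _ => hdiff x) (fun x _ => by rw [Real.norm_eq_abs]; exact hθN x) convex_univ
      (mem_univ s) (mem_univ t)
    rwa [Real.norm_eq_abs, Real.norm_eq_abs] at this
  have hσc : Continuous σ := by
    have : LipschitzWith (Real.toNNReal d) σ := LipschitzWith.of_dist_le_mul fun t s => by
      rw [Real.coe_toNNReal _ hd, Real.dist_eq]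
      exact hσ s t
    exact this.continuous
  have hptS : ∀ t ∈ Icc (0 : ℝ) 1, IsSobolev m (pt t) := fun t ht => (hP.lap t ht).1
  have hptB : ∀ t ∈ Icc (0 : ℝ) 1, B2 m (pt t) := fun t ht => ⟨(hptS t ht).1, M, hP.bdd t ht⟩
  have hfB : B2 m f := ⟨hf.1, Mf, hfM⟩
  -- absolute continuity
  have hHac := (lipschitz_of_pieces hΛ hd hσ hθ hθlip hptS hP.bdd hP.wg
    hP.time).absolutelyContinuousOnInterval
  have hβac := (lipschitz_of_pieces (Ls := 0) hΛ hd hσ hθ hθlip (pt := fun _ => f)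
    (fun _ _ => hf) (fun _ _ => hfM) (fun _ _ => hfL)
    (fun _ _ _ _ => Eventually.of_forall fun x => by simp)).absolutelyContinuousOnInterval
  have hθ'ac : AbsolutelyContinuousOnInterval (deriv θ) 0 1 := by
    obtain ⟨K, hK⟩ := (hθ's.contDiffOn (s := uIcc 0 1)).exists_lipschitzOnWith (by norm_num)
      (convex_uIcc 0 1) isCompact_uIcc
    exact hK.absolutelyContinuousOnInterval
  set H : ℝ → ℝ := fun t => Λ (θ t) (σ t) (pt t) with hHdef
  set β : ℝ → ℝ := fun t => Λ (θ t) (σ t) f with hβdef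
  have hH1 : Λ (θ 1) (σ 1) (pt 1) - Λ (θ 0) (σ 0) (pt 0) = ∫ s in (0 : ℝ)..1, deriv H s :=
    hHac.integral_deriv_eq_sub.symm
  have hβ1 : ∫ s in (0 : ℝ)..1, deriv θ s * deriv β s =
      -∫ s in (0 : ℝ)..1, deriv (deriv θ) s * β s := by
    have := hθ'ac.integral_mul_deriv_eq_deriv_mul hβac
    rw [this, hθ0, hθ1]
    ring
  -- continuity of the s-dependent terms
  have hcg : Continuous fun s => Λ (θ s) (σ s) g := by
    have h1 := hΛ.cont g hg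
    have h2 : Continuous fun s => (θ s, σ s) := hθc.prodMk hσc
    exact h1.comp_continuous h2 fun s => ⟨(hθ s).1, mem_univ _⟩
  have hce : Continuous fun s => (1 / 2) * (d ^ 2 * c4 *
      Real.exp (2 * (Gf (σ s) + ε * k) * θ s)) := by
    have := hGc.comp hσc
    simp only [Function.comp_def] at this
    fun_prop
  have hcθg : Continuous fun s => |deriv θ s| * Λ (θ s) (σ s) g := hθ'c.abs.mul hcg
  have i1 : IntervalIntegrable (fun s => (1 / 2) * (d ^ 2 * c4 *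
      Real.exp (2 * (Gf (σ s) + ε * k) * θ s))) volume 0 1 := hce.intervalIntegrable _ _
  have i2 : IntervalIntegrable (fun s => |deriv θ s| * Λ (θ s) (σ s) g) volume 0 1 :=
    hcθg.intervalIntegrable _ _
  have i3 : IntervalIntegrable (fun s => deriv θ s * deriv β s) volume 0 1 :=
    hβac.intervalIntegrable_deriv.continuousOn_mul hθ'c.continuousOn
  set K1 : ℝ := (1 / 2) * (CE * Lz ^ 2 * N0 * (a0 + a1 * N0) * Real.exp (2 * (B + |ε * k|))) +
      ((1 / 2) * (1 - cinv) * Lpt ^ 2 + N * (|ε| * Cl) + (1 / 2) * (N ^ 2 * Lf ^ 2)) +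
      N * (N * (A * Lf + Bd * Mf)) with hK1
  have hmain : ∫ s in (0 : ℝ)..1, deriv H s ≤ ∫ s in (0 : ℝ)..1,
      (((1 / 2) * (d ^ 2 * c4 * Real.exp (2 * (Gf (σ s) + ε * k) * θ s)) +
        |deriv θ s| * Λ (θ s) (σ s) g) + (deriv θ s * deriv β s + K1)) := by
    refine intervalIntegral.integral_mono_ae_restrict zero_le_one hHac.intervalIntegrable_deriv
      ((i1.add i2).add (i3.add intervalIntegrable_const)) ?_
    have hae : ∀ᵐ s ∂(volume.restrict (Ioo (0 : ℝ) 1)), deriv H s ≤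
      (((1 / 2) * (d ^ 2 * c4 * Real.exp (2 * (Gf (σ s) + ε * k) * θ s)) +
        |deriv θ s| * Λ (θ s) (σ s) g) + (deriv θ s * deriv β s + K1)) := by
      filter_upwards [hP.der, ae_restrict_of_ae hHac.ae_differentiableAt,
        ae_restrict_of_ae hβac.ae_differentiableAt, ae_restrict_mem measurableSet_Ioo] with s h1 h2 h3 hs
      obtain ⟨D, hD2, hDL, hDle, hDlim⟩ := h1
      have hsI : s ∈ Icc (0 : ℝ) 1 := Ioo_subset_Icc_self hs
      have hsu : s ∈ uIcc (0 : ℝ) 1 := by rwa [uIcc_of_le zero_le_one]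
      have hlpC := hP.lap_bdd s hsI
      have hlap := hP.lap s hsI
      have hmain := deriv_bound hΛ hs.1 hs.2 hd hc4 hCE ha0 ha1 hcinv (fun t => hσ s t) hθ
        (hdiff s).hasDerivAt (fun t => hθlip s t) hptB (hptS s hsI)
        (fun t ht => hP.time s hsI t ht) hlap ⟨hlap.2.1, Cl, hlpC⟩ hlpC (hP.wg s hsI) hD2 hDL
        hDle hDlim hf hfM hfL (hz s hs) (hzM s hs) (hzL s hs) hg (hcalc s hs)
        (h2 hsu).hasDerivAt (h3 hsu).hasDerivAt hCl0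
      refine hmain.trans ?_
      have hθs0 := (hθ s).1
      have q1 : CE * Lz ^ 2 * θ s * (a0 + a1 * θ s) /
          Real.exp (2 * (Gf (σ s) + ε * k) * θ s) ≤
          CE * Lz ^ 2 * N0 * (a0 + a1 * N0) * Real.exp (2 * (B + |ε * k|)) := by
        rw [div_eq_mul_inv, ← Real.exp_neg]
        have e1 : -(2 * (Gf (σ s) + ε * k) * θ s) ≤ 2 * (B + |ε * k|) := by
          have g1 : -(Gf (σ s) + ε * k) ≤ B + |ε * k| := by
            have := neg_le_of_abs_le (hGB (σ s))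
            have := neg_abs_le (ε * k)
            linarith
          have g2 : 0 ≤ B + |ε * k| :=
            add_nonneg ((abs_nonneg _).trans (hGB (σ s))) (abs_nonneg _)
          have g3 : -(Gf (σ s) + ε * k) * θ s ≤ (B + |ε * k|) * 1 := by
            calc -(Gf (σ s) + ε * k) * θ s ≤ (B + |ε * k|) * θ s :=
                  mul_le_mul_of_nonneg_right g1 hθs0
              _ ≤ (B + |ε * k|) * 1 := mul_le_mul_of_nonneg_left (hθ s).2 g2
          nlinarith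
        have e2 : a0 + a1 * θ s ≤ a0 + a1 * N0 := by
          have := mul_le_mul_of_nonneg_left (hθN0 s) ha1
          linarith
        have e3 : 0 ≤ a0 + a1 * θ s := by positivity
        have hN00 : 0 ≤ N0 := hθs0.trans (hθN0 s)
        gcongr
        exact hθN0 s
      have q2 : |deriv θ s| * (|ε| * Cl) ≤ N * (|ε| * Cl) :=
        mul_le_mul_of_nonneg_right (hθN s) (by positivity)
      have q3 : (deriv θ s) ^ 2 * Lf ^ 2 ≤ N ^ 2 * Lf ^ 2 := by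
        refine mul_le_mul_of_nonneg_right ?_ (sq_nonneg _)
        rw [← sq_abs]
        exact pow_le_pow_left₀ (abs_nonneg _) (hθN s) 2
      have q4 : |deriv θ s| * (N * (A * Lf + Bd * Mf)) ≤ N * (N * (A * Lf + Bd * Mf)) :=
        mul_le_mul_of_nonneg_right (hθN s) (by positivity)
      simp only [hK1]
      linarith
    rw [← restrict_Ioo_eq_restrict_Icc]
    exact hae
  rw [hH1]
  refine hmain.trans (le_of_eq ?_)
  rw [intervalIntegral.integral_add (i1.add i2) (i3.add intervalIntegrable_const),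
    intervalIntegral.integral_add i1 i2, intervalIntegral.integral_add i3 intervalIntegrable_const,
    intervalIntegral.integral_const, hβ1, hK1]
  simp only [sub_zero, one_smul]
  ring

end Fin
end Crest.Agent.R242
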