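import Crest.Agent.R242.Fin2
import Crest.Agent.R242.DIter_Mg
import Crest.Agent.R242.Res
import Crest.Agent.R242.Fin4
import Crest.Agent.R242.Sob2Lip

-- ▼ part R242/PtInst
section

/-!
Row 242, part F: instantiation of `Fin.PtFam` by `pt s = J m δ (hopfLax (cone o d) s)`.
-/

set_option autoImplicit false
set_option linter.unusedSectionVars false
set_option linter.unusedVariables false

open MeasureTheory Filter Set
open scoped ENNReal NNReal Topology
open Crest.GeometryTopology.SyntheticRicci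

noncomputable section

namespace Crest.Agent.R242
namespace Fin

variable {X : Type*} [MetricSpace X] [ProperSpace X] [MeasurableSpace X] [BorelSpace X]
  {m : Measure X} [IsLocallyFiniteMeasure m] [m.IsOpenPosMeasure]
  {k N h₀ δ d : ℝ} {o : X}

theorem pt_bddLip_zero : BddLip (fun _ : X => (0 : ℝ)) :=
  ⟨⟨0, by simp⟩, 0, LipschitzWith.const 0⟩

/-! ### properties of `ψ s = hopfLax (cone o d) s` -/

theorem psi_bdd (hd : 0 ≤ d) (s : ℝ) (x : X) : |hopfLax (cone o d) s x| ≤ d ^ 2 / 2 :=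
  abs_hopfLax_le (abs_cone_le hd) s x

theorem psi_lip (hd : 0 ≤ d) {s : ℝ} (hs : 0 ≤ s) :
    LipschitzWith (Real.toNNReal (3 * d)) (hopfLax (cone o d) s) := by
  have h := hopfLax_lipschitz (L := ⟨d, hd⟩) (cone_lipschitz hd) hs (abs_cone_le (o := o) hd)
  refine LipschitzWith.of_dist_le_mul fun x y => ?_
  rw [Real.coe_toNNReal _ (by positivity)]
  exact h.dist_le_mul x y

theorem psi_time (hd : 0 ≤ d) (x : X) {s t : ℝ} (hs : 0 ≤ s) (ht : 0 ≤ t) :
    |hopfLax (cone o d) t x - hopfLax (cone o d) s x| ≤ 4 * d ^ 2 * |t - s| :=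
  hopfLax_time_lipschitz (L := ⟨d, hd⟩) (cone_lipschitz hd) (abs_cone_le hd) x ht hs

theorem psi_zero (hd : 0 ≤ d) {s : ℝ} (hs : 0 ≤ s) (hs1 : s ≤ 1) {x : X}
    (hx : x ∉ Metric.closedBall o (5 * d / 2)) : hopfLax (cone o d) s x = 0 := by
  refine hopfLax_cone_eq_zero hd hs ?_
  rw [Metric.mem_closedBall, not_le] at hx
  nlinarith

theorem psi_continuous (hd : 0 ≤ d) :
    Continuous fun q : ℝ × X => hopfLax (cone o d) q.1 q.2 :=
  hopfLax_continuous (L := ⟨d, hd⟩) (cone_lipschitz hd) (abs_cone_le hd)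

theorem psi_hcs (hd : 0 ≤ d) {s : ℝ} (hs : 0 ≤ s) (hs1 : s ≤ 1) :
    HasCompactSupport (hopfLax (cone o d) s : X → ℝ) :=
  HasCompactSupport.of_support_subset_isCompact (isCompact_closedBall o (5 * d / 2))
    (fun x hx => by
      by_contra hc
      exact hx (psi_zero hd hs hs1 hc))

/-- bounded measurable functions vanishing off the ball are in `L²` -/
theorem memLp_of_ball {g : X → ℝ} (hg : Measurable g) {C : ℝ} (hC : ∀ x, |g x| ≤ C) {R : ℝ}
    (h0 : ∀ x, x ∉ Metric.closedBall o R → g x = 0) : MemLp g 2 m := by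
  have h1 : MemLp ((Metric.closedBall o R).indicator (fun _ : X => C)) 2 m :=
    memLp_indicator_const 2 measurableSet_closedBall C (Or.inr measure_closedBall_lt_top.ne)
  refine h1.of_le hg.aestronglyMeasurable (Eventually.of_forall fun x => ?_)
  by_cases hx : x ∈ Metric.closedBall o R
  · rw [indicator_of_mem hx, Real.norm_eq_abs]
    exact (hC x).trans (le_abs_self _)
  · rw [h0 x hx, indicator_of_notMem hx]

theorem psi_memLp (hd : 0 ≤ d) {s : ℝ} (hs : 0 ≤ s) (hs1 : s ≤ 1) :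
    MemLp (hopfLax (cone o d) s : X → ℝ) 2 m :=
  memLp_of_ball (psi_lip hd hs).continuous.measurable (psi_bdd hd s)
    (fun x hx => psi_zero hd hs hs1 hx)

/-! ### `J` on `L²` -/

theorem J_sub_ae (H : Hyp m k N) (hδ : 0 < δ) {f g : X → ℝ} (hf : MemLp f 2 m)
    (hg : MemLp g 2 m) :
    J m δ (fun x => f x - g x) =ᵐ[m] fun x => J m δ f x - J m δ g x :=
  Jr_sub H pt_bddLip_zero hδ hf hg

theorem J_l2_le (H : Hyp m k N) (hδ : 0 < δ) {f : X → ℝ} (hf : MemLp f 2 m) :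
    ∫ x, J m δ f x ^ 2 ∂m ≤ ∫ x, f x ^ 2 ∂m := by
  have h1 := Jr_l2 H pt_bddLip_zero hδ hf
  have h2 := En_nonneg H pt_bddLip_zero (Jr_sob H pt_bddLip_zero hδ hf)
  rw [wm_zero] at h1
  have h3 : 0 ≤ 2 * δ * En m (fun _ => 0) (Jr m (fun _ => 0) δ f) (Jr m (fun _ => 0) δ f) :=
    mul_nonneg (by positivity) h2
  exact le_trans (by unfold J; linarith) h1

/-! ### the time derivative -/

theorem psi_sob (H : Hyp m k N) (hd : 0 ≤ d) {s : ℝ} (hs : 0 ≤ s) (hs1 : s ≤ 1) :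
    IsSobolev m (hopfLax (cone o d) s : X → ℝ) :=
  sob_of_sobLoc_bddSupp H (sobLoc_of_lipschitz H (psi_lip hd hs))
    ⟨o, 5 * d / 2, Eventually.of_forall fun x hx => psi_zero hd hs hs1 hx⟩

/-- for a.e. time, `ψ` is differentiable in time at a.e. point, with the Hamilton-Jacobi
inequality -/
theorem psi_deriv_ae (H : Hyp m k N) (hd : 0 ≤ d)
    (hslope : ∀ (f : X → ℝ) (L : ℝ≥0), LipschitzWith L f →
      ∀ᵐ x ∂m, ENNReal.ofReal (minWeakGrad m f x) ≤ descSlope f x)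
    [SFinite m] :
    ∀ᵐ s ∂(volume.restrict (Ioo (0 : ℝ) 1)), ∀ᵐ x ∂m,
      HasDerivAt (fun r => hopfLax (cone o d) r x) (deriv (fun r => hopfLax (cone o d) r x) s) s ∧
      deriv (fun r => hopfLax (cone o d) r x) s ≤
        -(1 / 2) * minWeakGrad m (hopfLax (cone o d) s) x ^ 2 := by
  have hc := psi_continuous (o := o) hd
  have hSm : MeasurableSet {q : ℝ × X |
      DifferentiableAt ℝ (fun r => hopfLax (cone o d) r q.2) q.1} := by
    have h1 : Continuous (Function.uncurry fun (x : X) (r : ℝ) => hopfLax (cone o d) r x) :=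
      hc.comp continuous_swap
    have h2 := measurableSet_of_differentiableAt_with_param (𝕜 := ℝ) h1
    exact measurable_swap h2
  have hkey : ∀ᵐ s ∂(volume.restrict (Ioo (0 : ℝ) 1)), ∀ᵐ x ∂m,
      DifferentiableAt ℝ (fun r => hopfLax (cone o d) r x) s := by
    rw [Measure.ae_ae_comm (p := fun (s : ℝ) (x : X) =>
      DifferentiableAt ℝ (fun r => hopfLax (cone o d) r x) s) hSm]
    refine Eventually.of_forall fun x => ?_
    have hmono : Monotone fun r => -hopfLax (cone o d) r x := fun a b hab =>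
      neg_le_neg (hopfLax_antitone (abs_cone_le hd) x hab)
    refine ae_restrict_of_ae ?_
    filter_upwards [hmono.ae_differentiableAt] with r hr
    have := hr.neg
    simpa using this
  filter_upwards [hkey, ae_restrict_mem measurableSet_Ioo] with s h1 hs
  filter_upwards [h1, hslope _ _ (psi_lip (o := o) hd hs.1.le),
    Fin.wg_nonneg (psi_sob (o := o) H hd hs.1.le hs.2.le)] with x hx1 hx2 hx3
  refine ⟨hx1.hasDerivAt, ?_⟩
  have h2 := descSlope_sq_le (abs_cone_le hd) hs.1.le x hx1.hasDerivAt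
  have h3 : ENNReal.ofReal (minWeakGrad m (hopfLax (cone o d) s) x ^ 2) ≤
      ENNReal.ofReal (2 * (-deriv (fun r => hopfLax (cone o d) r x) s)) := by
    rw [ENNReal.ofReal_pow hx3]
    exact (pow_le_pow_left' hx2 2).trans h2
  have h4 : 0 ≤ 2 * (-deriv (fun r => hopfLax (cone o d) r x) s) := by
    have hanti : Antitone fun r => hopfLax (cone o d) r x := hopfLax_antitone (abs_cone_le hd) x
    have := hanti.deriv_nonpos (x := s)
    linarith
  have h5 := (ENNReal.ofReal_le_ofReal_iff h4).mp h3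
  linarith

theorem psi_deriv_bdd (hd : 0 ≤ d) {s : ℝ} (hs : 0 < s) (x : X) :
    |deriv (fun r => hopfLax (cone o d) r x) s| ≤ 4 * d ^ 2 := by
  have h := norm_deriv_le_of_lip' (f := fun r => hopfLax (cone o d) r x) (x₀ := s)
    (C := 4 * d ^ 2) (by positivity) (by
      filter_upwards [Ioi_mem_nhds hs] with r hr
      rw [Real.norm_eq_abs, Real.norm_eq_abs]
      exact psi_time hd x hs.le (le_of_lt hr))
  rwa [Real.norm_eq_abs] at h

theorem psi_deriv_zero (hd : 0 ≤ d) {s : ℝ} (hs : s ∈ Ioo (0 : ℝ) 1) {x : X}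
    (hx : x ∉ Metric.closedBall o (5 * d / 2)) :
    deriv (fun r => hopfLax (cone o d) r x) s = 0 := by
  have h : (fun r => hopfLax (cone o d) r x) =ᶠ[𝓝 s] fun _ => 0 := by
    filter_upwards [Ioo_mem_nhds hs.1 hs.2] with r hr
    exact psi_zero hd hr.1.le hr.2.le hx
  rw [h.deriv_eq, deriv_const]

theorem measurable_deriv_aux (f : X → ℝ → ℝ) (h1 : Continuous (Function.uncurry f)) (s : ℝ) :
    Measurable fun x : X => deriv (f x) s := by
  have h2 : Measurable fun p : X × ℝ => deriv (f p.1) p.2 :=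
    measurable_deriv_with_param (𝕜 := ℝ) h1
  have h3 : Measurable fun x : X => ((x, s) : X × ℝ) := measurable_id.prodMk measurable_const
  exact h2.comp h3

theorem psi_deriv_measurable (hd : 0 ≤ d) (s : ℝ) :
    Measurable fun x : X => deriv (fun r => hopfLax (cone o d) r x) s :=
  measurable_deriv_aux (fun x r => hopfLax (cone o d) r x)
    ((psi_continuous (o := o) hd).comp continuous_swap) s

theorem psi_deriv_memLp (hd : 0 ≤ d) {s : ℝ} (hs : s ∈ Ioo (0 : ℝ) 1) :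
    MemLp (fun x : X => deriv (fun r => hopfLax (cone o d) r x) s) 2 m :=
  memLp_of_ball (psi_deriv_measurable hd s) (psi_deriv_bdd hd hs.1)
    (fun x hx => psi_deriv_zero hd hs hx)

/-- `L²` convergence of the difference quotients -/
theorem psi_quot_tendsto (hd : 0 ≤ d) {s : ℝ} (hs : s ∈ Ioo (0 : ℝ) 1)
    (hder : ∀ᵐ x ∂m, HasDerivAt (fun r => hopfLax (cone o d) r x)
      (deriv (fun r => hopfLax (cone o d) r x) s) s)
    {h : ℕ → ℝ} (hh : ∀ n, 0 < h n ∧ s + h n ≤ 1) (hh0 : Tendsto h atTop (𝓝 0)) :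
    Tendsto (fun n => ∫ x, ((h n)⁻¹ * (hopfLax (cone o d) (s + h n) x - hopfLax (cone o d) s x)
      - deriv (fun r => hopfLax (cone o d) r x) s) ^ 2 ∂m) atTop (𝓝 0) := by
  have h0 : ∫ x : X, (0 : ℝ) ∂m = 0 := integral_zero _ _
  rw [← h0]
  refine tendsto_integral_of_dominated_convergence
    ((Metric.closedBall o (5 * d / 2)).indicator (fun _ : X => (8 * d ^ 2) ^ 2)) ?_ ?_ ?_ ?_
  · intro n
    have hc1 : Measurable fun x : X => hopfLax (cone o d) (s + h n) x :=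
      (psi_lip hd (by have := hh n; have := hs.1; linarith)).continuous.measurable
    have hc2 : Measurable fun x : X => hopfLax (cone o d) s x :=
      (psi_lip hd hs.1.le).continuous.measurable
    exact ((((hc1.sub hc2).const_mul _).sub (psi_deriv_measurable hd s)).pow_const 2).aestronglyMeasurable
  · exact (integrable_indicator_iff measurableSet_closedBall).mpr
      (integrableOn_const (by exact measure_closedBall_lt_top.ne))
  · intro n
    refine Eventually.of_forall fun x => ?_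
    obtain ⟨hn, hn1⟩ := hh n
    by_cases hx : x ∈ Metric.closedBall o (5 * d / 2)
    · rw [indicator_of_mem hx, Real.norm_of_nonneg (sq_nonneg _), ← sq_abs]
      refine pow_le_pow_left₀ (abs_nonneg _) ?_ 2
      have e1 : |(h n)⁻¹ * (hopfLax (cone o d) (s + h n) x - hopfLax (cone o d) s x)| ≤
          4 * d ^ 2 := by
        rw [abs_mul, abs_of_pos (inv_pos.mpr hn), inv_mul_le_iff₀ hn]
        have := psi_time (o := o) hd x (s := s) (t := s + h n) hs.1.le (by linarith [hs.1])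
        rw [add_sub_cancel_left, abs_of_pos hn] at this
        linarith
      have e2 := psi_deriv_bdd (o := o) hd hs.1 x
      have e3 := abs_sub ((h n)⁻¹ * (hopfLax (cone o d) (s + h n) x - hopfLax (cone o d) s x))
        (deriv (fun r => hopfLax (cone o d) r x) s)
      linarith
    · rw [indicator_of_notMem hx, psi_zero hd (by linarith [hs.1]) hn1 hx,
        psi_zero hd hs.1.le hs.2.le hx, psi_deriv_zero hd hs hx]
      simp
  · filter_upwards [hder] with x hx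
    have hsn : Tendsto (fun n => s + h n) atTop (𝓝[≠] s) := by
      rw [tendsto_nhdsWithin_iff]
      refine ⟨by simpa using hh0.const_add s, Eventually.of_forall fun n => ?_⟩
      rw [mem_compl_iff, mem_singleton_iff]
      have := (hh n).1
      intro hc; linarith
    have h1 := (hasDerivAt_iff_tendsto_slope.mp hx).comp hsn
    have h2 := (h1.sub_const (deriv (fun r => hopfLax (cone o d) r x) s)).pow 2
    rw [sub_self, zero_pow two_ne_zero] at h2
    refine h2.congr fun n => ?_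
    simp only [Function.comp_def, slope, vsub_eq_sub, smul_eq_mul]
    rw [add_sub_cancel_left]

/-! ### the family -/

/-- `pt s = J_δ (ψ s)` -/
def ptf (m : Measure X) (δ d : ℝ) (o : X) (s : ℝ) : X → ℝ := J m δ (hopfLax (cone o d) s)

/-- its Laplacian -/
def lpf (m : Measure X) (δ d : ℝ) (o : X) (s : ℝ) : X → ℝ :=
  fun x => (J m δ (hopfLax (cone o d) s) x - hopfLax (cone o d) s x) / δ

theorem ptFam_cone (H : Hyp m k N) (hδ : 0 < δ) (hδk : 4 * δ * k ≤ 1) (hd : 0 ≤ d) [SFinite m]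
    (hslope : ∀ (f : X → ℝ) (L : ℝ≥0), LipschitzWith L f →
      ∀ᵐ x ∂m, ENNReal.ofReal (minWeakGrad m f x) ≤ descSlope f x)
    (hbe : ∀ f : X → ℝ, IsSobolev m f → MemLp (fun x => minWeakGrad m f x ^ 2) 2 m →
      ∀ᵐ x ∂m, minWeakGrad m (J m δ f) x ^ 2 ≤
        (1 - 2 * δ * k)⁻¹ * J m δ (fun x => minWeakGrad m f x ^ 2) x) :
    PtFam m (d ^ 2 / 2) (5 * d) (d ^ 2 / δ) (4 * d ^ 2) (1 - 2 * δ * k)
      (ptf m δ d o) (lpf m δ d o) := by
  have hk0 : 0 < k := H.kpos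
  have hc : (1 : ℝ) / 2 ≤ 1 - 2 * δ * k := by linarith
  have hc0 : 0 < 1 - 2 * δ * k := by linarith
  have hinv : (1 - 2 * δ * k)⁻¹ ≤ 2 := by
    rw [inv_le_comm₀ hc0 (by norm_num)]
    linarith
  have hwgL : ∀ s : ℝ, 0 ≤ s → ∀ᵐ x ∂m, minWeakGrad m (hopfLax (cone o d) s) x ≤ 3 * d := by
    intro s hs
    filter_upwards [hslope _ _ (psi_lip (o := o) hd hs)] with x hx
    have h1 := hx.trans (descSlope_le_of_lipschitz (psi_lip (o := o) hd hs) x)
    have h2 : ENNReal.ofReal (minWeakGrad m (hopfLax (cone o d) s) x) ≤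
        ENNReal.ofReal (3 * d) := by
      exact h1
    exact (ENNReal.ofReal_le_ofReal_iff (by positivity)).mp h2
  have hsob : ∀ s ∈ Icc (0 : ℝ) 1, IsSobolev m (hopfLax (cone o d) s : X → ℝ) :=
    fun s hs => psi_sob H hd hs.1 hs.2
  have hB2 : ∀ s ∈ Icc (0 : ℝ) 1,
      B2 m (fun x => minWeakGrad m (hopfLax (cone o d) s) x ^ 2) := fun s hs =>
    Fin.B2_wg_sq (hsob s hs) (hwgL s hs.1)
  refine ⟨?_, ?_, ?_, ?_, ?_, ?_⟩
  · intro s hs
    exact Jr_abs_le H pt_bddLip_zero hδ (psi_memLp hd hs.1 hs.2)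
      (Eventually.of_forall (psi_bdd hd s))
  · intro s hs
    have h1 := hbe _ (hsob s hs) (hB2 s hs).1
    have h2 : ∀ᵐ x ∂m, J m δ (fun x => minWeakGrad m (hopfLax (cone o d) s) x ^ 2) x ≤
        (3 * d) ^ 2 := by
      refine Jr_le_const H pt_bddLip_zero hδ (hB2 s hs).1 (by positivity) ?_
      filter_upwards [hwgL s hs.1, Fin.wg_nonneg (hsob s hs)] with x hx1 hx2
      exact pow_le_pow_left₀ hx2 hx1 2
    filter_upwards [h1, h2] with x hx1 hx2
    refine le_of_sq_le_sq ?_ (by positivity)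
    calc minWeakGrad m (ptf m δ d o s) x ^ 2 ≤ _ := hx1
      _ ≤ 2 * (3 * d) ^ 2 := by
          refine (mul_le_mul_of_nonneg_left hx2 (by positivity)).trans ?_
          exact mul_le_mul_of_nonneg_right hinv (by positivity)
      _ ≤ (5 * d) ^ 2 := by nlinarith [sq_nonneg d]
  · intro s hs
    exact isWLap_zero_iff.mp (Jr_isWLap H pt_bddLip_zero hδ (psi_memLp hd hs.1 hs.2))
  · intro s hs
    filter_upwards [Jr_abs_le H pt_bddLip_zero hδ (psi_memLp (o := o) (m := m) hd hs.1 hs.2)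
      (Eventually.of_forall (psi_bdd hd s))] with x hx
    unfold lpf
    rw [abs_div, abs_of_pos hδ, div_le_div_iff_of_pos_right hδ]
    have h1 := psi_bdd (o := o) hd s x
    have h2 := abs_sub (J m δ (hopfLax (cone o d) s) x) (hopfLax (cone o d) s x)
    have h3 : |J m δ (hopfLax (cone o d) s) x| ≤ d ^ 2 / 2 := hx
    linarith
  · intro s hs t ht
    have h1 := J_sub_ae H hδ (psi_memLp (o := o) (m := m) hd ht.1 ht.2)
      (psi_memLp (o := o) (m := m) hd hs.1 hs.2)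
    have h2 := Jr_abs_le H pt_bddLip_zero hδ ((psi_memLp (o := o) (m := m) hd ht.1 ht.2).sub
      (psi_memLp (o := o) (m := m) hd hs.1 hs.2)) (c := 4 * d ^ 2 * |t - s|)
      (Eventually.of_forall fun x => psi_time hd x hs.1 ht.1)
    filter_upwards [h1, h2] with x hx1 hx2
    unfold ptf
    rw [← hx1]
    exact hx2
  · filter_upwards [psi_deriv_ae (o := o) H hd hslope, ae_restrict_mem measurableSet_Ioo]
      with s h1 hs
    have hsI : s ∈ Icc (0 : ℝ) 1 := Ioo_subset_Icc_self hs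
    set D0 : X → ℝ := fun x => deriv (fun r => hopfLax (cone o d) r x) s with hD0
    have hD0m : MemLp D0 2 m := psi_deriv_memLp hd hs
    refine ⟨J m δ D0, Jr_memLp H pt_bddLip_zero hδ hD0m,
      Jr_abs_le H pt_bddLip_zero hδ hD0m (Eventually.of_forall (psi_deriv_bdd hd hs.1)), ?_, ?_⟩
    · have h2 : J m δ D0 ≤ᵐ[m] J m δ (fun x => (-(1 / 2)) *
          minWeakGrad m (hopfLax (cone o d) s) x ^ 2) := by
        refine Jr_mono H pt_bddLip_zero hδ hD0m ((hB2 s hsI).1.const_mul _) ?_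
        filter_upwards [h1] with x hx
        exact hx.2
      have h3 := Jr_smul H pt_bddLip_zero hδ (-(1 / 2)) (hB2 s hsI).1
      have h4 := hbe _ (hsob s hsI) (hB2 s hsI).1
      filter_upwards [h2, h3, h4] with x hx2 hx3 hx4
      refine hx2.trans ?_
      have hx3' : J m δ (fun x => (-(1 / 2)) * minWeakGrad m (hopfLax (cone o d) s) x ^ 2) x =
          (-(1 / 2)) * J m δ (fun x => minWeakGrad m (hopfLax (cone o d) s) x ^ 2) x := hx3
      rw [hx3']
      have h5 : (1 - 2 * δ * k) * minWeakGrad m (ptf m δ d o s) x ^ 2 ≤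
          J m δ (fun x => minWeakGrad m (hopfLax (cone o d) s) x ^ 2) x := by
        have h6 := mul_le_mul_of_nonneg_left hx4 hc0.le
        rw [← mul_assoc, mul_inv_cancel₀ hc0.ne', one_mul] at h6
        exact h6
      linarith
    · intro h hh hh0
      have hlim := psi_quot_tendsto (m := m) (o := o) hd hs (h1.mono fun x hx => hx.1) hh hh0
      refine squeeze_zero (fun n => integral_nonneg fun x => sq_nonneg _) (fun n => ?_) hlim
      have hn := hh n
      have hmem : s + h n ∈ Icc (0 : ℝ) 1 := ⟨by linarith [hs.1, hn.1], hn.2⟩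
      have m1 := psi_memLp (o := o) (m := m) hd hmem.1 hmem.2
      have m2 := psi_memLp (o := o) (m := m) hd hsI.1 hsI.2
      have m12 : MemLp (fun x : X => hopfLax (cone o d) (s + h n) x - hopfLax (cone o d) s x) 2 m :=
        m1.sub m2
      have m3 : MemLp (fun x : X => (h n)⁻¹ * (hopfLax (cone o d) (s + h n) x -
        hopfLax (cone o d) s x)) 2 m := m12.const_mul _
      have e1 := J_sub_ae H hδ m1 m2
      have e2 := Jr_smul H pt_bddLip_zero hδ (h n)⁻¹ m12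
      have e3 := J_sub_ae H hδ m3 hD0m
      have e4 : ∫ x, ((h n)⁻¹ * (ptf m δ d o (s + h n) x - ptf m δ d o s x) - J m δ D0 x) ^ 2 ∂m
          = ∫ x, J m δ (fun x => (h n)⁻¹ * (hopfLax (cone o d) (s + h n) x -
              hopfLax (cone o d) s x) - D0 x) x ^ 2 ∂m := by
        refine integral_congr_ae ?_
        filter_upwards [e1, e2, e3] with x hx1 hx2 hx3
        have hx2' : J m δ (fun x => (h n)⁻¹ * (hopfLax (cone o d) (s + h n) x -
              hopfLax (cone o d) s x)) x = (h n)⁻¹ * J m δ (fun x =>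
              hopfLax (cone o d) (s + h n) x - hopfLax (cone o d) s x) x := hx2
        show ((h n)⁻¹ * (ptf m δ d o (s + h n) x - ptf m δ d o s x) - J m δ D0 x) ^ 2 = _
        rw [show J m δ (fun x => (h n)⁻¹ * (hopfLax (cone o d) (s + h n) x -
              hopfLax (cone o d) s x) - D0 x) x = _ from hx3, hx2', hx1]
        rfl
      rw [e4]
      exact J_l2_le H hδ (m3.sub hD0m)

end Fin
end Crest.Agent.R242
end
end

-- ▼ part R242/CutB
section

/-!
Row 242, part F: the second half of `CutInst` (owner helper41): the majorant `wpt` of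
`wg (pt s)`, and the convergence of the cut-off error functions.
-/

set_option autoImplicit false
set_option linter.unusedSectionVars false
set_option linter.unusedVariables false

open MeasureTheory Filter Set
open scoped ENNReal NNReal Topology
open Crest.GeometryTopology.SyntheticRicci

noncomputable section

namespace Crest.Agent.R242
namespace Fin

variable {X : Type*} [MetricSpace X] [ProperSpace X] [MeasurableSpace X] [BorelSpace X]
  {m : Measure X} [IsLocallyFiniteMeasure m] [m.IsOpenPosMeasure]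
  {k N h₀ δ d : ℝ} {o : X} {F f : X → ℝ}

/-- the majorant of `wg (pt s)`, independent of `s` -/
def wpt (m : Measure X) (δ d : ℝ) (o : X) (x : X) : ℝ :=
  √(18 * d ^ 2 * J m δ ((Metric.closedBall o (5 * d / 2)).indicator fun _ => (1 : ℝ)) x)

omit [m.IsOpenPosMeasure] in
theorem ballInd_memLp (R c : ℝ) :
    MemLp ((Metric.closedBall o R).indicator fun _ : X => c) 2 m :=
  memLp_indicator_const 2 measurableSet_closedBall c (Or.inr measure_closedBall_lt_top.ne)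

omit [m.IsOpenPosMeasure] in
theorem ballInd_integrable (R c : ℝ) :
    Integrable ((Metric.closedBall o R).indicator fun _ : X => c) m :=
  (integrable_indicator_iff measurableSet_closedBall).mpr
    (integrableOn_const (by exact measure_closedBall_lt_top.ne))

theorem J_ballInd_nonneg (H : Hyp m k N) (hδ : 0 < δ) (R : ℝ) :
    ∀ᵐ x ∂m, 0 ≤ J m δ ((Metric.closedBall o R).indicator fun _ => (1 : ℝ)) x := by
  refine Jr_nonneg H pt_bddLip_zero hδ (ballInd_memLp R 1) (Eventually.of_forall fun x => ?_)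
  exact indicator_nonneg (fun _ _ => zero_le_one) x

theorem J_ballInd_le_one (H : Hyp m k N) (hδ : 0 < δ) (R : ℝ) :
    ∀ᵐ x ∂m, J m δ ((Metric.closedBall o R).indicator fun _ => (1 : ℝ)) x ≤ 1 := by
  refine Jr_le_const H pt_bddLip_zero hδ (ballInd_memLp R 1) zero_le_one
    (Eventually.of_forall fun x => ?_)
  by_cases hx : x ∈ Metric.closedBall o R
  · rw [indicator_of_mem hx]
  · rw [indicator_of_notMem hx]; exact zero_le_one

theorem wpt_memLp (H : Hyp m k N) (hδ : 0 < δ) : MemLp (wpt m δ d o) 2 m := by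
  have h1 : MemLp (J m δ ((Metric.closedBall o (5 * d / 2)).indicator fun _ => (1 : ℝ))) 2 m :=
    Jr_memLp H pt_bddLip_zero hδ (ballInd_memLp _ 1)
  have h2 : Integrable (J m δ ((Metric.closedBall o (5 * d / 2)).indicator fun _ => (1 : ℝ))) m :=
    (Jr_l1 H pt_bddLip_zero hδ (ballInd_memLp _ 1) (ballInd_integrable _ 1)).1
  have hm : AEStronglyMeasurable (wpt m δ d o) m :=
    Real.continuous_sqrt.comp_aestronglyMeasurable (h1.1.const_mul (18 * d ^ 2))
  rw [memLp_two_iff_integrable_sq hm]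
  refine (h2.const_mul (18 * d ^ 2)).congr ?_
  filter_upwards [J_ballInd_nonneg (o := o) H hδ (5 * d / 2)] with x hx
  unfold wpt
  rw [Real.sq_sqrt (by positivity)]

theorem wpt_bdd (H : Hyp m k N) (hδ : 0 < δ) : ∀ᵐ x ∂m, |wpt m δ d o x| ≤ 5 * |d| := by
  filter_upwards [J_ballInd_le_one (o := o) H hδ (5 * d / 2)] with x hx
  unfold wpt
  rw [abs_of_nonneg (Real.sqrt_nonneg _)]
  refine Real.sqrt_le_iff.mpr ⟨by positivity, ?_⟩
  rw [mul_pow, sq_abs]
  have h1 : 18 * d ^ 2 * J m δ ((Metric.closedBall o (5 * d / 2)).indicator fun _ => (1 : ℝ)) x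
      ≤ 18 * d ^ 2 * 1 := mul_le_mul_of_nonneg_left hx (by positivity)
  nlinarith [sq_nonneg d]

omit [ProperSpace X] [MeasurableSpace X] [BorelSpace X] in
/-- the descending slope vanishes where the function vanishes locally -/
theorem descSlope_eq_zero_of_eventually {g : X → ℝ} {x : X} (h : ∀ᶠ y in 𝓝 x, g y = 0) :
    descSlope g x = 0 := by
  have hx : g x = 0 := h.self_of_nhds
  have h1 : (fun y => ENNReal.ofReal ((g x - g y) / dist y x)) =ᶠ[𝓝[≠] x] fun _ => 0 := by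
    filter_upwards [h.filter_mono nhdsWithin_le_nhds] with y hy
    rw [hx, hy]; simp
  unfold descSlope
  rw [limsup_congr h1]
  by_cases hb : (𝓝[≠] x).NeBot
  · exact limsup_const 0
  · rw [Filter.not_neBot] at hb
    rw [hb]
    simp [Filter.limsup_bot]

theorem wg_ptf_le_wpt (H : Hyp m k N) (hδ : 0 < δ) (hδk : 4 * δ * k ≤ 1) (hd : 0 ≤ d)
    (hslope : ∀ (f : X → ℝ) (L : ℝ≥0), LipschitzWith L f →
      ∀ᵐ x ∂m, ENNReal.ofReal (minWeakGrad m f x) ≤ descSlope f x)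
    (hbe : ∀ f : X → ℝ, IsSobolev m f → MemLp (fun x => minWeakGrad m f x ^ 2) 2 m →
      ∀ᵐ x ∂m, minWeakGrad m (J m δ f) x ^ 2 ≤
        (1 - 2 * δ * k)⁻¹ * J m δ (fun x => minWeakGrad m f x ^ 2) x)
    {s : ℝ} (hs : s ∈ Icc (0 : ℝ) 1) :
    ∀ᵐ x ∂m, minWeakGrad m (ptf m δ d o s) x ≤ wpt m δ d o x := by
  have hc : (1 : ℝ) / 2 ≤ 1 - 2 * δ * k := by linarith
  have hc0 : 0 < 1 - 2 * δ * k := by linarith
  have hinv : (1 - 2 * δ * k)⁻¹ ≤ 2 := by
    rw [inv_le_comm₀ hc0 (by norm_num)]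
    linarith
  have hsob : IsSobolev m (hopfLax (cone o d) s : X → ℝ) := psi_sob H hd hs.1 hs.2
  have hwgL : ∀ᵐ x ∂m, minWeakGrad m (hopfLax (cone o d) s) x ≤ 3 * d := by
    filter_upwards [hslope _ _ (psi_lip (o := o) hd hs.1)] with x hx
    have h1 := hx.trans (descSlope_le_of_lipschitz (psi_lip (o := o) hd hs.1) x)
    have h2 : ENNReal.ofReal (minWeakGrad m (hopfLax (cone o d) s) x) ≤
        ENNReal.ofReal (3 * d) := by
      exact h1
    exact (ENNReal.ofReal_le_ofReal_iff (by positivity)).mp h2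
  have hB2 : B2 m (fun x => minWeakGrad m (hopfLax (cone o d) s) x ^ 2) :=
    Fin.B2_wg_sq hsob hwgL
  -- the gradient vanishes off the ball
  have hptw : (fun x => minWeakGrad m (hopfLax (cone o d) s) x ^ 2) ≤ᵐ[m]
      fun x => 9 * d ^ 2 * ((Metric.closedBall o (5 * d / 2)).indicator fun _ => (1 : ℝ)) x := by
    filter_upwards [hwgL, Fin.wg_nonneg hsob, hslope _ _ (psi_lip (o := o) hd hs.1)]
      with x hx1 hx2 hx3
    by_cases hx : x ∈ Metric.closedBall o (5 * d / 2)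
    · rw [indicator_of_mem hx, mul_one]
      nlinarith
    · rw [indicator_of_notMem hx, mul_zero]
      have h1 : ∀ᶠ y in 𝓝 x, hopfLax (cone o d) s y = 0 := by
        filter_upwards [Metric.isClosed_closedBall.isOpen_compl.mem_nhds hx] with y hy
        exact psi_zero hd hs.1 hs.2 hy
      rw [descSlope_eq_zero_of_eventually h1, nonpos_iff_eq_zero, ENNReal.ofReal_eq_zero] at hx3
      have h2 : minWeakGrad m (hopfLax (cone o d) s) x = 0 := le_antisymm hx3 hx2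
      rw [h2]; norm_num
  have h1 := hbe _ hsob hB2.1
  have h2 : J m δ (fun x => minWeakGrad m (hopfLax (cone o d) s) x ^ 2) ≤ᵐ[m]
      J m δ (fun x => 9 * d ^ 2 *
        ((Metric.closedBall o (5 * d / 2)).indicator fun _ => (1 : ℝ)) x) :=
    Jr_mono H pt_bddLip_zero hδ hB2.1 ((ballInd_memLp (5 * d / 2) 1).const_mul _) hptw
  have h3 := Jr_smul H pt_bddLip_zero hδ (9 * d ^ 2) (ballInd_memLp (m := m) (o := o) (5 * d / 2) 1)
  filter_upwards [h1, h2, h3, J_ballInd_nonneg (o := o) H hδ (5 * d / 2)] with x hx1 hx2 hx3 hx4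
  refine Real.le_sqrt_of_sq_le (hx1.trans ?_)
  have hx3' : J m δ (fun x => 9 * d ^ 2 *
      ((Metric.closedBall o (5 * d / 2)).indicator fun _ => (1 : ℝ)) x) x =
      9 * d ^ 2 * J m δ ((Metric.closedBall o (5 * d / 2)).indicator fun _ => (1 : ℝ)) x := hx3
  rw [hx3'] at hx2
  calc (1 - 2 * δ * k)⁻¹ * J m δ (fun x => minWeakGrad m (hopfLax (cone o d) s) x ^ 2) x
      ≤ (1 - 2 * δ * k)⁻¹ * (9 * d ^ 2 *
          J m δ ((Metric.closedBall o (5 * d / 2)).indicator fun _ => (1 : ℝ)) x) :=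
        mul_le_mul_of_nonneg_left hx2 (inv_nonneg.mpr hc0.le)
    _ ≤ 2 * (9 * d ^ 2 *
          J m δ ((Metric.closedBall o (5 * d / 2)).indicator fun _ => (1 : ℝ)) x) :=
        mul_le_mul_of_nonneg_right hinv (by positivity)
    _ = 18 * d ^ 2 *
          J m δ ((Metric.closedBall o (5 * d / 2)).indicator fun _ => (1 : ℝ)) x := by ring

/-- the error functions tend to `0` in `L²` -/
theorem cut_tendsto {w : X → ℝ} (hw : MemLp w 2 m) {fn : ℕ → X → ℝ} (hfn : ∀ n, Measurable (fn n))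
    (hF : Measurable F) (h : ∀ n : ℕ, ∀ x ∈ Metric.closedBall o (n : ℝ), fn n x = F x) (c : ℝ) :
    Tendsto (fun n => ∫ x, ({x | fn n x ≠ F x}.indicator (fun x => c * w x) x) ^ 2 ∂m)
      atTop (𝓝 0) := by
  have h0 : ∫ x : X, (0 : ℝ) ∂m = 0 := integral_zero _ _
  have hcw : MemLp (fun x => c * w x) 2 m := hw.const_mul c
  rw [← h0]
  refine tendsto_integral_of_dominated_convergence (fun x => (c * w x) ^ 2) ?_ ?_ ?_ ?_
  · intro n
    have hS : MeasurableSet {x | fn n x ≠ F x} :=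
      (measurableSet_eq_fun (hfn n) hF).compl
    exact (hcw.1.indicator hS).pow 2
  · exact (memLp_two_iff_integrable_sq hcw.1).mp hcw
  · intro n
    refine Eventually.of_forall fun x => ?_
    rw [Real.norm_of_nonneg (sq_nonneg _)]
    by_cases hx : x ∈ {x | fn n x ≠ F x}
    · rw [indicator_of_mem hx]
    · rw [indicator_of_notMem hx]
      simpa using sq_nonneg (c * w x)
  · refine Eventually.of_forall fun x => ?_
    refine tendsto_const_nhds.congr' ?_
    obtain ⟨n₀, hn₀⟩ := exists_nat_ge (dist x o)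
    filter_upwards [eventually_ge_atTop n₀] with n hn
    have hx : x ∉ {x | fn n x ≠ F x} := by
      rw [Set.mem_ofPred_eq, not_not]
      refine h n x ?_
      rw [Metric.mem_closedBall]
      exact hn₀.trans (Nat.cast_le.mpr hn)
    rw [indicator_of_notMem hx]
    norm_num

end Fin
end Crest.Agent.R242
end
end

-- ▼ part R242/CutInst
section

/-!
Row 242, part F: cut-offs of `F` (`CutA`), the pairing inequality `hcalc` of `Fin.F_ineq`
(`CutA`), the error functions `g_n` (`CutB`).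
-/
end

-- ▼ part R242/FinMain

/-!
Row 242, part F: assembly for a Lipschitz function `G`.
-/

set_option autoImplicit false
set_option linter.unusedSectionVars false
set_option linter.unusedVariables false

open MeasureTheory Filter Set
open scoped ENNReal NNReal Topology
open Crest.GeometryTopology.SyntheticRicci

noncomputable section

namespace Crest.Agent.R242
namespace Fin

/-! ### test functions on the line -/

/-- what we need of the test function -/
theorem test_bounds {η : ℝ → ℝ} (h1 : ContDiff ℝ ((⊤ : ℕ∞) : WithTop ℕ∞) η)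
    (h2 : HasCompactSupport η) (h3 : tsupport η ⊆ Ioo (0 : ℝ) 1) :
    ∃ N : ℝ, 0 ≤ N ∧ (∀ t, |η t| ≤ N) ∧ (∀ t, |deriv η t| ≤ N) ∧ (∀ t, |deriv (deriv η) t| ≤ N) ∧
      η 0 = 0 ∧ η 1 = 0 ∧ deriv η 0 = 0 ∧ deriv η 1 = 0 ∧ ContDiff ℝ 2 η := by
  have hc2 : ContDiff ℝ 2 η := by exact_mod_cast contDiff_infty.mp h1 2
  have hc1 : ContDiff ℝ 1 (deriv η) := by
    have := (contDiff_succ_iff_deriv (𝕜 := ℝ) (n := 1) (f := η)).mp
      (by simpa [one_add_one_eq_two] using hc2)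
    exact this.2.2
  have b0 : ∃ C, ∀ x, ‖η x‖ ≤ C := h2.exists_bound_of_continuous hc2.continuous
  have b1 : ∃ C, ∀ x, ‖deriv η x‖ ≤ C := h2.deriv.exists_bound_of_continuous hc1.continuous
  have b2 : ∃ C, ∀ x, ‖deriv (deriv η) x‖ ≤ C :=
    h2.deriv.deriv.exists_bound_of_continuous (hc1.continuous_deriv (by norm_num))
  obtain ⟨C0, hC0⟩ := b0
  obtain ⟨C1, hC1⟩ := b1
  obtain ⟨C2, hC2⟩ := b2
  have n0 : (0 : ℝ) ∉ tsupport η := fun h => by have := (h3 h).1; linarith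
  have n1 : (1 : ℝ) ∉ tsupport η := fun h => by have := (h3 h).2; linarith
  have d0 : (0 : ℝ) ∉ tsupport (deriv η) := fun h => n0 (tsupport_deriv_subset h)
  have d1 : (1 : ℝ) ∉ tsupport (deriv η) := fun h => n1 (tsupport_deriv_subset h)
  refine ⟨max C0 (max C1 C2), ?_, fun t => ?_, fun t => ?_, fun t => ?_,
    image_eq_zero_of_notMem_tsupport n0, image_eq_zero_of_notMem_tsupport n1,
    image_eq_zero_of_notMem_tsupport d0, image_eq_zero_of_notMem_tsupport d1, hc2⟩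
  · exact ((norm_nonneg _).trans (hC0 0)).trans (le_max_left _ _)
  · exact (hC0 t).trans (le_max_left _ _)
  · exact (hC1 t).trans ((le_max_left _ _).trans (le_max_right _ _))
  · exact (hC2 t).trans ((le_max_right _ _).trans (le_max_right _ _))

/-- the numerical part -/
theorem num_final {k δ τ N1 C3 a1 CE A0 MF d Lf B T1 Eg I Lb v1 v0 : ℝ} (hk0 : 0 < k)
    (hδ : 0 < δ) (hδ1' : δ ≤ 1) (hτ : 0 < τ) (hτ1 : τ ≤ 1) (hN1 : 0 ≤ N1) (hC3 : 0 ≤ C3)
    (ha1 : 0 ≤ a1) (hCE : 0 ≤ CE) (hA0 : 0 ≤ A0) (hMF : 0 ≤ MF) (hd : 0 ≤ d) (hLf0 : 0 ≤ Lf)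
    (hmain : v1 - v0 ≤ T1 + (1 / 2) * (CE * (5 * d + N1 * Lf) ^ 2 * (τ * N1) *
        (C3 * √δ + a1 * (τ * N1)) * Real.exp (2 * (B + |δ ^ 2 * k|))) +
      ((1 / 2) * (1 - (1 - 2 * δ * k)) * (5 * d) ^ 2 + τ * N1 * (|δ ^ 2| * (d ^ 2 / δ)) +
        (1 / 2) * ((τ * N1) ^ 2 * Lf ^ 2)) + Eg + Lb + τ * N1 * (τ * N1 * (A0 * Lf + 2 * δ * MF)))
    (b1 : -(6 * C3 * d * √δ) ≤ v1 - 0) (b0 : v0 - -(d ^ 2 / 2) ≤ 6 * C3 * d * √δ)
    (hI : Lb ≤ -(τ * I) + τ * (N1 * (τ * N1 * (A0 * Lf + 2 * MF) + C3 * √δ * Lf))) :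
    d ^ 2 / 2 ≤ T1 - τ * I +
      (12 * C3 * d + (1 / 2) * (CE * (5 * d + N1 * Lf) ^ 2 * N1 * (C3 + a1 * N1) *
          Real.exp (2 * (B + k))) +
        (25 * k * d ^ 2 + N1 * d ^ 2 + (1 / 2) * (N1 ^ 2 * Lf ^ 2)) +
        N1 * (N1 * (A0 * Lf + 2 * MF) + C3 * Lf) + N1 * (N1 * (A0 * Lf + 2 * MF))) *
        (√δ + τ ^ 2) + Eg := by
  set q := √δ with hq
  have hq0 : 0 ≤ q := Real.sqrt_nonneg _
  have hq2 : q ^ 2 = δ := Real.sq_sqrt hδ.le
  have hq1 : q ≤ 1 := by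
    rw [hq]
    calc √δ ≤ √1 := Real.sqrt_le_sqrt hδ1'
      _ = 1 := Real.sqrt_one
  have hδq : δ ≤ q := by
    calc δ = q * q := by rw [← hq2]; ring
      _ ≤ q * 1 := mul_le_mul_of_nonneg_left hq1 hq0
      _ = q := mul_one q
  have hτ2 : 0 ≤ τ ^ 2 := sq_nonneg _
  set W := q + τ ^ 2 with hW
  have hqW : q ≤ W := by rw [hW]; linarith
  have hτW : τ ^ 2 ≤ W := by rw [hW]; linarith
  have hδW : δ ≤ W := hδq.trans hqW
  have hW0 : 0 ≤ W := hq0.trans hqW
  clear_value W q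
  set Lz := 5 * d + N1 * Lf with hLz
  have hLz2 : 0 ≤ Lz ^ 2 := sq_nonneg _
  clear_value Lz
  have n1 : (1 / 2) * (CE * Lz ^ 2 * (τ * N1) * (C3 * q + a1 * (τ * N1)) *
      Real.exp (2 * (B + |δ ^ 2 * k|))) ≤
      (1 / 2) * (CE * Lz ^ 2 * N1 * (C3 + a1 * N1) * Real.exp (2 * (B + k))) * W := by
    have u1 : Real.exp (2 * (B + |δ ^ 2 * k|)) ≤ Real.exp (2 * (B + k)) := by
      apply Real.exp_le_exp.mpr
      rw [abs_of_nonneg (by positivity)]
      have : δ ^ 2 * k ≤ 1 * k := mul_le_mul_of_nonneg_right (pow_le_one₀ hδ.le hδ1') hk0.le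
      linarith
    have u2 : (τ * N1) * (C3 * q + a1 * (τ * N1)) ≤ N1 * (C3 + a1 * N1) * W := by
      have v1 : τ * (N1 * C3 * q) ≤ 1 * (N1 * C3 * q) :=
        mul_le_mul_of_nonneg_right hτ1 (by positivity)
      have v2 : N1 * C3 * q ≤ N1 * C3 * W := mul_le_mul_of_nonneg_left hqW (by positivity)
      have v3 : N1 * a1 * N1 * τ ^ 2 ≤ N1 * a1 * N1 * W :=
        mul_le_mul_of_nonneg_left hτW (by positivity)
      calc (τ * N1) * (C3 * q + a1 * (τ * N1)) = τ * (N1 * C3 * q) + N1 * a1 * N1 * τ ^ 2 := by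
            ring
        _ ≤ N1 * C3 * W + N1 * a1 * N1 * W := by linarith
        _ = _ := by ring
    have u3 : 0 ≤ (τ * N1) * (C3 * q + a1 * (τ * N1)) := by positivity
    have u4 : CE * Lz ^ 2 * ((τ * N1) * (C3 * q + a1 * (τ * N1))) *
        Real.exp (2 * (B + |δ ^ 2 * k|)) ≤
        CE * Lz ^ 2 * (N1 * (C3 + a1 * N1) * W) * Real.exp (2 * (B + k)) := by
      refine mul_le_mul (mul_le_mul_of_nonneg_left u2 (by positivity)) u1 (Real.exp_pos _).le
        (by positivity)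
    calc (1 / 2) * (CE * Lz ^ 2 * (τ * N1) * (C3 * q + a1 * (τ * N1)) *
        Real.exp (2 * (B + |δ ^ 2 * k|))) = (1 / 2) * (CE * Lz ^ 2 * ((τ * N1) *
          (C3 * q + a1 * (τ * N1))) * Real.exp (2 * (B + |δ ^ 2 * k|))) := by ring
      _ ≤ (1 / 2) * (CE * Lz ^ 2 * (N1 * (C3 + a1 * N1) * W) * Real.exp (2 * (B + k))) :=
          mul_le_mul_of_nonneg_left u4 (by norm_num)
      _ = _ := by ring
  have n2 : (1 / 2) * (1 - (1 - 2 * δ * k)) * (5 * d) ^ 2 ≤ 25 * k * d ^ 2 * W := by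
    have : 25 * k * d ^ 2 * δ ≤ 25 * k * d ^ 2 * W :=
      mul_le_mul_of_nonneg_left hδW (by positivity)
    calc _ = 25 * k * d ^ 2 * δ := by ring
      _ ≤ _ := this
  have n3 : τ * N1 * (|δ ^ 2| * (d ^ 2 / δ)) ≤ N1 * d ^ 2 * W := by
    have e1 : |δ ^ 2| * (d ^ 2 / δ) = δ * d ^ 2 := by
      rw [abs_of_nonneg (by positivity)]
      field_simp
    rw [e1]
    calc τ * N1 * (δ * d ^ 2) ≤ 1 * N1 * (W * d ^ 2) := by gcongr
      _ = _ := by ring
  have n4 : (1 / 2) * ((τ * N1) ^ 2 * Lf ^ 2) ≤ (1 / 2) * (N1 ^ 2 * Lf ^ 2) * W := by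
    have : N1 ^ 2 * Lf ^ 2 * τ ^ 2 ≤ N1 ^ 2 * Lf ^ 2 * W :=
      mul_le_mul_of_nonneg_left hτW (by positivity)
    calc (1 / 2) * ((τ * N1) ^ 2 * Lf ^ 2) = (1 / 2) * (N1 ^ 2 * Lf ^ 2 * τ ^ 2) := by ring
      _ ≤ (1 / 2) * (N1 ^ 2 * Lf ^ 2 * W) := mul_le_mul_of_nonneg_left this (by norm_num)
      _ = _ := by ring
  have n5 : τ * (N1 * (τ * N1 * (A0 * Lf + 2 * MF) + C3 * q * Lf)) ≤
      N1 * (N1 * (A0 * Lf + 2 * MF) + C3 * Lf) * W := by
    have v1 : τ * (N1 * (C3 * q * Lf)) ≤ 1 * (N1 * (C3 * W * Lf)) := by gcongr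
    have v2 : N1 * N1 * (A0 * Lf + 2 * MF) * τ ^ 2 ≤ N1 * N1 * (A0 * Lf + 2 * MF) * W :=
      mul_le_mul_of_nonneg_left hτW (by positivity)
    calc τ * (N1 * (τ * N1 * (A0 * Lf + 2 * MF) + C3 * q * Lf)) =
        N1 * N1 * (A0 * Lf + 2 * MF) * τ ^ 2 + τ * (N1 * (C3 * q * Lf)) := by ring
      _ ≤ N1 * N1 * (A0 * Lf + 2 * MF) * W + 1 * (N1 * (C3 * W * Lf)) := add_le_add v2 v1
      _ = _ := by ring
  have n6 : τ * N1 * (τ * N1 * (A0 * Lf + 2 * δ * MF)) ≤ N1 * (N1 * (A0 * Lf + 2 * MF)) * W := by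
    have v0 : 2 * δ * MF ≤ 2 * MF := by
      have := mul_le_mul_of_nonneg_right hδ1' hMF
      linarith
    have v1 : A0 * Lf + 2 * δ * MF ≤ A0 * Lf + 2 * MF := by linarith
    calc τ * N1 * (τ * N1 * (A0 * Lf + 2 * δ * MF)) ≤ τ * N1 * (τ * N1 * (A0 * Lf + 2 * MF)) := by
          gcongr
      _ = N1 * (N1 * (A0 * Lf + 2 * MF)) * τ ^ 2 := by ring
      _ ≤ _ := mul_le_mul_of_nonneg_left hτW (by positivity)
  have n7 : 12 * C3 * d * q ≤ 12 * C3 * d * W := mul_le_mul_of_nonneg_left hqW (by positivity)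
  have n8 : (12 * C3 * d + (1 / 2) * (CE * Lz ^ 2 * N1 * (C3 + a1 * N1) *
          Real.exp (2 * (B + k))) +
        (25 * k * d ^ 2 + N1 * d ^ 2 + (1 / 2) * (N1 ^ 2 * Lf ^ 2)) +
        N1 * (N1 * (A0 * Lf + 2 * MF) + C3 * Lf) + N1 * (N1 * (A0 * Lf + 2 * MF))) * W =
      12 * C3 * d * W + (1 / 2) * (CE * Lz ^ 2 * N1 * (C3 + a1 * N1) *
          Real.exp (2 * (B + k))) * W + 25 * k * d ^ 2 * W + N1 * d ^ 2 * W +
        (1 / 2) * (N1 ^ 2 * Lf ^ 2) * W +
        N1 * (N1 * (A0 * Lf + 2 * MF) + C3 * Lf) * W + N1 * (N1 * (A0 * Lf + 2 * MF)) * W := by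
    ring
  rw [n8]
  linarith

variable {X : Type*} [MetricSpace X] [ProperSpace X] [MeasurableSpace X] [BorelSpace X]
  {m : Measure X} [IsLocallyFiniteMeasure m] [m.IsOpenPosMeasure]
  {k N h₀ δ d : ℝ} {o : X} {F Gf f : X → ℝ}

/-- the family of functionals, `ε = δ²` -/
def LamFam (m : Measure X) (F Gf : X → ℝ) (k : ℝ) : Prop :=
  ∃ A0 a1 CE C3 h₁ : ℝ, 0 ≤ A0 ∧ 0 ≤ a1 ∧ 0 ≤ CE ∧ 0 ≤ C3 ∧ 0 < h₁ ∧
    ∀ δ, 0 < δ → δ ≤ h₁ → ∃ (Λ : ℝ → X → (X → ℝ) → ℝ) (CL : ℝ),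
      Lam m F Gf (δ ^ 2) k A0 (2 * δ) (C3 * √δ) a1 ((1 - 2 * δ * k)⁻¹ ^ 2) CE CL (C3 * √δ) Λ

/-- first order facts about `J` used here -/
structure JApprox (m : Measure X) (k h₁ C3 : ℝ) : Prop where
  be : ∀ δ, 0 < δ → δ ≤ h₁ → ∀ f : X → ℝ, IsSobolev m f →
    MemLp (fun x => minWeakGrad m f x ^ 2) 2 m →
      ∀ᵐ x ∂m, minWeakGrad m (J m δ f) x ^ 2 ≤
        (1 - 2 * δ * k)⁻¹ * J m δ (fun x => minWeakGrad m f x ^ 2) x
  app : ∀ δ, 0 < δ → δ ≤ h₁ → ∀ (f : X → ℝ) (L : ℝ≥0), LipschitzWith L f →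
    HasCompactSupport f → ∀ᵐ x ∂m, |J m δ f x - f x| ≤ C3 * √δ * L

theorem wg_le_of_slope (hslope : ∀ (f : X → ℝ) (L : ℝ≥0), LipschitzWith L f →
      ∀ᵐ x ∂m, ENNReal.ofReal (minWeakGrad m f x) ≤ descSlope f x) {L : ℝ≥0}
    (hf : LipschitzWith L f) : ∀ᵐ x ∂m, minWeakGrad m f x ≤ L := by
  filter_upwards [hslope f L hf] with x hx
  have h1 := hx.trans (descSlope_le_of_lipschitz hf x)
  rw [← ENNReal.ofReal_coe_nnreal] at h1
  exact (ENNReal.ofReal_le_ofReal_iff L.2).mp h1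

theorem wg_sub_smul_le (H : Hyp m k N) {u : X → ℝ} (hu : IsSobolev m u) (hf : IsSobolev m f)
    {Lu Lf : ℝ} (h1 : ∀ᵐ x ∂m, minWeakGrad m u x ≤ Lu) (h2 : ∀ᵐ x ∂m, minWeakGrad m f x ≤ Lf)
    {c C : ℝ} (hc : |c| ≤ C) (hLf : 0 ≤ Lf) :
    ∀ᵐ x ∂m, minWeakGrad m (fun y => u y - c * f y) x ≤ Lu + C * Lf := by
  have hcf : IsSobolevLoc m (fun y => c * f y) := sobLoc_smul H c hf.2.1
  filter_upwards [wg_sub_sq H hu.2.1 hcf, gp_self H hcf, gp_smul_left H c hf.2.1 hcf,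
    gp_smul_right H c hf.2.1 hf.2.1, gp_self H hf.2.1, gp_abs_le H hu.2.1 hcf,
    Fin.wg_nonneg hu, Fin.wg_nonneg hf, h1, h2, Crest.Agent.R242.wg_nonneg H hcf]
    with x e1 e2 e3 e4 e5 e6 p1 p2 q1 q2 p3
  have e7 : minWeakGrad m (fun y => c * f y) x ^ 2 = (|c| * minWeakGrad m f x) ^ 2 := by
    rw [mul_pow, sq_abs]
    have a1 : minWeakGrad m (fun y => c * f y) x ^ 2 =
        gradPairing m (fun y => c * f y) (fun y => c * f y) x := e2.symm
    rw [a1, e3, e4, e5]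
    ring
  have e8 : minWeakGrad m (fun y => c * f y) x = |c| * minWeakGrad m f x :=
    (sq_eq_sq₀ p3 (by positivity)).mp e7
  have e9 : minWeakGrad m (fun y => u y - c * f y) x ^ 2 ≤
      (minWeakGrad m u x + |c| * minWeakGrad m f x) ^ 2 := by
    rw [e1, e8]
    rw [e8] at e6
    have := neg_le_of_abs_le e6
    nlinarith
  have e10 := le_of_sq_le_sq e9 (by positivity)
  have e11 : |c| * minWeakGrad m f x ≤ C * Lf :=
    mul_le_mul hc q2 p2 ((abs_nonneg _).trans hc)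
  linarith

/-- values at the end points -/
theorem end_value (H : Hyp m k N) {C3 h₁ A0 Bd a0 a1 c4 CE CL ε : ℝ} (hC3 : 0 ≤ C3)
    (hJ : JApprox m k h₁ C3) (hδ : 0 < δ)
    (hδ1 : δ ≤ h₁) {Λ : ℝ → X → (X → ℝ) → ℝ}
    (hΛ : Lam m F Gf ε k A0 Bd a0 a1 c4 CE CL (C3 * √δ) Λ)
    (hd : 0 ≤ d) {s : ℝ} (hs : s ∈ Icc (0 : ℝ) 1) (x : X) :
    |Λ 0 x (ptf m δ d o s) - hopfLax (cone o d) s x| ≤ 6 * C3 * d * √δ := by
  have hL := psi_lip (o := o) hd hs.1
  have hcs := psi_hcs (o := o) hd hs.1 hs.2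
  have h3d : ((Real.toNNReal (3 * d) : ℝ≥0) : ℝ) = 3 * d := Real.coe_toNNReal _ (by positivity)
  have m1 := psi_memLp (o := o) (m := m) hd hs.1 hs.2
  have mB : B2 m (hopfLax (cone o d) s : X → ℝ) :=
    ⟨m1, d ^ 2 / 2, Eventually.of_forall (psi_bdd hd s)⟩
  have pB : B2 m (ptf m δ d o s) := ⟨Jr_memLp H pt_bddLip_zero hδ m1, d ^ 2 / 2,
    Jr_abs_le H pt_bddLip_zero hδ m1 (Eventually.of_forall (psi_bdd hd s))⟩
  have h1 := hΛ.abs_le le_rfl x (pB.sub mB).1 (C := C3 * √δ * (3 * d)) (by positivity) (by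
    have := hJ.app δ hδ hδ1 _ _ hL hcs
    rw [h3d] at this
    exact this)
  rw [hΛ.sub le_rfl x pB mB] at h1
  have h2 := hΛ.zero _ _ hL hcs x
  rw [h3d] at h2
  calc |Λ 0 x (ptf m δ d o s) - hopfLax (cone o d) s x|
      = |(Λ 0 x (ptf m δ d o s) - Λ 0 x (hopfLax (cone o d) s)) +
          (Λ 0 x (hopfLax (cone o d) s) - hopfLax (cone o d) s x)| := by congr 1; ring
    _ ≤ C3 * √δ * (3 * d) + C3 * √δ * (3 * d) := (abs_add_le _ _).trans (add_le_add h1 h2)
    _ = _ := by ring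

/-- the inequality for one `δ`, one `τ`, one cut-off -/
theorem ineq_one (H : Hyp m k N) [SFinite m]
    (hslope : ∀ (f : X → ℝ) (L : ℝ≥0), LipschitzWith L f →
      ∀ᵐ x ∂m, ENNReal.ofReal (minWeakGrad m f x) ≤ descSlope f x)
    {MF B : ℝ} {LF : ℝ≥0} (hFb : ∀ x, |F x| ≤ MF) (hFl : LipschitzWith LF F)
    (hGb : ∀ x, |Gf x| ≤ B) (hGc : Continuous Gf)
    {A0 a1 CE C3 h₁ : ℝ} (hA0 : 0 ≤ A0) (ha1 : 0 ≤ a1) (hCE : 0 ≤ CE) (hC3 : 0 ≤ C3)
    (hJ : JApprox m k h₁ C3) (hδ : 0 < δ) (hδ1 : δ ≤ h₁) (hδk : 4 * δ * k ≤ 1) (hδ1' : δ ≤ 1)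
    {Λ : ℝ → X → (X → ℝ) → ℝ} {CL : ℝ}
    (hΛ : Lam m F Gf (δ ^ 2) k A0 (2 * δ) (C3 * √δ) a1 ((1 - 2 * δ * k)⁻¹ ^ 2) CE CL
      (C3 * √δ) Λ)
    (hd : 0 ≤ d) {σ : ℝ → X} (hσ : ∀ s t, dist (σ t) (σ s) ≤ d * |t - s|)
    (hσ0 : σ 0 = o) (hσ1 : dist (σ 1) o = d) (hσd : ∀ s, dist (σ s) o ≤ d)
    {η : ℝ → ℝ} {N1 : ℝ} (hN1 : 0 ≤ N1) (hη0 : ∀ t, 0 ≤ η t) (hηN : ∀ t, |η t| ≤ N1)
    (hη'N : ∀ t, |deriv η t| ≤ N1) (hη''N : ∀ t, |deriv (deriv η) t| ≤ N1)
    (he0 : η 0 = 0) (he1 : η 1 = 0) (hd0 : deriv η 0 = 0) (hd1 : deriv η 1 = 0)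
    (hηs : ContDiff ℝ 2 η) {τ : ℝ} (hτ : 0 < τ) (hτ1 : τ ≤ 1) (hτN : τ * N1 ≤ 1)
    {Lf : ℝ≥0} (hf : LipschitzWith Lf f) (hfb : ∀ x, |f x| ≤ MF) (hfc : HasCompactSupport f)
    (hfF : ∀ x ∈ Metric.closedBall o d, f x = F x) :
    d ^ 2 / 2 ≤ (∫ s in (0 : ℝ)..1, (1 / 2) * (d ^ 2 * ((1 - 2 * δ * k)⁻¹ ^ 2) *
        Real.exp (2 * (Gf (σ s) + δ ^ 2 * k) * (τ * η s)))) -
      τ * (∫ s in (0 : ℝ)..1, deriv (deriv η) s * F (σ s)) +
      (12 * C3 * d + (1 / 2) * (CE * (5 * d + N1 * Lf) ^ 2 * N1 * (C3 + a1 * N1) *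
          Real.exp (2 * (B + k))) +
        (25 * k * d ^ 2 + N1 * d ^ 2 + (1 / 2) * (N1 ^ 2 * (Lf : ℝ) ^ 2)) +
        N1 * (N1 * (A0 * Lf + 2 * MF) + C3 * Lf) + N1 * (N1 * (A0 * Lf + 2 * MF))) *
        (√δ + τ ^ 2) +
      ∫ s in (0 : ℝ)..1, |deriv (fun t => τ * η t) s| * Λ (τ * η s) (σ s)
        ({x | f x ≠ F x}.indicator fun x => ((LF : ℝ) + Lf) * wpt m δ d o x) := by
  have hk0 : 0 < k := H.kpos
  have hbe := hJ.be δ hδ hδ1
  have hP := ptFam_cone (o := o) H hδ hδk hd hslope hbe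
  have hMF : 0 ≤ MF := (abs_nonneg _).trans (hFb o)
  have hB0 : 0 ≤ B := (abs_nonneg _).trans (hGb o)
  have hfS : IsSobolev m f := sob_of_lip_hcs H hf hfc
  have hwf := wg_le_of_slope hslope hf
  have hwF := wg_le_of_slope hslope hFl
  set g : X → ℝ := {x | f x ≠ F x}.indicator fun x => ((LF : ℝ) + Lf) * wpt m δ d o x with hg
  have hgB : B2 m g := by
    have hopen : MeasurableSet {x | f x ≠ F x} :=
      (isOpen_ne_fun hf.continuous hFl.continuous).measurableSet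
    refine ⟨((wpt_memLp H hδ).const_mul _).indicator hopen, ((LF : ℝ) + Lf) * (5 * |d|), ?_⟩
    filter_upwards [wpt_bdd (o := o) (d := d) H hδ] with x hx
    have h0 : 0 ≤ ((LF : ℝ) + Lf) := by positivity
    rw [hg]
    by_cases hxs : x ∈ {x | f x ≠ F x}
    · rw [indicator_of_mem hxs, abs_mul, abs_of_nonneg h0]
      exact mul_le_mul_of_nonneg_left hx h0
    · rw [indicator_of_notMem hxs, abs_zero]
      positivity
  -- the reparametrisation
  set θ : ℝ → ℝ := fun t => τ * η t with hθ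
  have hηd : Differentiable ℝ η := hηs.differentiable (by norm_num)
  have hη1 : ContDiff ℝ 1 (deriv η) := by
    have := (contDiff_succ_iff_deriv (𝕜 := ℝ) (n := 1) (f := η)).mp
      (by simpa [one_add_one_eq_two] using hηs)
    exact this.2.2
  have hθd : deriv θ = fun t => τ * deriv η t := by
    funext t
    rw [hθ, deriv_const_mul _ (hηd t)]
  have hθdd : deriv (deriv θ) = fun t => τ * deriv (deriv η) t := by
    rw [hθd]
    funext t
    rw [deriv_const_mul _ ((hη1.differentiable (by norm_num)) t)]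
  have hN0 : 0 ≤ τ * N1 := by positivity
  have hθ01 : ∀ t, 0 ≤ θ t ∧ θ t ≤ 1 := fun t =>
    ⟨mul_nonneg hτ.le (hη0 t), (mul_le_mul_of_nonneg_left ((le_abs_self _).trans (hηN t))
      hτ.le).trans hτN⟩
  have hθN0 : ∀ t, θ t ≤ τ * N1 := fun t =>
    mul_le_mul_of_nonneg_left ((le_abs_self _).trans (hηN t)) hτ.le
  have hθN : ∀ t, |deriv θ t| ≤ τ * N1 := by
    intro t
    rw [hθd, abs_mul, abs_of_pos hτ]
    exact mul_le_mul_of_nonneg_left (hη'N t) hτ.le
  have hθN' : ∀ t, |deriv θ t| ≤ N1 := fun t => (hθN t).trans (by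
    calc τ * N1 ≤ 1 * N1 := mul_le_mul_of_nonneg_right hτ1 hN1
      _ = N1 := one_mul _)
  have hptS : ∀ s ∈ Icc (0 : ℝ) 1, IsSobolev m (ptf m δ d o s) := fun s hs => (hP.lap s hs).1
  have hmain := F_ineq hΛ (Ls := 4 * d ^ 2) (M := d ^ 2 / 2) (d := d) (Lpt := 5 * d) (Mf := MF)
    (Lf := Lf) (Cz := d ^ 2 / 2 + N1 * MF) (Lz := 5 * d + N1 * Lf) (N := τ * N1) (N0 := τ * N1)
    (Cl := d ^ 2 / δ) (cinv := 1 - 2 * δ * k) (B := B) (σ := σ) (θ := θ) (pt := ptf m δ d o)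
    (lp := lpf m δ d o) (f := f) (g := g) hd (by positivity) hCE (by positivity) ha1
    (by nlinarith) (by positivity) hP hσ hGc hGb hθ01 hθN0 (contDiff_const.mul hηs) hθN
    (by rw [hθd]; simp [hd0]) (by rw [hθd]; simp [hd1]) hfS
    (Eventually.of_forall hfb) hwf
    (fun s hs => sob_sub H (hptS s (Ioo_subset_Icc_self hs)) (sob_smul H _ hfS))
    (fun s hs => by
      filter_upwards [hP.bdd s (Ioo_subset_Icc_self hs)] with x hx
      refine (abs_sub _ _).trans (add_le_add hx ?_)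
      rw [abs_mul]
      exact mul_le_mul (hθN' s) (hfb x) (abs_nonneg _) hN1)
    (fun s hs => wg_sub_smul_le H (hptS s (Ioo_subset_Icc_self hs)) hfS
      (hP.wg s (Ioo_subset_Icc_self hs)) hwf (hθN' s) Lf.2)
    hgB (by positivity)
    (fun s hs => calc_ineq H hFl hf hfS hwF hwf (hptS s (Ioo_subset_Icc_self hs))
      (wg_ptf_le_wpt H hδ hδk hd hslope hbe (Ioo_subset_Icc_self hs)) (deriv θ s))
  -- end points
  have hθ1 : θ 1 = 0 := by rw [hθ]; simp [he1]
  have hθ0 : θ 0 = 0 := by rw [hθ]; simp [he0]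
  rw [hθ1, hθ0] at hmain
  have b1 := end_value (o := o) H hC3 hJ hδ hδ1 hΛ hd (s := 1) ⟨zero_le_one, le_rfl⟩ (σ 1)
  have b0 := end_value (o := o) H hC3 hJ hδ hδ1 hΛ hd (s := 0) ⟨le_rfl, zero_le_one⟩ (σ 0)
  rw [hopfLax_cone_one hd hσ1] at b1
  rw [hopfLax_zero, hσ0, cone_self] at b0
  rw [hσ0] at hmain
  have b1' := (abs_le.mp b1).1
  have b0' := (abs_le.mp b0).2
  -- the term with the second derivative
  have hσc : Continuous σ := by
    have : LipschitzWith (Real.toNNReal d) σ := LipschitzWith.of_dist_le_mul fun t s => by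
      rw [Real.coe_toNNReal _ hd, Real.dist_eq]
      exact hσ s t
    exact this.continuous
  have hfB : B2 m f := ⟨hfS.1, MF, Eventually.of_forall hfb⟩
  have hθc : Continuous θ := continuous_const.mul hηs.continuous
  have hβc : Continuous fun s => Λ (θ s) (σ s) f :=
    (hΛ.cont f hfB).comp_continuous (hθc.prodMk hσc) fun s => ⟨(hθ01 s).1, mem_univ _⟩
  have hη''c : Continuous (deriv (deriv η)) := hη1.continuous_deriv (by norm_num)
  have hFσ : Continuous fun s => F (σ s) := hFl.continuous.comp hσc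
  set eβ : ℝ := τ * N1 * (A0 * Lf + 2 * MF) + C3 * √δ * Lf with heβ
  have hβ : ∀ s, |Λ (θ s) (σ s) f - F (σ s)| ≤ eβ := by
    intro s
    have t1 := hΛ.time f hfS MF Lf (Eventually.of_forall hfb) hwf 0 (θ s) (σ s) le_rfl zero_le_one
      (hθ01 s).1 (hθ01 s).2
    have t2 := hΛ.zero f Lf hf hfc (σ s)
    rw [hfF (σ s) (hσd s)] at t2
    rw [sub_zero, abs_of_nonneg (hθ01 s).1] at t1
    have t3 : θ s * (A0 * Lf + 2 * δ * MF) ≤ τ * N1 * (A0 * Lf + 2 * MF) := by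
      have u1 : A0 * Lf + 2 * δ * MF ≤ A0 * Lf + 2 * MF := by nlinarith
      have u2 : 0 ≤ A0 * (Lf : ℝ) + 2 * δ * MF := by positivity
      exact mul_le_mul (hθN0 s) u1 u2 hN0
    calc |Λ (θ s) (σ s) f - F (σ s)| = |(Λ (θ s) (σ s) f - Λ 0 (σ s) f) +
          (Λ 0 (σ s) f - F (σ s))| := by congr 1; ring
      _ ≤ _ := (abs_add_le _ _).trans (add_le_add (t1.trans t3) t2)
  have hI : -∫ s in (0 : ℝ)..1, deriv (deriv θ) s * Λ (θ s) (σ s) f ≤
      -(τ * ∫ s in (0 : ℝ)..1, deriv (deriv η) s * F (σ s)) + τ * (N1 * eβ) := by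
    have i1 : ∫ s in (0 : ℝ)..1, deriv (deriv θ) s * Λ (θ s) (σ s) f =
        (τ * ∫ s in (0 : ℝ)..1, deriv (deriv η) s * F (σ s)) +
        ∫ s in (0 : ℝ)..1, (τ * deriv (deriv η) s) * (Λ (θ s) (σ s) f - F (σ s)) := by
      have j1 : IntervalIntegrable (fun s => τ * (deriv (deriv η) s * F (σ s))) volume 0 1 :=
        (continuous_const.mul (hη''c.mul hFσ)).intervalIntegrable _ _
      have j2 : IntervalIntegrable (fun s => (τ * deriv (deriv η) s) *
          (Λ (θ s) (σ s) f - F (σ s))) volume 0 1 :=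
        ((continuous_const.mul hη''c).mul (hβc.sub hFσ)).intervalIntegrable _ _
      rw [← intervalIntegral.integral_const_mul, ← intervalIntegral.integral_add j1 j2]
      refine intervalIntegral.integral_congr fun s _ => ?_
      simp only [hθdd]
      ring
    have i2 : ‖∫ s in (0 : ℝ)..1, (τ * deriv (deriv η) s) * (Λ (θ s) (σ s) f - F (σ s))‖ ≤
        τ * (N1 * eβ) * |1 - 0| := by
      refine intervalIntegral.norm_integral_le_of_norm_le_const fun s _ => ?_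
      rw [Real.norm_eq_abs, abs_mul, abs_mul, abs_of_pos hτ, mul_assoc]
      refine mul_le_mul_of_nonneg_left ?_ hτ.le
      exact mul_le_mul (hη''N s) (hβ s) (abs_nonneg _) hN1
    rw [sub_zero, abs_one, mul_one, Real.norm_eq_abs] at i2
    have := neg_le_of_abs_le i2
    rw [i1]
    linarith
  exact num_final hk0 hδ hδ1' hτ hτ1 hN1 hC3 ha1 hCE hA0 hMF hd Lf.2 hmain b1' b0' hI

/-- the limit for Lipschitz `G` -/
theorem second_deriv_lip (H : Hyp m k N) [SFinite m]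
    (hslope : ∀ (f : X → ℝ) (L : ℝ≥0), LipschitzWith L f →
      ∀ᵐ x ∂m, ENNReal.ofReal (minWeakGrad m f x) ≤ descSlope f x)
    {MF B : ℝ} {LF : ℝ≥0} (hFb : ∀ x, |F x| ≤ MF) (hFl : LipschitzWith LF F)
    (hGb : ∀ x, |Gf x| ≤ B) (hGc : Continuous Gf)
    (hLF : LamFam m F Gf k) {h₂ C3' : ℝ} (hh₂ : 0 < h₂) (hC3' : 0 ≤ C3') (hJ : JApprox m k h₂ C3')
    {γ : UCurve X} (hγ : IsCSGeodesic γ) : SecondDerivAlongLe F Gf γ := by
  intro φ hφs hφc hφt hφ0
  obtain ⟨N1, hN1, hN, hN', hN'', e0, e1, d0, d1, hφ2⟩ := test_bounds hφs hφc hφt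
  obtain ⟨A0, a1, CE, C3, h₁, hA0, ha1, hCE, hC3, hh₁, hΛ⟩ := hLF
  set d := dist (γ.toMap 0) (γ.toMap 1) with hd
  have hd0 : 0 ≤ d := dist_nonneg
  set o := γ.toMap 0 with ho
  have hk0 : 0 < k := H.kpos
  have hσ : ∀ s t, dist (γ.ext t) (γ.ext s) ≤ d * |t - s| := by
    intro s t
    rw [mul_comm]
    exact geo_dist_ext_le hγ t s
  have hσ0 : γ.ext 0 = o := by
    unfold UCurve.ext
    rw [projIcc_left]
    rfl
  have hσ1' : γ.ext 1 = γ.toMap 1 := by
    unfold UCurve.ext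
    rw [projIcc_right]
    rfl
  have hσ1 : dist (γ.ext 1) o = d := by rw [hσ1', dist_comm]
  have hσd : ∀ s, dist (γ.ext s) o ≤ d := fun s => by
    rw [dist_comm]
    exact geo_dist_left hγ s
  have hσc : Continuous γ.ext := s2l_continuous_ext γ
  have hMF : 0 ≤ MF := (abs_nonneg _).trans (hFb o)
  have hB0 : 0 ≤ B := (abs_nonneg _).trans (hGb o)
  set C3m := max C3 C3' with hC3m
  have hC3m0 : 0 ≤ C3m := hC3.trans (le_max_left _ _)
  -- cut-offs
  set Lf : ℝ≥0 := LF + MF.toNNReal with hLf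
  have hcut : ∀ n : ℕ, ∃ f : X → ℝ, LipschitzWith Lf f ∧ (∀ x, |f x| ≤ MF) ∧
      HasCompactSupport f ∧ ∀ x ∈ Metric.closedBall o (n : ℝ), f x = F x := fun n =>
    exists_cut hFb hFl o n
  choose fn hfn1 hfn2 hfn3 hfn4 using hcut
  have hI : ∫ s in (0 : ℝ)..1, deriv (deriv φ) s * F (γ.ext s) ≤
      d ^ 2 * ∫ s in (0 : ℝ)..1, Gf (γ.ext s) * φ s := by
    set C : ℝ := (12 * C3m * d + (1 / 2) * (CE * (5 * d + N1 * Lf) ^ 2 * N1 * (C3m + a1 * N1) *
          Real.exp (2 * (B + k))) +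
        (25 * k * d ^ 2 + N1 * d ^ 2 + (1 / 2) * (N1 ^ 2 * (Lf : ℝ) ^ 2)) +
        N1 * (N1 * (A0 * Lf + 2 * MF) + C3m * Lf) + N1 * (N1 * (A0 * Lf + 2 * MF))) with hC
    have hC0 : 0 ≤ C := by positivity
    set hh := min (min h₁ h₂) (min 1 (1 / (4 * k))) with hhh
    have hhp : 0 < hh := by
      rw [hhh]
      exact lt_min (lt_min hh₁ hh₂) (lt_min one_pos (by positivity))
    refine limit_step (B := B) (k := k) (h₀ := hh) (C := C) (N0 := N1) hhp hC0 hk0.le hN1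
      (hGc.comp hσc) (fun s => hGb _) hφ2.continuous hφ0 (fun s => (le_abs_self _).trans (hN s))
      ⟨1 / (N1 + 1), by positivity, ?_⟩
    intro τ hτ hτ' δ hδ hδ' e he
    have hτ1 : τ ≤ 1 := hτ'.trans (by rw [div_le_one (by positivity)]; linarith)
    have hτN : τ * N1 ≤ 1 := by
      calc τ * N1 ≤ 1 / (N1 + 1) * (N1 + 1) := by
            refine mul_le_mul hτ' (by linarith) hN1 (by positivity)
        _ = 1 := by field_simp
    have g1 : δ ≤ h₁ := hδ'.le.trans ((min_le_left _ _).trans (min_le_left _ _))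
    have g2 : δ ≤ h₂ := hδ'.le.trans ((min_le_left _ _).trans (min_le_right _ _))
    have g3 : δ ≤ 1 := hδ'.le.trans ((min_le_right _ _).trans (min_le_left _ _))
    have g4 : 4 * δ * k ≤ 1 := by
      have : δ ≤ 1 / (4 * k) := hδ'.le.trans ((min_le_right _ _).trans (min_le_right _ _))
      rw [le_div_iff₀ (by positivity)] at this
      linarith
    obtain ⟨Λ, CL, hΛδ⟩ := hΛ δ hδ g1
    have hq0 : 0 ≤ √δ := Real.sqrt_nonneg _
    have hΛ' : Lam m F Gf (δ ^ 2) k A0 (2 * δ) (C3m * √δ) a1 ((1 - 2 * δ * k)⁻¹ ^ 2) CE CL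
        (C3m * √δ) Λ := by
      have hcc : C3 * √δ ≤ C3m * √δ := mul_le_mul_of_nonneg_right (le_max_left _ _) hq0
      refine ⟨hΛδ.add, hΛδ.smul, hΛδ.mono, hΛδ.le_const, hΛδ.cont, hΛδ.small, hΛδ.gen, hΛδ.time,
        hΛδ.lip, ?_, ?_⟩
      · intro z hz Cz Lz h1 h2 θ x hθ0 hθ1 ρ hρ hlt
        refine hΛδ.space z hz Cz Lz h1 h2 θ x hθ0 hθ1 ρ hρ (lt_of_le_of_lt ?_ hlt)
        have : CE * Lz ^ 2 * θ * (C3 * √δ + a1 * θ) ≤ CE * Lz ^ 2 * θ * (C3m * √δ + a1 * θ) :=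
          mul_le_mul_of_nonneg_left (by linarith) (by positivity)
        exact mul_le_mul_of_nonneg_left (by linarith) (by positivity)
      · intro f L h1 h2 x
        exact (hΛδ.zero f L h1 h2 x).trans (mul_le_mul_of_nonneg_right hcc L.2)
    have hJ' : JApprox m k h₂ C3m := by
      refine ⟨hJ.be, fun δ hδ h1 f L h2 h3 => ?_⟩
      filter_upwards [hJ.app δ hδ h1 f L h2 h3] with x hx
      refine hx.trans ?_
      have := le_max_right C3 C3'
      have h5 : 0 ≤ √δ := Real.sqrt_nonneg _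
      gcongr
    -- the error integral
    have hw := wpt_memLp (o := o) (d := d) H hδ
    have hwb := wpt_bdd (o := o) (d := d) H hδ
    have hgm : ∀ n, MeasurableSet {x | fn n x ≠ F x} := fun n =>
      (isOpen_ne_fun (hfn1 n).continuous hFl.continuous).measurableSet
    set g : ℕ → X → ℝ := fun n =>
      {x | fn n x ≠ F x}.indicator fun x => ((LF : ℝ) + Lf) * wpt m δ d o x with hg
    have hg2 : ∀ n, MemLp (g n) 2 m := fun n => (hw.const_mul _).indicator (hgm n)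
    have hgb : ∀ n, ∀ᵐ x ∂m, |g n x| ≤ ((LF : ℝ) + Lf) * (5 * |d|) := by
      intro n
      filter_upwards [hwb] with x hx
      have h0 : 0 ≤ ((LF : ℝ) + Lf) := by positivity
      simp only [hg]
      by_cases hxs : x ∈ {x | fn n x ≠ F x}
      · rw [indicator_of_mem hxs, abs_mul, abs_of_nonneg h0]
        exact mul_le_mul_of_nonneg_left hx h0
      · rw [indicator_of_notMem hxs, abs_zero]
        positivity
    have hglim := cut_tendsto hw (fun n => (hfn1 n).continuous.measurable)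
      hFl.continuous.measurable hfn4 ((LF : ℝ) + Lf)
    have hθc : Continuous fun s => τ * φ s := continuous_const.mul hφ2.continuous
    have hθ0 : ∀ s, 0 ≤ τ * φ s := fun s => mul_nonneg hτ.le (hφ0 s)
    have hθ1 : ∀ s, τ * φ s ≤ 1 := fun s =>
      (mul_le_mul_of_nonneg_left ((le_abs_self _).trans (hN s)) hτ.le).trans hτN
    have hη1 : ContDiff ℝ 1 (deriv φ) := by
      have := (contDiff_succ_iff_deriv (𝕜 := ℝ) (n := 1) (f := φ)).mp
        (by simpa [one_add_one_eq_two] using hφ2)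
      exact this.2.2
    have hdθ : deriv (fun t => τ * φ t) = fun t => τ * deriv φ t := by
      funext t
      rw [deriv_const_mul _ ((hφ2.differentiable (by norm_num)) t)]
    have hE : Tendsto (fun n => ∫ s in (0 : ℝ)..1, |deriv (fun t => τ * φ t) s| *
        Λ (τ * φ s) (γ.ext s) (g n)) atTop (𝓝 (∫ s in (0 : ℝ)..1, (0 : ℝ))) := by
      refine intervalIntegral.tendsto_integral_filter_of_dominated_convergence
        (fun _ => N1 * (((LF : ℝ) + Lf) * (5 * |d|))) ?_ ?_ ?_ ?_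
      · refine Eventually.of_forall fun n => Continuous.aestronglyMeasurable ?_
        rw [hdθ]
        refine (continuous_const.mul hη1.continuous).abs.mul ?_
        exact (hΛ'.cont (g n) ⟨hg2 n, _, hgb n⟩).comp_continuous (hθc.prodMk hσc)
          fun s => ⟨hθ0 s, mem_univ _⟩
      · refine Eventually.of_forall fun n => Eventually.of_forall fun s _ => ?_
        rw [Real.norm_eq_abs, abs_mul, abs_abs]
        refine mul_le_mul ?_ (hΛ'.abs_le (hθ0 s) _ (hg2 n) (by positivity) (hgb n))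
          (abs_nonneg _) hN1
        rw [hdθ, abs_mul, abs_of_pos hτ]
        calc τ * |deriv φ s| ≤ 1 * N1 := mul_le_mul hτ1 (hN' s) (abs_nonneg _) zero_le_one
          _ = N1 := one_mul _
      · exact intervalIntegrable_const
      · refine Eventually.of_forall fun s _ => ?_
        have h1 := hΛ'.small (fun _ => τ * φ s) (fun _ => γ.ext s) g 1 _ (γ.ext s)
          (fun _ => ⟨hθ0 s, hθ1 s⟩) tendsto_const_nhds hg2 hgb hglim
        have h2 := h1.const_mul |deriv (fun t => τ * φ t) s|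
        rwa [mul_zero] at h2
    rw [intervalIntegral.integral_zero] at hE
    have hEe : ∀ᶠ n in atTop, ∫ s in (0 : ℝ)..1, |deriv (fun t => τ * φ t) s| *
        Λ (τ * φ s) (γ.ext s) (g n) < e := (tendsto_order.mp hE).2 e he
    obtain ⟨n, hn1, hn2⟩ := (hEe.and (eventually_ge_atTop ⌈d⌉₊)).exists
    have hdn : d ≤ n := (Nat.le_ceil d).trans (by exact_mod_cast hn2)
    have hmain := ineq_one H hslope hFb hFl hGb hGc hA0 ha1 hCE hC3m0 hJ' hδ g2 g4 g3 hΛ' hd0
      hσ hσ0 hσ1 hσd hN1 hφ0 hN hN' hN'' e0 e1 d0 d1 hφ2 hτ hτ1 hτN (hfn1 n) (hfn2 n) (hfn3 n)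
      (fun x hx => hfn4 n x (Metric.closedBall_subset_closedBall hdn hx))
    have hmain' : d ^ 2 / 2 ≤ ((∫ s in (0 : ℝ)..1, (1 / 2) * (d ^ 2 * ((1 - 2 * δ * k)⁻¹ ^ 2) *
        Real.exp (2 * ((Gf ∘ γ.ext) s + δ ^ 2 * k) * (τ * φ s)))) -
        τ * (∫ s in (0 : ℝ)..1, deriv (deriv φ) s * F (γ.ext s)) + C * (√δ + τ ^ 2)) +
        ∫ s in (0 : ℝ)..1, |deriv (fun t => τ * φ t) s| * Λ (τ * φ s) (γ.ext s) (g n) := hmain
    exact hmain'.trans (add_le_add le_rfl hn1.le)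
  rw [integral_Icc_eq_integral_Ioc, integral_Icc_eq_integral_Ioc,
    ← intervalIntegral.integral_of_le zero_le_one, ← intervalIntegral.integral_of_le zero_le_one]
  refine le_trans (le_of_eq ?_) hI
  refine intervalIntegral.integral_congr fun s _ => ?_
  show F (γ.ext s) * iteratedDeriv 2 φ s = deriv (deriv φ) s * F (γ.ext s)
  rw [iteratedDeriv_succ, iteratedDeriv_one, mul_comm]

end Fin
end Crest.Agent.R242
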