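import Crest.Agent.R242.Pair
import Crest.Agent.R242.ResCore
import Crest.Agent.R242.BL

-- ▼ part R242/PairS
section

/-!
# Row 242, S11, S12 under the names of `SIface.lean`
-/

set_option autoImplicit false
set_option linter.unusedSectionVars false

open MeasureTheory Filter Set
open Crest.GeometryTopology.SyntheticRicci
open scoped ENNReal NNReal Topology

namespace Crest.Agent.R242

variable {X : Type*} [MetricSpace X] [ProperSpace X] [MeasurableSpace X] [BorelSpace X]
variable {m : Measure X}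


theorem gradPairing_self (hfin : IsFiniteOnBalls m) {f : X → ℝ} (hf : IsSobolevLoc m f) :
    ∀ᵐ x ∂m, gradPairing m f f x = minWeakGrad m f x ^ 2 :=
  (wgCalc hfin).gp_self hf

theorem gradPairing_comm (f g : X → ℝ) :
    ∀ᵐ x ∂m, gradPairing m f g x = gradPairing m g f x := by
  have h := minWeakGrad_neg (m := m) (fun y => g y - f y)
  have e : (fun y => - (g y - f y)) = fun y => f y - g y := by funext y; ring
  rw [e] at h
  filter_upwards [h] with x hx
  unfold gradPairing
  have e2 : (fun y => g y + f y) = fun y => f y + g y := by funext y; ring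
  rw [e2, hx]





theorem abs_gradPairing_le (hfin : IsFiniteOnBalls m) (hH : IsInfHilbertian m)
    {f g : X → ℝ} (hf : IsSobolevLoc m f) (hg : IsSobolevLoc m g) :
    ∀ᵐ x ∂m, |gradPairing m f g x| ≤ minWeakGrad m f x * minWeakGrad m g x :=
  (wgCalc hfin).gp_abs_le hH hf hg


theorem gradPairing_mul_left (hfin : IsFiniteOnBalls m) (hH : IsInfHilbertian m)
    {f h g : X → ℝ} (hf : IsSobolevLoc m f) (hh : IsSobolevLoc m h) (hg : IsSobolevLoc m g)
    (hfh : IsSobolevLoc m (fun x => f x * h x)) :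
    ∀ᵐ x ∂m, gradPairing m (fun y => f y * h y) g x =
      f x * gradPairing m h g x + h x * gradPairing m f g x :=
  (wgCalc hfin).gp_mul_left hH hf hh hg hfh

theorem gradPairing_comp_left (hfin : IsFiniteOnBalls m) (hH : IsInfHilbertian m)
    {f g : X → ℝ} (hf : IsSobolevLoc m f) (hg : IsSobolevLoc m g) {φ ψ : ℝ → ℝ} {L : ℝ≥0}
    (hφ : LipschitzWith L φ) {N : Set ℝ} (hN : N.Countable)
    (hd : ∀ t ∉ N, HasDerivAt φ (ψ t) t) :
    ∀ᵐ x ∂m, gradPairing m (fun y => φ (f y)) g x = ψ (f x) * gradPairing m f g x := by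
  have h1 := minWeakGrad_comp hfin hf hφ hN hd
  have hφ2 : LipschitzWith (L + 1) (fun t => φ t + t) := hφ.add LipschitzWith.id
  have h2 := minWeakGrad_comp hfin hf hφ2 hN (ψ := fun t => ψ t + 1)
    fun t ht => (hd t ht).add (hasDerivAt_id t)
  exact (wgCalc hfin).gp_comp_of_wg hH hf ((wgCalc hfin).comp φ L f hφ hf).1 hg h1 h2

end Crest.Agent.R242
end

-- ▼ part R242/GamB1
section

/-!
# Row 242, part G7, first half (owner helper899)

Algebra of the class `Test2`.
-/

set_option autoImplicit false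
set_option linter.unusedSectionVars false

open MeasureTheory Filter Set
open scoped ENNReal NNReal Topology
open Crest.GeometryTopology.SyntheticRicci

noncomputable section

namespace Crest.Agent.R242

section

variable {X : Type*} [MetricSpace X] [MeasurableSpace X]

/-- Facts of parts G2, G3, G5, G6 used in this file. -/
structure CalcG (m : Measure X) : Prop where
  g2 : ∃ h0 : ℝ, 0 < h0 ∧ ∀ h : ℝ, 0 < h → h ≤ h0 → ∀ (f : X → ℝ) (B : ℝ), MemLp f 2 m →
    (∀ᵐ x ∂m, |f x| ≤ B) → ∃ v : X → ℝ, v =ᵐ[m] J m h (J m h f) ∧ BddLip v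
  g3 : ∃ h0 C : ℝ, 0 < h0 ∧ 0 ≤ C ∧ ∀ h : ℝ, 0 < h → h ≤ h0 → ∀ (f : X → ℝ) (L : ℝ≥0),
    IsSobolev m f → LipschitzWith L f → ∃ v : X → ℝ, v =ᵐ[m] J m h f ∧
      LipschitzWith (2 * L) v ∧ ∀ x, |v x - f x| ≤ C * Real.sqrt h * L
  g5 : ∀ {u g : X → ℝ}, Test2 m u g → IsSobolev m (fun x => minWeakGrad m u x ^ 2)
  g6 : ∃ C : ℝ, 0 ≤ C ∧ ∀ (u g : X → ℝ) (B : ℝ), IsWeakLaplacian m u g →
    (∀ᵐ x ∂m, |u x| ≤ B) → Integrable (fun x => minWeakGrad m u x ^ 4) m ∧
      ∫ x, minWeakGrad m u x ^ 4 ∂m ≤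
        C * B ^ 2 * (∫ x, g x ^ 2 ∂m + ∫ x, minWeakGrad m u x ^ 2 ∂m)

end

variable {X : Type*} [MetricSpace X] [ProperSpace X] [MeasurableSpace X] [BorelSpace X]
  {m : Measure X} [IsLocallyFiniteMeasure m] {u v w g l : X → ℝ}

theorem bddM_zero : BddM (fun _ : X => (0 : ℝ)) :=
  ⟨measurable_const, 0, fun _ => by simp⟩

theorem BddLip.lipOnBalls (hu : BddLip u) : LipOnBalls u := by
  obtain ⟨-, L, hL⟩ := hu
  exact fun o R => ⟨L, hL.lipschitzOnWith⟩

theorem BddLip.sobLoc (hfin : IsFiniteOnBalls m) (hu : BddLip u) : IsSobolevLoc m u :=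
  hu.lipOnBalls.isSobolevLoc hfin

theorem BddLip.wg_le (hfin : IsFiniteOnBalls m) (hu : BddLip u) {L : ℝ≥0}
    (hL : LipschitzWith L u) : ∀ᵐ x ∂m, minWeakGrad m u x ≤ L := by
  filter_upwards [minWeakGrad_le_of_lipschitzOnWith hfin hu.lipOnBalls isOpen_univ
    (hL.lipschitzOnWith (s := Set.univ))] with x hx using hx (Set.mem_univ x)

theorem BddLip.measurable (hu : BddLip u) : Measurable u := by
  obtain ⟨-, L, hL⟩ := hu
  exact hL.continuous.measurable

/-- product of a bounded Lipschitz function and a Sobolev function. -/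
theorem sob_bl_mul (hfin : IsFiniteOnBalls m) (hu : BddLip u) (hw : IsSobolev m w) :
    IsSobolev m (fun x => u x * w x) := by
  have h1 := IsSobolevLoc.mul_lipOnBalls hfin hw.2.1 hu.lipOnBalls
  have e : (fun x => w x * u x) = fun x => u x * w x := by
    funext x; ring
  rw [e] at h1
  obtain ⟨⟨B, hB⟩, L, hL⟩ := id hu
  refine ⟨?_, h1.1, ?_⟩
  · exact hw.1.mul' (memLp_top_of_bound hu.measurable.aestronglyMeasurable B
      (Eventually.of_forall fun x => by simpa using hB x))
  · have hD : MemLp (fun x => (L : ℝ) * |w x| + B * minWeakGrad m w x) 2 m :=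
      (hw.1.abs.const_mul _).add (hw.2.2.const_mul _)
    refine hD.mono (minWeakGrad_aestronglyMeasurable hfin _) ?_
    filter_upwards [h1.2, hu.wg_le hfin hL, minWeakGrad_nonneg (m := m) w,
      minWeakGrad_nonneg (m := m) u, minWeakGrad_nonneg (m := m) (fun x => u x * w x)]
      with x h2 h3 h4 h5 h6
    have e2 : (fun y => w y * u y) = fun y => u y * w y := by
      funext y; ring
    rw [Real.norm_eq_abs, Real.norm_eq_abs, abs_of_nonneg h6]
    refine (h2.trans ?_).trans (le_abs_self _)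
    have h7 : |w x| * minWeakGrad m u x ≤ L * |w x| := by
      rw [mul_comm]; exact mul_le_mul_of_nonneg_right h3 (abs_nonneg _)
    have h8 : |u x| * minWeakGrad m w x ≤ B * minWeakGrad m w x :=
      mul_le_mul_of_nonneg_right (hB x) h4
    linarith

theorem gp_aesm (hfin : IsFiniteOnBalls m) (u v : X → ℝ) :
    AEStronglyMeasurable (gradPairing m u v) m := by
  have h1 := minWeakGrad_aestronglyMeasurable hfin (fun y => u y + v y)
  have h2 := minWeakGrad_aestronglyMeasurable hfin (fun y => u y - v y)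
  have h3 := ((h1.pow 2).sub (h2.pow 2)).mul_const (4⁻¹ : ℝ)
  refine h3.congr (Eventually.of_forall fun x => ?_)
  simp [gradPairing, div_eq_mul_inv]

theorem gp_memLp_of_lip (hfin : IsFiniteOnBalls m) (hH : IsInfHilbertian m) (hu : BddLip u)
    (hw : IsSobolev m w) : MemLp (gradPairing m u w) 2 m := by
  obtain ⟨-, L, hL⟩ := id hu
  refine (hw.2.2.const_mul (L : ℝ)).mono (gp_aesm hfin _ _) ?_
  filter_upwards [abs_gradPairing_le hfin hH (hu.sobLoc hfin) hw.2.1, hu.wg_le hfin hL,
    minWeakGrad_nonneg (m := m) w] with x h1 h2 h3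
  rw [Real.norm_eq_abs, Real.norm_eq_abs]
  exact (h1.trans (mul_le_mul_of_nonneg_right h2 h3)).trans (le_abs_self _)

theorem gp_integrable (hfin : IsFiniteOnBalls m) (hH : IsInfHilbertian m) (hu : IsSobolev m u)
    (hw : IsSobolev m w) : Integrable (gradPairing m u w) m := by
  refine Integrable.mono' (hu.2.2.integrable_mul hw.2.2) (gp_aesm hfin _ _) ?_
  filter_upwards [abs_gradPairing_le hfin hH hu.2.1 hw.2.1] with x h1
  rw [Real.norm_eq_abs]
  exact h1

/-- integration by parts with a bounded Lipschitz weight. -/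
theorem ibp_lip (hfin : IsFiniteOnBalls m) (hH : IsInfHilbertian m) (hu : BddLip u)
    (hv : IsWeakLaplacian m v l) (hw : IsSobolev m w) :
    Integrable (fun x => u x * gradPairing m v w x) m ∧
    ∫ x, u x * gradPairing m v w x ∂m =
      -(∫ x, l x * (u x * w x) ∂m) - ∫ x, gradPairing m u v x * w x ∂m := by
  have hsl := hu.sobLoc hfin
  have huw := sob_bl_mul hfin hu hw
  have e1 : ∀ᵐ x ∂m, gradPairing m v (fun y => u y * w y) x =
      u x * gradPairing m v w x + w x * gradPairing m u v x := by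
    filter_upwards [gradPairing_comm (m := m) v (fun y => u y * w y),
      gradPairing_mul_left hfin hH hsl hw.2.1 hv.1.2.1 huw.2.1,
      gradPairing_comm (m := m) w v] with x h1 h2 h3
    rw [h1, h2, h3]
  have i1 : Integrable (gradPairing m v (fun y => u y * w y)) m := gp_integrable hfin hH hv.1 huw
  have i2 : Integrable (fun x => gradPairing m u v x * w x) m :=
    (gp_memLp_of_lip hfin hH hu hv.1).integrable_mul hw.1
  have e2 : (fun x => u x * gradPairing m v w x) =ᵐ[m]
      fun x => gradPairing m v (fun y => u y * w y) x - gradPairing m u v x * w x := by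
    filter_upwards [e1] with x h1
    rw [h1]; ring
  refine ⟨(i1.sub i2).congr e2.symm, ?_⟩
  rw [integral_congr_ae e2, integral_sub i1 i2, hv.2.2 _ huw]

/-! ### G7: algebra -/

theorem lap_mul (hfin : IsFiniteOnBalls m) (hH : IsInfHilbertian m) (hub : BddLip u)
    (hvb : BddLip v) (hu : IsWeakLaplacian m u g) (hv : IsWeakLaplacian m v l) :
    IsWeakLaplacian m (fun x => u x * v x)
      (fun x => u x * l x + v x * g x + 2 * gradPairing m u v x) := by
  have huv := sob_bl_mul hfin hub hv.1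
  have mG : MemLp (gradPairing m u v) 2 m := gp_memLp_of_lip hfin hH hub hv.1
  obtain ⟨B, hB⟩ := hub.1
  obtain ⟨B', hB'⟩ := hvb.1
  have m1 : MemLp (fun x => u x * l x) 2 m :=
    hv.2.1.mul' (memLp_top_of_bound hub.measurable.aestronglyMeasurable B
      (Eventually.of_forall fun x => by simpa using hB x))
  have m2 : MemLp (fun x => v x * g x) 2 m :=
    hu.2.1.mul' (memLp_top_of_bound hvb.measurable.aestronglyMeasurable B'
      (Eventually.of_forall fun x => by simpa using hB' x))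
  refine ⟨huv, (m1.add m2).add (mG.const_mul 2), fun w hw => ?_⟩
  have e1 := gradPairing_mul_left hfin hH (hub.sobLoc hfin) (hvb.sobLoc hfin) hw.2.1 huv.2.1
  obtain ⟨i1, j1⟩ := ibp_lip hfin hH hub hv hw
  obtain ⟨i2, j2⟩ := ibp_lip hfin hH hvb hu hw
  rw [integral_congr_ae e1, integral_add i1 i2, j1, j2]
  have j3 : ∫ x, gradPairing m v u x * w x ∂m = ∫ x, gradPairing m u v x * w x ∂m := by
    apply integral_congr_ae
    filter_upwards [gradPairing_comm (m := m) v u] with x hx
    rw [hx]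
  have k1 : Integrable (fun x => l x * (u x * w x)) m := by
    refine (m1.integrable_mul hw.1).congr (Eventually.of_forall fun x => ?_)
    simp only [Pi.mul_apply]; ring
  have k2 : Integrable (fun x => g x * (v x * w x)) m := by
    refine (m2.integrable_mul hw.1).congr (Eventually.of_forall fun x => ?_)
    simp only [Pi.mul_apply]; ring
  have k3 : Integrable (fun x => gradPairing m u v x * w x) m := mG.integrable_mul hw.1
  have j4 : ∫ x, (u x * l x + v x * g x + 2 * gradPairing m u v x) * w x ∂m =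
      (∫ x, l x * (u x * w x) ∂m) + (∫ x, g x * (v x * w x) ∂m) +
        2 * ∫ x, gradPairing m u v x * w x ∂m := by
    have k12 : Integrable (fun x => l x * (u x * w x) + g x * (v x * w x)) m := k1.add k2
    rw [← integral_const_mul, ← integral_add k1 k2, ← integral_add k12 (k3.const_mul 2)]
    apply integral_congr_ae
    refine Eventually.of_forall fun x => ?_
    simp only []; ring
  rw [j3, j4]; ring

theorem Test2.add (hfin : IsFiniteOnBalls m) (C : Calc m) (hu : Test2 m u g) (hv : Test2 m v l) :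
    Test2 m (fun x => u x + v x) (fun x => g x + l x) := by
  refine ⟨?_, IsSobolev.add hfin hu.sob hv.sob, hu.bl.add hv.bl⟩
  rw [← isWLap_zero_iff]
  exact C.isWLap_add bddM_zero (isWLap_zero_iff.2 hu.lap) (isWLap_zero_iff.2 hv.lap)

theorem Test2.smul (hfin : IsFiniteOnBalls m) (C : Calc m) (c : ℝ) (hu : Test2 m u g) :
    Test2 m (fun x => c * u x) (fun x => c * g x) := by
  refine ⟨?_, IsSobolev.const_mul hfin c hu.sob, hu.bl.const_mul c⟩
  rw [← isWLap_zero_iff]
  exact C.isWLap_smul bddM_zero c (isWLap_zero_iff.2 hu.lap)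

theorem Test2.sub (hfin : IsFiniteOnBalls m) (C : Calc m) (hu : Test2 m u g) (hv : Test2 m v l) :
    Test2 m (fun x => u x - v x) (fun x => g x - l x) := by
  have h := hu.add hfin C (hv.smul hfin C (-1))
  have e1 : (fun x => u x + -1 * v x) = fun x => u x - v x := by funext x; ring
  have e2 : (fun x => g x + -1 * l x) = fun x => g x - l x := by funext x; ring
  rwa [e1, e2] at h

theorem Test2.sob_gp (hfin : IsFiniteOnBalls m) (C : Calc m) (G : CalcG m) (hu : Test2 m u g)
    (hv : Test2 m v l) : IsSobolev m (gradPairing m u v) := by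
  have h1 := G.g5 (hu.add hfin C hv)
  have h2 := G.g5 (hu.sub hfin C hv)
  have h3 := IsSobolev.sub hfin (IsSobolev.const_mul hfin (1 / 4) h1)
    (IsSobolev.const_mul hfin (1 / 4) h2)
  refine IsSobolev.congr (Eventually.of_forall fun x => ?_) h3
  simp only [gradPairing]; ring

/-- products of test functions. -/
theorem Test2.mul (hfin : IsFiniteOnBalls m) (hH : IsInfHilbertian m) (C : Calc m) (G : CalcG m)
    (hu : Test2 m u g) (hv : Test2 m v l) :
    Test2 m (fun x => u x * v x)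
      (fun x => u x * l x + v x * g x + 2 * gradPairing m u v x) :=
  ⟨lap_mul hfin hH hu.bl hv.bl hu.lap hv.lap,
    IsSobolev.add hfin (IsSobolev.add hfin (sob_bl_mul hfin hu.bl hv.sob)
      (sob_bl_mul hfin hv.bl hu.sob)) (IsSobolev.const_mul hfin 2 (hu.sob_gp hfin C G hv)),
    hu.bl.mul hv.bl⟩

/-- chain rule for a `C¹` function of a bounded Lipschitz function. -/
theorem gp_comp_bl (hfin : IsFiniteOnBalls m) (hH : IsInfHilbertian m) (hu : BddLip u)
    {φ : ℝ → ℝ} (hφ : ContDiff ℝ 1 φ) (hw : IsSobolevLoc m w) :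
    ∀ᵐ x ∂m, gradPairing m (fun y => φ (u y)) w x = deriv φ (u x) * gradPairing m u w x := by
  obtain ⟨⟨B, hB⟩, -⟩ := id hu
  set b : ℝ := |B| + 1 with hb
  have hb0 : 0 < b := by positivity
  have hle : -b ≤ b := by linarith
  set c : ℝ → ℝ := fun t => max (-b) (min b t) with hc
  have hcl : LipschitzWith 1 c := (LipschitzWith.id.const_min b).const_max (-b)
  have hcm : ∀ t, c t ∈ Set.Icc (-b) b := fun t => ⟨le_max_left _ _, max_le hle (min_le_left _ _)⟩
  obtain ⟨M, hM⟩ := (isCompact_Icc (a := -b) (b := b)).exists_bound_of_continuousOn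
    ((hφ.continuous_deriv le_rfl).continuousOn)
  have hM0 : 0 ≤ M := (norm_nonneg _).trans (hM _ (hcm 0))
  have hlip : LipschitzWith (Real.toNNReal M) (fun t => φ (c t)) := by
    refine LipschitzWith.of_dist_le_mul fun s t => ?_
    have h3 : ‖φ (c s) - φ (c t)‖ ≤ M * ‖c s - c t‖ :=
      Convex.norm_image_sub_le_of_norm_deriv_le (s := Set.Icc (-b) b)
        (fun z _ => (hφ.differentiable one_ne_zero z)) (fun z hz => hM z hz) (convex_Icc _ _)
        (hcm t) (hcm s)
    have h4 := hcl.dist_le_mul s t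
    rw [NNReal.coe_one, one_mul] at h4
    rw [Real.coe_toNNReal _ hM0, Real.dist_eq]
    rw [Real.norm_eq_abs, Real.norm_eq_abs] at h3
    refine h3.trans (mul_le_mul_of_nonneg_left ?_ hM0)
    rw [Real.dist_eq] at h4
    exact h4
  set ψ : ℝ → ℝ := fun t => if |t| < b then deriv φ t else 0 with hψ
  have hd : ∀ t ∉ ({-b, b} : Set ℝ), HasDerivAt (fun t => φ (c t)) (ψ t) t := by
    intro t ht
    simp only [Set.mem_insert_iff, Set.mem_singleton_iff, not_or] at ht
    rcases lt_trichotomy |t| b with h | h | h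
    · have h1 : ψ t = deriv φ t := by simp [hψ, h]
      rw [h1]
      have h2 : (fun t => φ (c t)) =ᶠ[𝓝 t] φ := by
        have : ∀ᶠ s in 𝓝 t, |s| < b := continuous_abs.continuousAt.eventually (gt_mem_nhds h)
        filter_upwards [this] with s hs
        have h3 := abs_lt.mp hs
        have : c s = s := by
          simp only [hc]
          rw [min_eq_right h3.2.le, max_eq_right h3.1.le]
        rw [this]
      exact ((hφ.differentiable one_ne_zero t).hasDerivAt).congr_of_eventuallyEq h2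
    · exfalso
      rcases abs_eq hb0.le |>.mp h with h' | h'
      · exact ht.2 h'
      · exact ht.1 h'
    · have h1 : ψ t = 0 := by simp [hψ, not_lt.mpr h.le]
      rw [h1]
      rcases lt_abs.mp h with h' | h'
      · have h2 : (fun t => φ (c t)) =ᶠ[𝓝 t] fun _ => φ b := by
          filter_upwards [lt_mem_nhds h'] with s hs
          have : c s = b := by
            simp only [hc]
            rw [min_eq_left hs.le, max_eq_right hle]
          rw [this]
        exact (hasDerivAt_const t (φ b)).congr_of_eventuallyEq h2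
      · have h2 : (fun t => φ (c t)) =ᶠ[𝓝 t] fun _ => φ (-b) := by
          have h5 : t < -b := by linarith
          filter_upwards [gt_mem_nhds h5] with s hs
          have : c s = -b := by
            simp only [hc]
            rw [min_eq_right (by linarith), max_eq_left hs.le]
          rw [this]
        exact (hasDerivAt_const t (φ (-b))).congr_of_eventuallyEq h2
  have hcountable : ({-b, b} : Set ℝ).Countable := (Set.toFinite _).countable
  have key := gradPairing_comp_left hfin hH (hu.sobLoc hfin) hw hlip hcountable hd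
  have hub : ∀ x, |u x| < b := fun x =>
    lt_of_le_of_lt ((hB x).trans (le_abs_self B)) (by rw [hb]; linarith)
  have e : (fun y => φ (c (u y))) = fun y => φ (u y) := by
    funext y
    have h3 := abs_lt.mp (hub y)
    have : c (u y) = u y := by
      simp only [hc]
      rw [min_eq_right h3.2.le, max_eq_right h3.1.le]
    rw [this]
  rw [e] at key
  filter_upwards [key] with x hx
  rw [hx]
  simp [hψ, hub x]

theorem contDiff_deriv_one {φ : ℝ → ℝ} (hφ : ContDiff ℝ 2 φ) : ContDiff ℝ 1 (deriv φ) := by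
  have h2 : ContDiff ℝ (1 + 1) φ := by rwa [one_add_one_eq_two]
  exact ((contDiff_succ_iff_deriv).1 h2).2.2

theorem contDiff_deriv_two {φ : ℝ → ℝ} (hφ : ContDiff ℝ 3 φ) : ContDiff ℝ 2 (deriv φ) := by
  have h2 : ContDiff ℝ (2 + 1) φ := by
    have : (2 : WithTop ℕ∞) + 1 = 3 := by norm_num
    rwa [this]
  exact ((contDiff_succ_iff_deriv).1 h2).2.2

theorem lap_comp (hfin : IsFiniteOnBalls m) (hH : IsInfHilbertian m) (hub : BddLip u)
    (hu : IsWeakLaplacian m u g) {φ : ℝ → ℝ} (hφ : ContDiff ℝ 2 φ)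
    (hs : IsSobolev m (fun x => φ (u x))) :
    IsWeakLaplacian m (fun x => φ (u x))
      (fun x => deriv φ (u x) * g x + deriv (deriv φ) (u x) * minWeakGrad m u x ^ 2) := by
  have hφ1 : ContDiff ℝ 1 φ := hφ.of_le (by norm_num)
  have hφ' : ContDiff ℝ 1 (deriv φ) := contDiff_deriv_one hφ
  have hb1 : BddLip (fun x => deriv φ (u x)) := hub.comp hφ'
  obtain ⟨B1, hB1⟩ := hb1.1
  have hc2 : Continuous (deriv (deriv φ)) := hφ'.continuous_deriv le_rfl
  obtain ⟨⟨B, hB⟩, L, hL⟩ := id hub
  obtain ⟨M, hM⟩ := (isCompact_Icc (a := -B) (b := B)).exists_bound_of_continuousOn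
    hc2.continuousOn
  have hM' : ∀ x, |deriv (deriv φ) (u x)| ≤ M := fun x => by
    simpa using hM _ (abs_le.mp (hB x))
  have m1 : MemLp (fun x => deriv φ (u x) * g x) 2 m :=
    hu.2.1.mul' (memLp_top_of_bound hb1.measurable.aestronglyMeasurable B1
      (Eventually.of_forall fun x => by simpa using hB1 x))
  have mw : MemLp (fun x => minWeakGrad m u x ^ 2) 2 m := by
    refine (hu.1.2.2.const_mul (L : ℝ)).mono
      ((minWeakGrad_aestronglyMeasurable hfin u).pow 2) ?_
    filter_upwards [hub.wg_le hfin hL, minWeakGrad_nonneg (m := m) u] with x h2 h3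
    rw [Real.norm_eq_abs, Real.norm_eq_abs, abs_of_nonneg (sq_nonneg _)]
    refine le_trans ?_ (le_abs_self _)
    rw [sq]
    exact mul_le_mul_of_nonneg_right h2 h3
  have m2 : MemLp (fun x => deriv (deriv φ) (u x) * minWeakGrad m u x ^ 2) 2 m :=
    mw.mul' (memLp_top_of_bound ((hc2.measurable.comp hub.measurable).aestronglyMeasurable) M
      (Eventually.of_forall fun x => by simpa using hM' x))
  refine ⟨hs, m1.add m2, fun w hw => ?_⟩
  have e1 := gp_comp_bl hfin hH hub hφ1 hw.2.1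
  obtain ⟨i1, j1⟩ := ibp_lip hfin hH hb1 hu hw
  rw [integral_congr_ae e1, j1]
  have j3 : ∫ x, gradPairing m (fun x => deriv φ (u x)) u x * w x ∂m =
      ∫ x, deriv (deriv φ) (u x) * minWeakGrad m u x ^ 2 * w x ∂m := by
    apply integral_congr_ae
    filter_upwards [gp_comp_bl hfin hH hub hφ' (hub.sobLoc hfin),
      gradPairing_self hfin (hub.sobLoc hfin)] with x hx hx'
    rw [hx, hx']
  have k1 : Integrable (fun x => g x * (deriv φ (u x) * w x)) m := by
    refine (m1.integrable_mul hw.1).congr (Eventually.of_forall fun x => ?_)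
    simp only [Pi.mul_apply]; ring
  have k2 : Integrable (fun x => deriv (deriv φ) (u x) * minWeakGrad m u x ^ 2 * w x) m :=
    m2.integrable_mul hw.1
  rw [j3, ← neg_add', ← integral_add k1 k2]
  congr 1
  apply integral_congr_ae
  refine Eventually.of_forall fun x => ?_
  simp only []; ring

/-- composition of a test function with a smooth function. -/
theorem Test2.comp (hfin : IsFiniteOnBalls m) (hH : IsInfHilbertian m) (G : CalcG m)
    (hu : Test2 m u g) {φ : ℝ → ℝ} (hφ : ContDiff ℝ 3 φ) (hs : IsSobolev m (fun x => φ (u x))) :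
    Test2 m (fun x => φ (u x))
      (fun x => deriv φ (u x) * g x + deriv (deriv φ) (u x) * minWeakGrad m u x ^ 2) := by
  have h2 := contDiff_deriv_two hφ
  refine ⟨lap_comp hfin hH hu.bl hu.lap (hφ.of_le (by norm_num)) hs,
    IsSobolev.add hfin (sob_bl_mul hfin (hu.bl.comp (h2.of_le (by norm_num))) hu.sob)
      (sob_bl_mul hfin (hu.bl.comp (contDiff_deriv_one h2)) (G.g5 hu)),
    hu.bl.comp (hφ.of_le (by norm_num))⟩

end Crest.Agent.R242
end
end

-- ▼ part R242/GamB2
section

/-!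
# Row 242, part G7, second half (owner helper899)

Resolvents of Lipschitz functions are test functions; cut-off functions in `Test2`.
-/

set_option autoImplicit false
set_option linter.unusedSectionVars false

open MeasureTheory Filter Set
open scoped ENNReal NNReal Topology
open Crest.GeometryTopology.SyntheticRicci

noncomputable section

namespace Crest.Agent.R242

variable {X : Type*} [MetricSpace X] [ProperSpace X] [MeasurableSpace X] [BorelSpace X]
  {m : Measure X} [IsLocallyFiniteMeasure m] {u v w g l : X → ℝ}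

/-! ### `Test2` and the test functions of the Prelude -/

theorem isWeakLaplacian_congr (C : Calc m) {u' g' : X → ℝ} (h : IsWeakLaplacian m u g)
    (hu : u =ᵐ[m] u') (hg : g =ᵐ[m] g') : IsWeakLaplacian m u' g' :=
  isWLap_zero_iff.1 (C.isWLap_congr bddM_zero (isWLap_zero_iff.2 h) hu hg)

theorem isWeakLaplacian_unique (C : Calc m) {g' : X → ℝ} (h : IsWeakLaplacian m u g)
    (h' : IsWeakLaplacian m u g') : g =ᵐ[m] g' :=
  C.isWLap_unique bddM_zero (isWLap_zero_iff.2 h) (isWLap_zero_iff.2 h')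





/-! ### the resolvent of a Lipschitz function -/

/-- `J_h f` is a test function (in its Lipschitz representative) when `f ∈ W^{1,2}` is bounded and
Lipschitz. -/
theorem exists_test2_J (hfin : IsFiniteOnBalls m) (C : Calc m) (G : CalcG m) :
    ∃ h0 K : ℝ, 0 < h0 ∧ 0 ≤ K ∧ ∀ h : ℝ, 0 < h → h ≤ h0 → ∀ (f : X → ℝ) (L : ℝ≥0),
      IsSobolev m f → LipschitzWith L f → (∃ B : ℝ, ∀ x, |f x| ≤ B) →
      ∃ v : X → ℝ, v =ᵐ[m] J m h f ∧ Test2 m v (fun x => (v x - f x) / h) ∧
        LipschitzWith (2 * L) v ∧ ∀ x, |v x - f x| ≤ K * Real.sqrt h * L := by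
  obtain ⟨h0, K, h0p, hK, hG⟩ := G.g3
  refine ⟨h0, K, h0p, hK, fun h hh hh0 f L hf hL hb => ?_⟩
  obtain ⟨v, hv, hvL, hvf⟩ := hG h hh hh0 f L hf hL
  obtain ⟨B, hB⟩ := hb
  have h1 : IsWeakLaplacian m (J m h f) (fun x => (J m h f x - f x) / h) :=
    isWLap_zero_iff.1 (C.Jr_isWLap bddM_zero hh hf.1)
  have h2 : IsWeakLaplacian m v (fun x => (v x - f x) / h) := by
    refine isWeakLaplacian_congr C h1 hv.symm ?_
    filter_upwards [hv] with x hx
    rw [hx]
  refine ⟨v, hv, ⟨h2, ?_, ⟨B + K * Real.sqrt h * L, fun x => ?_⟩, 2 * L, hvL⟩, hvL, hvf⟩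
  · have h3 := IsSobolev.const_mul hfin (1 / h) (IsSobolev.sub hfin h2.1 hf)
    refine C.sob_congr h3 (Eventually.of_forall fun x => ?_)
    simp only []; ring
  · have h4 := hvf x
    have h5 := hB x
    rw [abs_le] at h4 h5 ⊢
    constructor <;> linarith

/-! ### cut-off functions -/

/-- the profile of the cut-off functions. -/
def cutPhi (s : ℝ) : ℝ := Real.smoothTransition (2 * s - 1 / 2)

theorem cutPhi_contDiff : ContDiff ℝ 3 cutPhi := by
  unfold cutPhi
  exact Real.smoothTransition.contDiff.comp ((contDiff_const.mul contDiff_id).sub contDiff_const)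

theorem cutPhi_nonneg (s : ℝ) : 0 ≤ cutPhi s := Real.smoothTransition.nonneg _

theorem cutPhi_le_one (s : ℝ) : cutPhi s ≤ 1 := Real.smoothTransition.le_one _

theorem cutPhi_zero {s : ℝ} (hs : s ≤ 1 / 4) : cutPhi s = 0 :=
  Real.smoothTransition.zero_of_nonpos (by linarith)

theorem cutPhi_one {s : ℝ} (hs : 3 / 4 ≤ s) : cutPhi s = 1 :=
  Real.smoothTransition.one_of_one_le (by linarith)

theorem cutPhi_deriv_zero {s : ℝ} (hs : 3 / 4 < s) : deriv cutPhi s = 0 := by
  have h1 : cutPhi =ᶠ[𝓝 s] fun _ => 1 := by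
    filter_upwards [lt_mem_nhds hs] with t ht using cutPhi_one ht.le
  rw [h1.deriv_eq, deriv_const]

theorem cutPhi_deriv2_zero {s : ℝ} (hs : 3 / 4 < s) : deriv (deriv cutPhi) s = 0 := by
  have h1 : deriv cutPhi =ᶠ[𝓝 s] fun _ => 0 := by
    filter_upwards [lt_mem_nhds hs] with t ht using cutPhi_deriv_zero ht
  rw [h1.deriv_eq, deriv_const]

/-- bounds for the profile. -/
theorem cutPhi_bounds : ∃ M : ℝ, 0 ≤ M ∧ (∀ s ∈ Set.Icc (-2 : ℝ) 2, |deriv cutPhi s| ≤ M) ∧
    (∀ s ∈ Set.Icc (-2 : ℝ) 2, |deriv (deriv cutPhi) s| ≤ M) ∧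
    ∀ s ∈ Set.Icc (-2 : ℝ) 2, ∀ t ∈ Set.Icc (-2 : ℝ) 2, |cutPhi s - cutPhi t| ≤ M * |s - t| := by
  have h3 : ContDiff ℝ 2 (deriv cutPhi) := contDiff_deriv_two cutPhi_contDiff
  have h4 : ContDiff ℝ 1 (deriv (deriv cutPhi)) := contDiff_deriv_one h3
  obtain ⟨M1, hM1⟩ := (isCompact_Icc (a := (-2 : ℝ)) (b := 2)).exists_bound_of_continuousOn
    h3.continuous.continuousOn
  obtain ⟨M2, hM2⟩ := (isCompact_Icc (a := (-2 : ℝ)) (b := 2)).exists_bound_of_continuousOn
    h4.continuous.continuousOn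
  have h0 : (0 : ℝ) ∈ Set.Icc (-2 : ℝ) 2 := by constructor <;> norm_num
  have hM10 : 0 ≤ M1 := (norm_nonneg _).trans (hM1 0 h0)
  refine ⟨max M1 M2, le_max_of_le_left hM10, fun s hs => (hM1 s hs).trans (le_max_left _ _),
    fun s hs => (hM2 s hs).trans (le_max_right _ _), fun s hs t ht => ?_⟩
  have h5 : ‖cutPhi s - cutPhi t‖ ≤ M1 * ‖s - t‖ :=
    Convex.norm_image_sub_le_of_norm_deriv_le (s := Set.Icc (-2 : ℝ) 2)
      (fun z _ => (cutPhi_contDiff.differentiable (by norm_num) z)) (fun z hz => hM1 z hz)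
      (convex_Icc _ _) ht hs
  exact h5.trans (mul_le_mul_of_nonneg_right (le_max_left _ _) (abs_nonneg _))

/-- the Lipschitz profile. -/
def cutEta (o : X) (R : ℝ) (x : X) : ℝ := max 0 (min 1 (2 - dist x o / R))

theorem cutEta_mem (o : X) (R : ℝ) (x : X) : 0 ≤ cutEta o R x ∧ cutEta o R x ≤ 1 :=
  ⟨le_max_left _ _, max_le zero_le_one (min_le_left _ _)⟩

theorem cutEta_one {o : X} {R : ℝ} (hR : 0 < R) {x : X} (hx : x ∈ Metric.closedBall o R) :
    cutEta o R x = 1 := by
  have h1 : dist x o / R ≤ 1 := by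
    rw [div_le_one hR]; exact Metric.mem_closedBall.1 hx
  unfold cutEta
  rw [min_eq_left (by linarith), max_eq_right zero_le_one]

theorem cutEta_zero {o : X} {R : ℝ} (hR : 0 < R) {x : X} (hx : x ∉ Metric.ball o (2 * R)) :
    cutEta o R x = 0 := by
  have h1 : 2 ≤ dist x o / R := by
    rw [le_div_iff₀ hR]
    exact not_lt.1 hx
  unfold cutEta
  exact max_eq_left ((min_le_right _ _).trans (by linarith))

theorem cutEta_lip (o : X) {R : ℝ} (hR : 0 < R) :
    LipschitzWith (Real.toNNReal (1 / R)) (cutEta o R) := by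
  have h1 : LipschitzWith (Real.toNNReal (1 / R)) (fun x : X => 2 - dist x o / R) := by
    refine LipschitzWith.of_dist_le_mul fun x y => ?_
    rw [Real.coe_toNNReal _ (by positivity), Real.dist_eq]
    have e : 2 - dist x o / R - (2 - dist y o / R) = -(1 / R * (dist x o - dist y o)) := by
      field_simp; ring
    rw [e, abs_neg, abs_mul, abs_of_pos (by positivity : (0 : ℝ) < 1 / R)]
    exact mul_le_mul_of_nonneg_left (abs_dist_sub_le _ _ _) (by positivity)
  exact (h1.const_min 1).const_max 0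

theorem hasCompactSupport_of_zero_off_ball {f : X → ℝ} {o : X} {R : ℝ}
    (h : ∀ x, x ∉ Metric.ball o R → f x = 0) : HasCompactSupport f :=
  HasCompactSupport.intro (isCompact_closedBall o R) fun x hx =>
    h x fun hx' => hx (Metric.ball_subset_closedBall hx')

/-- cut-off functions with gradient and Laplacian of order `1 / R`. -/
theorem exists_test2_cutoff (hfin : IsFiniteOnBalls m)
    (hH : IsInfHilbertian m) (C : Calc m) (G : CalcG m) :
    ∃ K : ℝ, 0 ≤ K ∧ ∀ (o : X) (R : ℝ), 1 ≤ R → ∃ χ gχ : X → ℝ, Test2 m χ gχ ∧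
      HasCompactSupport χ ∧ (∀ x, 0 ≤ χ x ∧ χ x ≤ 1) ∧
      (∀ x ∈ Metric.closedBall o R, χ x = 1) ∧ (∀ x, x ∉ Metric.ball o (2 * R) → χ x = 0) ∧
      LipschitzWith (Real.toNNReal (K / R)) χ ∧ (∀ᵐ x ∂m, |gχ x| ≤ K / R) ∧
      (∀ᵐ x ∂m, x ∈ Metric.closedBall o R → gχ x = 0) := by
  obtain ⟨h0, K0, h0p, hK0, hJ⟩ := exists_test2_J hfin C G
  obtain ⟨M, hM0, hM1, hM2, hM3⟩ := cutPhi_bounds
  set κ : ℝ := min h0 ((1 / (8 * (K0 + 1))) ^ 2) with hκ
  have hκ0 : 0 < κ := lt_min h0p (by positivity)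
  have hκ1 : κ ≤ h0 := min_le_left _ _
  have hκ2 : K0 * Real.sqrt κ ≤ 1 / 8 := by
    have h1 : Real.sqrt κ ≤ 1 / (8 * (K0 + 1)) :=
      Real.sqrt_le_iff.2 ⟨by positivity, min_le_right _ _⟩
    calc K0 * Real.sqrt κ ≤ K0 * (1 / (8 * (K0 + 1))) := mul_le_mul_of_nonneg_left h1 hK0
      _ ≤ 1 / 8 := by
        rw [mul_one_div, div_le_div_iff₀ (by positivity) (by norm_num)]
        linarith
  refine ⟨M / (8 * κ) + 4 * M + 2 * M, by positivity, fun o R hR => ?_⟩
  set K : ℝ := M / (8 * κ) + 4 * M + 2 * M with hK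
  have hR0 : 0 < R := by linarith
  have hRi : 1 / R ≤ 1 := by rw [div_le_one hR0]; exact hR
  have hηc : HasCompactSupport (cutEta o R) :=
    hasCompactSupport_of_zero_off_ball fun x hx => cutEta_zero hR0 hx
  have hηs : IsSobolev m (cutEta o R) := C.sob_lip ⟨_, cutEta_lip o hR0⟩ hηc
  obtain ⟨v, -, hvT, hvL, hvf⟩ := hJ κ hκ0 hκ1 (cutEta o R) _ hηs (cutEta_lip o hR0)
    ⟨1, fun x => by
      have := cutEta_mem o R x
      rw [abs_le]; constructor <;> linarith [this.1, this.2]⟩
  rw [Real.coe_toNNReal _ (by positivity : (0 : ℝ) ≤ 1 / R)] at hvf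
  have hvf' : ∀ x, |v x - cutEta o R x| ≤ 1 / 8 * (1 / R) := fun x =>
    (hvf x).trans (mul_le_mul_of_nonneg_right hκ2 (by positivity))
  have hvf1 : ∀ x, |v x - cutEta o R x| ≤ 1 / 8 := fun x =>
    (hvf' x).trans (by nlinarith)
  have hvm : ∀ x, v x ∈ Set.Icc (-2 : ℝ) 2 := fun x => by
    have h1 := abs_le.1 (hvf1 x)
    have h2 := cutEta_mem o R x
    constructor <;> linarith [h1.1, h1.2, h2.1, h2.2]
  have hv1 : ∀ x ∈ Metric.closedBall o R, 3 / 4 < v x := fun x hx => by
    have h1 := abs_le.1 (hvf1 x)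
    rw [cutEta_one hR0 hx] at h1
    linarith [h1.1]
  have hv0 : ∀ x, x ∉ Metric.ball o (2 * R) → v x ≤ 1 / 4 := fun x hx => by
    have h1 := abs_le.1 (hvf1 x)
    rw [cutEta_zero hR0 hx] at h1
    linarith [h1.2]
  have hχ0 : ∀ x, x ∉ Metric.ball o (2 * R) → cutPhi (v x) = 0 := fun x hx =>
    cutPhi_zero (hv0 x hx)
  have hχc : HasCompactSupport (fun x => cutPhi (v x)) := hasCompactSupport_of_zero_off_ball hχ0
  have hKR : 0 ≤ K / R := by positivity
  have hχl : LipschitzWith (Real.toNNReal (K / R)) (fun x => cutPhi (v x)) := by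
    refine LipschitzWith.of_dist_le_mul fun x y => ?_
    have h1 := hM3 _ (hvm x) _ (hvm y)
    have h2 := hvL.dist_le_mul x y
    rw [NNReal.coe_mul, Real.coe_toNNReal _ (by positivity : (0 : ℝ) ≤ 1 / R), Real.dist_eq] at h2
    rw [Real.coe_toNNReal _ hKR, Real.dist_eq]
    refine h1.trans ((mul_le_mul_of_nonneg_left h2 hM0).trans ?_)
    have e : M * (↑(2 : ℝ≥0) * (1 / R) * dist x y) = (2 * M) / R * dist x y := by
      simp only [NNReal.coe_ofNat]; ring
    rw [e]
    refine mul_le_mul_of_nonneg_right (div_le_div_of_nonneg_right ?_ hR0.le) dist_nonneg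
    have : 0 ≤ M / (8 * κ) + 4 * M := by positivity
    linarith
  have hχs : IsSobolev m (fun x => cutPhi (v x)) := C.sob_lip ⟨_, hχl⟩ hχc
  have hT := hvT.comp hfin hH G cutPhi_contDiff hχs
  refine ⟨fun x => cutPhi (v x), _, hT, hχc, fun x => ⟨cutPhi_nonneg _, cutPhi_le_one _⟩,
    fun x hx => cutPhi_one (hv1 x hx).le, hχ0, hχl, ?_, ?_⟩
  · filter_upwards [hvT.bl.wg_le hfin hvL, minWeakGrad_nonneg (m := m) v] with x h1 h2
    rw [NNReal.coe_mul, Real.coe_toNNReal _ (by positivity : (0 : ℝ) ≤ 1 / R)] at h1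
    simp only [NNReal.coe_ofNat] at h1
    have h3 : minWeakGrad m v x ^ 2 ≤ 4 / R := by
      have h4 : minWeakGrad m v x ^ 2 ≤ (2 * (1 / R)) ^ 2 := by gcongr
      refine h4.trans ?_
      have e : (2 * (1 / R)) ^ 2 = 4 / R * (1 / R) := by ring
      rw [e]
      exact mul_le_of_le_one_right (by positivity) hRi
    have h5 : |(v x - cutEta o R x) / κ| ≤ 1 / (8 * κ) / R := by
      rw [abs_div, abs_of_pos hκ0, div_le_iff₀ hκ0]
      refine (hvf' x).trans (le_of_eq ?_)
      field_simp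
    calc |deriv cutPhi (v x) * ((v x - cutEta o R x) / κ) +
          deriv (deriv cutPhi) (v x) * minWeakGrad m v x ^ 2|
        ≤ |deriv cutPhi (v x) * ((v x - cutEta o R x) / κ)| +
          |deriv (deriv cutPhi) (v x) * minWeakGrad m v x ^ 2| := abs_add_le _ _
      _ ≤ M * (1 / (8 * κ) / R) + M * (4 / R) := by
        rw [abs_mul, abs_mul, abs_of_nonneg (sq_nonneg (minWeakGrad m v x))]
        exact add_le_add (mul_le_mul (hM1 _ (hvm x)) h5 (abs_nonneg _) hM0)
          (mul_le_mul (hM2 _ (hvm x)) h3 (sq_nonneg _) hM0)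
      _ = (M / (8 * κ) + 4 * M) / R := by ring
      _ ≤ K / R := by
        refine div_le_div_of_nonneg_right ?_ hR0.le
        linarith
  · refine Eventually.of_forall fun x hx => ?_
    rw [cutPhi_deriv_zero (hv1 x hx), cutPhi_deriv2_zero (hv1 x hx)]
    ring

end Crest.Agent.R242
end
end

-- ▼ part R242/GamB3
section

/-!
# Row 242, part G8, tools (owner helper899)

`L²` convergence to zero of sequences of functions, convergence of `J_h J_h`.
-/

set_option autoImplicit false
set_option linter.unusedSectionVars false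

open MeasureTheory Filter Set
open scoped ENNReal NNReal Topology
open Crest.GeometryTopology.SyntheticRicci

noncomputable section

namespace Crest.Agent.R242

section Tools

variable {X : Type*} [MeasurableSpace X] {m : Measure X} {ι : Type*} {F : Filter ι}

/-- convergence to zero in `L²`. -/
def To0 (m : Measure X) (F : Filter ι) (f : ι → X → ℝ) : Prop :=
  Tendsto (fun n => eLpNorm (f n) 2 m) F (𝓝 0)

theorem To0.mono {f g : ι → X → ℝ} (hg : To0 m F g)
    (h : ∀ n, ∀ᵐ x ∂m, |f n x| ≤ |g n x|) : To0 m F f := by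
  refine tendsto_of_tendsto_of_tendsto_of_le_of_le tendsto_const_nhds hg (fun n => zero_le)
    fun n => ?_
  refine eLpNorm_mono_ae ?_
  filter_upwards [h n] with x hx
  simpa [Real.norm_eq_abs] using hx

theorem To0.add {f g : ι → X → ℝ} (hf : To0 m F f) (hg : To0 m F g)
    (hfm : ∀ n, AEStronglyMeasurable (f n) m) (hgm : ∀ n, AEStronglyMeasurable (g n) m) :
    To0 m F (fun n x => f n x + g n x) := by
  have h1 : Tendsto (fun n => eLpNorm (f n) 2 m + eLpNorm (g n) 2 m) F (𝓝 0) := by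
    simpa using Tendsto.add hf hg
  refine tendsto_of_tendsto_of_tendsto_of_le_of_le tendsto_const_nhds h1 (fun n => zero_le)
    fun n => ?_
  exact eLpNorm_add_le (hfm n) (hgm n) (by norm_num)

theorem To0.const_mul {f : ι → X → ℝ} (c : ℝ) (hf : To0 m F f) :
    To0 m F (fun n x => c * f n x) := by
  have h1 : Tendsto (fun n => ‖c‖ₑ * eLpNorm (f n) 2 m) F (𝓝 0) := by
    have := ENNReal.Tendsto.const_mul (a := ‖c‖ₑ) hf (Or.inr (by simp))
    simpa using this
  refine h1.congr fun n => ?_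
  have := eLpNorm_const_smul c (f n) 2 m
  rw [← this]
  rfl

theorem to0_of_le_mul {f : ι → X → ℝ} {c : ι → ℝ} {g : ι → X → ℝ} {A : ℝ≥0∞} (hA : A ≠ ⊤)
    (hc : Tendsto c F (𝓝 0)) (hg : ∀ n, eLpNorm (g n) 2 m ≤ A)
    (h : ∀ n, ∀ᵐ x ∂m, |f n x| ≤ c n * |g n x|) : To0 m F f := by
  have h1 : Tendsto (fun n => ENNReal.ofReal (c n) * A) F (𝓝 0) := by
    have h2 : Tendsto (fun n => ENNReal.ofReal (c n)) F (𝓝 0) := by
      have := ENNReal.tendsto_ofReal hc
      simpa using this
    have := ENNReal.Tendsto.mul_const h2 (Or.inr hA)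
    simpa using this
  refine tendsto_of_tendsto_of_tendsto_of_le_of_le tendsto_const_nhds h1 (fun n => zero_le)
    fun n => ?_
  have h3 : eLpNorm (f n) 2 m ≤ ENNReal.ofReal (c n) * eLpNorm (g n) 2 m :=
    eLpNorm_le_mul_eLpNorm_of_ae_le_mul (by
      filter_upwards [h n] with x hx
      simpa [Real.norm_eq_abs] using hx) 2
  exact h3.trans (mul_le_mul_right (hg n) _)

theorem eLpNorm_two_sq {f : X → ℝ} : eLpNorm f 2 m ^ 2 = ∫⁻ x, ENNReal.ofReal (f x ^ 2) ∂m := by
  have h1 := eLpNorm_nnreal_pow_eq_lintegral (μ := m) (f := f) (p := (2 : ℝ≥0)) (by norm_num)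
  have e : ((2 : ℝ≥0) : ℝ≥0∞) = 2 := by norm_num
  have e2 : ((2 : ℝ≥0) : ℝ) = 2 := by norm_num
  rw [e, e2, ENNReal.rpow_two] at h1
  rw [h1]
  refine lintegral_congr fun x => ?_
  rw [ENNReal.rpow_two, ← ofReal_norm, ← ENNReal.ofReal_pow (norm_nonneg _), Real.norm_eq_abs,
    sq_abs]

theorem gamB_eLpNorm_two_eq {f : X → ℝ} (hf : MemLp f 2 m) :
    eLpNorm f 2 m = ENNReal.ofReal (Real.sqrt (∫ x, f x ^ 2 ∂m)) := by
  have hi : Integrable (fun x => f x ^ 2) m := hf.integrable_sq
  have h1 : eLpNorm f 2 m ^ 2 = ENNReal.ofReal (Real.sqrt (∫ x, f x ^ 2 ∂m)) ^ 2 := by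
    rw [eLpNorm_two_sq, ← ENNReal.ofReal_pow (Real.sqrt_nonneg _),
      Real.sq_sqrt (integral_nonneg fun x => sq_nonneg _),
      ofReal_integral_eq_lintegral_ofReal hi (Eventually.of_forall fun x => sq_nonneg _)]
  exact (ENNReal.pow_right_strictMono two_ne_zero).injective h1

theorem to0_iff {f : ι → X → ℝ} (hf : ∀ n, MemLp (f n) 2 m) :
    To0 m F f ↔ Tendsto (fun n => ∫ x, f n x ^ 2 ∂m) F (𝓝 0) := by
  unfold To0
  have h1 : (fun n => eLpNorm (f n) 2 m) =
      fun n => ENNReal.ofReal (Real.sqrt (∫ x, f n x ^ 2 ∂m)) := by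
    funext n; exact gamB_eLpNorm_two_eq (hf n)
  rw [h1]
  constructor
  · intro h
    have h2 := (ENNReal.tendsto_toReal ENNReal.zero_ne_top).comp h
    have h3 : Tendsto (fun n => Real.sqrt (∫ x, f n x ^ 2 ∂m)) F (𝓝 0) := by
      refine h2.congr fun n => ?_
      simp [ENNReal.toReal_ofReal (Real.sqrt_nonneg _)]
    have h4 := h3.pow 2
    rw [zero_pow two_ne_zero] at h4
    exact h4.congr fun n => Real.sq_sqrt (integral_nonneg fun x => sq_nonneg _)
  · intro h
    have h2 : Tendsto (fun n => Real.sqrt (∫ x, f n x ^ 2 ∂m)) F (𝓝 0) := by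
      have := (Real.continuous_sqrt.tendsto 0).comp h
      rw [Real.sqrt_zero] at this
      exact this
    have := ENNReal.tendsto_ofReal h2
    simpa using this

/-- dominated convergence in `L²`. -/
theorem to0_of_dominated {f : ℕ → X → ℝ} {G : X → ℝ} (hG : MemLp G 2 m)
    (hm : ∀ n, AEStronglyMeasurable (f n) m) (hb : ∀ n, ∀ᵐ x ∂m, |f n x| ≤ |G x|)
    (hlim : ∀ᵐ x ∂m, Tendsto (fun n => f n x) atTop (𝓝 0)) : To0 m atTop f := by
  have hf : ∀ n, MemLp (f n) 2 m := fun n => hG.mono (hm n) (by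
    filter_upwards [hb n] with x hx
    simpa [Real.norm_eq_abs] using hx)
  rw [to0_iff hf]
  have h1 : Tendsto (fun n => ∫ x, f n x ^ 2 ∂m) atTop (𝓝 (∫ x, (0 : ℝ) ∂m)) := by
    refine tendsto_integral_of_dominated_convergence (fun x => G x ^ 2)
      (fun n => ((hm n).pow 2)) hG.integrable_sq (fun n => ?_) ?_
    · filter_upwards [hb n] with x hx
      rw [Real.norm_eq_abs, abs_of_nonneg (sq_nonneg _)]
      exact sq_le_sq.2 hx
    · filter_upwards [hlim] with x hx
      have := hx.pow 2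
      simpa using this
  simpa using h1

theorem eLpNorm_four_pow {f : X → ℝ} : eLpNorm f 4 m ^ 4 = ∫⁻ x, ENNReal.ofReal (f x ^ 4) ∂m := by
  have h1 := eLpNorm_nnreal_pow_eq_lintegral (μ := m) (f := f) (p := (4 : ℝ≥0)) (by norm_num)
  have e : ((4 : ℝ≥0) : ℝ≥0∞) = 4 := by norm_num
  have e2 : ((4 : ℝ≥0) : ℝ) = (4 : ℕ) := by norm_num
  rw [e, e2, ENNReal.rpow_natCast] at h1
  rw [h1]
  refine lintegral_congr fun x => ?_
  rw [ENNReal.rpow_natCast, ← ofReal_norm, ← ENNReal.ofReal_pow (norm_nonneg _), Real.norm_eq_abs]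
  congr 1
  rw [show (4 : ℕ) = 2 * 2 by norm_num, pow_mul, pow_mul, sq_abs]

/-- convergence of `∫ f⁴` gives convergence in `L⁴`. -/
theorem tendsto_eLpNorm_four {f : ι → X → ℝ} (hf : ∀ n, Integrable (fun x => f n x ^ 4) m)
    (h : Tendsto (fun n => ∫ x, f n x ^ 4 ∂m) F (𝓝 0)) :
    Tendsto (fun n => eLpNorm (f n) 4 m) F (𝓝 0) := by
  have h1 : ∀ n, eLpNorm (f n) 4 m ^ 4 = ENNReal.ofReal (∫ x, f n x ^ 4 ∂m) := fun n => by
    rw [eLpNorm_four_pow, ofReal_integral_eq_lintegral_ofReal (hf n)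
      (Eventually.of_forall fun x => by positivity)]
  have h2 : Tendsto (fun n => eLpNorm (f n) 4 m ^ 4) F (𝓝 0) := by
    simp only [h1]
    have := ENNReal.tendsto_ofReal h
    simpa using this
  have h3 : Tendsto (fun n => (eLpNorm (f n) 4 m ^ 4) ^ (1 / 4 : ℝ)) F (𝓝 (0 ^ (1 / 4 : ℝ))) :=
    (ENNReal.continuous_rpow_const.tendsto 0).comp h2
  rw [ENNReal.zero_rpow_of_pos (by norm_num)] at h3
  refine h3.congr fun n => ?_
  rw [← ENNReal.rpow_natCast, ← ENNReal.rpow_mul]
  norm_num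

end Tools

section JJ

variable {X : Type*} [MetricSpace X] [ProperSpace X] [MeasurableSpace X] [BorelSpace X]
  {m : Measure X} [IsLocallyFiniteMeasure m] {u v w g l f : X → ℝ}

theorem J_memLp (C : Calc m) {h : ℝ} (hh : 0 < h) (hf : MemLp f 2 m) : MemLp (J m h f) 2 m :=
  C.Jr_memLp bddM_zero hh hf

theorem J_sob (C : Calc m) {h : ℝ} (hh : 0 < h) (hf : MemLp f 2 m) : IsSobolev m (J m h f) :=
  C.Jr_sob bddM_zero hh hf

theorem J_l2 (C : Calc m) {h : ℝ} (hh : 0 < h) (hf : MemLp f 2 m) :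
    ∫ x, J m h f x ^ 2 ∂m ≤ ∫ x, f x ^ 2 ∂m := by
  have h1 := C.Jr_l2 bddM_zero hh hf
  rwa [wm_zero] at h1

theorem J_eLpNorm_le (C : Calc m) {h : ℝ} (hh : 0 < h) (hf : MemLp f 2 m) :
    eLpNorm (J m h f) 2 m ≤ eLpNorm f 2 m := by
  rw [gamB_eLpNorm_two_eq hf, gamB_eLpNorm_two_eq (J_memLp C hh hf)]
  exact ENNReal.ofReal_le_ofReal (Real.sqrt_le_sqrt (J_l2 C hh hf))

theorem J_wg_eLpNorm_le (C : Calc m) {h : ℝ} (hh : 0 < h) (hf : IsSobolev m f) :
    eLpNorm (minWeakGrad m (J m h f)) 2 m ≤ eLpNorm (minWeakGrad m f) 2 m := by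
  have hs := J_sob C hh hf.1
  rw [gamB_eLpNorm_two_eq hf.2.2, gamB_eLpNorm_two_eq hs.2.2]
  have h1 := C.Jr_energy_le bddM_zero hh hf
  have h2 := C.En_self bddM_zero hf
  have h3 := C.En_self bddM_zero hs
  rw [wm_zero] at h2 h3
  refine ENNReal.ofReal_le_ofReal (Real.sqrt_le_sqrt ?_)
  rw [← h2, ← h3]
  exact h1

theorem J_sub (C : Calc m) {h : ℝ} (hh : 0 < h) (hf : MemLp f 2 m) (hg : MemLp g 2 m) :
    J m h (fun x => f x - g x) =ᵐ[m] fun x => J m h f x - J m h g x :=
  C.Jr_sub bddM_zero hh hf hg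

/-- `J_h J_h f → f` in `L²` as `h → 0`. -/
theorem JJ_to0 (C : Calc m) {hn : ℕ → ℝ} (hpos : ∀ n, 0 < hn n) (hlim : Tendsto hn atTop (𝓝 0))
    (hf : MemLp f 2 m) : To0 m atTop (fun n x => J m (hn n) (J m (hn n) f) x - f x) := by
  have hlim' : Tendsto hn atTop (𝓝[>] 0) :=
    tendsto_nhdsWithin_iff.2 ⟨hlim, Eventually.of_forall hpos⟩
  have hJ : ∀ n, MemLp (J m (hn n) f) 2 m := fun n => J_memLp C (hpos n) hf
  have hd : ∀ n, MemLp (fun x => J m (hn n) f x - f x) 2 m := fun n => (hJ n).sub hf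
  have h1 : To0 m atTop (fun n x => J m (hn n) f x - f x) := by
    rw [to0_iff hd]
    exact (C.Jr_tendsto_l2 bddM_zero hf).comp hlim'
  have h2 : To0 m atTop (fun n => J m (hn n) (fun x => J m (hn n) f x - f x)) := by
    refine tendsto_of_tendsto_of_tendsto_of_le_of_le tendsto_const_nhds h1 (fun n => zero_le)
      fun n => ?_
    exact J_eLpNorm_le C (hpos n) (hd n)
  have h3 := h2.add h1 (fun n => (J_memLp C (hpos n) (hd n)).1) (fun n => (hd n).1)
  refine h3.congr fun n => ?_
  refine eLpNorm_congr_ae ?_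
  filter_upwards [J_sub C (hpos n) (hJ n) hf] with x hx
  rw [hx]; ring

/-- `J_h J_h f → f` in energy as `h → 0`. -/
theorem JJ_wg_to0 (hfin : IsFiniteOnBalls m) (C : Calc m) {hn : ℕ → ℝ} (hpos : ∀ n, 0 < hn n)
    (hlim : Tendsto hn atTop (𝓝 0)) (hf : IsSobolev m f) :
    To0 m atTop (fun n => minWeakGrad m (fun x => J m (hn n) (J m (hn n) f) x - f x)) := by
  have hlim' : Tendsto hn atTop (𝓝[>] 0) :=
    tendsto_nhdsWithin_iff.2 ⟨hlim, Eventually.of_forall hpos⟩
  have hJ : ∀ n, IsSobolev m (J m (hn n) f) := fun n => J_sob C (hpos n) hf.1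
  have hd : ∀ n, IsSobolev m (fun x => J m (hn n) f x - f x) := fun n =>
    IsSobolev.sub hfin (hJ n) hf
  have hJd : ∀ n, IsSobolev m (J m (hn n) (fun x => J m (hn n) f x - f x)) := fun n =>
    J_sob C (hpos n) (hd n).1
  have h1 : To0 m atTop (fun n => minWeakGrad m (fun x => J m (hn n) f x - f x)) := by
    rw [to0_iff fun n => (hd n).2.2]
    exact (C.Jr_tendsto_sob bddM_zero hf).comp hlim'
  have h2 : To0 m atTop
      (fun n => minWeakGrad m (J m (hn n) (fun x => J m (hn n) f x - f x))) := by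
    refine tendsto_of_tendsto_of_tendsto_of_le_of_le tendsto_const_nhds h1 (fun n => zero_le)
      fun n => ?_
    exact J_wg_eLpNorm_le C (hpos n) (hd n)
  have h3 := h2.add h1 (fun n => (hJd n).2.2.1) (fun n => (hd n).2.2.1)
  refine h3.mono fun n => ?_
  have e : (fun x => J m (hn n) (J m (hn n) f) x - f x) =ᵐ[m]
      fun x => J m (hn n) (fun x => J m (hn n) f x - f x) x + (J m (hn n) f x - f x) := by
    filter_upwards [J_sub C (hpos n) (hJ n).1 hf.1] with x hx
    rw [hx]; ring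
  filter_upwards [minWeakGrad_congr e, minWeakGrad_add_le hfin (hJd n).2.1 (hd n).2.1,
    minWeakGrad_nonneg (m := m) (fun x => J m (hn n) (J m (hn n) f) x - f x)] with x h4 h5 h6
  rw [abs_of_nonneg h6, h4]
  exact h5.trans (le_abs_self _)

end JJ

end Crest.Agent.R242
end
end

-- ▼ part R242/GamB

/-!
# Row 242, part G8 (owner helper899)

Density of compactly supported test functions.
-/

set_option autoImplicit false
set_option linter.unusedSectionVars false

open MeasureTheory Filter Set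
open scoped ENNReal NNReal Topology
open Crest.GeometryTopology.SyntheticRicci

noncomputable section

namespace Crest.Agent.R242

variable {X : Type*} [MetricSpace X] [ProperSpace X] [MeasurableSpace X] [BorelSpace X]
  {m : Measure X} [IsLocallyFiniteMeasure m] {k N : ℝ} {u v w g l : X → ℝ}

theorem To0.congr_ae {ι : Type*} {F : Filter ι} {f f' : ι → X → ℝ} (hf : To0 m F f)
    (h : ∀ n, f n =ᵐ[m] f' n) : To0 m F f' := by
  refine Tendsto.congr (fun n => ?_) hf
  exact eLpNorm_congr_ae (h n)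

/-- a continuous function is bounded everywhere by an almost everywhere bound. -/
theorem forall_le_of_ae_le [m.IsOpenPosMeasure] {f : X → ℝ} (hf : Continuous f) {c : ℝ}
    (h : ∀ᵐ x ∂m, f x ≤ c) (x : X) : f x ≤ c := by
  by_contra hcon
  push Not at hcon
  have hU : IsOpen {y | c < f y} := isOpen_lt continuous_const hf
  have h1 : 0 < m {y | c < f y} := hU.measure_pos m ⟨x, hcon⟩
  have h2 : m {y | c < f y} = 0 := by
    have := ae_iff.1 h
    simpa [not_le] using this
  exact h1.ne' h2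

/-- multiplication with cut-off functions converging to `1`. -/
theorem cut_to0 {o : X} {χ : ℕ → X → ℝ} (hχm : ∀ n, Measurable (χ n))
    (hχ : ∀ n x, 0 ≤ χ n x ∧ χ n x ≤ 1)
    (hχ1 : ∀ n : ℕ, ∀ x ∈ Metric.closedBall o ((n : ℝ) + 1), χ n x = 1) (hu : MemLp u 2 m) :
    To0 m atTop (fun n x => (χ n x - 1) * u x) := by
  refine to0_of_dominated hu (fun n => ?_) (fun n => ?_) ?_
  · exact ((hχm n).sub_const 1).aestronglyMeasurable.mul hu.1
  · refine Eventually.of_forall fun x => ?_
    rw [abs_mul]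
    refine mul_le_of_le_one_left (abs_nonneg _) ?_
    have := hχ n x
    rw [abs_le]; constructor <;> linarith [this.1, this.2]
  · refine Eventually.of_forall fun x => ?_
    refine tendsto_const_nhds.congr' ?_
    obtain ⟨n0, hn0⟩ := exists_nat_ge (dist x o)
    filter_upwards [eventually_ge_atTop n0] with n hn
    have h1 : x ∈ Metric.closedBall o ((n : ℝ) + 1) := by
      rw [Metric.mem_closedBall]
      have : (n0 : ℝ) ≤ n := by exact_mod_cast hn
      linarith
    rw [hχ1 n x h1]; ring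

/-- G8: approximation of `u ∈ D(Δ) ∩ L^∞` by compactly supported test functions. -/
theorem exists_test2_approx [m.IsOpenPosMeasure] (hfin : IsFiniteOnBalls m)
    (hH : IsInfHilbertian m) (C : Calc m)
    (G : CalcG m) (hu : IsWeakLaplacian m u g) {B : ℝ} (hB : ∀ᵐ x ∂m, |u x| ≤ B) :
    ∃ uj gj : ℕ → X → ℝ,
      (∀ j, Test2 m (uj j) (gj j) ∧ HasCompactSupport (uj j) ∧
        (∃ M : ℝ, ∀ᵐ x ∂m, |gj j x| ≤ M) ∧ ∀ x, |uj j x| ≤ B) ∧
      (0 ≤ᵐ[m] u → ∀ j x, 0 ≤ uj j x) ∧
      Tendsto (fun j => eLpNorm (fun x => uj j x - u x) 2 m) atTop (𝓝 0) ∧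
      Tendsto (fun j => eLpNorm (fun x => gj j x - g x) 2 m) atTop (𝓝 0) ∧
      Tendsto (fun j => eLpNorm (minWeakGrad m (fun x => uj j x - u x)) 2 m) atTop (𝓝 0) ∧
      Tendsto (fun j => eLpNorm (minWeakGrad m (fun x => uj j x - u x)) 4 m) atTop (𝓝 0) := by
  rcases isEmpty_or_nonempty X with hX | ⟨⟨o⟩⟩
  · have hm : m = 0 := Measure.eq_zero_of_isEmpty m
    have e : g = u := by
      funext x; exact isEmptyElim x
    subst e
    refine ⟨fun _ => g, fun _ => g, fun j => ⟨⟨hu, hu.1, ⟨B, fun x => isEmptyElim x⟩, 0,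
      fun x => isEmptyElim x⟩, HasCompactSupport.intro isCompact_empty (fun x => isEmptyElim x),
      ⟨0, by simp [hm]⟩, fun x => isEmptyElim x⟩, fun _ j x => isEmptyElim x, ?_, ?_, ?_, ?_⟩ <;>
    simp [hm]
  have : Nonempty X := ⟨o⟩
  have hB0 : 0 ≤ B := by
    obtain ⟨x, hx⟩ := hB.exists
    exact (abs_nonneg _).trans hx
  obtain ⟨h0, h0p, hg2⟩ := G.g2
  obtain ⟨K, hK0, hcut⟩ := exists_test2_cutoff hfin hH C G
  obtain ⟨C6, hC6, hg6⟩ := G.g6
  set hn : ℕ → ℝ := fun n => h0 / ((n : ℝ) + 1) with hhn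
  have hpos : ∀ n, 0 < hn n := fun n => by positivity
  have hle : ∀ n, hn n ≤ h0 := fun n => div_le_self h0p.le (by
    have : (0 : ℝ) ≤ n := n.cast_nonneg
    linarith)
  have hlimc : ∀ c : ℝ, Tendsto (fun n : ℕ => c / ((n : ℝ) + 1)) atTop (𝓝 0) := fun c => by
    have h1 := (tendsto_const_div_atTop_nhds_zero_nat c).comp (tendsto_add_atTop_nat 1)
    refine h1.congr fun n => ?_
    simp
  have hlim : Tendsto hn atTop (𝓝 0) := hlimc h0
  choose v hv hvB using fun n => hg2 (hn n) (hpos n) (hle n) u B hu.1.1 hB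
  choose χ gχ hχT hχc hχ01 hχ1 hχ0 hχL hgχ hgχ0 using
    fun n : ℕ => hcut o ((n : ℝ) + 1) (by
      have : (0 : ℝ) ≤ n := n.cast_nonneg
      linarith)
  set w : ℕ → X → ℝ := fun n => J m (hn n) (J m (hn n) g) with hw
  set c : ℕ → ℝ := fun n => K / ((n : ℝ) + 1) with hc
  have hc0 : ∀ n, 0 ≤ c n := fun n => by positivity
  have hcK : ∀ n, c n ≤ K := fun n => div_le_self hK0 (by
    have : (0 : ℝ) ≤ n := n.cast_nonneg
    linarith)
  have hclim : Tendsto c atTop (𝓝 0) := hlimc K
  have hJu : ∀ n, MemLp (J m (hn n) u) 2 m := fun n => J_memLp C (hpos n) hu.1.1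
  have hJg : ∀ n, MemLp (J m (hn n) g) 2 m := fun n => J_memLp C (hpos n) hu.2.1
  have hvlap : ∀ n, IsWeakLaplacian m (v n) (w n) := fun n =>
    isWeakLaplacian_congr C (isWLap_zero_iff.1 (C.isWLap_Jr bddM_zero (hpos n)
      (C.isWLap_Jr bddM_zero (hpos n) (isWLap_zero_iff.2 hu)))) (hv n).symm
      (Eventually.of_forall fun _ => rfl)
  have hvT : ∀ n, Test2 m (v n) (w n) := fun n => ⟨hvlap n, J_sob C (hpos n) (hJg n), hvB n⟩
  have hJb : ∀ n, ∀ᵐ x ∂m, |J m (hn n) u x| ≤ B := fun n =>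
    C.Jr_abs_le_const bddM_zero (hpos n) hu.1.1 hB
  have hJJb : ∀ n, ∀ᵐ x ∂m, |J m (hn n) (J m (hn n) u) x| ≤ B := fun n =>
    C.Jr_abs_le_const bddM_zero (hpos n) (hJu n) (hJb n)
  have hvc : ∀ n, Continuous (v n) := fun n => by
    obtain ⟨-, L, hL⟩ := hvB n
    exact hL.continuous
  have hvb : ∀ n x, |v n x| ≤ B := fun n => by
    refine forall_le_of_ae_le (m := m) (hvc n).abs ?_
    filter_upwards [hv n, hJJb n] with x h1 h2
    rwa [h1]
  have hχm : ∀ n, Measurable (χ n) := fun n => (hχL n).continuous.measurable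
  have hχa : ∀ n x, |χ n x| ≤ 1 := fun n x => by
    rw [abs_of_nonneg (hχ01 n x).1]; exact (hχ01 n x).2
  have hχa1 : ∀ n x, |χ n x - 1| ≤ 1 := fun n x => by
    have := hχ01 n x
    rw [abs_le]; constructor <;> linarith [this.1, this.2]
  have hwχ : ∀ n, ∀ᵐ x ∂m, minWeakGrad m (χ n) x ≤ c n := fun n => by
    have := (hχT n).bl.wg_le hfin (hχL n)
    rwa [Real.coe_toNNReal _ (hc0 n)] at this
  have hwle : ∀ n, ∀ᵐ x ∂m, |w n x| ≤ 2 * B / hn n := fun n => by
    have h1 : IsWeakLaplacian m (J m (hn n) (J m (hn n) u))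
        (fun x => (J m (hn n) (J m (hn n) u) x - J m (hn n) u x) / hn n) :=
      isWLap_zero_iff.1 (C.Jr_isWLap bddM_zero (hpos n) (hJu n))
    have h2 := isWeakLaplacian_unique C
      (isWeakLaplacian_congr C (hvlap n) (hv n) (Eventually.of_forall fun _ => rfl)) h1
    filter_upwards [h2, hJb n, hJJb n] with x h3 h4 h5
    rw [h3, abs_div, abs_of_pos (hpos n)]
    refine div_le_div_of_nonneg_right ?_ (hpos n).le
    rw [abs_le] at h4 h5 ⊢
    constructor <;> linarith [h4.1, h4.2, h5.1, h5.2]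
  have hgp : ∀ n, ∀ᵐ x ∂m, |gradPairing m (χ n) (v n) x| ≤ c n * minWeakGrad m (v n) x :=
    fun n => by
      filter_upwards [abs_gradPairing_le hfin hH ((hχT n).bl.sobLoc hfin) ((hvB n).sobLoc hfin),
        hwχ n, minWeakGrad_nonneg (m := m) (v n)] with x h1 h2 h3
      exact h1.trans (mul_le_mul_of_nonneg_right h2 h3)
  have huT : ∀ n, Test2 m (fun x => χ n x * v n x)
      (fun x => χ n x * w n x + v n x * gχ n x + 2 * gradPairing m (χ n) (v n) x) := fun n =>
    (hχT n).mul hfin hH C G (hvT n)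
  -- the basic convergences
  have E1 : To0 m atTop (fun n x => v n x - u x) :=
    (JJ_to0 C hpos hlim hu.1.1).congr_ae fun n => by
      filter_upwards [hv n] with x hx
      rw [hx]
  have E2 : To0 m atTop (fun n x => w n x - g x) := JJ_to0 C hpos hlim hu.2.1
  have hvu : ∀ n, IsSobolev m (fun x => v n x - u x) := fun n =>
    IsSobolev.sub hfin (hvlap n).1 hu.1
  have E3 : To0 m atTop (fun n => minWeakGrad m (fun x => v n x - u x)) :=
    (JJ_wg_to0 hfin C hpos hlim hu.1).congr_ae fun n => by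
      refine minWeakGrad_congr ?_
      filter_upwards [hv n] with x hx
      rw [hx]
  have hvn : ∀ n, eLpNorm (v n) 2 m ≤ eLpNorm u 2 m := fun n => by
    rw [eLpNorm_congr_ae (hv n)]
    exact (J_eLpNorm_le C (hpos n) (hJu n)).trans (J_eLpNorm_le C (hpos n) hu.1.1)
  have hwvn : ∀ n, eLpNorm (minWeakGrad m (v n)) 2 m ≤ eLpNorm (minWeakGrad m u) 2 m :=
    fun n => by
      rw [eLpNorm_congr_ae (minWeakGrad_congr (hv n))]
      exact (J_wg_eLpNorm_le C (hpos n) (J_sob C (hpos n) hu.1.1)).trans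
        (J_wg_eLpNorm_le C (hpos n) hu.1)
  -- `L²` convergence of `χ v`
  have F1 : To0 m atTop (fun n x => χ n x * v n x - u x) := by
    have h1 : To0 m atTop (fun n x => χ n x * (v n x - u x)) := E1.mono fun n =>
      Eventually.of_forall fun x => by
        rw [abs_mul]; exact mul_le_of_le_one_left (abs_nonneg _) (hχa n x)
    have h2 := cut_to0 hχm hχ01 hχ1 hu.1.1
    refine (h1.add h2 (fun n => (hχm n).aestronglyMeasurable.mul (hvu n).1.1)
      (fun n => ((hχm n).sub_const 1).aestronglyMeasurable.mul hu.1.1.1)).congr_ae fun n => ?_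
    refine Eventually.of_forall fun x => ?_
    simp only []; ring
  -- `L²` convergence of the Laplacians
  have mgp : ∀ n, MemLp (gradPairing m (χ n) (v n)) 2 m := fun n =>
    gp_memLp_of_lip hfin hH (hχT n).bl (hvlap n).1
  have F2 : To0 m atTop (fun n x =>
      χ n x * w n x + v n x * gχ n x + 2 * gradPairing m (χ n) (v n) x - g x) := by
    have h1 : To0 m atTop (fun n x => χ n x * (w n x - g x)) := E2.mono fun n =>
      Eventually.of_forall fun x => by
        rw [abs_mul]; exact mul_le_of_le_one_left (abs_nonneg _) (hχa n x)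
    have h2 := cut_to0 hχm hχ01 hχ1 hu.2.1
    have h3 : To0 m atTop (fun n x => v n x * gχ n x) :=
      to0_of_le_mul (c := c) (g := v) hu.1.1.2.ne hclim hvn fun n => by
        filter_upwards [hgχ n] with x hx
        rw [abs_mul, mul_comm]
        exact mul_le_mul_of_nonneg_right hx (abs_nonneg _)
    have h4 : To0 m atTop (fun n => gradPairing m (χ n) (v n)) :=
      to0_of_le_mul (c := c) (g := fun n => minWeakGrad m (v n)) hu.1.2.2.2.ne hclim hwvn
        fun n => by
          filter_upwards [hgp n] with x hx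
          exact hx.trans (mul_le_mul_of_nonneg_left (le_abs_self _) (hc0 n))
    have a1 : ∀ n, AEStronglyMeasurable (fun x => χ n x * (w n x - g x)) m := fun n =>
      (hχm n).aestronglyMeasurable.mul ((hvT n).sob.1.1.sub hu.2.1.1)
    have a2 : ∀ n, AEStronglyMeasurable (fun x => (χ n x - 1) * g x) m := fun n =>
      ((hχm n).sub_const 1).aestronglyMeasurable.mul hu.2.1.1
    have a3 : ∀ n, AEStronglyMeasurable (fun x => v n x * gχ n x) m := fun n =>
      (hvc n).measurable.aestronglyMeasurable.mul (hχT n).sob.1.1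
    have a4 : ∀ n, AEStronglyMeasurable (fun x => 2 * gradPairing m (χ n) (v n) x) m := fun n =>
      (mgp n).1.const_mul 2
    refine (((h1.add h2 a1 a2).add h3 (fun n => (a1 n).add (a2 n)) a3).add (h4.const_mul 2)
      (fun n => ((a1 n).add (a2 n)).add (a3 n)) a4).congr_ae fun n => ?_
    refine Eventually.of_forall fun x => ?_
    simp only []; ring
  -- convergence of the gradients
  have hu' : ∀ n, IsSobolev m (fun x => χ n x * v n x - u x) := fun n =>
    IsSobolev.sub hfin (huT n).lap.1 hu.1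
  have F3 : To0 m atTop (fun n => minWeakGrad m (fun x => χ n x * v n x - u x)) := by
    have h1 : To0 m atTop (fun n x => K * (v n x - u x)) := E1.const_mul K
    have h2 : To0 m atTop (fun n x => c n * u x) :=
      to0_of_le_mul (c := c) (g := fun _ => u) hu.1.1.2.ne hclim (fun n => le_rfl) fun n =>
        Eventually.of_forall fun x => by rw [abs_mul, abs_of_nonneg (hc0 n)]
    have h3 := cut_to0 hχm hχ01 hχ1 hu.1.2.2
    have b1 : To0 m atTop (fun n x => |K * (v n x - u x)|) :=
      h1.mono fun n => Eventually.of_forall fun x => by rw [abs_abs]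
    have b2 : To0 m atTop (fun n x => |c n * u x|) :=
      h2.mono fun n => Eventually.of_forall fun x => by rw [abs_abs]
    have b3 : To0 m atTop (fun n x => |(χ n x - 1) * minWeakGrad m u x|) :=
      h3.mono fun n => Eventually.of_forall fun x => by rw [abs_abs]
    have a1 : ∀ n, AEStronglyMeasurable (fun x => |K * (v n x - u x)|) m := fun n =>
      ((hvu n).1.1.const_mul K).norm
    have a2 : ∀ n, AEStronglyMeasurable (fun x => |c n * u x|) m := fun n =>
      (hu.1.1.1.const_mul (c n)).norm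
    have a3 : ∀ n, AEStronglyMeasurable (fun x => |(χ n x - 1) * minWeakGrad m u x|) m :=
      fun n => (((hχm n).sub_const 1).aestronglyMeasurable.mul hu.1.2.2.1).norm
    have a4 : ∀ n, AEStronglyMeasurable (minWeakGrad m (fun x => v n x - u x)) m := fun n =>
      (hvu n).2.2.1
    have hS := ((b1.add b2 a1 a2).add b3 (fun n => (a1 n).add (a2 n)) a3).add E3
      (fun n => ((a1 n).add (a2 n)).add (a3 n)) a4
    refine hS.mono fun n => ?_
    have hLB : LipOnBalls (χ n) := (hχT n).bl.lipOnBalls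
    have hLB1 : LipOnBalls (fun x => χ n x + (-1)) := by
      intro o' R'
      refine ⟨_, LipschitzWith.lipschitzOnWith (K := Real.toNNReal (K / ((n : ℝ) + 1))) ?_⟩
      refine LipschitzWith.of_dist_le_mul fun x y => ?_
      have := (hχL n).dist_le_mul x y
      rw [Real.dist_eq] at this ⊢
      have e : χ n x + -1 - (χ n y + -1) = χ n x - χ n y := by ring
      rwa [e]
    obtain ⟨s1, k1⟩ := IsSobolevLoc.mul_lipOnBalls hfin (hvu n).2.1 hLB
    obtain ⟨s2, k2⟩ := IsSobolevLoc.mul_lipOnBalls hfin hu.1.2.1 hLB1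
    have e : (fun x => χ n x * v n x - u x) =
        fun x => (v n x - u x) * χ n x + u x * (χ n x + (-1)) := by
      funext x; ring
    have k3 := minWeakGrad_add_le hfin s1 s2
    filter_upwards [k1, k2, k3, hwχ n, minWeakGrad_add_const (-1) (χ n) hfin,
      minWeakGrad_nonneg (m := m) (fun x => χ n x * v n x - u x),
      minWeakGrad_nonneg (m := m) (fun x => v n x - u x),
      minWeakGrad_nonneg (m := m) u, minWeakGrad_nonneg (m := m) (χ n)]
      with x q1 q2 q3 q4 q5 q6 q7 q8 q9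
    rw [abs_of_nonneg q6, e]
    rw [q5] at q2
    have t1 : |v n x - u x| * minWeakGrad m (χ n) x ≤ |K * (v n x - u x)| := by
      rw [abs_mul, abs_of_nonneg hK0, mul_comm]
      exact mul_le_mul_of_nonneg_right (q4.trans (hcK n)) (abs_nonneg _)
    have t2 : |χ n x| * minWeakGrad m (fun y => v n y - u y) x ≤
        minWeakGrad m (fun y => v n y - u y) x := mul_le_of_le_one_left q7 (hχa n x)
    have t3 : |u x| * minWeakGrad m (χ n) x ≤ |c n * u x| := by
      rw [abs_mul, abs_of_nonneg (hc0 n), mul_comm]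
      exact mul_le_mul_of_nonneg_right q4 (abs_nonneg _)
    have t4 : |χ n x + -1| * minWeakGrad m u x ≤ |(χ n x - 1) * minWeakGrad m u x| := by
      rw [abs_mul, abs_of_nonneg q8, ← sub_eq_add_neg]
    refine le_trans ?_ (le_abs_self _)
    linarith
  -- `L⁴` convergence of the gradients
  have F4 : Tendsto (fun n => eLpNorm (minWeakGrad m (fun x => χ n x * v n x - u x)) 4 m)
      atTop (𝓝 0) := by
    have hlapd : ∀ n, IsWeakLaplacian m (fun x => χ n x * v n x - u x) (fun x =>
        χ n x * w n x + v n x * gχ n x + 2 * gradPairing m (χ n) (v n) x - g x) := fun n => by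
      have h1 := C.isWLap_add bddM_zero (isWLap_zero_iff.2 (huT n).lap)
        (C.isWLap_smul bddM_zero (-1) (isWLap_zero_iff.2 hu))
      refine isWeakLaplacian_congr C (isWLap_zero_iff.1 h1) ?_ ?_
      · refine Eventually.of_forall fun x => ?_
        simp only []; ring
      · refine Eventually.of_forall fun x => ?_
        simp only []; ring
    have hbd : ∀ n, ∀ᵐ x ∂m, |χ n x * v n x - u x| ≤ 2 * B := fun n => by
      filter_upwards [hB] with x hx
      have h1 : |χ n x * v n x| ≤ B := by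
        rw [abs_mul]
        exact (mul_le_of_le_one_left (abs_nonneg _) (hχa n x)).trans (hvb n x)
      rw [abs_le] at h1 hx ⊢
      constructor <;> linarith [h1.1, h1.2, hx.1, hx.2]
    refine tendsto_eLpNorm_four (fun n => (hg6 _ _ _ (hlapd n) (hbd n)).1) ?_
    have h1 := (to0_iff (fun n => (hlapd n).2.1)).1 F2
    have h2 := (to0_iff (fun n => (hu' n).2.2)).1 F3
    have h3 := (h1.add h2).const_mul (C6 * (2 * B) ^ 2)
    rw [add_zero, mul_zero] at h3
    refine squeeze_zero (fun n => integral_nonneg fun x => by positivity)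
      (fun n => (hg6 _ _ _ (hlapd n) (hbd n)).2) h3
  refine ⟨fun n x => χ n x * v n x,
    fun n x => χ n x * w n x + v n x * gχ n x + 2 * gradPairing m (χ n) (v n) x,
    fun n => ⟨huT n, (hχc n).mul_right, ?_, fun x => ?_⟩, fun h n x => ?_, F1, F2, F3, F4⟩
  · obtain ⟨-, L, hL⟩ := hvB n
    refine ⟨2 * B / hn n + B * c n + 2 * (c n * L), ?_⟩
    filter_upwards [hwle n, hgχ n, hgp n, (hvB n).wg_le hfin hL] with x h1 h2 h3 h4
    have t1 : |χ n x * w n x| ≤ 2 * B / hn n := by
      rw [abs_mul]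
      exact (mul_le_of_le_one_left (abs_nonneg _) (hχa n x)).trans h1
    have t2 : |v n x * gχ n x| ≤ B * c n := by
      rw [abs_mul]
      exact mul_le_mul (hvb n x) h2 (abs_nonneg _) hB0
    have t3 : |2 * gradPairing m (χ n) (v n) x| ≤ 2 * (c n * L) := by
      rw [abs_mul, abs_of_pos (by norm_num : (0 : ℝ) < 2)]
      exact mul_le_mul_of_nonneg_left (h3.trans (mul_le_mul_of_nonneg_left h4 (hc0 n)))
        (by norm_num)
    exact (abs_add_le _ _).trans (add_le_add ((abs_add_le _ _).trans (add_le_add t1 t2)) t3)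
  · rw [abs_mul]
    exact (mul_le_of_le_one_left (abs_nonneg _) (hχa n x)).trans (hvb n x)
  · refine mul_nonneg (hχ01 n x).1 ?_
    have h1 : 0 ≤ᵐ[m] J m (hn n) u := C.Jr_nonneg bddM_zero (hpos n) hu.1.1 h
    have h2 : 0 ≤ᵐ[m] J m (hn n) (J m (hn n) u) := C.Jr_nonneg bddM_zero (hpos n) (hJu n) h1
    have h3 : - v n x ≤ 0 := by
      refine forall_le_of_ae_le (m := m) (hvc n).neg ?_ x
      filter_upwards [hv n, h2] with y h4 h5
      show - v n y ≤ 0
      rw [h4]
      have h6 : (0 : ℝ) ≤ J m (hn n) (J m (hn n) u) y := h5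
      linarith
    linarith

end Crest.Agent.R242
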