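import Crest.Agent.R242.DBoch
import Crest.Agent.R242.DaviesFin
import Crest.Agent.R242.GamA
import Crest.Agent.R242.GamB
import Crest.Agent.R242.Defs
import Mathlib
import Crest.Agent.R242.Form
import Crest.Agent.R242.ResCore
import Crest.Agent.R242.Res
import Crest.Agent.R242.DIterE
import Crest.Agent.R242.Vol
import Crest.Agent.R242.Sob2Lip
import Crest.Agent.R242.SobLip
import Crest.Agent.R242.SobMin
import Crest.Agent.R242.FinMain
import Crest.Agent.R242.DIter_Mg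
import Crest.Agent.R242.Pair

-- ▼ part R242/DInst
section

/-!
# Row 242, PART D: instantiation of the structure `GFacts` (owner helper47)
-/

set_option autoImplicit false
set_option linter.unusedSectionVars false

open MeasureTheory Filter Set
open scoped ENNReal NNReal Topology
open Crest.GeometryTopology.SyntheticRicci

noncomputable section

namespace Crest.Agent.R242

variable {X : Type*} [MetricSpace X] [ProperSpace X] [MeasurableSpace X] [BorelSpace X]
  {m : Measure X} [IsLocallyFiniteMeasure m] [m.IsOpenPosMeasure] {k N h₀ : ℝ}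

/-- Change of weight for the Laplacian. -/
theorem IsWLap.toWeak (H : Hyp m k N)
    (hwl : ∀ (L : ℝ≥0) (f : X → ℝ), LipschitzWith L f → ∀ᵐ x ∂m, minWeakGrad m f x ≤ L)
    {V u l : X → ℝ} (hV : BddLip V) (hu : IsWLap m V u l) :
    IsWeakLaplacian m u (fun x => l x - gradPairing m V u x) := by
  obtain ⟨hV1, L, hL⟩ := id hV
  obtain ⟨Su, hl, hw⟩ := hu
  have hVl : IsSobolevLoc m V := hV.dSobLoc H
  have hul := sobLoc_sob Su
  have hVu : MemLp (gradPairing m V u) 2 m := by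
    refine MemLp.of_le_mul (c := (L : ℝ)) (memLp_wg Su) (aesm_gp H hVl hul) ?_
    filter_upwards [gp_abs_le H hVl hul, hwl L V hL, wg_nonneg H hul] with x h1 h2 h3
    rw [Real.norm_eq_abs, Real.norm_eq_abs, abs_of_nonneg h3]
    exact h1.trans (mul_le_mul_of_nonneg_right h2 h3)
  refine ⟨Su, hl.sub hVu, fun φ hφ => ?_⟩
  have hnV : BddLip (fun x => - V x) := by
    obtain ⟨B, hB⟩ := hV1
    exact ⟨⟨B, fun x => by rw [abs_neg]; exact hB x⟩, L, hL.neg⟩
  have hE : BddLip (fun x => Real.exp (- V x)) := hnV.dExp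
  have hEl := hE.dSobLoc H
  have hφl := sobLoc_sob hφ
  have hv : IsSobolev m (fun x => Real.exp (- V x) * φ x) := sob_bddLip_mul H hφ hE
  have h1 := hw _ hv
  rw [integral_wm hV.dBddM, integral_wm hV.dBddM] at h1
  have e1 : ∫ x, Real.exp (V x) * gradPairing m u (fun x => Real.exp (- V x) * φ x) x ∂m =
      ∫ x, (gradPairing m u φ x - gradPairing m V u x * φ x) ∂m := by
    refine integral_congr_ae ?_
    have nl : IsSobolevLoc m (fun x => - V x) := hnV.dSobLoc H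
    filter_upwards [gp_mul_right_gen H hul hEl hφl (sobLoc_sob hv),
      gp_comp_right H Real.contDiff_exp hul nl (locBdd_of_bdd hnV.dAeBdd),
      gp_neg_right H hul hVl, gp_comm H hVl hul] with x x1 x2 x3 x4
    have x2' : gradPairing m u (fun x => Real.exp (- V x)) x =
        Real.exp (- V x) * gradPairing m u (fun x => - V x) x := by
      rw [x2, Real.deriv_exp]
    rw [x1, x2', x3, ← x4]
    have h5 : Real.exp (V x) * Real.exp (- V x) = 1 := by
      rw [← Real.exp_add, add_neg_cancel, Real.exp_zero]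
    calc Real.exp (V x) * (Real.exp (- V x) * gradPairing m u φ x +
          φ x * (Real.exp (- V x) * -gradPairing m V u x))
        = (Real.exp (V x) * Real.exp (- V x)) *
          (gradPairing m u φ x - gradPairing m V u x * φ x) := by ring
      _ = _ := by rw [h5, one_mul]
  have e2 : ∫ x, Real.exp (V x) * (l x * (Real.exp (- V x) * φ x)) ∂m = ∫ x, l x * φ x ∂m := by
    refine integral_congr_ae (Eventually.of_forall fun x => ?_)
    have h5 : Real.exp (V x) * Real.exp (- V x) = 1 := by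
      rw [← Real.exp_add, add_neg_cancel, Real.exp_zero]
    show Real.exp (V x) * (l x * (Real.exp (- V x) * φ x)) = l x * φ x
    calc Real.exp (V x) * (l x * (Real.exp (- V x) * φ x))
        = (Real.exp (V x) * Real.exp (- V x)) * (l x * φ x) := by ring
      _ = _ := by rw [h5, one_mul]
  rw [e1, e2] at h1
  have i1 : Integrable (fun x => gradPairing m V u x * φ x) m := int_mul_L2 hVu (memLp_sob hφ)
  have i2 : Integrable (fun x => l x * φ x) m := int_mul_L2 hl (memLp_sob hφ)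
  have i3 : Integrable (gradPairing m u φ) m := integrable_gp H Su hφ
  rw [integral_sub i3 i1] at h1
  have e3 : ∫ x, (l x - gradPairing m V u x) * φ x ∂m =
      ∫ x, l x * φ x ∂m - ∫ x, gradPairing m V u x * φ x ∂m := by
    rw [← integral_sub i2 i1]
    congr 1; funext x; ring
  rw [e3]
  linarith

theorem memLp_four_of_integrable_pow {f : X → ℝ} (hf : AEStronglyMeasurable f m)
    (hi : Integrable (fun x => f x ^ 4) m) : MemLp f 4 m := by
  have h4 : (4 : ℝ≥0∞) ≠ 0 := by norm_num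
  have h4' : (4 : ℝ≥0∞) ≠ ⊤ := by norm_num
  rw [← integrable_norm_rpow_iff hf h4 h4']
  refine hi.congr (Eventually.of_forall fun x => ?_)
  have e : ((4 : ℝ≥0∞).toReal) = ((4 : ℕ) : ℝ) := by norm_num
  show f x ^ 4 = ‖f x‖ ^ ((4 : ℝ≥0∞).toReal)
  rw [e, Real.rpow_natCast, Real.norm_eq_abs]
  exact (Even.pow_abs (by decide) _).symm

theorem gFacts_of (H : Hyp m k N) (C : Calc m) (GJ : GoodJ m k h₀) (CG : CalcG m) :
    GFacts m k := by
  have hwl : ∀ (L : ℝ≥0) (f : X → ℝ), LipschitzWith L f → ∀ᵐ x ∂m, minWeakGrad m f x ≤ L := by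
    intro L f hL
    have hLB : LipOnBalls f := fun _ _ => ⟨L, hL.lipschitzOnWith⟩
    filter_upwards [minWeakGrad_le_of_lipschitzOnWith H.fin hLB isOpen_univ
      (L := L) (hL.lipschitzOnWith (s := univ))] with x hx using hx (mem_univ x)
  have hwt : ∀ u g : X → ℝ, Test2 m u g → ∃ L : ℝ, ∀ᵐ x ∂m, minWeakGrad m u x ≤ L := by
    intro u g hu
    obtain ⟨L, hL⟩ := hu.bl.2
    exact ⟨L, hwl L u hL⟩
  refine ⟨hwl, ?_, ?_, ?_, ?_, ?_⟩
  · intro u g hu
    exact sob_wg_sq H C GJ hu.lap hu.sob (hwt u g hu)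
  · intro u g hu φ hφ hφb hφ0
    exact bochner_sob H C GJ hu.lap hu.sob (hwt u g hu) hφ hφ0 hφb
  · intro V u l hV hu
    exact hu.toWeak H hwl hV
  · intro u g hu hb
    obtain ⟨B, hB⟩ := hb
    exact memLp_four_of_integrable_pow (aesm_wg H (sobLoc_sob hu.1))
      (wg_pow_four H C GJ hu hB).1
  · intro u g B hu hB
    exact exists_test2_approx H.fin H.hilb C CG hu hB

end Crest.Agent.R242
end
end

-- ▼ part R242/G3Core
section

/-!
Row 242 (S0375), G3: the core estimate `|J_h f - f| ≤ C √h Lip f`, from explicit hypotheses.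
-/

set_option autoImplicit false

open MeasureTheory Filter Set Metric
open scoped ENNReal NNReal Topology
open Crest.GeometryTopology.SyntheticRicci

namespace Crest.Agent.R242

section

variable {X : Type*} [MetricSpace X] [ProperSpace X] [MeasurableSpace X] [BorelSpace X]
  {m : Measure X} [IsLocallyFiniteMeasure m] [m.IsOpenPosMeasure]

theorem g3_ball_pos (x : X) (r : ℝ) (hr : 0 < r) : 0 < m.real (ball x r) := by
  have h1 : 0 < m (ball x r) := measure_ball_pos m x hr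
  have h2 : m (ball x r) < ⊤ := measure_ball_lt_top
  exact ENNReal.toReal_pos h1.ne' h2.ne

/-- Weighted Cauchy-Schwarz. -/
theorem g3_moment (x : X) (r s b A B : ℝ) (hr : 0 < r) (hb : 0 < b) (g : X → ℝ)
    (hgm : AEStronglyMeasurable g m) (hg0 : 0 ≤ᵐ[m] g)
    (hA : Integrable (fun y => g y ^ 2 * Real.exp (dist y x / s)) m)
    (hA' : ∫ y, g y ^ 2 * Real.exp (dist y x / s) ∂m ≤ A / b)
    (hB : Integrable (fun y => dist y x ^ 2 * Real.exp (-(dist y x / s))) m)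
    (hB' : ∫ y, dist y x ^ 2 * Real.exp (-(dist y x / s)) ∂m ≤ B * r ^ 2 * b) :
    Integrable (fun y => dist y x * g y) m ∧
      ∫ y, dist y x * g y ∂m ≤ (A + B) / 2 * r := by
  have hpt : ∀ᵐ y ∂m, dist y x * g y ≤
      (1 / (2 * (r * b))) * (dist y x ^ 2 * Real.exp (-(dist y x / s))) +
      (r * b / 2) * (g y ^ 2 * Real.exp (dist y x / s)) := by
    filter_upwards [hg0] with y hy
    set E := Real.exp (dist y x / s) with hE
    have hE0 : 0 < E := Real.exp_pos _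
    have hEi : Real.exp (-(dist y x / s)) = E⁻¹ := by rw [Real.exp_neg]
    rw [hEi]
    have hc : 0 < r * b := mul_pos hr hb
    have key : 0 ≤ (dist y x - (r * b) * E * g y) ^ 2 := sq_nonneg _
    have e1 : (1 / (2 * (r * b))) * (dist y x ^ 2 * E⁻¹) + (r * b / 2) * (g y ^ 2 * E) -
        dist y x * g y = (dist y x - (r * b) * E * g y) ^ 2 / (2 * (r * b) * E) := by
      field_simp
      ring
    have e2 : 0 ≤ (dist y x - (r * b) * E * g y) ^ 2 / (2 * (r * b) * E) := by positivity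
    linarith
  have hint : Integrable (fun y => (1 / (2 * (r * b))) * (dist y x ^ 2 *
      Real.exp (-(dist y x / s))) + (r * b / 2) * (g y ^ 2 * Real.exp (dist y x / s))) m :=
    (hB.const_mul _).add (hA.const_mul _)
  have hdm : AEStronglyMeasurable (fun y => dist y x * g y) m :=
    (by fun_prop : Continuous fun y : X => dist y x).aestronglyMeasurable.mul hgm
  have hI : Integrable (fun y => dist y x * g y) m := by
    refine hint.mono' hdm ?_
    filter_upwards [hpt, hg0] with y hy hy0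
    rw [Real.norm_of_nonneg (mul_nonneg dist_nonneg hy0)]
    exact hy
  refine ⟨hI, ?_⟩
  calc ∫ y, dist y x * g y ∂m ≤ ∫ y, ((1 / (2 * (r * b))) * (dist y x ^ 2 *
      Real.exp (-(dist y x / s))) + (r * b / 2) * (g y ^ 2 * Real.exp (dist y x / s))) ∂m :=
        integral_mono_ae hI hint hpt
    _ = (1 / (2 * (r * b))) * ∫ y, dist y x ^ 2 * Real.exp (-(dist y x / s)) ∂m +
        (r * b / 2) * ∫ y, g y ^ 2 * Real.exp (dist y x / s) ∂m := by
        rw [integral_add (hB.const_mul _) (hA.const_mul _), integral_const_mul,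
          integral_const_mul]
    _ ≤ (1 / (2 * (r * b))) * (B * r ^ 2 * b) + (r * b / 2) * (A / b) := by
        gcongr
    _ = (A + B) / 2 * r := by field_simp; ring

/-- The core pointwise estimate. -/
theorem g3_point (x : X) (r L L' M : ℝ) (hr : 0 < r) (hL' : 0 ≤ L')
    (q Jq f Jf v : X → ℝ)
    (hq : q = (ball x r).indicator (fun _ => (m.real (ball x r))⁻¹))
    (hJ0 : 0 ≤ᵐ[m] Jq) (hJi : Integrable Jq m) (hJ1 : ∫ y, Jq y ∂m = 1)
    (hd : Integrable (fun y => dist y x * Jq y) m) (hdM : ∫ y, dist y x * Jq y ∂m ≤ M)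
    (hL : 0 ≤ L) (hfm : AEStronglyMeasurable f m) (hf : ∀ y, |f y - f x| ≤ L * dist y x)
    (hsym : ∫ y, Jf y * q y ∂m = ∫ y, f y * Jq y ∂m)
    (hv : v =ᵐ[m] Jf) (hvc : Continuous v) (hvL : ∀ y, |v y - v x| ≤ L' * dist y x) :
    |v x - f x| ≤ L' * r + L * M := by
  have hb := g3_ball_pos (m := m) x r hr
  have hbt : m (ball x r) ≠ ⊤ := measure_ball_lt_top.ne
  -- average of v
  have hqi : Integrable q m := by
    rw [hq, integrable_indicator_iff measurableSet_ball]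
    exact integrableOn_const hbt
  have hq1 : ∫ y, q y ∂m = 1 := by
    rw [hq, integral_indicator measurableSet_ball, setIntegral_const, smul_eq_mul]
    exact mul_inv_cancel₀ hb.ne'
  have hq0 : ∀ y, 0 ≤ q y := fun y => by
    rw [hq]; exact indicator_nonneg (fun _ _ => inv_nonneg.2 hb.le) y
  have hvqb : ∀ y, |(v y - v x) * q y| ≤ L' * r * q y := by
    intro y
    rw [abs_mul, abs_of_nonneg (hq0 y)]
    by_cases hy : y ∈ ball x r
    · refine mul_le_mul_of_nonneg_right ((hvL y).trans ?_) (hq0 y)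
      exact mul_le_mul_of_nonneg_left (mem_ball.1 hy).le hL'
    · have : q y = 0 := by rw [hq, indicator_of_notMem hy]
      rw [this]; simp
  have hvqi : Integrable (fun y => (v y - v x) * q y) m := by
    refine (hqi.const_mul (L' * r)).mono'
      (((hvc.sub continuous_const).aestronglyMeasurable).mul hqi.aestronglyMeasurable) ?_
    exact Eventually.of_forall fun y => by simpa [Real.norm_eq_abs] using hvqb y
  have h1 : |∫ y, (v y - v x) * q y ∂m| ≤ L' * r := by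
    calc |∫ y, (v y - v x) * q y ∂m| ≤ ∫ y, L' * r * q y ∂m := by
          rw [← Real.norm_eq_abs]
          refine norm_integral_le_of_norm_le (hqi.const_mul _) ?_
          exact Eventually.of_forall fun y => by simpa [Real.norm_eq_abs] using hvqb y
      _ = L' * r := by rw [integral_const_mul, hq1, mul_one]
  have h2 : ∫ y, v y * q y ∂m = (∫ y, (v y - v x) * q y ∂m) + v x := by
    have e : (fun y => v y * q y) = fun y => (v y - v x) * q y + v x * q y := by
      funext y; ring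
    rw [e, integral_add hvqi (hqi.const_mul _), integral_const_mul, hq1, mul_one]
  have h3 : ∫ y, v y * q y ∂m = ∫ y, Jf y * q y ∂m :=
    integral_congr_ae (by filter_upwards [hv] with y hy; rw [hy])
  -- average of f
  have hfb : ∀ᵐ y ∂m, ‖(f y - f x) * Jq y‖ ≤ L * (dist y x * Jq y) := by
    filter_upwards [hJ0] with y hy
    rw [Real.norm_eq_abs, abs_mul, abs_of_nonneg hy, ← mul_assoc]
    exact mul_le_mul_of_nonneg_right (hf y) hy
  have hfi : Integrable (fun y => (f y - f x) * Jq y) m :=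
    (hd.const_mul L).mono' ((hfm.sub aestronglyMeasurable_const).mul hJi.aestronglyMeasurable) hfb
  have h4 : |∫ y, (f y - f x) * Jq y ∂m| ≤ L * M := by
    calc |∫ y, (f y - f x) * Jq y ∂m| ≤ ∫ y, L * (dist y x * Jq y) ∂m := by
          rw [← Real.norm_eq_abs]
          exact norm_integral_le_of_norm_le (hd.const_mul _) hfb
      _ = L * ∫ y, dist y x * Jq y ∂m := integral_const_mul _ _
      _ ≤ L * M := mul_le_mul_of_nonneg_left hdM hL
  have h5 : ∫ y, f y * Jq y ∂m = (∫ y, (f y - f x) * Jq y ∂m) + f x := by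
    have e : (fun y => f y * Jq y) = fun y => (f y - f x) * Jq y + f x * Jq y := by
      funext y; ring
    rw [e, integral_add hfi (hJi.const_mul _), integral_const_mul, hJ1, mul_one]
  have h6 : v x - f x = (∫ y, (f y - f x) * Jq y ∂m) - ∫ y, (v y - v x) * q y ∂m := by
    linarith
  rw [h6]
  calc |(∫ y, (f y - f x) * Jq y ∂m) - ∫ y, (v y - v x) * q y ∂m| ≤
      |∫ y, (f y - f x) * Jq y ∂m| + |∫ y, (v y - v x) * q y ∂m| := abs_sub _ _
    _ ≤ L' * r + L * M := by linarith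

end

end Crest.Agent.R242
end

-- ▼ part R242/G3Of
section

/-!
Row 242 (S0375), G3: the resolvent preserves Lipschitz functions and is close to the identity on
them; all facts from the other modules are hypotheses here.
-/

set_option autoImplicit false

open MeasureTheory Filter Set Metric
open scoped ENNReal NNReal Topology
open Crest.GeometryTopology.SyntheticRicci

namespace Crest.Agent.R242

section

variable {X : Type*} [MetricSpace X] [ProperSpace X] [MeasurableSpace X] [BorelSpace X]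
  {m : Measure X} [IsLocallyFiniteMeasure m] [m.IsOpenPosMeasure]

/-- The facts used by G3. -/
structure G3Facts (m : Measure X) (k : ℝ) (h0 CD CV Cd : ℝ) : Prop where
  h0pos : 0 < h0
  h0k : 4 * h0 * k ≤ 1
  CDnn : 0 ≤ CD
  CVnn : 0 ≤ CV
  Cdnn : 0 ≤ Cd
  /-- gradient estimate + Sobolev-to-Lipschitz: Lipschitz representative of `J_h f`. -/
  lip : ∀ h, 0 < h → h ≤ h0 → ∀ (f : X → ℝ) (L : ℝ≥0), IsSobolev m f → LipschitzWith L f →
    ∃ v : X → ℝ, v =ᵐ[m] J m h f ∧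
      LipschitzWith (Real.toNNReal (1 / Real.sqrt (1 - 2 * h * k)) * L) v
  symm : ∀ h, 0 < h → h ≤ h0 → ∀ (f g : X → ℝ), MemLp f 2 m → MemLp g 2 m →
    ∫ x, J m h f x * g x ∂m = ∫ x, f x * J m h g x ∂m
  nonneg : ∀ h, 0 < h → h ≤ h0 → ∀ (f : X → ℝ), MemLp f 2 m → 0 ≤ᵐ[m] f → 0 ≤ᵐ[m] J m h f
  mass : ∀ h, 0 < h → h ≤ h0 → ∀ (f : X → ℝ), MemLp f 2 m → BddSupp m f →
    Integrable (J m h f) m ∧ ∫ x, J m h f x ∂m = ∫ x, f x ∂m
  /-- Davies, with `a = 1 / (4 √h)`. -/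
  davies : ∀ h, 0 < h → h ≤ h0 → ∀ (o : X) (f : X → ℝ), MemLp f 2 m → BddSupp m f →
    Integrable (fun x => J m h f x ^ 2 * Real.exp (dist x o / (2 * Real.sqrt h))) m ∧
      ∫ x, J m h f x ^ 2 * Real.exp (dist x o / (2 * Real.sqrt h)) ∂m ≤
        CD * ∫ x, f x ^ 2 * Real.exp (dist x o / (2 * Real.sqrt h)) ∂m
  /-- [V4], with `a = 1 / (4 r)`. -/
  moment : ∀ r, 0 < r → r ^ 2 ≤ h0 → ∀ x : X,
    Integrable (fun y => dist y x ^ 2 * Real.exp (-(dist y x / (2 * r)))) m ∧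
    ∫ y, dist y x ^ 2 * Real.exp (-(dist y x / (2 * r))) ∂m ≤
      CV * r ^ 2 * m.real (ball x (4 * r))
  doubling : ∀ r, 0 < r → r ^ 2 ≤ h0 → ∀ x : X,
    m.real (ball x (4 * r)) ≤ Cd * m.real (ball x r)

theorem g3_of {k h0 CD CV Cd : ℝ} (G : G3Facts m k h0 CD CV Cd) (h : ℝ) (hh : 0 < h)
    (hh0 : h ≤ h0) (f : X → ℝ) (L : ℝ≥0) (hf : IsSobolev m f) (hfL : LipschitzWith L f) :
    ∃ v : X → ℝ, v =ᵐ[m] J m h f ∧
      LipschitzWith (Real.toNNReal (1 / Real.sqrt (1 - 2 * h * k)) * L) v ∧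
      ∀ x, |v x - f x| ≤
        (2 + (CD * Real.exp 1 + CV * Cd) / 2) * Real.sqrt h * L := by
  obtain ⟨v, hv, hvL⟩ := G.lip h hh hh0 f L hf hfL
  refine ⟨v, hv, hvL, fun x => ?_⟩
  set r := Real.sqrt h with hr
  have hr0 : 0 < r := Real.sqrt_pos.2 hh
  have hr2 : r ^ 2 = h := Real.sq_sqrt hh.le
  set b := m.real (ball x r) with hb
  have hb0 : 0 < b := g3_ball_pos x r hr0
  have hbt : m (ball x r) ≠ ⊤ := measure_ball_lt_top.ne
  set q : X → ℝ := (ball x r).indicator (fun _ => b⁻¹) with hq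
  have hq2 : MemLp q 2 m := memLp_indicator_const 2 measurableSet_ball _ (Or.inr hbt)
  have hqs : BddSupp m q :=
    ⟨x, r, Eventually.of_forall fun y hy =>
      indicator_of_notMem (fun h' => hy (ball_subset_closedBall h')) _⟩
  have hq0 : 0 ≤ᵐ[m] q := Eventually.of_forall fun y =>
    indicator_nonneg (fun _ _ => inv_nonneg.2 hb0.le) y
  have hq1 : ∫ y, q y ∂m = 1 := by
    rw [hq, integral_indicator measurableSet_ball, setIntegral_const, smul_eq_mul]
    exact mul_inv_cancel₀ hb0.ne'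
  have hJ0 := G.nonneg h hh hh0 q hq2 hq0
  obtain ⟨hJi, hJ1⟩ := G.mass h hh hh0 q hq2 hqs
  rw [hq1] at hJ1
  -- Davies
  obtain ⟨hD1, hD2⟩ := G.davies h hh hh0 x q hq2 hqs
  rw [← hr] at hD1 hD2
  have hqe : ∫ y, q y ^ 2 * Real.exp (dist y x / (2 * r)) ∂m ≤ Real.exp 1 / b := by
    have hle : ∀ y, q y ^ 2 * Real.exp (dist y x / (2 * r)) ≤ (Real.exp 1 / b) * q y := by
      intro y
      by_cases hy : y ∈ ball x r
      · have e1 : q y = b⁻¹ := indicator_of_mem hy _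
        have e2 : Real.exp (dist y x / (2 * r)) ≤ Real.exp 1 := by
          apply Real.exp_le_exp.2
          rw [div_le_one (by positivity)]
          have := (mem_ball.1 hy).le
          linarith
        rw [e1]
        calc b⁻¹ ^ 2 * Real.exp (dist y x / (2 * r)) ≤ b⁻¹ ^ 2 * Real.exp 1 := by gcongr
          _ = Real.exp 1 / b * b⁻¹ := by field_simp
      · have e1 : q y = 0 := indicator_of_notMem hy _
        rw [e1]; simp
    have hqi : Integrable q m := by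
      rw [hq, integrable_indicator_iff measurableSet_ball]
      exact integrableOn_const hbt
    have hnn : 0 ≤ᵐ[m] fun y => q y ^ 2 * Real.exp (dist y x / (2 * r)) :=
      Eventually.of_forall fun y => mul_nonneg (sq_nonneg _) (Real.exp_pos _).le
    calc ∫ y, q y ^ 2 * Real.exp (dist y x / (2 * r)) ∂m ≤ ∫ y, (Real.exp 1 / b) * q y ∂m :=
          integral_mono_of_nonneg hnn (hqi.const_mul _) (Eventually.of_forall hle)
      _ = Real.exp 1 / b := by rw [integral_const_mul, hq1, mul_one]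
  have hA' : ∫ y, J m h q y ^ 2 * Real.exp (dist y x / (2 * r)) ∂m ≤ (CD * Real.exp 1) / b := by
    calc _ ≤ CD * ∫ y, q y ^ 2 * Real.exp (dist y x / (2 * r)) ∂m := hD2
      _ ≤ CD * (Real.exp 1 / b) := mul_le_mul_of_nonneg_left hqe G.CDnn
      _ = (CD * Real.exp 1) / b := by ring
  obtain ⟨hB, hB1⟩ := G.moment r hr0 (by rw [hr2]; exact hh0) x
  have hB' : ∫ y, dist y x ^ 2 * Real.exp (-(dist y x / (2 * r))) ∂m ≤ (CV * Cd) * r ^ 2 * b := by
    have h1 := G.doubling r hr0 (by rw [hr2]; exact hh0) x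
    calc _ ≤ CV * r ^ 2 * m.real (ball x (4 * r)) := hB1
      _ ≤ CV * r ^ 2 * (Cd * b) :=
          mul_le_mul_of_nonneg_left h1 (mul_nonneg G.CVnn (sq_nonneg _))
      _ = (CV * Cd) * r ^ 2 * b := by ring
  obtain ⟨hI, hM⟩ := g3_moment x r (2 * r) b (CD * Real.exp 1) (CV * Cd) hr0 hb0 (J m h q)
    hJi.aestronglyMeasurable hJ0 hD1 hA' hB hB'
  have hfm : MemLp f 2 m := hf.1
  have hsym := G.symm h hh hh0 f q hfm hq2
  have hfx : ∀ y, |f y - f x| ≤ (L : ℝ) * dist y x := fun y => by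
    have := hfL.dist_le_mul y x
    rwa [Real.dist_eq] at this
  set c := 1 / Real.sqrt (1 - 2 * h * k) with hc
  have hk2 : 1 / 2 ≤ 1 - 2 * h * k := by
    have h1 := G.h0k
    by_cases hk : 0 ≤ k
    · have : h * k ≤ h0 * k := mul_le_mul_of_nonneg_right hh0 hk
      nlinarith
    · push Not at hk
      nlinarith
  have hc2 : c ≤ 2 := by
    rw [hc, div_le_iff₀ (Real.sqrt_pos.2 (by linarith))]
    have h2 : (1 / 2 : ℝ) ≤ Real.sqrt (1 - 2 * h * k) := by
      apply Real.le_sqrt_of_sq_le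
      linarith
    linarith
  have hc0 : 0 ≤ c := by rw [hc]; positivity
  have hvx : ∀ y, |v y - v x| ≤ (c * L) * dist y x := fun y => by
    have := hvL.dist_le_mul y x
    rw [Real.dist_eq] at this
    simpa [Real.coe_toNNReal _ hc0] using this
  have key := g3_point x r L (c * L) ((CD * Real.exp 1 + CV * Cd) / 2 * r) hr0
    (by positivity) q (J m h q) f (J m h f) v rfl hJ0 hJi hJ1 hI hM L.2
    hfm.aestronglyMeasurable hfx hsym hv hvL.continuous hvx
  refine key.trans ?_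
  have hL0 : (0 : ℝ) ≤ L := L.2
  have h3 : c * L * r ≤ 2 * L * r := by gcongr
  nlinarith

end

end Crest.Agent.R242
end

-- ▼ part R242/GamInst
section

/-!
# Row 242: `CalcG m` from parts G2, G3, G5, G6 (owner helper899)
-/

set_option autoImplicit false
set_option linter.unusedSectionVars false

open MeasureTheory Filter Set
open scoped ENNReal NNReal Topology
open Crest.GeometryTopology.SyntheticRicci

noncomputable section

namespace Crest.Agent.R242

variable {X : Type*} [MetricSpace X] [ProperSpace X] [MeasurableSpace X] [BorelSpace X]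
  {m : Measure X} [IsLocallyFiniteMeasure m] [m.IsOpenPosMeasure] {k N h₀ : ℝ}

/-- the conclusion of G3. -/
def G3Concl (m : Measure X) : Prop :=
  ∃ h0 C : ℝ, 0 < h0 ∧ 0 ≤ C ∧ ∀ h : ℝ, 0 < h → h ≤ h0 → ∀ (f : X → ℝ) (L : ℝ≥0),
    IsSobolev m f → LipschitzWith L f → ∃ v : X → ℝ, v =ᵐ[m] J m h f ∧
      LipschitzWith (2 * L) v ∧ ∀ x, |v x - f x| ≤ C * Real.sqrt h * L

theorem g3Concl_of_facts {h0 CD CV Cd : ℝ} (F : G3Facts m k h0 CD CV Cd) : G3Concl m := by
  refine ⟨h0, 2 + (CD * Real.exp 1 + CV * Cd) / 2, F.h0pos, ?_, fun h hh hh0 f L hf hL => ?_⟩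
  · have h1 := F.CDnn
    have h2 := F.CVnn
    have h3 := F.Cdnn
    positivity
  · obtain ⟨v, hv, hvL, hvf⟩ := g3_of F h hh hh0 f L hf hL
    refine ⟨v, hv, hvL.weaken ?_, hvf⟩
    refine mul_le_mul_left ?_ L
    have hk2 : 1 / 2 ≤ 1 - 2 * h * k := by
      have h1 := F.h0k
      have h0p := F.h0pos
      by_cases hk : 0 ≤ k
      · have : h * k ≤ h0 * k := mul_le_mul_of_nonneg_right hh0 hk
        nlinarith
      · push Not at hk
        nlinarith
    rw [← NNReal.coe_le_coe, Real.coe_toNNReal _ (by positivity), NNReal.coe_ofNat,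
      div_le_iff₀ (Real.sqrt_pos.2 (by linarith))]
    have h2 : (1 / 2 : ℝ) ≤ Real.sqrt (1 - 2 * h * k) := by
      apply Real.le_sqrt_of_sq_le
      linarith
    linarith

theorem calcG_of [IsUnifLocDoublingMeasure m] (H : Hyp m k N) (C : Calc m) (GJ : GoodJ m k h₀)
    (hgeo : HasBddGeoPlans m) (hG3 : G3Concl m) : CalcG m where
  g2 := by
    refine ⟨h₀, GJ.pos, fun h hh hh0 f B hf hB => ⟨Jc m h f, ?_, ?_, ?_⟩⟩
    · exact (Jc_spec H C GJ hgeo hh hh0 hf hB).1
    · exact ⟨B, fun x => Jc_abs_le H C GJ hgeo hh hh0 hf hB x⟩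
    · exact ⟨_, (Jc_spec H C GJ hgeo hh hh0 hf hB).2⟩
  g3 := hG3
  g5 := fun {u g} hu => by
    obtain ⟨L, hL⟩ := hu.bl.2
    exact sob_wg_sq H C GJ hu.lap hu.sob ⟨L, hu.bl.wg_le H.fin hL⟩
  g6 := by
    have hp := GJ.pos
    refine ⟨256 + 4 / h₀, by positivity, fun u g B hu hB => ?_⟩
    obtain ⟨h1, h2⟩ := wg_pow_four H C GJ hu hB
    refine ⟨h1, h2.trans ?_⟩
    have hG0 : 0 ≤ ∫ x, g x ^ 2 ∂m := integral_nonneg fun x => sq_nonneg _
    have hW0 : 0 ≤ ∫ x, minWeakGrad m u x ^ 2 ∂m := integral_nonneg fun x => sq_nonneg _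
    have h3 : 0 ≤ 4 / h₀ * ∫ x, g x ^ 2 ∂m := by positivity
    have h4 : (256 * ∫ x, g x ^ 2 ∂m) + 4 / h₀ * ∫ x, minWeakGrad m u x ^ 2 ∂m ≤
        (256 + 4 / h₀) * (∫ x, g x ^ 2 ∂m + ∫ x, minWeakGrad m u x ^ 2 ∂m) := by
      nlinarith
    calc B ^ 2 * ((256 * ∫ x, g x ^ 2 ∂m) + 4 / h₀ * ∫ x, minWeakGrad m u x ^ 2 ∂m)
        ≤ B ^ 2 * ((256 + 4 / h₀) * (∫ x, g x ^ 2 ∂m + ∫ x, minWeakGrad m u x ^ 2 ∂m)) :=
          mul_le_mul_of_nonneg_left h4 (sq_nonneg _)
      _ = (256 + 4 / h₀) * B ^ 2 *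
          (∫ x, g x ^ 2 ∂m + ∫ x, minWeakGrad m u x ^ 2 ∂m) := by ring

end Crest.Agent.R242
end
end

-- ▼ part R242/Semi
section

/-!
Row 242, part R4 (abstract part): strong convergence of the resolvents, the generator relation,
the Yosida semigroup `Q.sg t` of a closed form `Q : CForm H`.
-/

set_option autoImplicit false

noncomputable section

open Filter Topology
open scoped RealInnerProductSpace

namespace Crest.Agent.R242

/-! ### invariance of closed convex sets under `exp (c (J - 1))` -/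

section ExpConvex

variable {H : Type*} [NormedAddCommGroup H] [NormedSpace ℝ H] [CompleteSpace H]

lemma exp_smul_sub_one (J : H →L[ℝ] H) (c : ℝ) :
    NormedSpace.exp (c • (J - 1)) = Real.exp (-c) • NormedSpace.exp (c • J) := by
  have h1 : c • (J - 1) = c • J + algebraMap ℝ (H →L[ℝ] H) (-c) := by
    rw [smul_sub, Algebra.algebraMap_eq_smul_one, neg_smul, sub_eq_add_neg]
  rw [h1, NormedSpace.exp_add_of_commute_of_mem_ball (𝕂 := ℝ)
    (Algebra.commute_algebraMap_right _ _)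
    ((NormedSpace.expSeries_radius_eq_top ℝ (H →L[ℝ] H)).symm ▸ edist_lt_top _ _)
    ((NormedSpace.expSeries_radius_eq_top ℝ (H →L[ℝ] H)).symm ▸ edist_lt_top _ _),
    ← NormedSpace.algebraMap_exp_comm, ← Real.exp_eq_exp_ℝ, Algebra.algebraMap_eq_smul_one,
    mul_smul_comm, mul_one]

lemma exp_mem_of_convex {C : Set H} (hC : Convex ℝ C) (hcl : IsClosed C) (J : H →L[ℝ] H)
    (hJ : ∀ x ∈ C, J x ∈ C) {c : ℝ} (hc : 0 ≤ c) {f : H} (hf : f ∈ C) :
    NormedSpace.exp (c • (J - 1)) f ∈ C := by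
  have hpow : ∀ k : ℕ, (J ^ k) f ∈ C := by
    intro k
    induction k with
    | zero => simpa using hf
    | succ k ih => rw [pow_succ']; exact hJ _ ih
  set a : ℕ → ℝ := fun k => (k.factorial : ℝ)⁻¹ * c ^ k with ha
  have ha0 : ∀ k, 0 ≤ a k := fun k => by simp only [ha]; positivity
  have hs1 : HasSum a (Real.exp c) := by
    have := NormedSpace.exp_series_hasSum_exp' (𝕂 := ℝ) c
    rw [← Real.exp_eq_exp_ℝ] at this
    simpa [ha, smul_eq_mul] using this
  have hs2 : HasSum (fun k => a k • (J ^ k) f) (NormedSpace.exp (c • J) f) := by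
    have h1 := NormedSpace.exp_series_hasSum_exp' (𝕂 := ℝ) (c • J)
    have h2 := h1.mapL (ContinuousLinearMap.apply ℝ H f)
    simp only [ContinuousLinearMap.apply_apply] at h2
    refine h2.congr_fun ?_ |> fun h => h
    intro k
    simp [ha, smul_pow, smul_smul]
  have ht1 : Tendsto (fun K => ∑ k ∈ Finset.range (K + 1), a k) atTop (𝓝 (Real.exp c)) :=
    (hs1.tendsto_sum_nat).comp (tendsto_add_atTop_nat 1)
  have ht2 : Tendsto (fun K => ∑ k ∈ Finset.range (K + 1), a k • (J ^ k) f) atTop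
      (𝓝 (NormedSpace.exp (c • J) f)) :=
    (hs2.tendsto_sum_nat).comp (tendsto_add_atTop_nat 1)
  have ht3 := (ht1.inv₀ (Real.exp_pos c).ne').smul ht2
  rw [exp_smul_sub_one, smul_apply, Real.exp_neg]
  refine hcl.mem_of_tendsto ht3 (Eventually.of_forall fun K => ?_)
  have hpos : 0 < ∑ k ∈ Finset.range (K + 1), a k := by
    apply Finset.sum_pos' (fun k _ => ha0 k)
    exact ⟨0, by simp, by simp [ha]⟩
  have := hC.centerMass_mem (t := Finset.range (K + 1)) (w := a) (z := fun k => (J ^ k) f)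
    (fun k _ => ha0 k) hpos (fun k _ => hpow k)
  simpa [Finset.centerMass] using this

end ExpConvex

namespace CForm

variable {H : Type*} [NormedAddCommGroup H] [InnerProductSpace ℝ H] (Q : CForm H)

/-! ### energy seminorm -/

/-- The energy seminorm. -/
def en (u : H) : ℝ := √(Q.E u u)

lemma en_nonneg (u : H) : 0 ≤ Q.en u := Real.sqrt_nonneg _

lemma en_sq {u : H} (hu : u ∈ Q.dom) : Q.en u ^ 2 = Q.E u u := Real.sq_sqrt (Q.nonneg hu)

lemma en_add_le {u v : H} (hu : u ∈ Q.dom) (hv : v ∈ Q.dom) : Q.en (u + v) ≤ Q.en u + Q.en v :=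
  Q.sqrt_add_le hu hv

lemma en_smul {u : H} (c : ℝ) (hu : u ∈ Q.dom) : Q.en (c • u) = |c| * Q.en u := by
  unfold en
  rw [Q.smul_left c hu (Q.dom.smul_mem c hu), Q.smul_right c hu hu, ← mul_assoc,
    Real.sqrt_mul (mul_self_nonneg c), Real.sqrt_mul_self_eq_abs]

lemma en_neg {u : H} (hu : u ∈ Q.dom) : Q.en (-u) = Q.en u := by
  have := Q.en_smul (-1) hu
  simpa using this

lemma en_sub_le {u v : H} (hu : u ∈ Q.dom) (hv : v ∈ Q.dom) : Q.en (u - v) ≤ Q.en u + Q.en v := by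
  rw [sub_eq_add_neg, ← Q.en_neg hv]
  exact Q.en_add_le hu (Q.dom.neg_mem hv)


/-- sublevel sets of the energy are closed and convex -/
lemma isClosed_energy (C : ℝ) : IsClosed {u : H | u ∈ Q.dom ∧ Q.E u u ≤ C} := by
  rw [← isSeqClosed_iff_isClosed]
  intro u f hu hf
  exact Q.closed' u f C (fun n => (hu n).1) (fun n => (hu n).2) hf

lemma convex_energy (C : ℝ) : Convex ℝ {u : H | u ∈ Q.dom ∧ Q.E u u ≤ C} := by
  rw [convex_iff_forall_pos]
  intro x hx y hy a b ha hb hab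
  refine ⟨Q.dom.add_mem (Q.dom.smul_mem _ hx.1) (Q.dom.smul_mem _ hy.1), ?_⟩
  have h1 := Q.expand (Q.dom.smul_mem a hx.1) hy.1 b
  rw [h1, Q.smul_left a hx.1 (Q.dom.smul_mem a hx.1), Q.smul_right a hx.1 hx.1,
    Q.smul_left a hx.1 hy.1]
  have h2 := Q.two_mul_le hx.1 hy.1
  have h3 := hx.2
  have h4 := hy.2
  have hb' : b = 1 - a := by linarith
  subst hb'
  have h5 : a * (1 - a) * (2 * Q.E x y) ≤ a * (1 - a) * (Q.E x x + Q.E y y) :=
    mul_le_mul_of_nonneg_left h2 (by positivity)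
  nlinarith [mul_le_mul_of_nonneg_left h3 ha.le, mul_le_mul_of_nonneg_left h4 hb.le]

variable [CompleteSpace H]

/-! ### strong convergence of the resolvents -/

lemma tendsto_res (f : H) : Tendsto (fun h : ℝ => Q.res h f) (𝓝[>] 0) (𝓝 f) := by
  rw [Metric.tendsto_nhds]
  intro ε hε
  obtain ⟨g, hg, hgd⟩ := Metric.mem_closure_iff.1 (Q.dense' f) (ε / 4) (by positivity)
  have hg : g ∈ Q.dom := hg
  have h0 : 0 ≤ Q.E g g := Q.nonneg hg
  have h1 : ∀ᶠ h : ℝ in 𝓝[>] 0, h < (ε / 4) ^ 2 / (Q.E g g + 1) := by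
    have : (0 : ℝ) < (ε / 4) ^ 2 / (Q.E g g + 1) := by positivity
    exact (eventually_lt_nhds this).filter_mono nhdsWithin_le_nhds
  filter_upwards [h1, self_mem_nhdsWithin] with h h2 h3
  have h3 : 0 < h := h3
  have h4 := Q.norm_sub_res_sq_le h3 hg
  have h5 : ‖g - Q.res h g‖ ^ 2 ≤ (ε / 4) ^ 2 := by
    rw [lt_div_iff₀ (by positivity)] at h2
    nlinarith
  have h6 : ‖g - Q.res h g‖ ≤ ε / 4 := by
    have := Real.sqrt_le_sqrt h5
    rwa [Real.sqrt_sq (norm_nonneg _), Real.sqrt_sq (by positivity)] at this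
  have h7 : Q.res h f - f = Q.res h (f - g) - (g - Q.res h g) + (g - f) := by
    rw [map_sub]; abel
  rw [dist_eq_norm, h7]
  have h8 := Q.norm_res_le (h := h) (f - g)
  rw [dist_eq_norm] at hgd
  have h9 : ‖g - f‖ < ε / 4 := by rw [norm_sub_rev]; exact hgd
  have h10 := norm_add_le (Q.res h (f - g) - (g - Q.res h g)) (g - f)
  have h11 := norm_sub_le (Q.res h (f - g)) (g - Q.res h g)
  linarith

lemma tendsto_E_res {f : H} (hf : f ∈ Q.dom) :
    Tendsto (fun h : ℝ => Q.E (Q.res h f) (Q.res h f)) (𝓝[>] 0) (𝓝 (Q.E f f)) := by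
  rw [tendsto_order]
  constructor
  · intro a ha
    by_contra hcon
    rw [not_eventually] at hcon
    obtain ⟨h, hh, hfreq⟩ : ∃ h : ℕ → ℝ, Tendsto h atTop (𝓝[>] 0) ∧
        ∀ n, ¬ a < Q.E (Q.res (h n) f) (Q.res (h n) f) ∧ 0 < h n := by
      have hfr : ∃ᶠ h : ℝ in 𝓝[>] 0, (¬ a < Q.E (Q.res h f) (Q.res h f)) ∧ 0 < h :=
        hcon.and_eventually self_mem_nhdsWithin
      obtain ⟨h, h1, h2⟩ := exists_seq_forall_of_frequently hfr
      exact ⟨h, h1, h2⟩
    have h1 := Q.closed' (fun n => Q.res (h n) f) f a (fun n => Q.res_mem (hfreq n).2 f)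
      (fun n => not_lt.1 (hfreq n).1) ((Q.tendsto_res f).comp hh)
    linarith [h1.2]
  · intro a ha
    filter_upwards [self_mem_nhdsWithin] with h hh
    exact lt_of_le_of_lt (Q.E_res_le hh hf) ha

lemma tendsto_E_sub_res {f : H} (hf : f ∈ Q.dom) :
    Tendsto (fun h : ℝ => Q.E (f - Q.res h f) (f - Q.res h f)) (𝓝[>] 0) (𝓝 0) := by
  have h1 : Tendsto (fun h : ℝ => Q.E f f - Q.E (Q.res h f) (Q.res h f)) (𝓝[>] 0) (𝓝 0) := by
    have := (Q.tendsto_E_res hf).const_sub (Q.E f f)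
    simpa using this
  refine tendsto_of_tendsto_of_tendsto_of_le_of_le' tendsto_const_nhds h1 ?_ ?_
  · filter_upwards [self_mem_nhdsWithin] with h hh
    exact Q.nonneg (Q.dom.sub_mem hf (Q.res_mem hh f))
  · filter_upwards [self_mem_nhdsWithin] with h hh
    exact Q.E_sub_res_le hh hf

/-! ### generator -/

/-- `l = L u` for the generator `L` of the form. -/
def IsGen (u l : H) : Prop := u ∈ Q.dom ∧ ∀ v ∈ Q.dom, Q.E u v = -⟪l, v⟫

section gen

variable {Q}

omit [CompleteSpace H]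

lemma IsGen.mem {u l : H} (hg : Q.IsGen u l) : u ∈ Q.dom := hg.1

lemma IsGen.add {u l u' l' : H} (hg : Q.IsGen u l) (hg' : Q.IsGen u' l') :
    Q.IsGen (u + u') (l + l') :=
  ⟨Q.dom.add_mem hg.1 hg'.1, fun v hv => by
    rw [Q.add_left hg.1 hg'.1 hv, hg.2 v hv, hg'.2 v hv, inner_add_left]; ring⟩

lemma IsGen.smul {u l : H} (c : ℝ) (hg : Q.IsGen u l) : Q.IsGen (c • u) (c • l) :=
  ⟨Q.dom.smul_mem c hg.1, fun v hv => by
    rw [Q.smul_left c hg.1 hv, hg.2 v hv, real_inner_smul_left]; ring⟩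

lemma IsGen.sub {u l u' l' : H} (hg : Q.IsGen u l) (hg' : Q.IsGen u' l') :
    Q.IsGen (u - u') (l - l') := by
  have := hg.add (hg'.smul (-1))
  simpa [sub_eq_add_neg] using this


lemma IsGen.symm {u l u' l' : H} (hg : Q.IsGen u l) (hg' : Q.IsGen u' l') :
    ⟪l, u'⟫ = ⟪u, l'⟫ := by
  have h1 := hg.2 _ hg'.1
  have h2 := hg'.2 _ hg.1
  rw [Q.symm hg.1 hg'.1, h2] at h1
  rw [real_inner_comm l' u]
  linarith

lemma IsGen.energy {u l : H} (hg : Q.IsGen u l) : Q.E u u = -⟪l, u⟫ := hg.2 u hg.1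

end gen

lemma isGen_res {h : ℝ} (hh : 0 < h) (f : H) : Q.IsGen (Q.res h f) (h⁻¹ • (Q.res h f - f)) :=
  ⟨Q.res_mem hh f, fun v hv => by
    have h1 := Q.res_eq hh f hv
    rw [real_inner_smul_left, inner_sub_left]
    field_simp
    linarith⟩

lemma isGen_iff {h : ℝ} (hh : 0 < h) {u l : H} : Q.IsGen u l ↔ u = Q.res h (u - h • l) := by
  constructor
  · intro hg
    apply Q.eq_res hh hg.1
    intro v hv
    rw [hg.2 v hv, inner_sub_left, real_inner_smul_left]
    ring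
  · intro he
    have h1 := Q.isGen_res hh (u - h • l)
    rw [← he] at h1
    have h2 : h⁻¹ • (u - (u - h • l)) = l := by
      rw [sub_sub_cancel, smul_smul, inv_mul_cancel₀ hh.ne', one_smul]
    rwa [h2] at h1

variable {Q} in
lemma IsGen.res_sub {u l : H} (hg : Q.IsGen u l) {h : ℝ} (hh : 0 < h) :
    Q.res h u - u = h • Q.res h l := by
  have h1 := (Q.isGen_iff hh).1 hg
  nth_rewrite 2 [h1]
  rw [map_sub, map_smul]
  abel

variable {Q} in
/-- The resolvent preserves the generator relation. -/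
lemma IsGen.res {u l : H} (hg : Q.IsGen u l) {h : ℝ} (hh : 0 < h) :
    Q.IsGen (Q.res h u) (Q.res h l) := by
  have h2 := Q.isGen_res hh u
  rwa [hg.res_sub hh, smul_smul, inv_mul_cancel₀ hh.ne', one_smul] at h2

/-- continuous operators commuting with the resolvent preserve the generator relation -/
lemma isGen_of_commute {h : ℝ} (hh : 0 < h) {T : H → H}
    (hsub : ∀ x y, T (x - y) = T x - T y) (hsmul : ∀ (c : ℝ) x, T (c • x) = c • T x)
    (hT : ∀ x, T (Q.res h x) = Q.res h (T x)) {u l : H} (hg : Q.IsGen u l) :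
    Q.IsGen (T u) (T l) := by
  rw [Q.isGen_iff hh] at hg ⊢
  rw [← hsmul, ← hsub, ← hT, ← hg]

/-- the domain of the generator is dense for the form norm -/
lemma exists_isGen_near {f : H} (hf : f ∈ Q.dom) {ε : ℝ} (hε : 0 < ε) :
    ∃ u l : H, Q.IsGen u l ∧ Q.en (f - u) < ε ∧ ‖f - u‖ < ε := by
  have h1 : ∀ᶠ h : ℝ in 𝓝[>] 0, Q.E (f - Q.res h f) (f - Q.res h f) < ε ^ 2 :=
    (Q.tendsto_E_sub_res hf).eventually_lt_const (by positivity)
  have h2 : ∀ᶠ h : ℝ in 𝓝[>] 0, ‖f - Q.res h f‖ < ε := by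
    have := ((Q.tendsto_res f).const_sub f).norm
    simp only [sub_self, norm_zero] at this
    exact this.eventually_lt_const hε
  obtain ⟨h, h3, h4, h5⟩ := (h1.and (h2.and self_mem_nhdsWithin)).exists
  refine ⟨_, _, Q.isGen_res h5 f, ?_, h4⟩
  unfold en
  rw [Real.sqrt_lt' hε]
  exact h3

/-! ### Yosida approximation -/

/-- parameters `1/(n+1)` -/
def hn (n : ℕ) : ℝ := ((n : ℝ) + 1)⁻¹

lemma hn_pos (n : ℕ) : 0 < hn n := by unfold hn; positivity

lemma tendsto_hn : Tendsto hn atTop (𝓝[>] 0) := by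
  rw [tendsto_nhdsWithin_iff]
  refine ⟨?_, Eventually.of_forall fun n => hn_pos n⟩
  have := tendsto_one_div_add_atTop_nhds_zero_nat (𝕜 := ℝ)
  refine this.congr fun n => ?_
  unfold hn
  rw [one_div]

/-- Yosida approximation of the generator -/
def yos (n : ℕ) : H →L[ℝ] H := (hn n)⁻¹ • (Q.res (hn n) - 1)

/-- Yosida approximation of the semigroup -/
def ys (n : ℕ) (t : ℝ) : H →L[ℝ] H := NormedSpace.exp (t • Q.yos n)

lemma ys_eq (n : ℕ) (t : ℝ) :
    Q.ys n t = NormedSpace.exp ((t * (hn n)⁻¹) • (Q.res (hn n) - 1)) := by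
  unfold ys yos
  rw [smul_smul]

/-- closed convex sets invariant under the resolvents are invariant under `ys` -/
lemma ys_mem {C : Set H} (hC : Convex ℝ C) (hcl : IsClosed C)
    (hJ : ∀ h : ℝ, 0 < h → ∀ x ∈ C, Q.res h x ∈ C) (n : ℕ) {t : ℝ} (ht : 0 ≤ t) {f : H}
    (hf : f ∈ C) : Q.ys n t f ∈ C := by
  rw [ys_eq]
  exact exp_mem_of_convex hC hcl _ (hJ _ (hn_pos n)) (mul_nonneg ht (inv_nonneg.2 (hn_pos n).le)) hf

lemma norm_ys_le (n : ℕ) {t : ℝ} (ht : 0 ≤ t) (f : H) : ‖Q.ys n t f‖ ≤ ‖f‖ := by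
  have := Q.ys_mem (convex_closedBall (0 : H) ‖f‖) Metric.isClosed_closedBall
    (fun _ hh x hx => by
      simp only [Metric.mem_closedBall, dist_zero_right] at hx ⊢
      exact (Q.norm_res_le x).trans hx) n ht (f := f) (by simp)
  simpa using this


lemma yos_commute (n k : ℕ) : Commute (Q.yos n) (Q.yos k) := by
  have h1 : Commute (Q.res (hn n)) (Q.res (hn k)) := by
    ext f
    exact Q.res_comm _ _ f
  unfold yos
  exact ((h1.sub_left (Commute.one_left _)).sub_right (Commute.one_right _)).smul_left _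
    |>.smul_right _

lemma yos_commute_res (n : ℕ) (h : ℝ) : Commute (Q.yos n) (Q.res h) := by
  have h1 : Commute (Q.res (hn n)) (Q.res h) := by
    ext f
    exact Q.res_comm _ _ f
  unfold yos
  exact (h1.sub_left (Commute.one_left _)).smul_left _

lemma ys_commute_res (n : ℕ) (t h : ℝ) : Commute (Q.ys n t) (Q.res h) :=
  ((Q.yos_commute_res n h).smul_left t).exp_left

lemma ys_commute_yos (n k : ℕ) (t : ℝ) : Commute (Q.ys n t) (Q.yos k) :=
  ((Q.yos_commute n k).smul_left t).exp_left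


lemma ys_zero (n : ℕ) : Q.ys n 0 = 1 := by
  unfold ys; rw [zero_smul, NormedSpace.exp_zero]

lemma ys_add (n : ℕ) (s t : ℝ) : Q.ys n (s + t) = Q.ys n s * Q.ys n t := by
  unfold ys
  rw [add_smul, NormedSpace.exp_add_of_commute_of_mem_ball (𝕂 := ℝ)
    (((Commute.refl (Q.yos n)).smul_left s).smul_right t)
    ((NormedSpace.expSeries_radius_eq_top ℝ (H →L[ℝ] H)).symm ▸ edist_lt_top _ _)
    ((NormedSpace.expSeries_radius_eq_top ℝ (H →L[ℝ] H)).symm ▸ edist_lt_top _ _)]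

lemma ys_hasDerivAt (n : ℕ) (t : ℝ) (f : H) :
    HasDerivAt (fun s => Q.ys n s f) (Q.ys n t (Q.yos n f)) t := by
  have h1 := hasDerivAt_exp_smul_const (𝕂 := ℝ) (Q.yos n) t
  exact h1.clm_apply (hasDerivAt_const t f) |>.congr_deriv (by simp [ys])

lemma yos_selfAdjoint (n : ℕ) : IsSelfAdjoint (Q.yos n) := by
  have h1 : IsSelfAdjoint (Q.res (hn n)) := by
    rw [ContinuousLinearMap.isSelfAdjoint_iff_isSymmetric]
    intro x y
    exact Q.res_symm _ x y
  have h2 : IsSelfAdjoint (1 : H →L[ℝ] H) := IsSelfAdjoint.one _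
  unfold yos
  exact (IsSelfAdjoint.all ((hn n)⁻¹)).smul (h1.sub h2)

lemma ys_symm (n : ℕ) (t : ℝ) (f g : H) : ⟪Q.ys n t f, g⟫ = ⟪f, Q.ys n t g⟫ := by
  have h1 : IsSelfAdjoint (Q.ys n t) := ((IsSelfAdjoint.all t).smul (Q.yos_selfAdjoint n)).exp
  exact h1.isSymmetric f g

lemma ys_dist (n k : ℕ) {t : ℝ} (ht : 0 ≤ t) (f : H) :
    ‖Q.ys n t f - Q.ys k t f‖ ≤ t * ‖Q.yos n f - Q.yos k f‖ := by
  have hd : ∀ s : ℝ, HasDerivAt (fun s => Q.ys n s (Q.ys k (t - s) f))
      (Q.ys n s (Q.ys k (t - s) (Q.yos n f - Q.yos k f))) s := by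
    intro s
    have h1 : HasDerivAt (fun s => Q.ys n s) (Q.ys n s * Q.yos n) s :=
      hasDerivAt_exp_smul_const (𝕂 := ℝ) (Q.yos n) s
    have h2 : HasDerivAt (fun s => Q.ys k (t - s) f) (-(Q.ys k (t - s) (Q.yos k f))) s := by
      have h3 := (Q.ys_hasDerivAt k (t - s) f).scomp s ((hasDerivAt_id s).const_sub t)
      exact h3.congr_deriv (by simp)
    have h4 := h1.clm_apply h2
    refine h4.congr_deriv ?_
    rw [map_neg, map_sub, map_sub]
    have h5 : (Q.ys n s * Q.yos n) (Q.ys k (t - s) f) = Q.ys n s (Q.ys k (t - s) (Q.yos n f)) := by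
      have := congrArg (fun A : H →L[ℝ] H => A f) (Q.ys_commute_yos k n (t - s)).eq
      change Q.ys k (t - s) (Q.yos n f) = Q.yos n (Q.ys k (t - s) f) at this
      rw [this]
      rfl
    rw [h5, ← sub_eq_add_neg]
  have h2 := norm_image_sub_le_of_norm_deriv_le_segment' (a := 0) (b := t)
    (f := fun s => Q.ys n s (Q.ys k (t - s) f)) (C := ‖Q.yos n f - Q.yos k f‖)
    (fun s _ => (hd s).hasDerivWithinAt) (fun s hs => by
      exact (Q.norm_ys_le n hs.1 _).trans (Q.norm_ys_le k (sub_nonneg.2 hs.2.le) _))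
    t ⟨ht, le_rfl⟩
  simp only [sub_self, sub_zero, ys_zero, one_apply_eq_self] at h2
  linarith

variable {Q} in
lemma IsGen.yos_eq {u l : H} (hg : Q.IsGen u l) (n : ℕ) : Q.yos n u = Q.res (hn n) l := by
  have h1 := hg.res_sub (hn_pos n)
  unfold yos
  rw [smul_apply, sub_apply, one_apply_eq_self, h1, smul_smul,
    inv_mul_cancel₀ (hn_pos n).ne', one_smul]

lemma cauchySeq_ys_gen {u l : H} (hg : Q.IsGen u l) {t : ℝ} (ht : 0 ≤ t) :
    CauchySeq (fun n => Q.ys n t u) := by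
  have h1 : CauchySeq (fun n => Q.res (hn n) l) :=
    ((Q.tendsto_res l).comp tendsto_hn).cauchySeq
  rw [Metric.cauchySeq_iff] at h1 ⊢
  intro ε hε
  obtain ⟨N, hN⟩ := h1 (ε / (t + 1)) (by positivity)
  refine ⟨N, fun n hn' k hk => ?_⟩
  have h2 := Q.ys_dist n k ht u
  have h3 := hN n hn' k hk
  rw [hg.yos_eq, hg.yos_eq] at h2
  rw [dist_eq_norm] at h3 ⊢
  rw [lt_div_iff₀ (by positivity)] at h3
  nlinarith [norm_nonneg (Q.res (hn n) l - Q.res (hn k) l)]

lemma exists_isGen_near' (f : H) {ε : ℝ} (hε : 0 < ε) :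
    ∃ u l : H, Q.IsGen u l ∧ ‖f - u‖ < ε := by
  have h2 : ∀ᶠ h : ℝ in 𝓝[>] 0, ‖f - Q.res h f‖ < ε := by
    have := ((Q.tendsto_res f).const_sub f).norm
    simp only [sub_self, norm_zero] at this
    exact this.eventually_lt_const hε
  obtain ⟨h, h4, h5⟩ := (h2.and self_mem_nhdsWithin).exists
  exact ⟨_, _, Q.isGen_res h5 f, h4⟩

lemma cauchySeq_ys (f : H) {t : ℝ} (ht : 0 ≤ t) : CauchySeq (fun n => Q.ys n t f) := by
  rw [Metric.cauchySeq_iff]
  intro ε hε
  obtain ⟨u, l, hg, hu⟩ := Q.exists_isGen_near' f (show 0 < ε / 3 by positivity)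
  have h1 := Q.cauchySeq_ys_gen hg ht
  rw [Metric.cauchySeq_iff] at h1
  obtain ⟨N, hN⟩ := h1 (ε / 3) (by positivity)
  refine ⟨N, fun n hn' k hk => ?_⟩
  have h3 := hN n hn' k hk
  rw [dist_eq_norm] at h3 ⊢
  have h4 : Q.ys n t f - Q.ys k t f = Q.ys n t (f - u) + (Q.ys n t u - Q.ys k t u) -
      Q.ys k t (f - u) := by
    rw [map_sub, map_sub]; abel
  rw [h4]
  have h5 := Q.norm_ys_le n ht (f - u)
  have h6 := Q.norm_ys_le k ht (f - u)
  have h7 := norm_sub_le (Q.ys n t (f - u) + (Q.ys n t u - Q.ys k t u)) (Q.ys k t (f - u))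
  have h8 := norm_add_le (Q.ys n t (f - u)) (Q.ys n t u - Q.ys k t u)
  linarith

/-! ### the semigroup -/

/-- the value of the semigroup -/
def sgFun (t : ℝ) (f : H) : H := limUnder atTop (fun n => Q.ys n t f)

lemma tendsto_ys {t : ℝ} (ht : 0 ≤ t) (f : H) :
    Tendsto (fun n => Q.ys n t f) atTop (𝓝 (Q.sgFun t f)) :=
  tendsto_nhds_limUnder (cauchySeq_tendsto_of_complete (Q.cauchySeq_ys f ht))

/-- The semigroup `exp (t L)` (identity for `t < 0`). -/
def sg (t : ℝ) : H →L[ℝ] H :=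
  open Classical in
  if ht : 0 ≤ t then
    LinearMap.mkContinuous
      { toFun := Q.sgFun t
        map_add' := fun f g => by
          refine tendsto_nhds_unique (Q.tendsto_ys ht (f + g)) ?_
          simpa using (Q.tendsto_ys ht f).add (Q.tendsto_ys ht g)
        map_smul' := fun c f => by
          refine tendsto_nhds_unique (Q.tendsto_ys ht (c • f)) ?_
          simpa using (Q.tendsto_ys ht f).const_smul c } 1
      (fun f => by
        rw [one_mul]
        exact le_of_tendsto (Q.tendsto_ys ht f).norm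
          (Eventually.of_forall fun n => Q.norm_ys_le n ht f))
  else ContinuousLinearMap.id ℝ H

lemma tendsto_sg {t : ℝ} (ht : 0 ≤ t) (f : H) :
    Tendsto (fun n => Q.ys n t f) atTop (𝓝 (Q.sg t f)) := by
  unfold sg
  rw [dif_pos ht]
  exact Q.tendsto_ys ht f

lemma sg_neg {t : ℝ} (ht : t < 0) : Q.sg t = ContinuousLinearMap.id ℝ H := by
  unfold sg
  rw [dif_neg (not_le.2 ht)]

/-- closed convex sets invariant under all resolvents are invariant under the semigroup -/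
lemma sg_mem {C : Set H} (hC : Convex ℝ C) (hcl : IsClosed C)
    (hJ : ∀ h : ℝ, 0 < h → ∀ x ∈ C, Q.res h x ∈ C) {t : ℝ} (ht : 0 ≤ t) {f : H}
    (hf : f ∈ C) : Q.sg t f ∈ C :=
  hcl.mem_of_tendsto (Q.tendsto_sg ht f) (Eventually.of_forall fun n => Q.ys_mem hC hcl hJ n ht hf)

lemma norm_sg_le (t : ℝ) (f : H) : ‖Q.sg t f‖ ≤ ‖f‖ := by
  rcases lt_or_ge t 0 with ht | ht
  · rw [Q.sg_neg ht]; rfl
  · exact le_of_tendsto (Q.tendsto_sg ht f).norm
      (Eventually.of_forall fun n => Q.norm_ys_le n ht f)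

lemma sg_dom {t : ℝ} (ht : 0 ≤ t) {f : H} (hf : f ∈ Q.dom) :
    Q.sg t f ∈ Q.dom ∧ Q.E (Q.sg t f) (Q.sg t f) ≤ Q.E f f :=
  Q.sg_mem (Q.convex_energy (Q.E f f)) (Q.isClosed_energy (Q.E f f))
    (fun _ hh x hx => ⟨Q.res_mem hh x, (Q.E_res_le hh hx.1).trans hx.2⟩) ht
    (show f ∈ {u : H | u ∈ Q.dom ∧ Q.E u u ≤ Q.E f f} from ⟨hf, le_rfl⟩)

lemma sg_zero : Q.sg 0 = 1 := by
  ext f
  refine tendsto_nhds_unique (Q.tendsto_sg le_rfl f) ?_
  simp only [ys_zero, one_apply_eq_self]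
  exact tendsto_const_nhds

lemma sg_symm (t : ℝ) (f g : H) : ⟪Q.sg t f, g⟫ = ⟪f, Q.sg t g⟫ := by
  rcases lt_or_ge t 0 with ht | ht
  · rw [Q.sg_neg ht]; rfl
  · have h1 : Tendsto (fun n => ⟪Q.ys n t f, g⟫) atTop (𝓝 ⟪Q.sg t f, g⟫) :=
      (Q.tendsto_sg ht f).inner tendsto_const_nhds
    have h2 : Tendsto (fun n => ⟪f, Q.ys n t g⟫) atTop (𝓝 ⟪f, Q.sg t g⟫) :=
      tendsto_const_nhds.inner (Q.tendsto_sg ht g)
    refine tendsto_nhds_unique h1 (h2.congr fun n => ?_)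
    rw [Q.ys_symm]

lemma sg_comm_res (t h : ℝ) (f : H) : Q.sg t (Q.res h f) = Q.res h (Q.sg t f) := by
  rcases lt_or_ge t 0 with ht | ht
  · rw [Q.sg_neg ht]; rfl
  · refine tendsto_nhds_unique (Q.tendsto_sg ht (Q.res h f)) ?_
    have h1 := ((Q.res h).continuous.tendsto _).comp (Q.tendsto_sg ht f)
    refine h1.congr fun n => ?_
    have := congrArg (fun A : H →L[ℝ] H => A f) (Q.ys_commute_res n t h).eq
    simpa using this.symm

lemma sg_add {s t : ℝ} (hs : 0 ≤ s) (ht : 0 ≤ t) (f : H) :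
    Q.sg (s + t) f = Q.sg s (Q.sg t f) := by
  refine tendsto_nhds_unique (Q.tendsto_sg (add_nonneg hs ht) f) ?_
  simp only [ys_add]
  change Tendsto (fun n => Q.ys n s (Q.ys n t f)) atTop _
  rw [tendsto_iff_norm_sub_tendsto_zero]
  have h1 : ∀ n, ‖Q.ys n s (Q.ys n t f) - Q.sg s (Q.sg t f)‖ ≤
      ‖Q.ys n t f - Q.sg t f‖ + ‖Q.ys n s (Q.sg t f) - Q.sg s (Q.sg t f)‖ := by
    intro n
    have h2 : Q.ys n s (Q.ys n t f) - Q.sg s (Q.sg t f) =
        Q.ys n s (Q.ys n t f - Q.sg t f) + (Q.ys n s (Q.sg t f) - Q.sg s (Q.sg t f)) := by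
      rw [map_sub]; abel
    rw [h2]
    exact (norm_add_le _ _).trans (add_le_add_left (Q.norm_ys_le n hs _) _)
  have h3 : Tendsto (fun n => ‖Q.ys n t f - Q.sg t f‖ +
      ‖Q.ys n s (Q.sg t f) - Q.sg s (Q.sg t f)‖) atTop (𝓝 0) := by
    have h4 := tendsto_iff_norm_sub_tendsto_zero.1 (Q.tendsto_sg ht f)
    have h5 := tendsto_iff_norm_sub_tendsto_zero.1 (Q.tendsto_sg hs (Q.sg t f))
    simpa using h4.add h5
  exact squeeze_zero (fun n => norm_nonneg _) h1 h3

/-- the semigroup preserves the generator relation -/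
lemma IsGen.sg' {u l : H} (hg : Q.IsGen u l) (t : ℝ) : Q.IsGen (Q.sg t u) (Q.sg t l) :=
  Q.isGen_of_commute one_pos (T := Q.sg t) (fun x y => map_sub _ x y)
    (fun c x => map_smul _ c x) (fun x => Q.sg_comm_res t 1 x) hg

/-- Lipschitz in time on the domain of the generator -/
lemma norm_sg_sub_le {u l : H} (hg : Q.IsGen u l) {s t : ℝ} (hs : 0 ≤ s) (ht : 0 ≤ t) :
    ‖Q.sg t u - Q.sg s u‖ ≤ |t - s| * ‖l‖ := by
  wlog hst : s ≤ t generalizing s t
  · rw [norm_sub_rev, abs_sub_comm]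
    exact this ht hs (not_le.1 hst).le
  have h1 : ∀ n, ‖Q.ys n t u - Q.ys n s u‖ ≤ ‖l‖ * (t - s) := by
    intro n
    exact norm_image_sub_le_of_norm_deriv_le_segment' (a := s) (b := t)
      (f := fun s => Q.ys n s u) (C := ‖l‖)
      (fun r _ => (Q.ys_hasDerivAt n r u).hasDerivWithinAt) (fun r hr => by
        refine (Q.norm_ys_le n (hs.trans hr.1) _).trans ?_
        rw [hg.yos_eq]
        exact Q.norm_res_le l) t ⟨hst, le_rfl⟩
  rw [abs_of_nonneg (sub_nonneg.2 hst), mul_comm]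
  exact le_of_tendsto ((Q.tendsto_sg ht u).sub (Q.tendsto_sg hs u)).norm (Eventually.of_forall h1)

lemma continuousOn_sg (f : H) : ContinuousOn (fun t => Q.sg t f) (Set.Ici 0) := by
  intro t ht
  rw [ContinuousWithinAt, Metric.tendsto_nhdsWithin_nhds]
  intro ε hε
  obtain ⟨u, l, hg, hu⟩ := Q.exists_isGen_near' f (show 0 < ε / 3 by positivity)
  refine ⟨ε / 3 / (‖l‖ + 1), by positivity, fun {s} hs hd => ?_⟩
  have h1 := Q.norm_sg_sub_le hg (show 0 ≤ t from ht) (show 0 ≤ s from hs)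
  rw [Real.dist_eq, lt_div_iff₀ (by positivity)] at hd
  have h4 : Q.sg s f - Q.sg t f = Q.sg s (f - u) + (Q.sg s u - Q.sg t u) -
      Q.sg t (f - u) := by
    rw [map_sub, map_sub]; abel
  rw [dist_eq_norm, h4]
  have h5 := Q.norm_sg_le s (f - u)
  have h6 := Q.norm_sg_le t (f - u)
  have h7 := norm_sub_le (Q.sg s (f - u) + (Q.sg s u - Q.sg t u)) (Q.sg t (f - u))
  have h8 := norm_add_le (Q.sg s (f - u)) (Q.sg s u - Q.sg t u)
  nlinarith [abs_nonneg (s - t)]

/-- continuity in the energy seminorm -/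
lemma tendsto_en_sg {f : H} (hf : f ∈ Q.dom) {t : ℝ} (ht : 0 ≤ t) :
    Tendsto (fun s => Q.en (Q.sg s f - Q.sg t f)) (𝓝[Set.Ici 0] t) (𝓝 0) := by
  rw [Metric.tendsto_nhdsWithin_nhds]
  intro ε hε
  obtain ⟨u, l, hg, hu, -⟩ := Q.exists_isGen_near hf (show 0 < ε / 4 by positivity)
  have hc := Q.continuousOn_sg l t ht
  rw [ContinuousWithinAt, Metric.tendsto_nhdsWithin_nhds] at hc
  have hc2 := Q.continuousOn_sg u t ht
  rw [ContinuousWithinAt, Metric.tendsto_nhdsWithin_nhds] at hc2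
  obtain ⟨δ1, hδ1, h1⟩ := hc (ε / 4) (by positivity)
  obtain ⟨δ2, hδ2, h2⟩ := hc2 (ε / 4) (by positivity)
  refine ⟨min δ1 δ2, by positivity, fun {s} hs hd => ?_⟩
  have hs0 : 0 ≤ s := hs
  have h3 := h1 hs (lt_of_lt_of_le hd (min_le_left _ _))
  have h4 := h2 hs (lt_of_lt_of_le hd (min_le_right _ _))
  have hG := (IsGen.sg' Q hg s).sub (IsGen.sg' Q hg t)
  rw [dist_eq_norm] at h3 h4
  have h5 : Q.en (Q.sg s u - Q.sg t u) ≤ ε / 4 := by
    unfold en
    rw [Real.sqrt_le_left (by positivity), hG.energy]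
    have h6 := abs_real_inner_le_norm (Q.sg s l - Q.sg t l) (Q.sg s u - Q.sg t u)
    have h7 := neg_abs_le ⟪Q.sg s l - Q.sg t l, Q.sg s u - Q.sg t u⟫
    nlinarith [norm_nonneg (Q.sg s l - Q.sg t l), norm_nonneg (Q.sg s u - Q.sg t u)]
  have hfu := Q.dom.sub_mem hf hg.mem
  have h8 : Q.sg s f - Q.sg t f = (Q.sg s (f - u) + (Q.sg s u - Q.sg t u)) -
      Q.sg t (f - u) := by
    rw [map_sub, map_sub]; abel
  have h9 : Q.en (Q.sg s (f - u)) ≤ Q.en (f - u) := Real.sqrt_le_sqrt (Q.sg_dom hs0 hfu).2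
  have h10 : Q.en (Q.sg t (f - u)) ≤ Q.en (f - u) := Real.sqrt_le_sqrt (Q.sg_dom ht hfu).2
  have h11 := Q.en_sub_le (Q.dom.add_mem (Q.sg_dom hs0 hfu).1 hG.mem) (Q.sg_dom ht hfu).1
  have h12 := Q.en_add_le (Q.sg_dom hs0 hfu).1 hG.mem
  rw [Real.dist_eq, sub_zero, abs_of_nonneg (Q.en_nonneg _), h8]
  linarith

/-- the integrated generator equation -/
lemma sg_sub_eq_integral {u l : H} (hg : Q.IsGen u l) {t : ℝ} (ht : 0 ≤ t) :
    Q.sg t u - u = ∫ s in (0 : ℝ)..t, Q.sg s l := by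
  have h1 : ∀ n, Q.ys n t u - u = ∫ s in (0 : ℝ)..t, Q.ys n s (Q.res (hn n) l) := by
    intro n
    have hc : Continuous (fun s => Q.ys n s (Q.res (hn n) l)) := by
      have := Q.ys_hasDerivAt n
      exact continuous_iff_continuousAt.2 fun s => (this s _).continuousAt
    have h2 := intervalIntegral.integral_eq_sub_of_hasDerivAt (a := 0) (b := t)
      (f := fun s => Q.ys n s u) (f' := fun s => Q.ys n s (Q.res (hn n) l))
      (fun s _ => by rw [← hg.yos_eq]; exact Q.ys_hasDerivAt n s u)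
      (hc.intervalIntegrable _ _)
    rw [h2, ys_zero, one_apply_eq_self]
  have h3 : Tendsto (fun n => ∫ s in (0 : ℝ)..t, Q.ys n s (Q.res (hn n) l)) atTop
      (𝓝 (∫ s in (0 : ℝ)..t, Q.sg s l)) := by
    apply intervalIntegral.tendsto_integral_filter_of_dominated_convergence (fun _ => ‖l‖)
    · refine Eventually.of_forall fun n => ?_
      have hc : Continuous (fun s => Q.ys n s (Q.res (hn n) l)) := by
        have := Q.ys_hasDerivAt n
        exact continuous_iff_continuousAt.2 fun s => (this s _).continuousAt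
      exact hc.aestronglyMeasurable
    · refine Eventually.of_forall fun n => Eventually.of_forall fun s hs => ?_
      rw [Set.uIoc_of_le ht] at hs
      exact (Q.norm_ys_le n hs.1.le _).trans (Q.norm_res_le l)
    · exact intervalIntegrable_const
    · refine Eventually.of_forall fun s hs => ?_
      rw [Set.uIoc_of_le ht] at hs
      have hs0 := hs.1.le
      rw [tendsto_iff_norm_sub_tendsto_zero]
      have h4 : ∀ n, ‖Q.ys n s (Q.res (hn n) l) - Q.sg s l‖ ≤
          ‖Q.res (hn n) l - l‖ + ‖Q.ys n s l - Q.sg s l‖ := by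
        intro n
        have h5 : Q.ys n s (Q.res (hn n) l) - Q.sg s l =
            Q.ys n s (Q.res (hn n) l - l) + (Q.ys n s l - Q.sg s l) := by
          rw [map_sub]; abel
        rw [h5]
        exact (norm_add_le _ _).trans (add_le_add_left (Q.norm_ys_le n hs0 _) _)
      have h6 : Tendsto (fun n => ‖Q.res (hn n) l - l‖ + ‖Q.ys n s l - Q.sg s l‖) atTop (𝓝 0) := by
        have h7 := tendsto_iff_norm_sub_tendsto_zero.1 ((Q.tendsto_res l).comp tendsto_hn)
        have h8 := tendsto_iff_norm_sub_tendsto_zero.1 (Q.tendsto_sg hs0 l)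
        simpa using h7.add h8
      exact squeeze_zero (fun n => norm_nonneg _) h4 h6
  have h4 : Tendsto (fun n => Q.ys n t u - u) atTop (𝓝 (Q.sg t u - u)) :=
    (Q.tendsto_sg ht u).sub_const u
  exact tendsto_nhds_unique h4 (h3.congr fun n => (h1 n).symm)

end CForm

end Crest.Agent.R242
end
end

-- ▼ part R242/SemiFun
section

/-!
Row 242, part R4 (function level): from a closed form on `Lp ℝ 2 (wm m V)` whose domain is
`W^{1,2}` to `SemigroupSpec m V P`.
-/

set_option autoImplicit false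

open MeasureTheory Filter Set
open scoped ENNReal NNReal Topology RealInnerProductSpace
open Crest.GeometryTopology.SyntheticRicci

noncomputable section

namespace Crest.Agent.R242

section LpSets

variable {α : Type*} [MeasurableSpace α] {μ : Measure α}

/-- subsequence converging a.e. of an `L²` convergent sequence -/
lemma semi_exists_subseq_ae {u : ℕ → Lp ℝ 2 μ} {f : Lp ℝ 2 μ} (hu : Tendsto u atTop (𝓝 f)) :
    ∃ ns : ℕ → ℕ, StrictMono ns ∧ ∀ᵐ x ∂μ, Tendsto (fun i => u (ns i) x) atTop (𝓝 (f x)) := by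
  have h1 : TendstoInMeasure μ (fun n => (u n : α → ℝ)) atTop f :=
    tendstoInMeasure_of_tendsto_Lp hu
  exact h1.exists_seq_tendsto_ae

lemma semi_isClosed_ae_mem {K : Set ℝ} (hK : IsClosed K) :
    IsClosed {u : Lp ℝ 2 μ | ∀ᵐ x ∂μ, u x ∈ K} := by
  rw [← isSeqClosed_iff_isClosed]
  intro u f hu hf
  obtain ⟨ns, -, hns⟩ := semi_exists_subseq_ae hf
  have h1 : ∀ᵐ x ∂μ, ∀ i, u (ns i) x ∈ K := ae_all_iff.2 fun i => hu (ns i)
  filter_upwards [hns, h1] with x hx h1x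
  exact hK.mem_of_tendsto hx (Eventually.of_forall h1x)

lemma semi_convex_ae_mem {K : Set ℝ} (hK : Convex ℝ K) :
    Convex ℝ {u : Lp ℝ 2 μ | ∀ᵐ x ∂μ, u x ∈ K} := by
  intro u hu v hv a b ha hb hab
  filter_upwards [hu, hv, Lp.coeFn_add (a • u) (b • v), Lp.coeFn_smul a u, Lp.coeFn_smul b v]
    with x h1 h2 h3 h4 h5
  rw [h3, Pi.add_apply, h4, h5, Pi.smul_apply, Pi.smul_apply]
  exact hK h1 h2 ha hb hab

lemma semi_isClosed_l1 (C : ℝ≥0∞) :
    IsClosed {u : Lp ℝ 2 μ | ∫⁻ x, ‖u x‖ₑ ∂μ ≤ C} := by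
  rw [← isSeqClosed_iff_isClosed]
  intro u f hu hf
  obtain ⟨ns, -, hns⟩ := semi_exists_subseq_ae hf
  have h1 : ∀ᵐ x ∂μ, liminf (fun i => ‖u (ns i) x‖ₑ) atTop = ‖f x‖ₑ := by
    filter_upwards [hns] with x hx
    exact hx.enorm.liminf_eq
  change ∫⁻ x, ‖f x‖ₑ ∂μ ≤ C
  calc ∫⁻ x, ‖f x‖ₑ ∂μ = ∫⁻ x, liminf (fun i => ‖u (ns i) x‖ₑ) atTop ∂μ :=
        lintegral_congr_ae (h1.mono fun x hx => hx.symm)
    _ ≤ liminf (fun i => ∫⁻ x, ‖u (ns i) x‖ₑ ∂μ) atTop :=
        lintegral_liminf_le' fun i => (Lp.aestronglyMeasurable (u (ns i))).enorm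
    _ ≤ C := by
        refine liminf_le_of_le (by isBoundedDefault) fun b hb => ?_
        obtain ⟨i, hi⟩ := hb.exists
        exact hi.trans (hu (ns i))

lemma semi_convex_l1 (C : ℝ≥0∞) :
    Convex ℝ {u : Lp ℝ 2 μ | ∫⁻ x, ‖u x‖ₑ ∂μ ≤ C} := by
  intro u hu v hv a b ha hb hab
  change ∫⁻ x, ‖(a • u + b • v : Lp ℝ 2 μ) x‖ₑ ∂μ ≤ C
  calc ∫⁻ x, ‖(a • u + b • v : Lp ℝ 2 μ) x‖ₑ ∂μ
      ≤ ∫⁻ x, (ENNReal.ofReal a * ‖u x‖ₑ + ENNReal.ofReal b * ‖v x‖ₑ) ∂μ := by
        apply lintegral_mono_ae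
        filter_upwards [Lp.coeFn_add (a • u) (b • v), Lp.coeFn_smul a u, Lp.coeFn_smul b v]
          with x h3 h4 h5
        rw [h3, Pi.add_apply, h4, h5, Pi.smul_apply, Pi.smul_apply]
        refine (enorm_add_le _ _).trans (le_of_eq ?_)
        rw [enorm_smul, enorm_smul, Real.enorm_of_nonneg ha, Real.enorm_of_nonneg hb]
    _ = ENNReal.ofReal a * ∫⁻ x, ‖u x‖ₑ ∂μ + ENNReal.ofReal b * ∫⁻ x, ‖v x‖ₑ ∂μ := by
        rw [lintegral_add_left' ((Lp.aestronglyMeasurable u).enorm.const_mul _),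
          lintegral_const_mul' _ _ ENNReal.ofReal_ne_top,
          lintegral_const_mul' _ _ ENNReal.ofReal_ne_top]
    _ ≤ ENNReal.ofReal a * C + ENNReal.ofReal b * C := by gcongr <;> assumption
    _ = C := by
        rw [← add_mul, ← ENNReal.ofReal_add ha hb, hab, ENNReal.ofReal_one, one_mul]

lemma semi_inner_eq (f g : Lp ℝ 2 μ) : ⟪f, g⟫ = ∫ x, f x * g x ∂μ := by
  rw [MeasureTheory.L2.inner_def]
  refine integral_congr_ae (Eventually.of_forall fun x => ?_)
  simp [mul_comm]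

lemma semi_norm_sq (f : Lp ℝ 2 μ) : ‖f‖ ^ 2 = ∫ x, f x ^ 2 ∂μ := by
  rw [← real_inner_self_eq_norm_sq, semi_inner_eq]
  refine integral_congr_ae (Eventually.of_forall fun x => ?_)
  simp [sq]

end LpSets

section Fun

variable {X : Type*} [MetricSpace X] [ProperSpace X] [MeasurableSpace X] [BorelSpace X]
  {m : Measure X} [IsLocallyFiniteMeasure m] {V : X → ℝ}

open Classical in
/-- the semigroup on functions. -/
def semiP (Q : CForm (Lp ℝ 2 (wm m V))) (t : ℝ) (f : X → ℝ) : X → ℝ :=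
  if hf : MemLp f 2 (wm m V) then (Q.sg t (hf.toLp f) : X → ℝ) else f

variable {Q : CForm (Lp ℝ 2 (wm m V))}

lemma semiP_of {t : ℝ} {f : X → ℝ} (hf : MemLp f 2 (wm m V)) :
    semiP Q t f = (Q.sg t (hf.toLp f) : X → ℝ) := by
  unfold semiP; rw [dif_pos hf]

lemma semiP_memLp {t : ℝ} {f : X → ℝ} (hf : MemLp f 2 (wm m V)) :
    MemLp (semiP Q t f) 2 (wm m V) := by
  rw [semiP_of hf]; exact Lp.memLp _

lemma semiP_toLp {t : ℝ} {f : X → ℝ} (hf : MemLp f 2 (wm m V)) (h2 : MemLp (semiP Q t f) 2 (wm m V)) :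
    h2.toLp (semiP Q t f) = Q.sg t (hf.toLp f) := by
  rw [Lp.ext_iff]
  refine (MemLp.coeFn_toLp h2).trans ?_
  rw [semiP_of hf]

/-- The resolvent of the form is `Jr`. -/
lemma semi_res_eq (C : Calc m) (hV : BddM V)
    (hdom : ∀ u : Lp ℝ 2 (wm m V), u ∈ Q.dom ↔ IsSobolev m u)
    (hE : ∀ u v : Lp ℝ 2 (wm m V), u ∈ Q.dom → v ∈ Q.dom → Q.E u v = En m V u v)
    {h : ℝ} (hh : 0 < h) (f : Lp ℝ 2 (wm m V)) :
    (Q.res h f : X → ℝ) =ᵐ[m] Jr m V h f := by
  have hf : MemLp f 2 m := (memLp_wm_iff hV _ _).1 (Lp.memLp f)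
  refine C.isRes_eq_Jr hV hh hf ⟨(hdom _).1 (Q.res_mem hh f), fun v hv => ?_⟩
  have hv2 : MemLp v 2 (wm m V) := (memLp_wm_iff hV _ _).2 hv.1
  have hvae : (hv2.toLp v : X → ℝ) =ᵐ[wm m V] v := MemLp.coeFn_toLp hv2
  have hvae' : (hv2.toLp v : X → ℝ) =ᵐ[m] v := by
    have h := hvae
    unfold Filter.EventuallyEq at h ⊢
    rwa [ae_wm hV] at h
  have hvd : hv2.toLp v ∈ Q.dom := (hdom _).2 (C.sob_congr hv hvae'.symm)
  have h1 := Q.res_eq hh f hvd
  rw [hE _ _ (Q.res_mem hh f) hvd, C.En_congr hV (ae_eq_refl _) hvae', semi_inner_eq,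
    semi_inner_eq] at h1
  have h2 : ∫ x, (Q.res h f : X → ℝ) x * (hv2.toLp v : X → ℝ) x ∂(wm m V) =
      ∫ x, (Q.res h f : X → ℝ) x * v x ∂(wm m V) :=
    integral_congr_ae (hvae.mono fun x hx => by simp only [hx])
  have h3 : ∫ x, (f : X → ℝ) x * (hv2.toLp v : X → ℝ) x ∂(wm m V) =
      ∫ x, (f : X → ℝ) x * v x ∂(wm m V) :=
    integral_congr_ae (hvae.mono fun x hx => by simp only [hx])
  rw [h2, h3] at h1
  exact h1

/-- The generator relation of the form is `IsWLap`. -/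
lemma semi_isGen_iff (C : Calc m) (hV : BddM V)
    (hdom : ∀ u : Lp ℝ 2 (wm m V), u ∈ Q.dom ↔ IsSobolev m u)
    (hE : ∀ u v : Lp ℝ 2 (wm m V), u ∈ Q.dom → v ∈ Q.dom → Q.E u v = En m V u v)
    (u l : Lp ℝ 2 (wm m V)) : Q.IsGen u l ↔ IsWLap m V u l := by
  have ha : ∀ {f g : X → ℝ}, f =ᵐ[wm m V] g ↔ f =ᵐ[m] g := by
    intro f g
    unfold Filter.EventuallyEq
    rw [ae_wm hV]
  constructor
  · intro hg
    refine ⟨(hdom _).1 hg.1, (memLp_wm_iff hV _ _).1 (Lp.memLp l), fun v hv => ?_⟩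
    have hv2 : MemLp v 2 (wm m V) := (memLp_wm_iff hV _ _).2 hv.1
    have hvae : (hv2.toLp v : X → ℝ) =ᵐ[wm m V] v := MemLp.coeFn_toLp hv2
    have hvae' : (hv2.toLp v : X → ℝ) =ᵐ[m] v := ha.1 hvae
    have hvd : hv2.toLp v ∈ Q.dom := (hdom _).2 (C.sob_congr hv hvae'.symm)
    have h1 := hg.2 _ hvd
    rw [hE _ _ hg.1 hvd, C.En_congr hV (ae_eq_refl _) hvae', semi_inner_eq] at h1
    have h3 : ∫ x, (l : X → ℝ) x * (hv2.toLp v : X → ℝ) x ∂(wm m V) =
        ∫ x, (l : X → ℝ) x * v x ∂(wm m V) :=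
      integral_congr_ae (hvae.mono fun x hx => by simp only [hx])
    rw [h3] at h1
    exact h1
  · intro hg
    refine ⟨(hdom _).2 hg.1, fun v hv => ?_⟩
    rw [hE _ _ ((hdom _).2 hg.1) hv, semi_inner_eq]
    exact hg.2.2 _ ((hdom _).1 hv)

/-- The semigroup on functions satisfies the specification. -/
theorem semigroup_of_form (C : Calc m) (hV : BddM V)
    (hdom : ∀ u : Lp ℝ 2 (wm m V), u ∈ Q.dom ↔ IsSobolev m u)
    (hE : ∀ u v : Lp ℝ 2 (wm m V), u ∈ Q.dom → v ∈ Q.dom → Q.E u v = En m V u v) :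
    SemigroupSpec m V (semiP Q) := by
  have ha : ∀ {f g : X → ℝ}, f =ᵐ[wm m V] g ↔ f =ᵐ[m] g := by
    intro f g
    unfold Filter.EventuallyEq
    rw [ae_wm hV]
  have hL : ∀ {f : X → ℝ}, MemLp f 2 m → MemLp f 2 (wm m V) := fun hf =>
    (memLp_wm_iff hV _ _).2 hf
  have hL' : ∀ {f : X → ℝ}, MemLp f 2 (wm m V) → MemLp f 2 m := fun hf =>
    (memLp_wm_iff hV _ _).1 hf
  have hres : ∀ (h : ℝ), 0 < h → ∀ f : Lp ℝ 2 (wm m V), (Q.res h f : X → ℝ) =ᵐ[m] Jr m V h f :=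
    fun h hh f => semi_res_eq C hV hdom hE hh f
  -- invariance of value constraints
  have hval : ∀ K : Set ℝ, IsClosed K → Convex ℝ K →
      (∀ h : ℝ, 0 < h → ∀ f : X → ℝ, MemLp f 2 m → (∀ᵐ x ∂m, f x ∈ K) →
        ∀ᵐ x ∂m, Jr m V h f x ∈ K) →
      ∀ t, 0 ≤ t → ∀ f, MemLp f 2 m → (∀ᵐ x ∂m, f x ∈ K) → ∀ᵐ x ∂m, semiP Q t f x ∈ K := by
    intro K hK hKc hJ t ht f hf hfK
    have hf2 := hL hf
    rw [semiP_of hf2]
    have h1 : (hf2.toLp f : X → ℝ) =ᵐ[wm m V] f := MemLp.coeFn_toLp hf2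
    have h2 : Q.sg t (hf2.toLp f) ∈ {u : Lp ℝ 2 (wm m V) | ∀ᵐ x ∂(wm m V), u x ∈ K} := by
      refine Q.sg_mem (semi_convex_ae_mem hKc) (semi_isClosed_ae_mem hK) ?_ ht ?_
      · intro h hh u hu
        have hu' : ∀ᵐ x ∂(wm m V), u x ∈ K := hu
        rw [ae_wm hV] at hu'
        change ∀ᵐ x ∂(wm m V), (Q.res h u : X → ℝ) x ∈ K
        rw [ae_wm hV]
        filter_upwards [hres h hh u, hJ h hh u (hL' (Lp.memLp u)) hu'] with x h3 h4
        rw [h3]; exact h4
      · change ∀ᵐ x ∂(wm m V), (hf2.toLp f : X → ℝ) x ∈ K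
        have hfK' : ∀ᵐ x ∂(wm m V), f x ∈ K := by rw [ae_wm hV]; exact hfK
        filter_upwards [h1, hfK'] with x h3 h4
        rw [h3]; exact h4
    have h2' : ∀ᵐ x ∂(wm m V), (Q.sg t (hf2.toLp f) : X → ℝ) x ∈ K := h2
    rwa [ae_wm hV] at h2'
  have hdiff : ∀ (s t : ℝ) (f : X → ℝ) (hf2 : MemLp f 2 (wm m V)),
      (fun x => semiP Q s f x - semiP Q t f x) =ᵐ[wm m V]
        ((Q.sg s (hf2.toLp f) - Q.sg t (hf2.toLp f) : Lp ℝ 2 (wm m V)) : X → ℝ) := by
    intro s t f hf2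
    filter_upwards [Lp.coeFn_sub (Q.sg s (hf2.toLp f)) (Q.sg t (hf2.toLp f))] with x hx
    rw [hx, semiP_of hf2, semiP_of hf2, Pi.sub_apply]
  refine
    { memLp := ?_, congr := ?_, add := ?_, smul := ?_, zero := ?_, semig := ?_, nonneg := ?_,
      le_const := ?_, symm := ?_, l2 := ?_, l1 := ?_, sob := ?_, cont_l2 := ?_, cont_sob := ?_,
      gen := ?_, gen_int := ?_, comm := ?_ }
  · -- memLp
    intro t _ f hf
    exact hL' (semiP_memLp (hL hf))
  · -- congr
    intro t _ f g hf hfg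
    have hf2 := hL hf
    have hg2 : MemLp g 2 (wm m V) := hL (hf.ae_eq hfg)
    rw [semiP_of hf2, semiP_of hg2]
    have : hf2.toLp f = hg2.toLp g := (MemLp.toLp_eq_toLp_iff hf2 hg2).2 (ha.2 hfg)
    rw [this]
  · -- add
    intro t _ f g hf hg
    have hf2 := hL hf
    have hg2 := hL hg
    have hfg2 : MemLp (fun x => f x + g x) 2 (wm m V) := hf2.add hg2
    rw [semiP_of hf2, semiP_of hg2, semiP_of hfg2, ← ha]
    have h1 : hfg2.toLp (fun x => f x + g x) = hf2.toLp f + hg2.toLp g :=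
      MemLp.toLp_add hf2 hg2
    rw [h1, map_add]
    exact Lp.coeFn_add _ _
  · -- smul
    intro t _ c f hf
    have hf2 := hL hf
    have hcf2 : MemLp (fun x => c * f x) 2 (wm m V) := hf2.const_mul c
    rw [semiP_of hf2, semiP_of hcf2, ← ha]
    have h1 : hcf2.toLp (fun x => c * f x) = c • hf2.toLp f := MemLp.toLp_const_smul c hf2
    rw [h1, map_smul]
    exact Lp.coeFn_smul _ _
  · -- zero
    intro f hf
    have hf2 := hL hf
    rw [semiP_of hf2, ← ha, Q.sg_zero]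
    exact MemLp.coeFn_toLp hf2
  · -- semigroup
    intro s t hs ht f hf
    have hf2 := hL hf
    rw [semiP_of hf2, semiP_of (semiP_memLp hf2), semiP_toLp hf2, Q.sg_add hs ht]
  · -- nonneg
    intro t ht f hf h0
    exact hval (Set.Ici 0) isClosed_Ici (convex_Ici 0)
      (fun h hh g hg h1 => C.Jr_nonneg hV hh hg h1) t ht f hf h0
  · -- le_const
    intro t ht f hf c hc h0
    exact hval (Set.Iic c) isClosed_Iic (convex_Iic c)
      (fun h hh g hg h1 => C.Jr_le_const hV hh hg hc h1) t ht f hf h0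
  · -- symm
    intro t _ f g hf hg
    have hf2 := hL hf
    have hg2 := hL hg
    have h1 := Q.sg_symm t (hf2.toLp f) (hg2.toLp g)
    rw [semi_inner_eq, semi_inner_eq] at h1
    rw [semiP_of hf2, semiP_of hg2]
    calc _ = _ := integral_congr_ae ((MemLp.coeFn_toLp hg2).mono fun x hx => by simp only [hx])
      _ = _ := h1
      _ = _ := integral_congr_ae ((MemLp.coeFn_toLp hf2).mono fun x hx => by simp only [hx])
  · -- l2
    intro t _ f hf
    have hf2 := hL hf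
    have h1 : ‖Q.sg t (hf2.toLp f)‖ ^ 2 ≤ ‖hf2.toLp f‖ ^ 2 :=
      pow_le_pow_left₀ (norm_nonneg _) (Q.norm_sg_le t _) 2
    rw [semi_norm_sq, semi_norm_sq] at h1
    rw [semiP_of hf2]
    refine h1.trans (le_of_eq ?_)
    exact integral_congr_ae ((MemLp.coeFn_toLp hf2).mono fun x hx => by simp only [hx])
  · -- l1
    intro t ht f hf hf1
    have hf2 := hL hf
    have hf1' : Integrable f (wm m V) := (integrable_wm_iff hV f).2 hf1
    have hmem : Q.sg t (hf2.toLp f) ∈ {u : Lp ℝ 2 (wm m V) |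
        ∫⁻ x, ‖u x‖ₑ ∂(wm m V) ≤ ∫⁻ x, ‖f x‖ₑ ∂(wm m V)} := by
      refine Q.sg_mem (semi_convex_l1 _) (semi_isClosed_l1 _) ?_ ht ?_
      · intro h hh u hu
        have hu' : ∫⁻ x, ‖u x‖ₑ ∂(wm m V) ≤ ∫⁻ x, ‖f x‖ₑ ∂(wm m V) := hu
        have hui : Integrable u (wm m V) :=
          ⟨(Lp.aestronglyMeasurable u), lt_of_le_of_lt hu' hf1'.2⟩
        have h3 := C.Jr_l1 hV hh (hL' (Lp.memLp u)) ((integrable_wm_iff hV _).1 hui)
        have h4 : Integrable (Jr m V h u) (wm m V) := (integrable_wm_iff hV _).2 h3.1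
        change ∫⁻ x, ‖(Q.res h u : X → ℝ) x‖ₑ ∂(wm m V) ≤ _
        refine le_trans ?_ hu'
        rw [lintegral_congr_ae (g := fun x => ‖Jr m V h u x‖ₑ)
          ((ha.2 (hres h hh u)).mono fun x hx => by simp only [hx])]
        rw [← ofReal_integral_norm_eq_lintegral_enorm h4,
          ← ofReal_integral_norm_eq_lintegral_enorm hui]
        exact ENNReal.ofReal_le_ofReal (by simpa [Real.norm_eq_abs] using h3.2)
      · change ∫⁻ x, ‖(hf2.toLp f : X → ℝ) x‖ₑ ∂(wm m V) ≤ ∫⁻ x, ‖f x‖ₑ ∂(wm m V)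
        exact le_of_eq (lintegral_congr_ae
          ((MemLp.coeFn_toLp hf2).mono fun x hx => by simp only [hx]))
    have hmem' : ∫⁻ x, ‖(Q.sg t (hf2.toLp f) : X → ℝ) x‖ₑ ∂(wm m V) ≤
        ∫⁻ x, ‖f x‖ₑ ∂(wm m V) := hmem
    have hint : Integrable (semiP Q t f) (wm m V) := by
      rw [semiP_of hf2]
      exact ⟨(Lp.aestronglyMeasurable _), lt_of_le_of_lt hmem' hf1'.2⟩
    refine ⟨(integrable_wm_iff hV _).1 hint, ?_⟩
    have h5 : ∫⁻ x, ‖semiP Q t f x‖ₑ ∂(wm m V) ≤ ∫⁻ x, ‖f x‖ₑ ∂(wm m V) := by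
      rw [semiP_of hf2]; exact hmem'
    rw [← ofReal_integral_norm_eq_lintegral_enorm hint,
      ← ofReal_integral_norm_eq_lintegral_enorm hf1'] at h5
    have h6 := (ENNReal.ofReal_le_ofReal_iff (integral_nonneg fun x => norm_nonneg _)).1 h5
    simpa [Real.norm_eq_abs] using h6
  · -- sob
    intro t ht f hf
    have hf2 := hL hf.1
    have hfae : (hf2.toLp f : X → ℝ) =ᵐ[m] f := ha.1 (MemLp.coeFn_toLp hf2)
    have hfd : hf2.toLp f ∈ Q.dom := (hdom _).2 (C.sob_congr hf hfae.symm)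
    have h1 := Q.sg_dom ht hfd
    rw [semiP_of hf2]
    refine ⟨(hdom _).1 h1.1, ?_⟩
    have h2 := h1.2
    rw [hE _ _ h1.1 h1.1, hE _ _ hfd hfd, C.En_congr hV hfae hfae] at h2
    exact h2
  · -- cont_l2
    intro f hf t ht
    have hf2 := hL hf
    have hc := Q.continuousOn_sg (hf2.toLp f) t ht
    have h1 : Tendsto (fun s => ‖Q.sg s (hf2.toLp f) - Q.sg t (hf2.toLp f)‖ ^ 2)
        (𝓝[Set.Ici (0 : ℝ)] t) (𝓝 0) := by
      have := (tendsto_iff_norm_sub_tendsto_zero.1 hc).pow 2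
      simpa using this
    obtain ⟨B, hB⟩ := hV.2
    have h2 : Tendsto (fun s => Real.exp B * ‖Q.sg s (hf2.toLp f) - Q.sg t (hf2.toLp f)‖ ^ 2)
        (𝓝[Set.Ici (0 : ℝ)] t) (𝓝 0) := by
      simpa using h1.const_mul (Real.exp B)
    refine squeeze_zero (fun s => integral_nonneg fun x => sq_nonneg _) (fun s => ?_) h2
    rw [semi_norm_sq]
    have h3 : ∫ x, ((Q.sg s (hf2.toLp f) - Q.sg t (hf2.toLp f) : Lp ℝ 2 (wm m V)) : X → ℝ) x ^ 2
        ∂(wm m V) = ∫ x, (semiP Q s f x - semiP Q t f x) ^ 2 ∂(wm m V) :=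
      integral_congr_ae ((hdiff s t f hf2).mono fun x hx => by simp only [← hx])
    rw [h3, integral_wm hV, ← integral_const_mul]
    have h4 : MemLp (fun x => semiP Q s f x - semiP Q t f x) 2 m :=
      (hL' (semiP_memLp hf2)).sub (hL' (semiP_memLp hf2))
    have h5 : Integrable (fun x => (semiP Q s f x - semiP Q t f x) ^ 2) m := h4.integrable_sq
    have h6 : Integrable (fun x => (semiP Q s f x - semiP Q t f x) ^ 2) (wm m V) :=
      (integrable_wm_iff hV _).2 h5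
    apply integral_mono_of_nonneg (Eventually.of_forall fun x => sq_nonneg _)
    · have h7 : Integrable (fun x => Real.exp (V x) * (semiP Q s f x - semiP Q t f x) ^ 2) m := by
        refine h5.bdd_mul (c := Real.exp B) ?_ ?_
        · exact (Real.measurable_exp.comp hV.1).aestronglyMeasurable
        · refine Eventually.of_forall fun x => ?_
          rw [Real.norm_eq_abs, abs_of_pos (Real.exp_pos _)]
          exact Real.exp_le_exp.2 ((le_abs_self _).trans (hB x))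
      exact h7.const_mul _
    · refine Eventually.of_forall fun x => ?_
      change (semiP Q s f x - semiP Q t f x) ^ 2 ≤
        Real.exp B * (Real.exp (V x) * (semiP Q s f x - semiP Q t f x) ^ 2)
      rw [← mul_assoc, ← Real.exp_add]
      have h8 : 1 ≤ Real.exp (B + V x) := by
        rw [← Real.exp_zero]
        exact Real.exp_le_exp.2 (by have := neg_abs_le (V x); have := hB x; linarith)
      nlinarith [sq_nonneg (semiP Q s f x - semiP Q t f x)]
  · -- cont_sob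
    intro f hf t ht
    have hf2 := hL hf.1
    have hfae : (hf2.toLp f : X → ℝ) =ᵐ[m] f := ha.1 (MemLp.coeFn_toLp hf2)
    have hfd : hf2.toLp f ∈ Q.dom := (hdom _).2 (C.sob_congr hf hfae.symm)
    have h1 : Tendsto (fun s => Q.en (Q.sg s (hf2.toLp f) - Q.sg t (hf2.toLp f)) ^ 2)
        (𝓝[Set.Ici (0 : ℝ)] t) (𝓝 0) := by
      have := (Q.tendsto_en_sg hfd ht).pow 2
      simpa using this
    obtain ⟨B, hB⟩ := hV.2
    have h2 : Tendsto (fun s => Real.exp B *
        Q.en (Q.sg s (hf2.toLp f) - Q.sg t (hf2.toLp f)) ^ 2)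
        (𝓝[Set.Ici (0 : ℝ)] t) (𝓝 0) := by
      simpa using h1.const_mul (Real.exp B)
    refine squeeze_zero' (Eventually.of_forall fun s => integral_nonneg fun x => sq_nonneg _) ?_ h2
    filter_upwards [self_mem_nhdsWithin] with s hs
    have hsd := Q.dom.sub_mem (Q.sg_dom (show 0 ≤ s from hs) hfd).1 (Q.sg_dom ht hfd).1
    rw [Q.en_sq hsd, hE _ _ hsd hsd]
    have hae := ha.1 (hdiff s t f hf2)
    rw [C.En_congr hV hae.symm hae.symm]
    have hsob : IsSobolev m (fun x => semiP Q s f x - semiP Q t f x) :=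
      C.sob_congr ((hdom _).1 hsd) hae.symm
    rw [C.En_self hV hsob, integral_wm hV, ← integral_const_mul]
    have h5 : Integrable (fun x => minWeakGrad m (fun x => semiP Q s f x - semiP Q t f x) x ^ 2) m :=
      hsob.2.2.integrable_sq
    apply integral_mono_of_nonneg (Eventually.of_forall fun x => sq_nonneg _)
    · have h7 : Integrable (fun x => Real.exp (V x) *
          minWeakGrad m (fun x => semiP Q s f x - semiP Q t f x) x ^ 2) m := by
        refine h5.bdd_mul (c := Real.exp B) ?_ ?_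
        · exact (Real.measurable_exp.comp hV.1).aestronglyMeasurable
        · refine Eventually.of_forall fun x => ?_
          rw [Real.norm_eq_abs, abs_of_pos (Real.exp_pos _)]
          exact Real.exp_le_exp.2 ((le_abs_self _).trans (hB x))
      exact h7.const_mul _
    · refine Eventually.of_forall fun x => ?_
      change minWeakGrad m (fun x => semiP Q s f x - semiP Q t f x) x ^ 2 ≤
        Real.exp B * (Real.exp (V x) *
          minWeakGrad m (fun x => semiP Q s f x - semiP Q t f x) x ^ 2)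
      rw [← mul_assoc, ← Real.exp_add]
      have h8 : 1 ≤ Real.exp (B + V x) := by
        rw [← Real.exp_zero]
        exact Real.exp_le_exp.2 (by have := neg_abs_le (V x); have := hB x; linarith)
      nlinarith [sq_nonneg (minWeakGrad m (fun x => semiP Q s f x - semiP Q t f x) x)]
  · -- gen
    intro u g hug t ht
    have hu2 := hL hug.1.1
    have hg2 := hL hug.2.1
    have hG : Q.IsGen (hu2.toLp u) (hg2.toLp g) := by
      rw [semi_isGen_iff C hV hdom hE]
      exact C.isWLap_congr hV hug (ha.1 (MemLp.coeFn_toLp hu2)).symm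
        (ha.1 (MemLp.coeFn_toLp hg2)).symm
    have h1 := CForm.IsGen.sg' Q hG t
    rw [semi_isGen_iff C hV hdom hE] at h1
    rw [semiP_of hu2, semiP_of hg2]
    exact h1
  · -- gen_int
    intro u g hug t ht q hq
    have hu2 := hL hug.1.1
    have hg2 := hL hug.2.1
    have hq2 := hL hq
    have hG : Q.IsGen (hu2.toLp u) (hg2.toLp g) := by
      rw [semi_isGen_iff C hV hdom hE]
      exact C.isWLap_congr hV hug (ha.1 (MemLp.coeFn_toLp hu2)).symm
        (ha.1 (MemLp.coeFn_toLp hg2)).symm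
    have h1 := Q.sg_sub_eq_integral hG ht
    have hcont : ContinuousOn (fun s => Q.sg s (hg2.toLp g)) (Set.uIcc 0 t) := by
      refine (Q.continuousOn_sg (hg2.toLp g)).mono ?_
      rw [Set.uIcc_of_le ht]
      exact fun s hs => hs.1
    have hii : IntervalIntegrable (fun s => Q.sg s (hg2.toLp g)) volume 0 t :=
      hcont.intervalIntegrable
    have heq : ∀ s, ∫ x, semiP Q s g x * q x ∂(wm m V) = ⟪hq2.toLp q, Q.sg s (hg2.toLp g)⟫ := by
      intro s
      rw [semi_inner_eq, semiP_of hg2]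
      refine integral_congr_ae ((MemLp.coeFn_toLp hq2).mono fun x hx => ?_)
      simp only [hx]; ring
    constructor
    · simp_rw [heq]
      have hc2 : ContinuousOn (fun s => ⟪hq2.toLp q, Q.sg s (hg2.toLp g)⟫) (Set.uIcc 0 t) :=
        continuousOn_const.inner hcont
      exact hc2.intervalIntegrable
    · simp_rw [heq]
      have h3 := (innerSL ℝ (hq2.toLp q)).intervalIntegral_comp_comm hii
      simp only [innerSL_apply_apply] at h3
      rw [h3, ← h1, semi_inner_eq]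
      refine integral_congr_ae ?_
      filter_upwards [MemLp.coeFn_toLp hq2, MemLp.coeFn_toLp hu2,
        Lp.coeFn_sub (Q.sg t (hu2.toLp u)) (hu2.toLp u)] with x h4 h5 h6
      rw [h4, h6, Pi.sub_apply, h5, semiP_of hu2]
      ring
  · -- comm
    intro t ht h hh f hf
    have hf2 := hL hf
    have h1 : (hf2.toLp f : X → ℝ) =ᵐ[m] f := ha.1 (MemLp.coeFn_toLp hf2)
    have hJ := C.Jr_memLp hV hh hf
    have hJ2 := hL hJ
    have h2 : hJ2.toLp (Jr m V h f) = Q.res h (hf2.toLp f) := by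
      rw [Lp.ext_iff]
      refine (MemLp.coeFn_toLp hJ2).trans (ha.2 ?_)
      have h3 := hres h hh (hf2.toLp f)
      rw [Jr_congr' hV h1] at h3
      exact h3.symm
    rw [semiP_of hJ2, h2, Q.sg_comm_res]
    have h4 := hres h hh (Q.sg t (hf2.toLp f))
    rw [semiP_of hf2]
    exact h4

end Fun

end Crest.Agent.R242
end
end

-- ▼ part R242/SemiEx
section

/-!
Row 242, part R4: existence of the semigroup `e^{tL}`, `L u = Δ u + ⟨∇V, ∇u⟩` (as in Iface2).
-/

set_option autoImplicit false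

open MeasureTheory Filter Set
open scoped ENNReal NNReal Topology
open Crest.GeometryTopology.SyntheticRicci

noncomputable section

namespace Crest.Agent.R242

variable {X : Type*} [MetricSpace X] [ProperSpace X] [MeasurableSpace X] [BorelSpace X]
  {m : Measure X} [IsLocallyFiniteMeasure m] [m.IsOpenPosMeasure] {k N : ℝ}

theorem exists_semigroup (H : Hyp m k N) {V : X → ℝ} (hV : BddLip V) :
    ∃ P : ℝ → (X → ℝ) → (X → ℝ), SemigroupSpec m V P :=
  ⟨semiP (form (calc_of_hyp H) hV.bddM),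
    semigroup_of_form (calc_of_hyp H) hV.bddM (fun _ => Iff.rfl) (fun _ _ _ _ => rfl)⟩

end Crest.Agent.R242
end
end

-- ▼ part R242/G3
section

/-!
Row 242 (S0375), G3: the facts needed by `g3_of`, and the final form.
-/

set_option autoImplicit false
set_option linter.unusedSectionVars false

open MeasureTheory Filter Set
open scoped ENNReal NNReal Topology
open Crest.GeometryTopology.SyntheticRicci

noncomputable section

namespace Crest.Agent.R242

variable {X : Type*} [MetricSpace X] [ProperSpace X] [MeasurableSpace X] [BorelSpace X]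
  {m : Measure X} [IsLocallyFiniteMeasure m] [m.IsOpenPosMeasure] {k N h₀ : ℝ}

theorem g3_wg_le_of_lipschitz (H : Hyp m k N) {f : X → ℝ} {L : ℝ≥0} (hL : LipschitzWith L f) :
    ∀ᵐ x ∂m, minWeakGrad m f x ≤ L := by
  have h1 : LipOnBalls f := fun o R => ⟨L, hL.lipschitzOnWith⟩
  filter_upwards [minWeakGrad_le_of_lipschitzOnWith H.fin h1 isOpen_univ
    (hL.lipschitzOnWith (s := Set.univ))] with x hx using hx (Set.mem_univ x)

/-- gradient bound for `J_h f`, `f` Lipschitz. -/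
theorem g3_wg_J_le (H : Hyp m k N) (GJ : GoodJ m k h₀) {h : ℝ} (hh : 0 < h) (hh0 : h ≤ h₀)
    {f : X → ℝ} {L : ℝ≥0} (hf : IsSobolev m f) (hL : LipschitzWith L f) :
    ∀ᵐ x ∂m, minWeakGrad m (J m h f) x ≤ 1 / Real.sqrt (1 - 2 * h * k) * L := by
  have hk := H.kpos
  have hc0 : 0 < 1 - 2 * h * k := by
    have h1 := GJ.small
    have h2 : h * k ≤ h₀ * k := mul_le_mul_of_nonneg_right hh0 hk.le
    nlinarith
  have hJs : IsSobolev m (J m h f) := Jr_sob H di_bl0 hh hf.1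
  have hJi := integrable_wg_sq H hJs
  have hfi := integrable_wg_sq H hf
  have hfL := g3_wg_le_of_lipschitz H hL
  have key := di_ae_le_of_test (m := m) (di_bl0 (X := X))
    (F₁ := fun x => minWeakGrad m (J m h f) x ^ 2) (F₂ := fun _ => 0)
    (C := (1 - 2 * h * k)⁻¹ * (L : ℝ) ^ 2) hJi (integrable_zero _ _ _)
    (fun q hq2 hq1 hqb hq0 => by
      rw [wm_zero]
      obtain ⟨Cq, hCq⟩ := hqb
      have hqt : MemLp q ⊤ m := memLp_top_of_bound hq1.aestronglyMeasurable Cq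
        (hCq.mono fun x hx => by simpa using hx)
      have h1 := GJ.be h hh hh0 f hf q hq0 (memLp_one_iff_integrable.2 hq1) hqt
      have hJq2 : MemLp (J m h q) 2 m := di_J_memLp H hh hq2
      have hJq0 := di_J_nonneg H hh hq2 hq0
      have hJq1 := di_J_l1 H hh hq2 hq1
      have hJqb := di_J_abs_le H hh hq2 hCq
      have e1 : ∫ x, |J m h q x| ∂m = ∫ x, J m h q x ∂m := integral_congr_ae (by
        filter_upwards [hJq0] with x hx using abs_of_nonneg hx)
      have e2 : ∫ x, |q x| ∂m = ∫ x, q x ∂m := integral_congr_ae (by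
        filter_upwards [hq0] with x hx using abs_of_nonneg hx)
      have h2 : ∫ x, J m h q x * minWeakGrad m f x ^ 2 ∂m ≤ (L : ℝ) ^ 2 * ∫ x, q x ∂m := by
        have h3 : ∫ x, J m h q x * minWeakGrad m f x ^ 2 ∂m ≤
            ∫ x, (L : ℝ) ^ 2 * J m h q x ∂m := by
          refine integral_mono_ae ?_ (hJq1.1.const_mul _) ?_
          · have := di_int (m := m) (di_bl0 (X := X)) hfi hJq2.aestronglyMeasurable ⟨Cq, hJqb⟩
            rw [wm_zero] at this
            exact this.congr (Eventually.of_forall fun x => mul_comm _ _)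
          · filter_upwards [hJq0, hfL, wg_nonneg H hf.2.1] with x a1 a2 a3
            have a4 : minWeakGrad m f x ^ 2 ≤ (L : ℝ) ^ 2 := pow_le_pow_left₀ a3 a2 2
            rw [mul_comm]
            exact mul_le_mul_of_nonneg_right a4 a1
        rw [integral_const_mul] at h3
        refine h3.trans (mul_le_mul_of_nonneg_left ?_ (sq_nonneg _))
        have := hJq1.2
        rwa [e1, e2] at this
      have e3 : ∫ x, minWeakGrad m (J m h f) x ^ 2 * q x ∂m =
          ∫ x, q x * minWeakGrad m (J m h f) x ^ 2 ∂m :=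
        integral_congr_ae (Eventually.of_forall fun x => mul_comm _ _)
      have e4 : ∫ x, (fun _ : X => (0 : ℝ)) x * q x ∂m = 0 := by simp
      simp only at e4 ⊢
      rw [e3, e4, zero_add]
      refine h1.trans ?_
      have := mul_le_mul_of_nonneg_left h2 (inv_pos.2 hc0).le
      calc _ ≤ _ := this
        _ = _ := by ring)
  filter_upwards [key, wg_nonneg H hJs.2.1] with x h1 h2
  have h3 : (1 / Real.sqrt (1 - 2 * h * k) * (L : ℝ)) ^ 2 = (1 - 2 * h * k)⁻¹ * (L : ℝ) ^ 2 := by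
    rw [mul_pow, div_pow, one_pow, Real.sq_sqrt hc0.le, one_div]
  rw [zero_add, ← h3] at h1
  exact (abs_le_of_sq_le_sq' h1 (by positivity)).2

/-- [G3] all facts. -/
theorem g3Facts_of_hyp (H : Hyp m k N) (GJ : GoodJ m k h₀) (hgeo : HasBddGeoPlans m) :
    ∃ h0 CD CV Cd : ℝ, G3Facts m k h0 CD CV Cd := by
  have hud : IsUnifLocDoublingMeasure m := isUnifLocDoubling_of_hyp H
  obtain ⟨a₀, CV, ha₀, hCV, hexp⟩ := exp_integral H
  obtain ⟨Cd, hCd, hdbl⟩ := doubling H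
  have hk := H.kpos
  -- the threshold: `√h ≤ 1/2`, `1/(4√h) ≥ a₀`
  set h0 := min h₀ ((1 / (4 * a₀)) ^ 2) with hh0
  have ha₀p : 0 < a₀ := by linarith
  have h0pos : 0 < h0 := lt_min GJ.pos (by positivity)
  have hrle : ∀ r : ℝ, 0 < r → r ^ 2 ≤ h0 → r ≤ 1 / (4 * a₀) := fun r hr h1 =>
    (abs_le_of_sq_le_sq' (h1.trans (min_le_right _ _)) (by positivity)).2
  have hr14 : ∀ r : ℝ, 0 < r → r ^ 2 ≤ h0 → r ≤ 1 / 4 := fun r hr h1 => by
    refine (hrle r hr h1).trans ?_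
    apply one_div_le_one_div_of_le (by norm_num)
    linarith
  refine ⟨h0, 4, 16 * CV, Cd * Cd, ?_⟩
  refine
    { h0pos := h0pos
      h0k := ?_
      CDnn := by norm_num
      CVnn := by positivity
      Cdnn := by positivity
      lip := ?_
      symm := ?_
      nonneg := ?_
      mass := ?_
      davies := ?_
      moment := ?_
      doubling := ?_ }
  · have h1 := GJ.small
    have h2 : h0 * k ≤ h₀ * k := mul_le_mul_of_nonneg_right (min_le_left _ _) hk.le
    linarith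
  · intro h hh hhle f L hf hL
    have hle : h ≤ h₀ := hhle.trans (min_le_left _ _)
    have h1 := g3_wg_J_le H GJ hh hle hf hL
    have hJs : IsSobolev m (J m h f) := Jr_sob H di_bl0 hh hf.1
    obtain ⟨v, hv, hve⟩ := exists_lip_rep H.fin hgeo hJs.2.1.1 (IsSobolevLoc.isWUG hJs.2.1)
      (L := Real.toNNReal (1 / Real.sqrt (1 - 2 * h * k)) * L) (by
        filter_upwards [h1] with x hx
        rw [NNReal.coe_mul, Real.coe_toNNReal _ (by positivity)]
        exact hx)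
    exact ⟨v, hve, hv⟩
  · intro h hh hhle f g hf hg
    exact di_J_symm H hh hf hg
  · intro h hh hhle f hf h1
    exact di_J_nonneg H hh hf h1
  · intro h hh hhle f hf hs
    exact GJ.mass h hh (hhle.trans (min_le_left _ _)) f hf hs
  · intro h hh hhle o f hf hs
    have hsq : 0 < Real.sqrt h := Real.sqrt_pos.2 hh
    have e1 : ∀ y : X, 2 * (1 / (4 * Real.sqrt h)) * dist y o = dist y o / (2 * Real.sqrt h) :=
      fun y => by field_simp; ring
    have hfi : Integrable (fun x => f x ^ 2 * Real.exp (2 * (1 / (4 * Real.sqrt h)) * dist x o))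
        m := by
      obtain ⟨o', R, hR⟩ := hs
      refine (hf.integrable_sq.const_mul
        (Real.exp (2 * (1 / (4 * Real.sqrt h)) * (|R| + dist o' o)))).mono' ?_ ?_
      · exact hf.integrable_sq.aestronglyMeasurable.mul
          (by fun_prop : Continuous fun x : X =>
            Real.exp (2 * (1 / (4 * Real.sqrt h)) * dist x o)).aestronglyMeasurable
      · filter_upwards [hR] with x hx
        rw [norm_mul, Real.norm_of_nonneg (sq_nonneg _), Real.norm_of_nonneg (Real.exp_pos _).le,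
          mul_comm]
        by_cases hxb : x ∈ Metric.closedBall o' R
        · refine mul_le_mul_of_nonneg_right (Real.exp_le_exp.2 ?_) (sq_nonneg _)
          refine mul_le_mul_of_nonneg_left ?_ (by positivity)
          calc dist x o ≤ dist x o' + dist o' o := dist_triangle _ _ _
            _ ≤ |R| + dist o' o := by
              have := Metric.mem_closedBall.1 hxb
              linarith [le_abs_self R]
        · rw [hx hxb]; simp
    have ha4 : 4 * h * (1 / (4 * Real.sqrt h)) ^ 2 ≤ 1 := by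
      rw [div_pow, mul_pow, Real.sq_sqrt hh.le]
      field_simp
      norm_num
    obtain ⟨b1, b2, b3⟩ := davies4 H hh (by positivity) ha4 hf o hfi
    simp only [e1] at b1 b2 b3
    refine ⟨b1, ?_⟩
    have b4 : 0 ≤ h * (∫ x, minWeakGrad m (J m h f) x ^ 2 *
        Real.exp (dist x o / (2 * Real.sqrt h)) ∂m) :=
      mul_nonneg hh.le (integral_nonneg fun x => mul_nonneg (sq_nonneg _) (Real.exp_pos _).le)
    linarith
  · intro r hr hr2 x
    have hr1 := hrle r hr hr2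
    have ha : a₀ ≤ 1 / (4 * r) := by
      rw [le_div_iff₀ (by positivity)]
      rw [le_div_iff₀ (by positivity)] at hr1
      linarith
    have h1 := hexp (1 / (4 * r)) ha x
    have e1 : 1 / (1 / (4 * r)) = 4 * r := by field_simp
    rw [e1] at h1
    have hfin : m (Metric.ball x (4 * r)) < ⊤ := measure_ball_lt_top
    set F : X → ℝ := fun y => dist y x ^ 2 * Real.exp (-(dist y x / (2 * r))) with hF
    have hFc : Continuous F := by
      simp only [hF]; fun_prop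
    have hF0 : ∀ y, 0 ≤ F y := fun y => mul_nonneg (sq_nonneg _) (Real.exp_pos _).le
    have hle : ∀ y, F y ≤ 16 * r ^ 2 * ((1 + 1 / (4 * r) * dist y x) ^ 4 *
        Real.exp (-(2 * (1 / (4 * r))) * dist y x)) := by
      intro y
      have e2 : -(2 * (1 / (4 * r))) * dist y x = -(dist y x / (2 * r)) := by field_simp; ring
      rw [e2, ← mul_assoc]
      refine mul_le_mul_of_nonneg_right ?_ (Real.exp_pos _).le
      have h2 : (0 : ℝ) ≤ 1 / (4 * r) * dist y x := by positivity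
      set s := 1 / (4 * r) * dist y x with hs
      have h3 : dist y x ^ 2 = 16 * r ^ 2 * s ^ 2 := by
        rw [hs]; field_simp; ring
      rw [h3]
      refine mul_le_mul_of_nonneg_left ?_ (by positivity)
      nlinarith [sq_nonneg s, mul_nonneg h2 h2, pow_nonneg h2 3, pow_nonneg h2 4]
    have h2 : ∫⁻ y, ENNReal.ofReal (F y) ∂m ≤
        ENNReal.ofReal (16 * CV * r ^ 2 * m.real (Metric.ball x (4 * r))) := by
      calc ∫⁻ y, ENNReal.ofReal (F y) ∂m ≤ ∫⁻ y, ENNReal.ofReal (16 * r ^ 2) *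
            ENNReal.ofReal ((1 + 1 / (4 * r) * dist y x) ^ 4 *
              Real.exp (-(2 * (1 / (4 * r))) * dist y x)) ∂m := by
            refine lintegral_mono fun y => ?_
            rw [← ENNReal.ofReal_mul (by positivity)]
            exact ENNReal.ofReal_le_ofReal (hle y)
        _ = ENNReal.ofReal (16 * r ^ 2) * ∫⁻ y,
            ENNReal.ofReal ((1 + 1 / (4 * r) * dist y x) ^ 4 *
              Real.exp (-(2 * (1 / (4 * r))) * dist y x)) ∂m :=
            lintegral_const_mul' _ _ ENNReal.ofReal_ne_top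
        _ ≤ ENNReal.ofReal (16 * r ^ 2) * (ENNReal.ofReal CV * m (Metric.ball x (4 * r))) := by
            gcongr
        _ = ENNReal.ofReal (16 * CV * r ^ 2 * m.real (Metric.ball x (4 * r))) := by
            rw [← ENNReal.ofReal_toReal hfin.ne, ← mul_assoc, ← ENNReal.ofReal_mul (by positivity),
              ← ENNReal.ofReal_mul (by positivity)]
            congr 1
            simp only [Measure.real]
            ring
    have hint : Integrable F m := by
      refine ⟨hFc.aestronglyMeasurable, ?_⟩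
      rw [hasFiniteIntegral_iff_ofReal (Eventually.of_forall hF0)]
      exact h2.trans_lt ENNReal.ofReal_lt_top
    refine ⟨hint, ?_⟩
    rw [integral_eq_lintegral_of_nonneg_ae (Eventually.of_forall hF0) hint.aestronglyMeasurable]
    exact ENNReal.toReal_le_of_le_ofReal (by positivity) h2
  · intro r hr hr2 x
    have hr4 := hr14 r hr hr2
    have h1 := hdbl x r hr (by linarith)
    have h2 := hdbl x (2 * r) (by linarith) (by linarith)
    have e1 : 2 * (2 * r) = 4 * r := by ring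
    rw [e1] at h2
    have hfin1 : m (Metric.ball x r) < ⊤ := measure_ball_lt_top
    have h3 : m (Metric.ball x (4 * r)) ≤ ENNReal.ofReal (Cd * Cd) * m (Metric.ball x r) := by
      calc m (Metric.ball x (4 * r)) ≤ ENNReal.ofReal Cd * m (Metric.ball x (2 * r)) := h2
        _ ≤ ENNReal.ofReal Cd * (ENNReal.ofReal Cd * m (Metric.ball x r)) := by gcongr
        _ = ENNReal.ofReal (Cd * Cd) * m (Metric.ball x r) := by
          rw [← mul_assoc, ← ENNReal.ofReal_mul hCd.le]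
    have h4 := ENNReal.toReal_mono (ENNReal.mul_ne_top ENNReal.ofReal_ne_top hfin1.ne) h3
    rw [ENNReal.toReal_mul, ENNReal.toReal_ofReal (by positivity)] at h4
    exact h4

end Crest.Agent.R242
end
end

-- ▼ part R242/LamFin
section

/-!
Row 242, part F: `LamFam m F Gf k` and `JApprox m k h C` from the parts G, D, LamInst.
-/

set_option autoImplicit false
set_option linter.unusedSectionVars false

open MeasureTheory Filter Set
open scoped ENNReal NNReal Topology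
open Crest.GeometryTopology.SyntheticRicci

noncomputable section

namespace Crest.Agent.R242
namespace Fin

variable {X : Type*} [MetricSpace X] [ProperSpace X] [MeasurableSpace X] [BorelSpace X]
  {m : Measure X} [IsLocallyFiniteMeasure m] [m.IsOpenPosMeasure] [IsUnifLocDoublingMeasure m]
  {k N h₀ δ ε B C3 : ℝ} {F Gf : X → ℝ} {LF LG : ℝ≥0} {P : ℝ → (X → ℝ) → (X → ℝ)}

theorem oneStep_of (H : Hyp m k N) (GF : GFacts m k) (hF : BddLip F) (hGc : Continuous Gf)
    (hGB : ∀ x, |Gf x| ≤ B) (hH : HasWeakHessLe m F Gf) (hε : 0 < ε) {h : ℝ} (hh : 0 < h) :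
    OneStep m (fun x => F x / ε) Gf ε k h := by
  intro z φ hz hzb hφ hφb hφ0
  have h1 := (D_oneStep H (calc_of_hyp H) GF hF hGc hGB hH hε hh hz hzb hφ hφb hφ0).2.2.2
  refine h1.trans (le_of_eq ?_)
  congr 2
  refine integral_congr_ae (Eventually.of_forall fun x => ?_)
  ring

/-- `Jc f` is close to `f` -/
theorem Jc_app (H : Hyp m k N) (GJ : GoodJ m k h₀) (hgeo : HasBddGeoPlans m) {h1 C : ℝ}
    (hG3 : ∀ h : ℝ, 0 < h → h ≤ h1 → ∀ (f : X → ℝ) (L : ℝ≥0),
      IsSobolev m f → LipschitzWith L f → ∃ v : X → ℝ, v =ᵐ[m] J m h f ∧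
        LipschitzWith (2 * L) v ∧ ∀ x, |v x - f x| ≤ C * Real.sqrt h * L)
    (hδ : 0 < δ) (hδ' : δ ≤ h₀) (hδ1 : δ ≤ h1) {f : X → ℝ} {L : ℝ≥0} (hf : IsSobolev m f)
    (hfL : LipschitzWith L f) (hfb : ∃ M : ℝ, ∀ᵐ x ∂m, |f x| ≤ M) (x : X) :
    |Jc m δ f x - f x| ≤ 3 * C * √δ * L := by
  obtain ⟨v, hv, hvL, hvf⟩ := hG3 δ hδ hδ1 f L hf hfL
  have hvs : IsSobolev m v := sob_congr H (Jr_sob H di_bl0 hδ hf.1) hv.symm
  obtain ⟨w, hw, -, hwv⟩ := hG3 δ hδ hδ1 v (2 * L) hvs hvL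
  have hJJ : Jc m δ f =ᵐ[m] w := by
    have h1 := Jc_ae H (calc_of_hyp H) GJ hgeo hδ hδ' hf.1 hfb
    have h2 : J m δ (J m δ f) = J m δ v := gamA_congr hv.symm
    rw [h2] at h1
    exact h1.trans hw.symm
  have hb : ∀ᵐ y ∂m, |Jc m δ f y - f y| ≤ 3 * C * √δ * L := by
    filter_upwards [hJJ] with y hy
    rw [hy]
    have a1 := hvf y
    have a2 := hwv y
    push_cast at a2
    calc |w y - f y| ≤ |w y - v y| + |v y - f y| := abs_sub_le _ _ _
      _ ≤ C * √δ * (2 * L) + C * √δ * L := add_le_add a2 a1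
      _ = _ := by ring
  exact gamA_le_of_ae (m := m) (u := fun y => |Jc m δ f y - f y|)
    (((Jc_continuous H (calc_of_hyp H) GJ hgeo hδ hδ' hf.1 hfb).sub hfL.continuous).abs)
    continuous_const hb x

theorem exists_jApprox (H : Hyp m k N) (GJ : GoodJ m k h₀) (hG3 : G3Concl m) :
    ∃ h C : ℝ, 0 < h ∧ 0 ≤ C ∧ JApprox m k h C := by
  obtain ⟨h1, C, h1pos, hC, hG⟩ := hG3
  refine ⟨min h₀ h1, C, lt_min GJ.pos h1pos, hC, ⟨fun δ hδ hδ' f hf hf2 =>
    be_ae H GJ hδ (hδ'.trans (min_le_left _ _)) hf hf2, fun δ hδ hδ' f L hf hfc => ?_⟩⟩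
  obtain ⟨v, hv, -, hvf⟩ := hG δ hδ (hδ'.trans (min_le_right _ _)) f L
    (sob_of_lip_hcs H hf hfc) hf
  filter_upwards [hv] with x hx
  rw [← hx]
  exact hvf x

/-- everything known for a fixed `δ`, `ε = δ²` -/
structure LamCtx (m : Measure X) (k N h₀ δ : ℝ) (F Gf : X → ℝ) (LF LG : ℝ≥0) (B C3 : ℝ)
    (P : ℝ → (X → ℝ) → (X → ℝ)) : Prop where
  H : Hyp m k N
  GJ : GoodJ m k h₀
  hgeo : HasBddGeoPlans m
  hδ : 0 < δ
  hδ' : δ ≤ h₀
  hδ1 : δ ≤ 1
  hF : BddLip F
  hFl : LipschitzWith LF F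
  S : SemigroupSpec m (fun x => F x / δ ^ 2) P
  hOS : ∀ h : ℝ, 0 < h → OneStep m (fun x => F x / δ ^ 2) Gf (δ ^ 2) k h
  hGl : LipschitzWith LG Gf
  hB0 : 0 ≤ B
  hGB : ∀ x, |Gf x| ≤ B
  hC3 : 0 ≤ C3
  hJc : ∀ (f : X → ℝ) (L : ℝ≥0), IsSobolev m f → LipschitzWith L f →
    (∃ M : ℝ, ∀ᵐ x ∂m, |f x| ≤ M) → ∀ x, |Jc m δ f x - f x| ≤ C3 * √δ * L

namespace LamCtx

variable (c : LamCtx m k N h₀ δ F Gf LF LG B C3 P)
include c

theorem hε : 0 < δ ^ 2 := pow_pos c.hδ 2

theorem hV : BddLip (fun x => F x / δ ^ 2) := by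
  have := c.hF.const_mul (δ ^ 2)⁻¹
  refine (congrArg BddLip ?_).mp this
  funext x
  rw [div_eq_inv_mul]

theorem hVL : ∀ᵐ x ∂m, minWeakGrad m (fun x => F x / δ ^ 2) x ≤ LF / δ ^ 2 := by
  have hε := c.hε
  have hl : LipschitzWith (Real.toNNReal (LF / δ ^ 2)) (fun x => F x / δ ^ 2) := by
    refine LipschitzWith.of_dist_le_mul fun x y => ?_
    rw [Real.coe_toNNReal _ (by positivity), Real.dist_eq, ← sub_div, abs_div, abs_of_pos hε,
      div_mul_eq_mul_div]
    have := c.hFl.dist_le_mul x y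
    rw [Real.dist_eq] at this
    gcongr
  have h1 := wg_le_of_lip c.H hl
  rw [Real.coe_toNNReal _ (by positivity)] at h1
  exact h1

theorem exp_le {θ : ℝ} (hθ : 0 ≤ θ) (hθ1 : θ ≤ 1) : (B + δ ^ 2 * k) * θ ≤ B + k := by
  have h1 : δ ^ 2 ≤ 1 := pow_le_one₀ c.hδ.le c.hδ1
  have hk := c.H.kpos
  have hB := c.hB0
  have h2 : δ ^ 2 * k ≤ k := by nlinarith
  have h3 : 0 ≤ B + δ ^ 2 * k := by have := c.hε; positivity
  calc (B + δ ^ 2 * k) * θ ≤ (B + δ ^ 2 * k) * 1 := by gcongr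
    _ ≤ B + k := by linarith

theorem Psob {θ : ℝ} (hθ : 0 ≤ θ) {z : X → ℝ} (hz : IsSobolev m z) :
    IsSobolev m (P (δ ^ 2 * θ) z) :=
  (c.S.sob _ (mul_nonneg c.hε.le hθ) z hz).1

theorem Pmem {θ : ℝ} (hθ : 0 ≤ θ) {z : X → ℝ} (hz : MemLp z 2 m) :
    MemLp (P (δ ^ 2 * θ) z) 2 m :=
  c.S.memLp _ (mul_nonneg c.hε.le hθ) z hz

theorem Pbd {θ : ℝ} (hθ : 0 ≤ θ) {z : X → ℝ} (hz : MemLp z 2 m)
    (hzb : ∃ C : ℝ, ∀ᵐ x ∂m, |z x| ≤ C) : ∃ C : ℝ, ∀ᵐ x ∂m, |P (δ ^ 2 * θ) z x| ≤ C := by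
  obtain ⟨C, hC⟩ := hzb
  exact ⟨C, sg_abs_le c.S (mul_nonneg c.hε.le hθ) hz hC⟩

theorem Pmono {θ : ℝ} (hθ : 0 ≤ θ) {f g : X → ℝ} (hf : MemLp f 2 m) (hg : MemLp g 2 m)
    (h : f ≤ᵐ[m] g) : ∀ᵐ x ∂m, P (δ ^ 2 * θ) f x ≤ P (δ ^ 2 * θ) g x := by
  have ht : 0 ≤ δ ^ 2 * θ := mul_nonneg c.hε.le hθ
  have hnf : MemLp (fun x => (-1) * f x) 2 m := hf.const_mul _
  have h1 := c.S.nonneg _ ht (fun x => g x + (-1) * f x) (hg.add hnf) (by
    filter_upwards [h] with x hx
    show (0 : ℝ) ≤ g x + (-1) * f x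
    linarith)
  have h2 := c.S.add _ ht g (fun x => (-1) * f x) hg hnf
  have h3 := c.S.smul _ ht (-1) f hf
  filter_upwards [h1, h2, h3] with x a1 a2 a3
  have a1' : (0 : ℝ) ≤ P (δ ^ 2 * θ) (fun x => g x + (-1) * f x) x := a1
  rw [a2, a3] at a1'
  linarith

theorem Lz_nonneg {z : X → ℝ} (hz : IsSobolev m z) {Lz : ℝ}
    (hLz : ∀ᵐ x ∂m, minWeakGrad m z x ≤ Lz) (x : X) : 0 ≤ Lz := by
  have := ae_neBot_of_point (m := m) x
  obtain ⟨y, h1, h2⟩ := ((Crest.Agent.R242.wg_nonneg c.H hz.2.1).and hLz).exists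
  exact h1.trans h2

theorem sq_le {z : X → ℝ} (hz : IsSobolev m z) {Lz : ℝ}
    (hLz : ∀ᵐ x ∂m, minWeakGrad m z x ≤ Lz) : ∀ᵐ x ∂m, minWeakGrad m z x ^ 2 ≤ Lz ^ 2 := by
  filter_upwards [hLz, Crest.Agent.R242.wg_nonneg c.H hz.2.1] with x a1 a2
  exact pow_le_pow_left₀ a2 a1 2

/-- gradient bound for `P z` -/
theorem wgP {z : X → ℝ} (hz : IsSobolev m z) (hzb : ∃ C : ℝ, ∀ᵐ x ∂m, |z x| ≤ C) {Lz : ℝ}
    (hLz : ∀ᵐ x ∂m, minWeakGrad m z x ≤ Lz) (x : X) {θ : ℝ} (hθ : 0 ≤ θ) (hθ1 : θ ≤ 1) :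
    ∀ᵐ x ∂m, minWeakGrad m (P (δ ^ 2 * θ) z) x ≤ Real.exp (B + k) * Lz := by
  have hL0 := c.Lz_nonneg hz hLz x
  have h1 := di_wg_P_sq_le c.H c.hV c.hε c.S c.hOS c.hGl.continuous.measurable c.hGB hz hzb
    (c.sq_le hz hLz) hθ
  have h2 := c.exp_le hθ hθ1
  filter_upwards [h1] with y hy
  refine (abs_le_of_sq_le_sq' (hy.trans ?_) (by positivity)).2
  have h3 : Real.exp (2 * (B + δ ^ 2 * k) * θ) ≤ Real.exp (B + k) ^ 2 := by
    rw [← Real.exp_nat_mul]
    apply Real.exp_le_exp.2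
    push_cast
    nlinarith
  calc Lz ^ 2 * Real.exp (2 * (B + δ ^ 2 * k) * θ) ≤ Lz ^ 2 * Real.exp (B + k) ^ 2 := by gcongr
    _ = _ := by ring

theorem lip {z : X → ℝ} (hz : IsSobolev m z) {Cz Lz : ℝ} (hCz : ∀ᵐ x ∂m, |z x| ≤ Cz)
    (hLz : ∀ᵐ x ∂m, minWeakGrad m z x ≤ Lz) {θ : ℝ} (x y : X) (hθ : 0 ≤ θ) (hθ1 : θ ≤ 1) :
    |lam m δ (δ ^ 2) P θ y z - lam m δ (δ ^ 2) P θ x z| ≤
      (1 - 2 * δ * k)⁻¹ * Real.exp (B + k) * Lz * dist y x := by
  have h := Jc_lip c.H c.GJ c.hgeo c.hδ c.hδ' (c.Psob hθ hz) (c.Pbd hθ hz.1 ⟨Cz, hCz⟩)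
    (c.wgP hz ⟨Cz, hCz⟩ hLz x hθ hθ1) x y
  refine h.trans (le_of_eq ?_)
  ring

theorem time_aux {z : X → ℝ} (hz : IsSobolev m z) {Cz Lz : ℝ} (hCz : ∀ᵐ x ∂m, |z x| ≤ Cz)
    (hLz : ∀ᵐ x ∂m, minWeakGrad m z x ≤ Lz) {θ₁ θ₂ : ℝ} (x : X) (h1 : 0 ≤ θ₁) (h12 : θ₁ ≤ θ₂)
    (h2 : θ₂ ≤ 1) :
    |lam m δ (δ ^ 2) P θ₂ x z - lam m δ (δ ^ 2) P θ₁ x z| ≤
      (θ₂ - θ₁) * (LF * Real.exp (B + k) * Lz + 2 * δ * Cz) := by
  have hL0 := c.Lz_nonneg hz hLz x
  have hC0 := nonneg_of_ae_abs_le x hCz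
  have hδ := c.hδ
  have h02 : 0 ≤ θ₂ := h1.trans h12
  have hD := D6_time c.H c.hV (LV := LF / δ ^ 2) (by positivity) c.hVL c.hε c.S c.hOS
    c.hGl.continuous.measurable c.hGB hz hC0 hCz hL0 hLz h1 h12 c.hδ
  have m1 := c.Pmem h1 hz.1
  have m2 := c.Pmem h02 hz.1
  have b1 := c.Pbd h1 hz.1 ⟨Cz, hCz⟩
  have b2 := c.Pbd h02 hz.1 ⟨Cz, hCz⟩
  have hm : MemLp (fun y => P (δ ^ 2 * θ₂) z y - P (δ ^ 2 * θ₁) z y) 2 m := m2.sub m1
  have hb : ∃ M : ℝ, ∀ᵐ y ∂m, |P (δ ^ 2 * θ₂) z y - P (δ ^ 2 * θ₁) z y| ≤ M := by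
    obtain ⟨M1, hM1⟩ := b1
    obtain ⟨M2, hM2⟩ := b2
    refine ⟨M2 + M1, ?_⟩
    filter_upwards [hM1, hM2] with y a1 a2
    exact (abs_sub _ _).trans (add_le_add a2 a1)
  have C := calc_of_hyp c.H
  have hs := Jc_sub c.H C c.GJ c.hgeo c.hδ c.hδ' m2 b2 m1 b1 x
  have hbd : |Jc m δ (fun y => P (δ ^ 2 * θ₂) z y - P (δ ^ 2 * θ₁) z y) x| ≤
      (θ₂ - θ₁) * (δ ^ 2 * (LF / δ ^ 2 * (Lz * Real.exp ((B + δ ^ 2 * k) * θ₂)) +
        2 * Cz / δ)) := by
    refine gamA_le_of_ae (m := m)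
      (u := fun x => |Jc m δ (fun y => P (δ ^ 2 * θ₂) z y - P (δ ^ 2 * θ₁) z y) x|)
      (Jc_continuous c.H C c.GJ c.hgeo c.hδ c.hδ' hm hb).abs continuous_const ?_ x
    filter_upwards [hD, Jc_ae c.H C c.GJ c.hgeo c.hδ c.hδ' hm hb] with y a1 a2
    rw [a2]
    exact a1
  rw [hs] at hbd
  refine hbd.trans (mul_le_mul_of_nonneg_left ?_ (sub_nonneg.2 h12))
  have h3 : Real.exp ((B + δ ^ 2 * k) * θ₂) ≤ Real.exp (B + k) :=
    Real.exp_le_exp.2 (c.exp_le h02 h2)
  calc δ ^ 2 * (LF / δ ^ 2 * (Lz * Real.exp ((B + δ ^ 2 * k) * θ₂)) + 2 * Cz / δ)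
      = LF * Real.exp ((B + δ ^ 2 * k) * θ₂) * Lz + 2 * δ * Cz := by
        field_simp
    _ ≤ _ := by gcongr

theorem time {z : X → ℝ} (hz : IsSobolev m z) {Cz Lz : ℝ} (hCz : ∀ᵐ x ∂m, |z x| ≤ Cz)
    (hLz : ∀ᵐ x ∂m, minWeakGrad m z x ≤ Lz) {θ θ' : ℝ} (x : X) (h0 : 0 ≤ θ) (h1 : θ ≤ 1)
    (h0' : 0 ≤ θ') (h1' : θ' ≤ 1) :
    |lam m δ (δ ^ 2) P θ' x z - lam m δ (δ ^ 2) P θ x z| ≤
      |θ' - θ| * (LF * Real.exp (B + k) * Lz + 2 * δ * Cz) := by
  rcases le_total θ θ' with h | h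
  · rw [abs_of_nonneg (sub_nonneg.2 h)]
    exact c.time_aux hz hCz hLz x h0 h h1'
  · rw [abs_sub_comm, abs_sub_comm θ' θ, abs_of_nonneg (sub_nonneg.2 h)]
    exact c.time_aux hz hCz hLz x h0' h h1

/-- localisation of the gradient estimate -/
theorem space {z : X → ℝ} (hz : IsSobolev m z) {Cz Lz : ℝ} (hCz : ∀ᵐ x ∂m, |z x| ≤ Cz)
    (hLz : ∀ᵐ x ∂m, minWeakGrad m z x ≤ Lz) {θ : ℝ} (x : X) (hθ : 0 ≤ θ) (hθ1 : θ ≤ 1)
    {ρ : ℝ} (hρ : 0 ≤ ρ)
    (hlt : (1 - 2 * δ * k)⁻¹ ^ 2 * (Real.exp (2 * (Gf x + δ ^ 2 * k) * θ) *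
      lam m δ (δ ^ 2) P θ x (fun y => minWeakGrad m z y ^ 2) +
        2 * Real.exp (4 * (B + k)) * (LG + 1) * Lz ^ 2 * θ *
          (C3 * √δ + (LF * Real.exp (B + k) + 4 * B) * θ)) < ρ ^ 2) :
    ∀ᶠ y in 𝓝 x, |lam m δ (δ ^ 2) P θ y z - lam m δ (δ ^ 2) P θ x z| ≤ ρ * dist y x := by
  have hL0 := c.Lz_nonneg hz hLz x
  have hδ := c.hδ
  have hB0 := c.hB0
  have hk := c.H.kpos
  have C := calc_of_hyp c.H
  refine Jc_lip_local c.H c.GJ c.hgeo c.hδ c.hδ' (c.Psob hθ hz) (c.Pbd hθ hz.1 ⟨Cz, hCz⟩)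
    (c.wgP hz ⟨Cz, hCz⟩ hLz x hθ hθ1) x hρ (lt_of_le_of_lt ?_ hlt)
  refine mul_le_mul_of_nonneg_left ?_ (by positivity)
  -- the cut-off function
  set v : X → ℝ := fun y => max (2 * B - (LG + 1) * dist y x) 0 with hv
  have hvL : LipschitzWith (LG + 1) v := by
    refine LipschitzWith.of_dist_le_mul fun y y' => ?_
    rw [Real.dist_eq, hv]
    dsimp only
    refine (abs_max_sub_max_le_abs _ _ _).trans ?_
    have e : 2 * B - (LG + 1) * dist y x - (2 * B - (LG + 1) * dist y' x) =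
        ((LG : ℝ) + 1) * (dist y' x - dist y x) := by ring
    rw [e, abs_mul, abs_of_nonneg (by positivity : (0 : ℝ) ≤ (LG : ℝ) + 1)]
    push_cast
    gcongr
    rw [abs_sub_comm, ← Real.dist_eq]
    exact dist_dist_dist_le_left y y' x
  have hvc : HasCompactSupport v := by
    refine HasCompactSupport.intro (isCompact_closedBall x (2 * B)) fun y hy => ?_
    rw [Metric.mem_closedBall, not_le] at hy
    rw [hv]
    dsimp only
    apply max_eq_right
    have : (0 : ℝ) ≤ LG * dist y x := by positivity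
    nlinarith
  have hvs : IsSobolev m v := sob_of_lip_hcs c.H hvL hvc
  have hvi : Integrable v m := hvL.continuous.integrable_of_hasCompactSupport hvc
  have hv0 : ∀ y, 0 ≤ v y := fun y => le_max_right _ _
  have hvle : ∀ y, v y ≤ 2 * B := fun y => by
    have : (0 : ℝ) ≤ (LG + 1) * dist y x := by positivity
    exact max_le (by linarith) (by positivity)
  have hvwg : ∀ᵐ y ∂m, minWeakGrad m v y ≤ (LG : ℝ) + 1 := by
    have := wg_le_of_lip c.H hvL
    push_cast at this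
    exact this
  have hvx : v x = 2 * B := by
    rw [hv]
    dsimp only
    rw [dist_self, mul_zero, sub_zero, max_eq_left (by positivity)]
  have hGv : ∀ y, Gf y ≤ Gf x + 2 * B - v y := fun y => by
    have h1 := c.hGl.dist_le_mul y x
    rw [Real.dist_eq] at h1
    have h2 := (abs_le.1 h1).2
    have h3 := (abs_le.1 (c.hGB x)).1
    have h4 := (abs_le.1 (c.hGB y)).2
    have h5 : v y ≤ Gf x + 2 * B - Gf y := by
      rw [hv]
      dsimp only
      refine max_le ?_ (by linarith)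
      have : (0 : ℝ) ≤ dist y x := dist_nonneg
      nlinarith
    linarith
  have hvabs : ∃ M : ℝ, ∀ᵐ y ∂m, |v y| ≤ M := ⟨2 * B, Eventually.of_forall fun y => by
    rw [abs_of_nonneg (hv0 y)]; exact hvle y⟩
  have hD := D4_space c.H c.hV (LV := LF / δ ^ 2) (by positivity) c.hVL c.hε c.S c.hOS
    c.hGl.continuous.measurable c.hGB hz ⟨Cz, hCz⟩ (sq_nonneg Lz) (c.sq_le hz hLz) hvs hvi
    (Eventually.of_forall hv0) (Eventually.of_forall hvle) (by positivity)
    (by positivity : (0 : ℝ) ≤ (LG : ℝ) + 1) hvwg (Eventually.of_forall hGv) hθ c.hδ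
  -- memberships
  have hw2 := wg_sq_memLp c.H hz hLz
  have hwb : ∃ M : ℝ, ∀ᵐ y ∂m, |minWeakGrad m z y ^ 2| ≤ M := ⟨Lz ^ 2, by
    filter_upwards [c.sq_le hz hLz] with y hy
    rw [abs_of_nonneg (sq_nonneg _)]
    exact hy⟩
  have hPs := c.Psob hθ hz
  have hPw := c.wgP hz ⟨Cz, hCz⟩ hLz x hθ hθ1
  have hPw2 := wg_sq_memLp c.H hPs hPw
  have hPwb : ∃ M : ℝ, ∀ᵐ y ∂m, |minWeakGrad m (P (δ ^ 2 * θ) z) y ^ 2| ≤ M :=
    ⟨(Real.exp (B + k) * Lz) ^ 2, by
    filter_upwards [c.sq_le hPs hPw] with y hy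
    rw [abs_of_nonneg (sq_nonneg _)]
    exact hy⟩
  have hQ2 := c.Pmem hθ hw2
  have hQb := c.Pbd hθ hw2 hwb
  have cu := Jc_continuous c.H C c.GJ c.hgeo c.hδ c.hδ' hPw2 hPwb
  have cq := Jc_continuous c.H C c.GJ c.hgeo c.hδ c.hδ' hQ2 hQb
  have cv := Jc_continuous c.H C c.GJ c.hgeo c.hδ c.hδ' hvs.1 hvabs
  have hpt : Jc m δ (fun y => minWeakGrad m (P (δ ^ 2 * θ) z) y ^ 2) x ≤
      Real.exp (2 * (Gf x + δ ^ 2 * k) * θ) *
          Jc m δ (P (δ ^ 2 * θ) (fun y => minWeakGrad m z y ^ 2)) x +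
        2 * (Lz ^ 2 * Real.exp (2 * (B + δ ^ 2 * k) * θ)) *
          Real.exp (2 * |Gf x + δ ^ 2 * k| * θ) * θ *
          (2 * B - Jc m δ v x + θ * (δ ^ 2 * (LF / δ ^ 2 * ((LG + 1) *
            Real.exp ((B + δ ^ 2 * k) * θ)) + 2 * (2 * B) / δ))) := by
    refine gamA_le_of_ae (m := m)
      (u := fun y => Jc m δ (fun y => minWeakGrad m (P (δ ^ 2 * θ) z) y ^ 2) y)
      (v := fun y => Real.exp (2 * (Gf x + δ ^ 2 * k) * θ) *
          Jc m δ (P (δ ^ 2 * θ) (fun y => minWeakGrad m z y ^ 2)) y +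
        2 * (Lz ^ 2 * Real.exp (2 * (B + δ ^ 2 * k) * θ)) *
          Real.exp (2 * |Gf x + δ ^ 2 * k| * θ) * θ *
          (2 * B - Jc m δ v y + θ * (δ ^ 2 * (LF / δ ^ 2 * ((LG + 1) *
            Real.exp ((B + δ ^ 2 * k) * θ)) + 2 * (2 * B) / δ)))) cu ?_ ?_ x
    · exact (continuous_const.mul cq).add (continuous_const.mul
        ((continuous_const.sub cv).add continuous_const))
    · filter_upwards [hD, Jc_ae c.H C c.GJ c.hgeo c.hδ c.hδ' hPw2 hPwb,
        Jc_ae c.H C c.GJ c.hgeo c.hδ c.hδ' hQ2 hQb,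
        Jc_ae c.H C c.GJ c.hgeo c.hδ c.hδ' hvs.1 hvabs] with y a1 a2 a3 a4
      rw [a2, a3, a4]
      exact a1
  refine hpt.trans ?_
  have hlam : lam m δ (δ ^ 2) P θ x (fun y => minWeakGrad m z y ^ 2) =
      Jc m δ (P (δ ^ 2 * θ) (fun y => minWeakGrad m z y ^ 2)) x := rfl
  rw [hlam]
  refine add_le_add le_rfl ?_
  have hJv := (abs_le.1 (c.hJc v (LG + 1) hvs hvL hvabs x)).1
  rw [hvx] at hJv
  push_cast at hJv
  have e1 : Real.exp (2 * (B + δ ^ 2 * k) * θ) ≤ Real.exp (2 * (B + k)) := by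
    apply Real.exp_le_exp.2
    have := c.exp_le hθ hθ1
    nlinarith
  have e2 : Real.exp (2 * |Gf x + δ ^ 2 * k| * θ) ≤ Real.exp (2 * (B + k)) := by
    apply Real.exp_le_exp.2
    have h1 := c.exp_le zero_le_one le_rfl
    have h2 : |Gf x + δ ^ 2 * k| ≤ B + δ ^ 2 * k := by
      refine (abs_add_le _ _).trans (add_le_add (c.hGB x) ?_)
      rw [abs_of_nonneg (by positivity)]
    have h3 : 2 * |Gf x + δ ^ 2 * k| * θ ≤ 2 * |Gf x + δ ^ 2 * k| * 1 := by gcongr
    linarith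
  have e3 : Real.exp ((B + δ ^ 2 * k) * θ) ≤ Real.exp (B + k) :=
    Real.exp_le_exp.2 (c.exp_le hθ hθ1)
  have e4 : δ ^ 2 * (LF / δ ^ 2 * ((LG + 1) * Real.exp ((B + δ ^ 2 * k) * θ)) +
      2 * (2 * B) / δ) = LF * ((LG + 1) * Real.exp ((B + δ ^ 2 * k) * θ)) + 4 * B * δ := by
    field_simp
    ring
  have e5 : 2 * B - Jc m δ v x + θ * (δ ^ 2 * (LF / δ ^ 2 * ((LG + 1) *
      Real.exp ((B + δ ^ 2 * k) * θ)) + 2 * (2 * B) / δ)) ≤
      (LG + 1) * (C3 * √δ + (LF * Real.exp (B + k) + 4 * B) * θ) := by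
    rw [e4]
    have a1 : 2 * B - Jc m δ v x ≤ (LG + 1) * (C3 * √δ) := by linarith
    have a2 : θ * (LF * ((LG + 1) * Real.exp ((B + δ ^ 2 * k) * θ)) + 4 * B * δ) ≤
        θ * (LF * ((LG + 1) * Real.exp (B + k)) + 4 * B * (LG + 1)) := by
      have : δ ≤ (LG : ℝ) + 1 := c.hδ1.trans (by have := LG.2; simp)
      gcongr
    calc _ ≤ (LG + 1) * (C3 * √δ) +
          θ * (LF * ((LG + 1) * Real.exp (B + k)) + 4 * B * (LG + 1)) := add_le_add a1 a2
      _ = _ := by ring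
  have hC3 := c.hC3
  have e6 : 0 ≤ (LG + 1) * (C3 * √δ + (LF * Real.exp (B + k) + 4 * B) * θ) := by positivity
  have e7 : 2 * (Lz ^ 2 * Real.exp (2 * (B + δ ^ 2 * k) * θ)) *
      Real.exp (2 * |Gf x + δ ^ 2 * k| * θ) * θ ≤
      2 * (Lz ^ 2 * Real.exp (2 * (B + k))) * Real.exp (2 * (B + k)) * θ := by gcongr
  have e8 : 0 ≤ 2 * (Lz ^ 2 * Real.exp (2 * (B + δ ^ 2 * k) * θ)) *
      Real.exp (2 * |Gf x + δ ^ 2 * k| * θ) * θ := by positivity
  have e9 : Real.exp (4 * (B + k)) = Real.exp (2 * (B + k)) * Real.exp (2 * (B + k)) := by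
    rw [← Real.exp_add]
    ring_nf
  calc _ ≤ 2 * (Lz ^ 2 * Real.exp (2 * (B + δ ^ 2 * k) * θ)) *
        Real.exp (2 * |Gf x + δ ^ 2 * k| * θ) * θ *
        ((LG + 1) * (C3 * √δ + (LF * Real.exp (B + k) + 4 * B) * θ)) :=
        mul_le_mul_of_nonneg_left e5 e8
    _ ≤ 2 * (Lz ^ 2 * Real.exp (2 * (B + k))) * Real.exp (2 * (B + k)) * θ *
        ((LG + 1) * (C3 * √δ + (LF * Real.exp (B + k) + 4 * B) * θ)) :=
        mul_le_mul_of_nonneg_right e7 e6
    _ = _ := by rw [e9]; ring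

theorem toLam : Lam m F Gf (δ ^ 2) k (LF * Real.exp (B + k)) (2 * δ) (C3 * √δ)
    (LF * Real.exp (B + k) + 4 * B) ((1 - 2 * δ * k)⁻¹ ^ 2)
    (2 * Real.exp (4 * (B + k)) * (LG + 1)) ((1 - 2 * δ * k)⁻¹ * Real.exp (B + k)) (C3 * √δ)
    (lam m δ (δ ^ 2) P) where
  add := fun θ hθ x f g hf hg => by
    have ht : 0 ≤ δ ^ 2 * θ := mul_nonneg c.hε.le hθ
    unfold lam
    rw [Jc_congr (c.S.add _ ht f g hf.1 hg.1)]
    exact Jc_add c.H (calc_of_hyp c.H) c.GJ c.hgeo c.hδ c.hδ' (c.Pmem hθ hf.1)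
      (c.Pbd hθ hf.1 hf.2) (c.Pmem hθ hg.1) (c.Pbd hθ hg.1 hg.2) x
  smul := fun θ hθ x a f hf => by
    have ht : 0 ≤ δ ^ 2 * θ := mul_nonneg c.hε.le hθ
    unfold lam
    rw [Jc_congr (c.S.smul _ ht a f hf.1)]
    exact Jc_smul c.H (calc_of_hyp c.H) c.GJ c.hgeo c.hδ c.hδ' a (c.Pmem hθ hf.1)
      (c.Pbd hθ hf.1 hf.2) x
  mono := fun θ hθ x f g hf hg hfg =>
    Jc_mono c.H (calc_of_hyp c.H) c.GJ c.hgeo c.hδ c.hδ' (c.Pmem hθ hf.1)
      (c.Pbd hθ hf.1 hf.2) (c.Pmem hθ hg.1) (c.Pbd hθ hg.1 hg.2) (c.Pmono hθ hf.1 hg.1 hfg) x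
  le_const := fun θ hθ x f hf a ha hfa =>
    Jc_le_const c.H (calc_of_hyp c.H) c.GJ c.hgeo c.hδ c.hδ' (c.Pmem hθ hf.1)
      (c.Pbd hθ hf.1 hf.2) ha
      (c.S.le_const _ (mul_nonneg c.hε.le hθ) f hf.1 a ha hfa) x
  cont := fun g hg => lam_cont c.H c.GJ c.hgeo c.hδ c.hδ' c.hε c.hV c.S hg
  small := fun θ x g T C x₀ hθ hx hg hgC hlim =>
    lam_small c.H c.GJ c.hgeo c.hδ c.hδ' c.hε c.hV c.S θ x g T C x₀ hθ hx hg hgC hlim
  gen := fun u L hu huB hLB hw =>
    lam_gen c.H c.GJ c.hgeo c.hδ c.hδ' c.hε c.hF c.S u L hu huB hLB hw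
  time := fun z hz Cz Lz hCz hLz θ θ' x h0 h1 h0' h1' => c.time hz hCz hLz x h0 h1 h0' h1'
  lip := fun z hz Cz Lz hCz hLz θ x y h0 h1 => c.lip hz hCz hLz x y h0 h1
  space := fun z hz Cz Lz hCz hLz θ x h0 h1 ρ hρ hlt => c.space hz hCz hLz x h0 h1 hρ hlt
  zero := fun f L hf hfc x => by
    have hfs := sob_of_lip_hcs c.H hf hfc
    have h1 : P (δ ^ 2 * 0) f =ᵐ[m] f := by
      rw [mul_zero]
      exact c.S.zero f hfs.1
    have h2 : lam m δ (δ ^ 2) P 0 x f = Jc m δ f x := by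
      unfold lam
      rw [Jc_congr h1]
    rw [h2]
    refine c.hJc f L hfs hf ?_ x
    obtain ⟨M, hM⟩ := hfc.exists_bound_of_continuous hf.continuous
    exact ⟨M, Eventually.of_forall fun y => hM y⟩

end LamCtx

theorem lamFam_of (H : Hyp m k N) (GJ : GoodJ m k h₀) (hgeo : HasBddGeoPlans m)
    (hG3 : G3Concl m) (GF : GFacts m k) {MF : ℝ} (hFb : ∀ x, |F x| ≤ MF)
    (hFl : LipschitzWith LF F) (hGb : ∀ x, |Gf x| ≤ B) (hGl : LipschitzWith LG Gf)
    (hH : HasWeakHessLe m F Gf) : LamFam m F Gf k := by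
  obtain ⟨h1, C, h1pos, hC, hG⟩ := hG3
  have hF : BddLip F := ⟨⟨MF, hFb⟩, LF, hFl⟩
  have hGb' : ∀ x, |Gf x| ≤ |B| := fun x => (hGb x).trans (le_abs_self B)
  have hB0 : 0 ≤ |B| := abs_nonneg B
  have hk := H.kpos
  refine ⟨LF * Real.exp (|B| + k), LF * Real.exp (|B| + k) + 4 * |B|,
    2 * Real.exp (4 * (|B| + k)) * (LG + 1), 3 * C, min (min h₀ h1) 1, by positivity,
    by positivity, by positivity, by positivity, lt_min (lt_min GJ.pos h1pos) one_pos,
    fun δ hδ hδ1 => ?_⟩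
  have d1 : δ ≤ h₀ := hδ1.trans ((min_le_left _ _).trans (min_le_left _ _))
  have d2 : δ ≤ h1 := hδ1.trans ((min_le_left _ _).trans (min_le_right _ _))
  have d3 : δ ≤ 1 := hδ1.trans (min_le_right _ _)
  have hε : 0 < δ ^ 2 := pow_pos hδ 2
  have hV : BddLip (fun x => F x / δ ^ 2) := by
    have := hF.const_mul (δ ^ 2)⁻¹
    refine (congrArg BddLip ?_).mp this
    funext x
    rw [div_eq_inv_mul]
  obtain ⟨P, hP⟩ := exists_semigroup H hV
  have c : LamCtx m k N h₀ δ F Gf LF LG |B| (3 * C) P :=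
    { H := H, GJ := GJ, hgeo := hgeo, hδ := hδ, hδ' := d1, hδ1 := d3, hF := hF, hFl := hFl,
      S := hP, hOS := fun h hh => oneStep_of H GF hF hGl.continuous hGb' hH hε hh,
      hGl := hGl, hB0 := hB0, hGB := hGb', hC3 := by positivity,
      hJc := fun f L hf hfL hfb x => Jc_app H GJ hgeo hG hδ d1 d2 hf hfL hfb x }
  exact ⟨_, _, c.toLam⟩

end Fin
end Crest.Agent.R242
end
end

-- ▼ part R242/F0
section

/-!
# Row 242, part F: reduction from continuous bounded `G` to Lipschitz bounded `G`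
-/

set_option autoImplicit false
set_option linter.unusedSectionVars false

open MeasureTheory Filter Set
open scoped ENNReal NNReal Topology
open Crest.GeometryTopology.SyntheticRicci

noncomputable section

namespace Crest.Agent.R242
namespace Fin

section Env

variable {X : Type*} [MetricSpace X]

/-- Lipschitz envelope from above -/
def lipEnv (G : X → ℝ) (j : ℕ) (x : X) : ℝ := ⨆ y, (G y - j * dist x y)

theorem lipEnv_bdd {G : X → ℝ} {B : ℝ} (hB : ∀ x, |G x| ≤ B) (j : ℕ) (x : X) :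
    BddAbove (range fun y => G y - j * dist x y) := by
  refine ⟨B, ?_⟩
  rintro _ ⟨y, rfl⟩
  have h1 := (abs_le.1 (hB y)).2
  have h2 : 0 ≤ (j : ℝ) * dist x y := by positivity
  dsimp only
  linarith

theorem le_lipEnv {G : X → ℝ} {B : ℝ} (hB : ∀ x, |G x| ≤ B) (j : ℕ) (x : X) :
    G x ≤ lipEnv G j x := by
  have := le_ciSup (lipEnv_bdd hB j x) x
  simpa [lipEnv] using this

theorem lipEnv_le {G : X → ℝ} {B : ℝ} (hB : ∀ x, |G x| ≤ B) (j : ℕ) (x : X) :
    lipEnv G j x ≤ B := by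
  have : Nonempty X := ⟨x⟩
  refine ciSup_le fun y => ?_
  have h1 := (abs_le.1 (hB y)).2
  have h2 : 0 ≤ (j : ℝ) * dist x y := by positivity
  linarith

theorem abs_lipEnv_le {G : X → ℝ} {B : ℝ} (hB : ∀ x, |G x| ≤ B) (j : ℕ) (x : X) :
    |lipEnv G j x| ≤ B :=
  abs_le.2 ⟨(abs_le.1 (hB x)).1.trans (le_lipEnv hB j x), lipEnv_le hB j x⟩

theorem lipschitz_lipEnv {G : X → ℝ} {B : ℝ} (hB : ∀ x, |G x| ≤ B) (j : ℕ) :
    LipschitzWith (j : ℝ≥0) (lipEnv G j) := by
  refine LipschitzWith.of_le_add_mul _ fun x x' => ?_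
  have : Nonempty X := ⟨x⟩
  refine ciSup_le fun y => ?_
  have h1 := le_ciSup (lipEnv_bdd hB j x') y
  have h2 : lipEnv G j x' = ⨆ y, (G y - j * dist x' y) := rfl
  rw [← h2] at h1
  have h3 : (j : ℝ) * dist x' y ≤ j * (dist x x' + dist x y) := by
    have := dist_triangle x' x y
    rw [dist_comm x' x] at this
    gcongr
  push_cast
  linarith

theorem tendsto_lipEnv {G : X → ℝ} (hG : Continuous G) {B : ℝ} (hB : ∀ x, |G x| ≤ B) (x : X) :
    Tendsto (fun j : ℕ => lipEnv G j x) atTop (𝓝 (G x)) := by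
  have : Nonempty X := ⟨x⟩
  rw [Metric.tendsto_atTop]
  intro ε hε
  obtain ⟨δ, hδ, hcont⟩ := Metric.continuousAt_iff.1 hG.continuousAt (ε / 2) (by positivity)
  obtain ⟨j₀, hj₀⟩ := exists_nat_ge (2 * B / δ)
  refine ⟨j₀, fun j hj => ?_⟩
  have hjB : 2 * B ≤ j * δ := by
    have h1 : (2 * B / δ) ≤ j := hj₀.trans (by exact_mod_cast hj)
    rwa [div_le_iff₀ hδ] at h1
  have hle : lipEnv G j x ≤ G x + ε / 2 := by
    refine ciSup_le fun y => ?_
    by_cases hy : dist y x < δ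
    · have h1 := hcont hy
      rw [Real.dist_eq] at h1
      have h2 := (abs_lt.1 h1).2
      have h3 : 0 ≤ (j : ℝ) * dist x y := by positivity
      linarith
    · push Not at hy
      rw [dist_comm] at hy
      have h1 := (abs_le.1 (hB y)).2
      have h2 := (abs_le.1 (hB x)).1
      have h3 : (j : ℝ) * δ ≤ j * dist x y := by gcongr
      linarith
  have hge := le_lipEnv hB j x
  rw [Real.dist_eq, abs_lt]
  constructor <;> linarith

end Env

variable {X : Type*} [MetricSpace X] [ProperSpace X] [MeasurableSpace X] [BorelSpace X]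
  {m : Measure X} [IsLocallyFiniteMeasure m] [m.IsOpenPosMeasure] {k N : ℝ}

/-- monotonicity of the weak Hessian bound in `G` -/
theorem hasWeakHessLe_mono (H : Hyp m k N) {F G G' : X → ℝ} {B B' : ℝ} (hB : ∀ x, |G x| ≤ B)
    (hB' : ∀ x, |G' x| ≤ B') (hG : Continuous G) (hG' : Continuous G') (hle : ∀ x, G x ≤ G' x)
    (hH : HasWeakHessLe m F G) : HasWeakHessLe m F G' := by
  intro g hg hgc h hL hc h0
  refine (hH g hg hgc h hL hc h0).trans ?_
  obtain ⟨-, -, ⟨Lg, hLg⟩, -⟩ := hg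
  have hgs : IsSobolev m g := hLg.1
  have hgp : Integrable (gradPairing m g g) m := integrable_gp H hgs hgs
  obtain ⟨L, hL⟩ := hL
  have hhc : Continuous h := hL.continuous
  obtain ⟨M, hM⟩ := hc.exists_bound_of_continuous hhc
  have key : ∀ (K : X → ℝ) (C : ℝ), Continuous K → (∀ x, |K x| ≤ C) →
      Integrable (fun x => h x * K x * gradPairing m g g x) m := by
    intro K C hK hC
    refine hgp.bdd_mul (c := M * C) (hhc.mul hK).aestronglyMeasurable
      (Eventually.of_forall fun x => ?_)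
    rw [norm_mul]
    have hM0 : 0 ≤ M := (norm_nonneg _).trans (hM x)
    exact mul_le_mul (hM x) (by rw [Real.norm_eq_abs]; exact hC x) (norm_nonneg _) hM0
  refine integral_mono_ae (key G B hG hB) (key G' B' hG' hB') ?_
  filter_upwards [gp_self H hgs.2.1] with x hx
  rw [hx]
  have h1 := h0 x
  have h2 := hle x
  have h3 := sq_nonneg (minWeakGrad m g x)
  gcongr

theorem second_deriv_reduce (H : Hyp m k N)
    (hlip : ∀ (F G : X → ℝ), (∃ B, ∀ x, |F x| ≤ B) → (∃ L : ℝ≥0, LipschitzWith L F) →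
      (∃ B, ∀ x, |G x| ≤ B) → (∃ L : ℝ≥0, LipschitzWith L G) → HasWeakHessLe m F G →
      ∀ γ : UCurve X, IsCSGeodesic γ → SecondDerivAlongLe F G γ)
    {F G : X → ℝ} (hFb : ∃ B, ∀ x, |F x| ≤ B) (hFl : ∃ L : ℝ≥0, LipschitzWith L F)
    (hGb : ∃ B, ∀ x, |G x| ≤ B) (hGc : Continuous G) (hH : HasWeakHessLe m F G) (γ : UCurve X)
    (hγ : IsCSGeodesic γ) : SecondDerivAlongLe F G γ := by
  obtain ⟨B, hB⟩ := hGb
  intro φ hφ hφc hφs hφ0
  have hineq : ∀ j : ℕ, ∫ t in Set.Icc (0 : ℝ) 1, F (γ.ext t) * iteratedDeriv 2 φ t ≤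
      dist (γ.toMap 0) (γ.toMap 1) ^ 2 *
        ∫ t in Set.Icc (0 : ℝ) 1, lipEnv G j (γ.ext t) * φ t := fun j =>
    hlip F (lipEnv G j) hFb hFl ⟨B, abs_lipEnv_le hB j⟩ ⟨_, lipschitz_lipEnv hB j⟩
      (hasWeakHessLe_mono H hB (abs_lipEnv_le hB j) hGc (lipschitz_lipEnv hB j).continuous
        (le_lipEnv hB j) hH) γ hγ φ hφ hφc hφs hφ0
  have hγc : Continuous γ.ext := γ.toMap.continuous.comp continuous_projIcc
  have hφcont : Continuous φ := hφ.continuous
  have hlim : Tendsto (fun j : ℕ => ∫ t in Set.Icc (0 : ℝ) 1, lipEnv G j (γ.ext t) * φ t) atTop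
      (𝓝 (∫ t in Set.Icc (0 : ℝ) 1, G (γ.ext t) * φ t)) := by
    refine tendsto_integral_of_dominated_convergence (fun t => B * |φ t|) (fun j => ?_) ?_
      (fun j => ?_) ?_
    · exact (((lipschitz_lipEnv hB j).continuous.comp hγc).mul hφcont).aestronglyMeasurable
    · exact (continuous_const.mul hφcont.abs).continuousOn.integrableOn_Icc
    · refine Eventually.of_forall fun t => ?_
      rw [norm_mul, Real.norm_eq_abs, Real.norm_eq_abs]
      exact mul_le_mul_of_nonneg_right (abs_lipEnv_le hB j _) (abs_nonneg _)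
    · exact Eventually.of_forall fun t => (tendsto_lipEnv hGc hB _).mul_const _
  exact ge_of_tendsto' (hlim.const_mul _) hineq

end Fin
end Crest.Agent.R242
end
end

-- ▼ part R242/Tau

/-!
# Distortion coefficients (row 242, V1 and the bounds used in ENT and V2)
-/

set_option autoImplicit false
open MeasureTheory Filter Set
open scoped ENNReal NNReal Topology
open Crest.GeometryTopology.SyntheticRicci

namespace Crest.Agent.R242

theorem sinh_mul_le {t a : ℝ} (ht0 : 0 ≤ t) (ht1 : t ≤ 1) (ha : 0 ≤ a) :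
    Real.sinh (t * a) ≤ t * Real.sinh a := by
  have hmono : MonotoneOn (fun x => t * Real.sinh x - Real.sinh (t * x)) (Set.Ici 0) := by
    apply monotoneOn_of_deriv_nonneg (convex_Ici 0)
    · fun_prop
    · fun_prop
    · intro x hx
      rw [interior_Ici] at hx
      have h1 : HasDerivAt (fun x => t * Real.sinh x - Real.sinh (t * x))
          (t * Real.cosh x - Real.cosh (t * x) * (t * 1)) x :=
        ((Real.hasDerivAt_sinh x).const_mul t).sub
          ((Real.hasDerivAt_sinh (t * x)).comp x ((hasDerivAt_id x).const_mul t))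
      rw [h1.deriv]
      have hx0 : (0 : ℝ) < x := hx
      have h2 : Real.cosh (t * x) ≤ Real.cosh x := by
        rw [Real.cosh_le_cosh, abs_of_nonneg (by positivity), abs_of_pos hx0]
        nlinarith
      nlinarith
  have h := hmono (a := 0) (b := a) (by simp) ha ha
  simp only [mul_zero, Real.sinh_zero, sub_zero] at h
  linarith

theorem mul_sin_le {t a : ℝ} (ht0 : 0 ≤ t) (ht1 : t ≤ 1) (ha : 0 ≤ a) (ha' : a ≤ Real.pi) :
    t * Real.sin a ≤ Real.sin (t * a) := by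
  have h0 : (0 : ℝ) ∈ Set.Icc 0 Real.pi := ⟨le_rfl, Real.pi_pos.le⟩
  have h1 : a ∈ Set.Icc 0 Real.pi := ⟨ha, ha'⟩
  have hc := strictConcaveOn_sin_Icc.concaveOn.2 h0 h1 (show 0 ≤ 1 - t by linarith) ht0 (by ring)
  simpa using hc


/-- the reduced coefficient for negative curvature is at most `t`. -/
theorem distortSigma_neg_le {k M t θ : ℝ} (hk : 0 < k) (hM : 0 < M) (ht0 : 0 ≤ t) (ht1 : t ≤ 1)
    (hθ : 0 ≤ θ) : distortSigma (-k) M t θ ≤ ENNReal.ofReal t := by
  unfold distortSigma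
  have hk1 : ¬ (0 < -k) := by linarith
  have hk2 : ¬ (-k = 0) := by linarith
  rw [if_neg hk1, if_neg hk2]
  split_ifs with h1 h2 h3
  · simp
  · have : t = 1 := le_antisymm ht1 h2
    rw [this]; simp
  · exact le_rfl
  · apply ENNReal.ofReal_le_ofReal
    have hθ' : 0 < θ := lt_of_le_of_ne hθ (Ne.symm h3)
    have hs : 0 < Real.sqrt (- -k / M) := by
      apply Real.sqrt_pos.2
      rw [neg_neg]; positivity
    have ha : 0 < θ * Real.sqrt (- -k / M) := by positivity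
    have hsinh : 0 < Real.sinh (θ * Real.sqrt (- -k / M)) := Real.sinh_pos_iff.2 ha
    rw [div_le_iff₀ hsinh]
    have := sinh_mul_le ht0 ht1 ha.le
    rwa [← mul_assoc] at this

/-- the reduced coefficient for nonnegative curvature is at least `t`. -/
theorem le_distortSigma_nonneg {K M t θ : ℝ} (hK : 0 ≤ K) (hM : 0 < M) (ht0 : 0 ≤ t) (ht1 : t ≤ 1)
    (hθ : 0 ≤ θ) : ENNReal.ofReal t ≤ distortSigma K M t θ := by
  unfold distortSigma
  split_ifs with h1 h2 h3 h4 h5 h6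
  · rw [ENNReal.ofReal_of_nonpos h1]
  · have : t = 1 := le_antisymm ht1 h2
    rw [this]; simp
  · exact le_rfl
  · apply ENNReal.ofReal_le_ofReal
    have hθ' : 0 < θ := lt_of_le_of_ne hθ (Ne.symm h3)
    have hs : 0 < Real.sqrt (K / M) := Real.sqrt_pos.2 (by positivity)
    have ha : 0 < θ * Real.sqrt (K / M) := by positivity
    have hlt : θ * Real.sqrt (K / M) < Real.pi := by
      have h7 : (θ * Real.sqrt (K / M)) ^ 2 < Real.pi ^ 2 := by
        rw [mul_pow, Real.sq_sqrt (by positivity)]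
        rw [mul_div_assoc', div_lt_iff₀ hM]
        linarith
      exact lt_of_pow_lt_pow_left₀ 2 Real.pi_pos.le h7
    have hsin : 0 < Real.sin (θ * Real.sqrt (K / M)) := Real.sin_pos_of_pos_of_lt_pi ha hlt
    rw [le_div_iff₀ hsin]
    have := mul_sin_le ht0 ht1 ha.le hlt.le
    rwa [← mul_assoc] at this
  · exact le_top
  · exact le_rfl
  · exfalso
    exact h4 (lt_of_le_of_ne hK (Ne.symm h6))

/-- monotonicity of the coefficients from `K ≥ 0` to `-k`. -/
theorem distortTau_neg_le {K k N t θ : ℝ} (hK : 0 ≤ K) (hk : 0 < k) (hN : 1 < N) (ht0 : 0 ≤ t)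
    (ht1 : t ≤ 1) (hθ : 0 ≤ θ) : distortTau (-k) N t θ ≤ distortTau K N t θ := by
  unfold distortTau
  have hN1 : 0 < N - 1 := by linarith
  have h := (distortSigma_neg_le hk hN1 ht0 ht1 hθ).trans
    (le_distortSigma_nonneg hK hN1 ht0 ht1 hθ)
  have hexp : 0 ≤ (N - 1) / N := by positivity
  gcongr

variable {X : Type*} [MetricSpace X] [MeasurableSpace X]

/-- `[V1]` reduction to negative curvature bounds. -/
theorem exists_isCD_neg {m : Measure X} {K N : ℝ} (hN : 1 < N) (h : IsCD m K N) :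
    ∃ k : ℝ, 0 < k ∧ IsCD m (-k) N := by
  rcases lt_or_ge K 0 with hK | hK
  · exact ⟨-K, by linarith, by simpa using h⟩
  · refine ⟨1, one_pos, ?_⟩
    intro μ₀ μ₁ p₀ p₁ s₀ s₁ a₀ a₁
    obtain ⟨P, hP, hg, hopt, hineq⟩ := h μ₀ μ₁ p₀ p₁ s₀ s₁ a₀ a₁
    refine ⟨P, hP, hg, hopt, fun N' hN' t => ?_⟩
    refine le_trans ?_ (hineq N' hN' t)
    refine lintegral_mono fun γ => ?_
    have h1 : distortTau (-1) N' (1 - (t : ℝ)) (dist (γ.toMap 0) (γ.toMap 1)) ≤
        distortTau K N' (1 - (t : ℝ)) (dist (γ.toMap 0) (γ.toMap 1)) :=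
      distortTau_neg_le hK one_pos (hN.trans_le hN') (by linarith [t.2.2]) (by linarith [t.2.1])
        dist_nonneg
    have h2 : distortTau (-1) N' (t : ℝ) (dist (γ.toMap 0) (γ.toMap 1)) ≤
        distortTau K N' (t : ℝ) (dist (γ.toMap 0) (γ.toMap 1)) :=
      distortTau_neg_le hK one_pos (hN.trans_le hN') t.2.1 t.2.2 dist_nonneg
    exact add_le_add (mul_le_mul_left h1 _) (mul_le_mul_left h2 _)

theorem exists_hyp {m : Measure X} {K N : ℝ} (hfin : IsFiniteOnBalls m) (hN : 1 < N)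
    (hRCD : IsRCD m K N) : ∃ k : ℝ, Hyp m k N := by
  obtain ⟨k, hk, hcd⟩ := exists_isCD_neg hN hRCD.1
  exact ⟨k, ⟨hfin, hN, hk, hcd, hRCD.2⟩⟩

/-! ### Explicit formulas and bounds for `K = -k` -/








end Crest.Agent.R242
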