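import Crest.Agent.R242.Sup_Mg
import Crest.Agent.R242.Opt
import Crest.Agent.R242.Res
import Crest.Agent.R242.DaviesFin
import Crest.Agent.R242.Defs
import Crest.Agent.R242.Vol
import Crest.Agent.R242.SobLip
import Crest.Agent.R242.Kant
import Mathlib
import Crest.Agent.R242.Pair
import Crest.Agent.R242.Dyad
import Crest.Agent.R242.ContrMeas_Mg
import Crest.Agent.R242.Tau_Mg

-- ▼ part R242/BEInst
section

/-!
# Row 242, PART B, [BE]: instances of `BECalc` and `GoodJ` from `Hyp` (helper216)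

`exists_goodJ_of_contr`: everything except the contraction [C1] is discharged.
-/

set_option autoImplicit false
open MeasureTheory Filter Set
open scoped ENNReal NNReal Topology
open Crest.GeometryTopology.SyntheticRicci

noncomputable section
namespace Crest.Agent.R242

variable {X : Type*} [MetricSpace X] [ProperSpace X] [MeasurableSpace X] [BorelSpace X]
  {m : Measure X} [IsLocallyFiniteMeasure m] [m.IsOpenPosMeasure] {k N : ℝ}

omit [m.IsOpenPosMeasure] in
theorem beCalc_of_hyp (H : Hyp m k N) : BECalc m where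
  young := fun _ _ hf hD _ hP _ ha => IsWUGLoc.lintegral_le_young H.fin hf hD hP ha
  quad := fun _ _ hg hD hD0 h => isWUGLoc_of_quadratic H.fin hg hD hD0 h
  marg := fun P hP s t hst => w2sq_timeMarginal_le P hP hst
  sup := fun ν hprob C hC hmom A hA hW => sup_plan H.cd ν hprob C hC hmom A hA hW
  meas := measurable_upperSpeed

/-- all properties of small resolvents, from the contraction [C1]. -/
theorem exists_goodJ_of_contr (H : Hyp m k N)
    (hcontr : ∃ h₀ : ℝ, 0 < h₀ ∧ ∀ h, 0 < h → h ≤ h₀ → 2 * h * k < 1 →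
      ∀ ρ ρ' : X → ℝ, BEDens m ρ → BEDens m ρ' →
        ENNReal.ofReal (1 - 2 * h * k) * w2sq (dens m (J m h ρ)) (dens m (J m h ρ')) ≤
          w2sq (dens m ρ) (dens m ρ')) :
    ∃ h₀ : ℝ, GoodJ m k h₀ ∧ ∀ h, 0 < h → h ≤ h₀ → JFacts m (1 - 2 * h * k)⁻¹ (J m h) := by
  obtain ⟨h₀, h0, hm⟩ := J_mass H
  exact goodJ_assembly (beCalc_of_hyp H) (calc_of_hyp H) H.kpos
    ⟨h₀, h0, fun h hh hh0 f hf hs o => ⟨(hm h hh hh0 f hf hs o).1, (hm h hh hh0 f hf hs o).2.2.1⟩⟩
    hcontr

end Crest.Agent.R242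
end
end

-- ▼ part R242/ContrTail
section

/-!
Row 242, part C1 (owner helper851), ingredients (helper994): a weight `w` with
`|∇w| ≤ Λ w`, good radii, growth of Kantorovich potentials, tails.
-/

set_option autoImplicit false
set_option linter.unusedSectionVars false

open MeasureTheory Filter Set Topology Metric
open scoped ENNReal NNReal
open Crest.GeometryTopology.SyntheticRicci

noncomputable section

namespace Crest.Agent.R242.ContrTail


theorem ct_exists_small_deriv {G : ℝ → ℝ} (hG : Monotone G) {B : ℝ}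
    (hB : ∀ x, 0 ≤ G x ∧ G x ≤ B) {del A : ℝ} (hd : 0 < del) (hA : 1 ≤ A) :
    ∃ R : ℝ, A ≤ R ∧ DifferentiableAt ℝ G R ∧ 2 * R * deriv G R < del := by
  by_contra hcon
  push Not at hcon
  have h1 : ∀ᵐ x : ℝ, A ≤ x → del / 2 * x⁻¹ ≤ deriv G x := by
    filter_upwards [hG.ae_differentiableAt] with x hx hAx
    have := hcon x hAx hx
    have hx0 : 0 < x := by linarith
    rw [← div_eq_mul_inv, div_le_iff₀ hx0]
    linarith
  have hBnn : 0 ≤ B := (hB 0).1.trans (hB 0).2
  set T : ℝ := A * Real.exp (2 * (B + 1) / del) with hT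
  have hexp : 1 ≤ Real.exp (2 * (B + 1) / del) := Real.one_le_exp (by positivity)
  have hAT : A ≤ T := by
    rw [hT]; nlinarith
  have hG1 := (hG.monotoneOn (uIcc A T)).intervalIntegrable_deriv
  have hG2 := (hG.monotoneOn (uIcc A T)).intervalIntegral_deriv_mem_uIcc
  have h0A : (0 : ℝ) ∉ uIcc A T := by
    rw [uIcc_of_le hAT]
    intro h
    linarith [h.1]
  have hint : IntervalIntegrable (fun x : ℝ => del / 2 * x⁻¹) volume A T :=
    (intervalIntegral.intervalIntegrable_inv (fun x hx => by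
      intro h; simp only [id] at h; rw [h] at hx; exact h0A hx) continuousOn_id).const_mul _
  have h2 : ∫ x in A..T, del / 2 * x⁻¹ ≤ ∫ x in A..T, deriv G x := by
    refine intervalIntegral.integral_mono_ae_restrict hAT hint hG1 ?_
    rw [EventuallyLE, ae_restrict_iff' measurableSet_Icc]
    filter_upwards [h1] with x hx hxI using hx hxI.1
  have h3 : ∫ x in A..T, del / 2 * x⁻¹ = B + 1 := by
    rw [intervalIntegral.integral_const_mul, integral_inv h0A, hT,
      mul_div_cancel_left₀ _ (by linarith : A ≠ 0), Real.log_exp]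
    field_simp
  rw [uIcc_of_le (by linarith [hG hAT])] at hG2
  have := hG2.2
  linarith [(hB A).1, (hB T).2]

theorem ct_eventually_diff_le {G : ℝ → ℝ} {R del : ℝ} (hG : DifferentiableAt ℝ G R)
    (h : 2 * R * deriv G R < del) :
    ∀ᶠ n : ℕ in atTop, G (R + 2 * R * (1 / 2 : ℝ) ^ n) - G R ≤ del * (1 / 2 : ℝ) ^ n := by
  have h1 : HasDerivAt (fun t : ℝ => G (R + 2 * R * t)) (deriv G R * (2 * R)) 0 := by
    have h2 : HasDerivAt (fun t : ℝ => R + 2 * R * t) (2 * R) 0 := by
      have := ((hasDerivAt_id (0 : ℝ)).const_mul (2 * R)).const_add R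
      simpa using this
    have h3 : HasDerivAt G (deriv G R) (R + 2 * R * 0) := by
      simpa using hG.hasDerivAt
    exact h3.comp (0 : ℝ) h2
  have h4 := hasDerivAt_iff_tendsto_slope.1 h1
  have h5 : Tendsto (fun n : ℕ => (1 / 2 : ℝ) ^ n) atTop (𝓝[≠] 0) := by
    rw [tendsto_nhdsWithin_iff]
    exact ⟨tendsto_pow_atTop_nhds_zero_of_lt_one (by norm_num) (by norm_num),
      Eventually.of_forall fun n => by simp⟩
  have h6 := (h4.comp h5).eventually (eventually_lt_nhds (show deriv G R * (2 * R) < del by linarith))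
  filter_upwards [h6] with n hn
  have hp : (0 : ℝ) < (1 / 2 : ℝ) ^ n := by positivity
  simp only [Function.comp_apply, slope_def_field, sub_zero, mul_zero, add_zero] at hn
  rw [div_lt_iff₀ hp] at hn
  exact hn.le

section Slope

variable {X : Type*} [MetricSpace X]

theorem ct_ascSlope_le {f : X → ℝ} {x : X} {G : X → ℝ} (hG : ContinuousAt G x)
    (h : ∀ y, f y - f x ≤ dist x y * G y) : ascSlope f x ≤ ENNReal.ofReal (G x) := by
  have key : ∀ ε : ℝ, 0 < ε → ascSlope f x ≤ ENNReal.ofReal (G x + ε) := by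
    intro ε hε
    refine ascSlope_le_of_eventually ?_
    have h1 : ∀ᶠ y in 𝓝 x, G y < G x + ε := hG.eventually (eventually_lt_nhds (by linarith))
    filter_upwards [mem_nhdsWithin_of_mem_nhds h1] with y hy
    have h2 := h y
    have h3 : (0 : ℝ) ≤ dist x y := dist_nonneg
    have hy' : G y < G x + ε := hy
    nlinarith
  have hlim : Tendsto (fun ε : ℝ => ENNReal.ofReal (G x + ε)) (𝓝[>] 0) (𝓝 (ENNReal.ofReal (G x))) := by
    have h1 : Tendsto (fun ε : ℝ => G x + ε) (𝓝[>] 0) (𝓝 (G x)) := by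
      have h2 : Tendsto (fun ε : ℝ => G x + ε) (𝓝 0) (𝓝 (G x + 0)) :=
        (continuous_const.add continuous_id).tendsto 0
      rw [add_zero] at h2
      exact h2.mono_left nhdsWithin_le_nhds
    exact ENNReal.tendsto_ofReal h1
  exact ge_of_tendsto hlim (by filter_upwards [self_mem_nhdsWithin] with ε hε using key ε hε)

end Slope

variable {X : Type*} [MetricSpace X] [ProperSpace X] [MeasurableSpace X] [BorelSpace X]
  {m : Measure X} [IsLocallyFiniteMeasure m] [m.IsOpenPosMeasure] {k N : ℝ}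



/-- good radii. -/
theorem exists_radius {g : X → ℝ} (hg : Integrable g m) (h0 : ∀ᵐ x ∂m, 0 ≤ g x) (o : X) {del : ℝ}
    (hd : 0 < del) (A : ℝ) : ∃ R : ℝ, A ≤ R ∧ 1 ≤ R ∧
    ∀ᶠ n : ℕ in atTop, ∫ x in closedBall o (R + 2 * R * (1 / 2 : ℝ) ^ n) \ closedBall o R, g x ∂m ≤
      del * (1 / 2 : ℝ) ^ n := by
  set G : ℝ → ℝ := fun r => ∫ x in closedBall o r, g x ∂m with hGdef
  have hmono : Monotone G := by
    intro a b hab
    exact setIntegral_mono_set hg.integrableOn (ae_restrict_of_ae h0)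
      (LE.le.eventuallyLE (closedBall_subset_closedBall hab))
  have hB : ∀ r, 0 ≤ G r ∧ G r ≤ ∫ x, g x ∂m := fun r =>
    ⟨integral_nonneg_of_ae (ae_restrict_of_ae h0), setIntegral_le_integral hg h0⟩
  obtain ⟨R, hAR, hdiff, hsmall⟩ := ct_exists_small_deriv hmono hB hd (le_max_left 1 A)
  have hR1 : 1 ≤ R := (le_max_left 1 A).trans hAR
  refine ⟨R, (le_max_right 1 A).trans hAR, hR1, ?_⟩
  filter_upwards [ct_eventually_diff_le hdiff hsmall] with n hn
  have hsub : closedBall o R ⊆ closedBall o (R + 2 * R * (1 / 2 : ℝ) ^ n) :=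
    closedBall_subset_closedBall (by
      have : (0 : ℝ) ≤ 2 * R * (1 / 2 : ℝ) ^ n := by positivity
      linarith)
  rw [setIntegral_sdiff measurableSet_closedBall hg.integrableOn hsub]
  exact hn

/-- growth constant of potentials -/
def C0 : ℝ := 8

theorem ct_pot_lip {f : X → ℝ} {o : X} {R : ℝ}
    (h : ∀ x x', |f x - f x'| ≤ dist x x' * ((dist x o + dist x' o) / 2 + R)) :
    LipOnBalls f := by
  intro o' R'
  refine ⟨Real.toNNReal (R' + dist o' o + R), LipschitzOnWith.of_dist_le_mul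
    fun x hx y hy => ?_⟩
  have h1 := h x y
  rw [mem_ball] at hx hy
  have h2 := dist_triangle x o' o
  have h3 := dist_triangle y o' o
  rw [Real.dist_eq]
  refine h1.trans ?_
  rw [mul_comm]
  refine mul_le_mul_of_nonneg_right ?_ dist_nonneg
  refine le_trans ?_ (Real.le_coe_toNNReal _)
  linarith

theorem ct_pot_wg (H : Hyp m k N) {f : X → ℝ} {o : X} {R : ℝ} (hR : 0 ≤ R)
    (h : ∀ x x', |f x - f x'| ≤ dist x x' * ((dist x o + dist x' o) / 2 + R)) :
    ∀ᵐ x ∂m, minWeakGrad m f x ≤ R + dist x o := by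
  filter_upwards [ofReal_minWeakGrad_le_ascSlope H.fin (ct_pot_lip h)] with x hx
  have h1 : ascSlope f x ≤ ENNReal.ofReal ((dist x o + dist x o) / 2 + R) := by
    refine ct_ascSlope_le (G := fun y => (dist y o + dist x o) / 2 + R) ?_ ?_
    · have : Continuous fun y : X => (dist y o + dist x o) / 2 + R := by fun_prop
      exact this.continuousAt
    · intro y
      have h2 := (le_abs_self _).trans (h y x)
      rwa [dist_comm] at h2
  have h2 := hx.trans h1
  have h3 : (0 : ℝ) ≤ (dist x o + dist x o) / 2 + R := by positivity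
  rw [ENNReal.ofReal_le_ofReal_iff h3] at h2
  linarith

/-- growth of Kantorovich potentials. -/
theorem pot_abs_le (H : Hyp m k N) {o : X} {R : ℝ} (hR : 1 ≤ R) {μ₀ μ₁ : Measure X}
    [IsProbabilityMeasure μ₀] [IsProbabilityMeasure μ₁]
    (h₀ : μ₀ (closedBall o R)ᶜ = 0) (h₁ : μ₁ (closedBall o R)ᶜ = 0) {φ ψ : X → ℝ}
    (hpot : IsPot o R μ₀ μ₁ φ ψ) :
    (∀ x, |φ x| ≤ C0 * (R + dist x o) ^ 2) ∧ (∀ x, |ψ x| ≤ C0 * (R + dist x o) ^ 2) ∧
    (∀ᵐ x ∂m, minWeakGrad m φ x ≤ R + dist x o) ∧ (∀ᵐ x ∂m, minWeakGrad m ψ x ≤ R + dist x o) ∧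
    IsSobolevLoc m φ ∧ IsSobolevLoc m ψ := by
  have hR0 : (0 : ℝ) ≤ R := by linarith
  refine ⟨?_, ?_, ct_pot_wg H hR0 hpot.lipφ, ct_pot_wg H hR0 hpot.lipψ,
    (ct_pot_lip hpot.lipφ).isSobolevLoc H.fin, (ct_pot_lip hpot.lipψ).isSobolevLoc H.fin⟩
  · intro x
    have h1 := hpot.lipφ x o
    rw [hpot.zero, sub_zero, dist_self, add_zero] at h1
    have hd : (0 : ℝ) ≤ dist x o := dist_nonneg
    unfold C0
    nlinarith
  · have hY : IsCompact (closedBall o R) := isCompact_closedBall o R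
    obtain ⟨-, -, -, -, -, -, -, -, -, q, hqo⟩ := kantorovich_potentials hY μ₀ μ₁ h₀ h₁
    have hq := hqo.1
    have hqp := coupling_isProb hq
    have hm := coupling_ae_mem hY.measurableSet hq h₀ h₁
    obtain ⟨p, ⟨hp1, hp2⟩, hp3⟩ := (hm.and (hpot.contact q hqo)).exists
    rw [mem_closedBall] at hp1 hp2
    have hφp := hpot.lipφ p.1 o
    rw [hpot.zero, sub_zero, dist_self, add_zero] at hφp
    have ha0 : (0 : ℝ) ≤ dist p.1 o := dist_nonneg
    have hb0 : (0 : ℝ) ≤ dist p.2 o := dist_nonneg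
    have hφp' : |φ p.1| ≤ 3 / 2 * R ^ 2 := by
      refine hφp.trans ?_
      nlinarith
    have hd := dist_triangle_right p.1 p.2 o
    have hdd : (0 : ℝ) ≤ dist p.1 p.2 := dist_nonneg
    have hψp : |ψ p.2| ≤ 7 / 2 * R ^ 2 := by
      have h1 : ψ p.2 = dist p.1 p.2 ^ 2 / 2 - φ p.1 := by linarith
      have h2 : dist p.1 p.2 ^ 2 / 2 ≤ 2 * R ^ 2 := by nlinarith
      rw [h1, abs_le]
      rw [abs_le] at hφp'
      constructor
      · nlinarith [sq_nonneg (dist p.1 p.2)]
      · linarith [hφp'.1]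
    have hψo : |ψ o| ≤ 5 * R ^ 2 := by
      have h1 := hpot.lipψ p.2 o
      rw [dist_self, add_zero] at h1
      have h2 : dist p.2 o * (dist p.2 o / 2 + R) ≤ 3 / 2 * R ^ 2 := by nlinarith
      rw [abs_le] at h1 hψp ⊢
      constructor
      · linarith [h1.1, h1.2, hψp.1, hψp.2]
      · linarith [h1.1, h1.2, hψp.1, hψp.2]
    intro x
    have h1 := hpot.lipψ x o
    rw [dist_self, add_zero] at h1
    have hx0 : (0 : ℝ) ≤ dist x o := dist_nonneg
    have h3 : |ψ x| ≤ 5 * R ^ 2 + dist x o * (dist x o / 2 + R) := by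
      rw [abs_le] at h1 hψo ⊢
      constructor
      · linarith [h1.1, h1.2, hψo.1, hψo.2]
      · linarith [h1.1, h1.2, hψo.1, hψo.2]
    unfold C0
    nlinarith



end Crest.Agent.R242.ContrTail
end
end

-- ▼ part R242/ContrPot
section

/-!
Row 242, part C1: bounds for Kantorovich potentials, in the form consumed by `Contr.lean`.
-/

set_option autoImplicit false
set_option linter.unusedSectionVars false

open MeasureTheory Filter Set Topology Metric
open scoped ENNReal NNReal
open Crest.GeometryTopology.SyntheticRicci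

noncomputable section

namespace Crest.Agent.R242.ContrTail

variable {X : Type*} [MetricSpace X] [ProperSpace X] [MeasurableSpace X] [BorelSpace X]
  {m : Measure X} [IsLocallyFiniteMeasure m] [m.IsOpenPosMeasure] {k N : ℝ}

theorem pot_bounds (H : Hyp m k N) {o : X} {R : ℝ} {mu0 mu1 : Measure X} {phi psi : X → ℝ}
    (hpot : IsPot o R mu0 mu1 phi psi) (hR : 1 ≤ R) [IsProbabilityMeasure mu0]
    [IsProbabilityMeasure mu1] (h0 : mu0 (Metric.closedBall o R)ᶜ = 0)
    (h1 : mu1 (Metric.closedBall o R)ᶜ = 0) :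
    (∀ x, |phi x| ≤ 8 * (R + dist x o) ^ 2) ∧ (∀ x, |psi x| ≤ 8 * (R + dist x o) ^ 2) ∧
    IsSobolevLoc m phi ∧ IsSobolevLoc m psi ∧
    (∀ᵐ x ∂m, minWeakGrad m phi x ≤ R + dist x o) ∧
    (∀ᵐ x ∂m, minWeakGrad m psi x ≤ R + dist x o) := by
  obtain ⟨a, b, c, d, e, f⟩ := pot_abs_le H hR h0 h1 hpot
  exact ⟨a, b, e, f, c, d⟩

end Crest.Agent.R242.ContrTail
end
end

-- ▼ part R242/ContrW
section

/-!
Row 242, block C1 (contraction of the resolvent): the exponential weight.  Owner: helper386.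
-/

set_option autoImplicit false
set_option linter.unusedSectionVars false

open MeasureTheory Filter Set
open scoped ENNReal NNReal Topology
open Crest.GeometryTopology.SyntheticRicci

noncomputable section

namespace Crest.Agent.R242.ContrTail

variable {X : Type*} [MetricSpace X] [ProperSpace X] [MeasurableSpace X] [BorelSpace X]
  {m : Measure X} [IsLocallyFiniteMeasure m] [m.IsOpenPosMeasure] {k N : ℝ}

theorem exp_w_sub_le {a : ℝ} (ha : 0 < a) (o x y : X) (hy : 2 * a * dist y x ≤ 1) :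
    Real.exp (-(2 * a) * dist y o) - Real.exp (-(2 * a) * dist x o) ≤
      4 * a * Real.exp (-(2 * a) * dist x o) * dist y x := by
  have hd := dist_nonneg (x := y) (y := x)
  have h1 : -(2 * a) * dist y o ≤ -(2 * a) * dist x o + 2 * a * dist y x := by
    have := dist_triangle_left x o y
    nlinarith
  have h2 : Real.exp (-(2 * a) * dist y o) ≤
      Real.exp (-(2 * a) * dist x o) * Real.exp (2 * a * dist y x) := by
    rw [← Real.exp_add]
    exact Real.exp_le_exp.2 h1
  have h0 : 0 ≤ 2 * a * dist y x := by positivity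
  have h3 : Real.exp (2 * a * dist y x) - 1 ≤ 2 * (2 * a * dist y x) := by
    have := Real.abs_exp_sub_one_le (x := 2 * a * dist y x) (by rwa [abs_of_nonneg h0])
    rw [abs_of_nonneg h0] at this
    exact (le_abs_self _).trans this
  have h4 : 0 < Real.exp (-(2 * a) * dist x o) := Real.exp_pos _
  nlinarith [mul_le_mul_of_nonneg_left h3 h4.le]

theorem lipschitz_exp_w {a : ℝ} (ha : 0 < a) (o : X) (x y : X) :
    |Real.exp (-(2 * a) * dist x o) - Real.exp (-(2 * a) * dist y o)| ≤ 2 * a * dist x y := by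
  have key : ∀ s t : ℝ, 0 ≤ s → s ≤ t → Real.exp (-s) - Real.exp (-t) ≤ t - s := by
    intro s t hs hst
    have h1 : Real.exp (-s) ≤ 1 := Real.exp_le_one_iff.2 (by linarith)
    have h2 : 1 - (t - s) ≤ Real.exp (-(t - s)) := Real.one_sub_le_exp_neg _
    have h3 : Real.exp (-t) = Real.exp (-s) * Real.exp (-(t - s)) := by
      rw [← Real.exp_add]; congr 1; ring
    rw [h3]
    have h4 : 0 < Real.exp (-s) := Real.exp_pos _
    nlinarith [mul_le_mul_of_nonneg_left h2 h4.le]
  have key2 : ∀ s t : ℝ, 0 ≤ s → 0 ≤ t → |Real.exp (-s) - Real.exp (-t)| ≤ |s - t| := by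
    intro s t hs ht
    rcases le_total s t with h | h
    · rw [abs_of_nonneg (sub_nonneg.2 (Real.exp_le_exp.2 (by linarith))), abs_sub_comm,
        abs_of_nonneg (sub_nonneg.2 h)]
      exact key s t hs h
    · rw [abs_sub_comm, abs_of_nonneg (sub_nonneg.2 (Real.exp_le_exp.2 (by linarith))),
        abs_of_nonneg (sub_nonneg.2 h)]
      exact key t s ht h
  have h5 := key2 (2 * a * dist x o) (2 * a * dist y o) (by positivity) (by positivity)
  rw [show -(2 * a) * dist x o = -(2 * a * dist x o) by ring,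
    show -(2 * a) * dist y o = -(2 * a * dist y o) by ring]
  refine h5.trans ?_
  rw [← mul_sub, abs_mul, abs_of_pos (by positivity : (0 : ℝ) < 2 * a)]
  gcongr
  exact abs_dist_sub_le x y o

theorem exists_w (H : Hyp m k N) (o : X) : ∃ (Lam : ℝ) (w : X → ℝ), 0 < Lam ∧
    (∃ Bw : ℝ, ∀ x, 0 < w x ∧ w x ≤ Bw) ∧
    (∀ (o' : X) (R : ℝ), ∃ c : ℝ, 0 < c ∧ ∀ x ∈ Metric.closedBall o' R, c ≤ w x) ∧
    Integrable (fun x => (1 + dist x o) ^ 2 * w x) m ∧ ∫ x, w x ∂m = 1 ∧ IsSobolevLoc m w ∧
    ∀ᵐ x ∂m, minWeakGrad m w x ≤ Lam * w x := by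
  obtain ⟨a, C, ha1, hC, hI⟩ := exp_integral H
  have ha : 0 < a := by linarith
  have hIo := hI a le_rfl o
  have hfinI : ∫⁻ y, ENNReal.ofReal ((1 + a * dist y o) ^ 4 * Real.exp (-(2 * a) * dist y o)) ∂m
      < ⊤ := hIo.trans_lt (ENNReal.mul_lt_top ENNReal.ofReal_lt_top (H.fin o _))
  set e : X → ℝ := fun x => Real.exp (-(2 * a) * dist x o) with he
  have hec : Continuous e := by fun_prop
  have he0 : ∀ x, 0 < e x := fun x => Real.exp_pos _
  have he1 : ∀ x, e x ≤ 1 := fun x => Real.exp_le_one_iff.2 (by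
    have := dist_nonneg (x := x) (y := o)
    nlinarith)
  have hint4 : Integrable (fun y => (1 + a * dist y o) ^ 4 * e y) m := by
    refine ⟨(by fun_prop : Continuous fun y => (1 + a * dist y o) ^ 4 * e y).aestronglyMeasurable,
      ?_⟩
    rw [hasFiniteIntegral_iff_ofReal]
    · exact hfinI
    · exact Eventually.of_forall fun y => by
        have := dist_nonneg (x := y) (y := o)
        have := (he0 y).le
        positivity
  have hint2 : Integrable (fun y => (1 + dist y o) ^ 2 * e y) m := by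
    refine hint4.mono'
      (by fun_prop : Continuous fun y => (1 + dist y o) ^ 2 * e y).aestronglyMeasurable ?_
    refine Eventually.of_forall fun y => ?_
    have hd := dist_nonneg (x := y) (y := o)
    have h1 : 0 ≤ (1 + dist y o) ^ 2 * e y := mul_nonneg (sq_nonneg _) (he0 y).le
    rw [Real.norm_of_nonneg h1]
    refine mul_le_mul_of_nonneg_right ?_ (he0 y).le
    have h2 : 1 + dist y o ≤ 1 + a * dist y o := by nlinarith
    have h3 : 1 ≤ 1 + a * dist y o := by nlinarith
    calc (1 + dist y o) ^ 2 ≤ (1 + a * dist y o) ^ 2 := pow_le_pow_left₀ (by linarith) h2 2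
      _ ≤ (1 + a * dist y o) ^ 4 := pow_le_pow_right₀ h3 (by norm_num)
  have hinte : Integrable e m := by
    refine hint2.mono' hec.aestronglyMeasurable (Eventually.of_forall fun y => ?_)
    rw [Real.norm_of_nonneg (he0 y).le]
    have hd := dist_nonneg (x := y) (y := o)
    exact le_mul_of_one_le_left (he0 y).le (one_le_pow₀ (by linarith))
  have hpos : 0 < ∫ x, e x ∂m := by
    rw [integral_pos_iff_support_of_nonneg (fun x => (he0 x).le) hinte]
    have : Function.support e = Set.univ := by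
      ext x
      simp [(he0 x).ne']
    rw [this]
    have : Nonempty X := ⟨o⟩
    exact isOpen_univ.measure_pos m Set.univ_nonempty
  set c : ℝ := (∫ x, e x ∂m)⁻¹ with hc
  have hc0 : 0 < c := inv_pos.2 hpos
  have hlip : ∀ x y, |c * e x - c * e y| ≤ c * (2 * a) * dist x y := by
    intro x y
    rw [← mul_sub, abs_mul, abs_of_pos hc0, mul_assoc]
    exact mul_le_mul_of_nonneg_left (lipschitz_exp_w ha o x y) hc0.le
  have hLB : LipOnBalls (fun x => c * e x) := by
    refine LipschitzWith.lipOnBalls (L := Real.toNNReal (c * (2 * a))) ?_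
    refine LipschitzWith.of_dist_le_mul fun x y => ?_
    rw [Real.coe_toNNReal _ (by positivity), Real.dist_eq]
    exact hlip x y
  refine ⟨4 * a, fun x => c * e x, by positivity, ⟨c, fun x => ⟨mul_pos hc0 (he0 x), ?_⟩⟩, ?_, ?_,
    ?_, hLB.isSobolevLoc H.fin, ?_⟩
  · exact mul_le_of_le_one_right hc0.le (he1 x)
  · intro o' R
    refine ⟨c * Real.exp (-(2 * a) * (R + dist o' o)), by positivity, fun x hx => ?_⟩
    refine mul_le_mul_of_nonneg_left (Real.exp_le_exp.2 ?_) hc0.le
    have h1 : dist x o ≤ R + dist o' o :=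
      (dist_triangle x o' o).trans (add_le_add_left (Metric.mem_closedBall.1 hx) _)
    nlinarith
  · have : (fun x => (1 + dist x o) ^ 2 * (c * e x)) = fun x => c * ((1 + dist x o) ^ 2 * e x) := by
      funext x; ring
    rw [this]
    exact hint2.const_mul c
  · rw [integral_const_mul, hc, inv_mul_cancel₀ hpos.ne']
  · filter_upwards [ofReal_minWeakGrad_le_ascSlope H.fin hLB] with x hx
    have h1 : ascSlope (fun x => c * e x) x ≤ ENNReal.ofReal (4 * a * (c * e x)) := by
      refine ascSlope_le_of_eventually ?_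
      have hnb : Metric.ball x (1 / (2 * a)) ∈ 𝓝[≠] x :=
        mem_nhdsWithin_of_mem_nhds (Metric.ball_mem_nhds x (by positivity))
      filter_upwards [hnb] with y hy
      have hy' : 2 * a * dist y x ≤ 1 := by
        have h2 : dist y x < 1 / (2 * a) := hy
        rw [lt_div_iff₀ (by positivity)] at h2
        linarith
      have h3 := exp_w_sub_le ha o x y hy'
      calc c * e y - c * e x = c * (e y - e x) := by ring
        _ ≤ c * (4 * a * e x * dist y x) := mul_le_mul_of_nonneg_left h3 hc0.le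
        _ = 4 * a * (c * e x) * dist x y := by rw [dist_comm y x]; ring
    have h4 := hx.trans h1
    rwa [ENNReal.ofReal_le_ofReal_iff (by have := he0 x; positivity)] at h4

end Crest.Agent.R242.ContrTail
end
end

-- ▼ part R242/E1Plan
section

/-!
Row 242, module E1, part B: plans of geodesics, the weak upper gradient inequality along them and
continuity of the time marginals at `t = 0`.  (Everything in the sub-namespace `E1`.)
-/

set_option autoImplicit false

open MeasureTheory Filter Set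
open scoped ENNReal NNReal Topology
open Crest.GeometryTopology.SyntheticRicci

noncomputable section

namespace Crest.Agent.R242.E1

section Basic

variable {X : Type*} [MetricSpace X]

theorem continuous_toMap : Continuous (UCurve.toMap : UCurve X → C(unitInterval, X)) :=
  continuous_induced_dom

theorem continuous_eval : Continuous (fun p : UCurve X × unitInterval => p.1.toMap p.2) :=
  ContinuousEval.continuous_eval.comp
    ((continuous_toMap.comp continuous_fst).prodMk continuous_snd)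

theorem continuous_eval_left (t : unitInterval) : Continuous (fun γ : UCurve X => γ.toMap t) :=
  continuous_eval.comp (continuous_id.prodMk continuous_const)

theorem continuous_evalExt : Continuous (fun p : UCurve X × ℝ => p.1.ext p.2) := by
  have h : Continuous (fun p : UCurve X × ℝ =>
      ((p.1, projIcc (0:ℝ) 1 zero_le_one p.2) : UCurve X × unitInterval)) :=
    continuous_fst.prodMk (continuous_projIcc.comp continuous_snd)
  exact continuous_eval.comp h


theorem isClosed_geod : IsClosed {γ : UCurve X | IsCSGeodesic γ} := by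
  simp only [IsCSGeodesic, ofPred_forall]
  refine isClosed_iInter fun s => isClosed_iInter fun t => ?_
  exact isClosed_eq ((continuous_eval_left s).dist (continuous_eval_left t))
    (continuous_const.mul ((continuous_eval_left 0).dist (continuous_eval_left 1)))

theorem dist_ext_le {γ : UCurve X} (h : IsCSGeodesic γ) (s t : ℝ) :
    dist (γ.ext s) (γ.ext t) ≤ |s - t| * dist (γ.toMap 0) (γ.toMap 1) := by
  unfold UCurve.ext
  rw [h]
  refine mul_le_mul_of_nonneg_right ?_ dist_nonneg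
  have := abs_projIcc_sub_projIcc (a := (0:ℝ)) (b := 1) (h := zero_le_one) (c := s) (d := t)
  exact this

theorem upperSpeed_geod_le {γ : UCurve X} (h : IsCSGeodesic γ) (t : ℝ) :
    upperSpeed γ t ≤ ENNReal.ofReal (dist (γ.toMap 0) (γ.toMap 1)) := by
  unfold upperSpeed
  refine limsup_le_of_le (by isBoundedDefault) ?_
  filter_upwards [self_mem_nhdsWithin] with s hs
  refine ENNReal.ofReal_le_ofReal ?_
  have hst : 0 < |s - t| := abs_pos.2 (sub_ne_zero.2 hs)
  rw [div_le_iff₀ hst, mul_comm]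
  exact dist_ext_le h s t

theorem hasL2Speed_geod {γ : UCurve X} (h : IsCSGeodesic γ) : HasL2Speed γ := by
  refine ⟨fun _ => ENNReal.ofReal (dist (γ.toMap 0) (γ.toMap 1)), measurable_const, ?_, ?_⟩
  · simp only [lintegral_const, Measure.restrict_apply MeasurableSet.univ, univ_inter]
    refine ENNReal.mul_lt_top (ENNReal.pow_lt_top ENNReal.ofReal_lt_top) ?_
    simp
  · intro s t hst
    rw [edist_dist, h s t]
    simp only [lintegral_const, Measure.restrict_apply MeasurableSet.univ, univ_inter,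
      Real.volume_Icc]
    rw [← ENNReal.ofReal_mul dist_nonneg]
    refine ENNReal.ofReal_le_ofReal ?_
    rw [abs_of_nonpos (by linarith), mul_comm]
    simp

end Basic

section Plans

variable {X : Type*} [MetricSpace X] [MeasurableSpace X] [BorelSpace X] {m : Measure X}

theorem measurable_eval (t : unitInterval) : Measurable (fun γ : UCurve X => γ.toMap t) :=
  (continuous_eval_left t).measurable

theorem measurable_evalExt [SecondCountableTopology X] :
    Measurable (fun p : UCurve X × ℝ => p.1.ext p.2) :=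
  continuous_evalExt.measurable

theorem ae_ae_notMem [SecondCountableTopology X] {Q : Measure (UCurve X)} [SFinite Q]
    {N : Set X} (hN : MeasurableSet N) (h : ∀ t : unitInterval, Q {γ | γ.toMap t ∈ N} = 0) :
    ∀ᵐ γ ∂Q, ∀ᵐ t ∂(volume.restrict (Icc (0:ℝ) 1)), γ.ext t ∉ N := by
  have hjm : MeasurableSet {p : UCurve X × ℝ | p.1.ext p.2 ∈ N} := measurable_evalExt hN
  have h1 : ∫⁻ γ : UCurve X, (∫⁻ t in Icc (0:ℝ) 1, N.indicator (fun _ => (1:ℝ≥0∞)) (γ.ext t)) ∂Q = 0 := by
    rw [lintegral_lintegral_swap]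
    · rw [lintegral_eq_zero_iff']
      · refine Eventually.of_forall fun t => ?_
        have h2 : ∫⁻ γ, N.indicator (fun _ => (1:ℝ≥0∞)) (UCurve.ext γ t) ∂Q =
            Q {γ | γ.ext t ∈ N} := by
          rw [← lintegral_indicator_one]
          · rfl
          · exact (continuous_evalExt.comp (continuous_id.prodMk continuous_const)).measurable hN
        simp only [Pi.zero_apply]
        rw [h2]
        exact h _
      · refine Measurable.aemeasurable ?_
        refine Measurable.lintegral_prod_right' (f := fun p : ℝ × UCurve X =>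
          N.indicator (fun _ => (1:ℝ≥0∞)) (p.2.ext p.1)) ?_
        exact (measurable_const.indicator hN).comp
          (measurable_evalExt.comp (measurable_snd.prodMk measurable_fst))
    · exact ((measurable_const.indicator hN).comp measurable_evalExt).aemeasurable
  rw [lintegral_eq_zero_iff'] at h1
  · filter_upwards [h1] with γ hγ
    simp only [Pi.zero_apply] at hγ
    rw [lintegral_eq_zero_iff'] at hγ
    · filter_upwards [hγ] with t ht htN
      simp [htN] at ht
    · exact ((measurable_const.indicator hN).comp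
        (continuous_evalExt.comp (continuous_const.prodMk continuous_id)).measurable).aemeasurable
  · refine Measurable.aemeasurable ?_
    refine Measurable.lintegral_prod_right' (f := fun p : UCurve X × ℝ =>
      N.indicator (fun _ => (1:ℝ≥0∞)) (p.1.ext p.2)) ?_
    exact (measurable_const.indicator hN).comp measurable_evalExt

theorem young (D d : ℝ) (hd : 0 ≤ d) {a : ℝ} (ha : 0 < a) :
    ENNReal.ofReal D * ENNReal.ofReal d ≤
      ENNReal.ofReal (a / 2) * ENNReal.ofReal (D ^ 2) +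
        ENNReal.ofReal (1 / (2 * a)) * ENNReal.ofReal (d ^ 2) := by
  rw [← ENNReal.ofReal_mul' hd, ← ENNReal.ofReal_mul (by positivity),
    ← ENNReal.ofReal_mul (by positivity), ← ENNReal.ofReal_add (by positivity) (by positivity)]
  refine ENNReal.ofReal_le_ofReal ?_
  have h1 : 0 ≤ (a * D - d) ^ 2 / (2 * a) := by positivity
  have h2 : (a * D - d) ^ 2 / (2 * a) = a / 2 * D ^ 2 + 1 / (2 * a) * d ^ 2 - D * d := by
    field_simp
    ring
  linarith

theorem isTestPlan2_geod {Q : Measure (UCurve X)} [IsProbabilityMeasure Q]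
    (hgeo : ∀ᵐ γ ∂Q, IsCSGeodesic γ) {C : ℝ≥0}
    (hC : ∀ t, timeMarginal Q t ≤ (C : ℝ≥0∞) • m) {o : X} {R : ℝ}
    (hball : ∀ᵐ γ ∂Q, ∀ t : unitInterval, γ.toMap t ∈ Metric.closedBall o R) :
    IsTestPlan2 m Q := by
  refine ⟨inferInstance, ⟨C, hC⟩, hgeo.mono fun γ h => hasL2Speed_geod h, ?_⟩
  calc ∫⁻ γ, (∫⁻ t in Icc (0:ℝ) 1, upperSpeed γ t ^ 2) ∂Q
      ≤ ∫⁻ _, ENNReal.ofReal (2 * R) ^ 2 ∂Q := by
        refine lintegral_mono_ae ?_
        filter_upwards [hgeo, hball] with γ h1 h2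
        calc ∫⁻ t in Icc (0:ℝ) 1, upperSpeed γ t ^ 2
            ≤ ∫⁻ _ in Icc (0:ℝ) 1, ENNReal.ofReal (2 * R) ^ 2 := by
              refine lintegral_mono fun t => ?_
              refine pow_le_pow_left' ((upperSpeed_geod_le h1 t).trans
                (ENNReal.ofReal_le_ofReal ?_)) 2
              have h3 := h2 0
              have h4 := h2 1
              rw [Metric.mem_closedBall] at h3 h4
              have := dist_triangle_right (γ.toMap 0) (γ.toMap 1) o
              linarith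
          _ = ENNReal.ofReal (2 * R) ^ 2 := by simp
    _ < ⊤ := by
        simp only [lintegral_const, measure_univ, mul_one]
        exact ENNReal.pow_lt_top ENNReal.ofReal_lt_top

theorem plan_wug [SecondCountableTopology X] {f D : X → ℝ} (hD : IsWUGLoc m f D)
    {Q : Measure (UCurve X)} [IsProbabilityMeasure Q]
    (hgeo : ∀ᵐ γ ∂Q, IsCSGeodesic γ) {C : ℝ≥0}
    (hC : ∀ t, timeMarginal Q t ≤ (C : ℝ≥0∞) • m) {o : X} {R : ℝ}
    (hball : ∀ᵐ γ ∂Q, ∀ t : unitInterval, γ.toMap t ∈ Metric.closedBall o R)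
    {a : ℝ} (ha : 0 < a) {S : ℝ≥0∞}
    (hS : ∀ t : unitInterval, ∫⁻ x, ENNReal.ofReal (D x ^ 2) ∂(timeMarginal Q t) ≤ S) :
    ∫⁻ γ, ENNReal.ofReal |f (γ.toMap 1) - f (γ.toMap 0)| ∂Q ≤
      ENNReal.ofReal (a / 2) * S + ENNReal.ofReal (1 / (2 * a)) *
        ∫⁻ γ, ENNReal.ofReal (dist (γ.toMap 0) (γ.toMap 1) ^ 2) ∂Q := by
  have hT := isTestPlan2_geod hgeo hC hball
  refine (hD.2.2 Q hT ⟨o, R, hball⟩).trans ?_
  -- measurable representative of `D` on the ball
  have hDm : AEStronglyMeasurable D (m.restrict (Metric.closedBall o R)) :=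
    (hD.1 o (R + 1)).1.mono_measure
      (Measure.restrict_mono (Metric.closedBall_subset_ball (by linarith)) le_rfl)
  obtain ⟨D', hD'm, hDD'⟩ := hDm.aemeasurable
  have hnull : m {x | x ∈ Metric.closedBall o R ∧ D x ≠ D' x} = 0 := by
    have h1 := (ae_restrict_iff' (Metric.isClosed_closedBall.measurableSet)).1 hDD'
    rw [ae_iff] at h1
    convert h1 using 2
    ext x
    simp [Classical.not_imp]
  set N := toMeasurable m {x | x ∈ Metric.closedBall o R ∧ D x ≠ D' x} with hN
  have hN0 : m N = 0 := by rw [hN, measure_toMeasurable, hnull]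
  have hNm : MeasurableSet N := measurableSet_toMeasurable _ _
  have hNt : ∀ t : unitInterval, Q {γ | γ.toMap t ∈ N} = 0 := by
    intro t
    have h1 : timeMarginal Q t N ≤ ((C : ℝ≥0∞) • m) N := hC t N
    rw [Measure.smul_apply, hN0, smul_zero] at h1
    have h2 : timeMarginal Q t N = Q {γ | γ.toMap t ∈ N} := by
      unfold timeMarginal
      rw [Measure.map_apply (measurable_eval t) hNm]
      rfl
    rw [← h2]
    exact le_antisymm h1 bot_le
  have hae := ae_ae_notMem hNm hNt
  have hDt : ∀ t : unitInterval, ∫⁻ x, ENNReal.ofReal (D' x ^ 2) ∂(timeMarginal Q t) ≤ S := by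
    intro t
    refine le_trans (le_of_eq ?_) (hS t)
    refine lintegral_congr_ae ?_
    have hb : ∀ᵐ x ∂(timeMarginal Q t), x ∈ Metric.closedBall o R := by
      unfold timeMarginal
      refine (ae_map_iff (p := fun x => x ∈ Metric.closedBall o R)
        (measurable_eval t).aemeasurable Metric.isClosed_closedBall.measurableSet).2 ?_
      filter_upwards [hball] with γ h using h t
    have hn : ∀ᵐ x ∂(timeMarginal Q t), x ∉ N := by
      have : timeMarginal Q t N = 0 := by
        unfold timeMarginal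
        rw [Measure.map_apply (measurable_eval t) hNm]
        exact hNt t
      rw [ae_iff]
      simpa using this
    filter_upwards [hb, hn] with x h1 h2
    have : D x = D' x := by
      by_contra hne
      exact h2 (subset_toMeasurable _ _ ⟨h1, hne⟩)
    rw [this]
  have hjoint : Measurable (fun p : UCurve X × ℝ => ENNReal.ofReal (D' (p.1.ext p.2) ^ 2)) :=
    ((hD'm.comp measurable_evalExt).pow_const 2).ennreal_ofReal
  calc ∫⁻ γ, (∫⁻ t in Icc (0:ℝ) 1, ENNReal.ofReal (D (γ.ext t)) * upperSpeed γ t) ∂Q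
      ≤ ∫⁻ γ, ((∫⁻ t in Icc (0:ℝ) 1, ENNReal.ofReal (a / 2) *
            ENNReal.ofReal (D' (γ.ext t) ^ 2)) + ENNReal.ofReal (1 / (2 * a)) *
          ENNReal.ofReal (dist (γ.toMap 0) (γ.toMap 1) ^ 2)) ∂Q := by
        refine lintegral_mono_ae ?_
        filter_upwards [hgeo, hball, hae] with γ h1 h2 h3
        calc ∫⁻ t in Icc (0:ℝ) 1, ENNReal.ofReal (D (γ.ext t)) * upperSpeed γ t
            ≤ ∫⁻ t in Icc (0:ℝ) 1, (ENNReal.ofReal (a / 2) * ENNReal.ofReal (D' (γ.ext t) ^ 2) +
                ENNReal.ofReal (1 / (2 * a)) *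
                  ENNReal.ofReal (dist (γ.toMap 0) (γ.toMap 1) ^ 2)) := by
              refine lintegral_mono_ae ?_
              filter_upwards [h3] with t ht
              have hDe : D (γ.ext t) = D' (γ.ext t) := by
                by_contra hne
                exact ht (subset_toMeasurable _ _ ⟨h2 _, hne⟩)
              rw [hDe]
              exact (mul_le_mul_right (upperSpeed_geod_le h1 t) _).trans
                (young _ _ dist_nonneg ha)
          _ = _ := by
              rw [lintegral_add_right _ measurable_const]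
              simp
    _ = (∫⁻ γ, (∫⁻ t in Icc (0:ℝ) 1, ENNReal.ofReal (a / 2) *
            ENNReal.ofReal (D' (γ.ext t) ^ 2)) ∂Q) + ENNReal.ofReal (1 / (2 * a)) *
          ∫⁻ γ, ENNReal.ofReal (dist (γ.toMap 0) (γ.toMap 1) ^ 2) ∂Q := by
        rw [lintegral_add_left, lintegral_const_mul]
        · exact (((continuous_eval_left 0).dist (continuous_eval_left 1)).measurable.pow_const
            2).ennreal_ofReal
        · exact Measurable.lintegral_prod_right' (f := fun p : UCurve X × ℝ =>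
            ENNReal.ofReal (a / 2) * ENNReal.ofReal (D' (p.1.ext p.2) ^ 2)) (hjoint.const_mul _)
    _ ≤ _ := by
        refine add_le_add ?_ le_rfl
        rw [lintegral_lintegral_swap (hjoint.const_mul _).aemeasurable]
        calc ∫⁻ t in Icc (0:ℝ) 1, ∫⁻ γ, ENNReal.ofReal (a / 2) *
              ENNReal.ofReal (D' (UCurve.ext γ t) ^ 2) ∂Q
            ≤ ∫⁻ _ in Icc (0:ℝ) 1, ENNReal.ofReal (a / 2) * S := by
              refine lintegral_mono fun t => ?_
              have hm2 : Measurable (fun x : X => ENNReal.ofReal (D' x ^ 2)) :=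
                (hD'm.pow_const 2).ennreal_ofReal
              have h4 : ∫⁻ γ, ENNReal.ofReal (a / 2) * ENNReal.ofReal (D' (UCurve.ext γ t) ^ 2) ∂Q =
                  ENNReal.ofReal (a / 2) * ∫⁻ x, ENNReal.ofReal (D' x ^ 2)
                    ∂(timeMarginal Q (projIcc (0:ℝ) 1 zero_le_one t)) := by
                unfold timeMarginal
                rw [lintegral_map hm2 (measurable_eval _), lintegral_const_mul]
                · rfl
                · exact hm2.comp (measurable_eval _)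
              simp only [h4]
              exact mul_le_mul_right (hDt _) _
          _ = _ := by simp

end Plans

end Crest.Agent.R242.E1
end
end

-- ▼ part R242/E1Marg
section

/-!
Row 242, module E1, part C: initial pieces of a geodesic plan.
-/

set_option autoImplicit false

open MeasureTheory Filter Set
open scoped ENNReal NNReal Topology
open Crest.GeometryTopology.SyntheticRicci

noncomputable section

namespace Crest.Agent.R242.E1

section Basic

variable {X : Type*} [MetricSpace X]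

theorem continuous_subCurve (a b : ℝ) : Continuous (subCurve a b : UCurve X → UCurve X) := by
  refine continuous_induced_rng.2 ?_
  change Continuous fun γ : UCurve X => (γ.toMap).comp (subI a b)
  exact (ContinuousMap.continuous_precomp (subI a b)).comp continuous_toMap

theorem subCurve_zero (t : unitInterval) (γ : UCurve X) :
    (subCurve 0 t γ).toMap 0 = γ.toMap 0 := by
  change γ.toMap (subI 0 t 0) = γ.toMap 0
  congr 1
  simp [subI]

theorem subCurve_one (t : unitInterval) (γ : UCurve X) :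
    (subCurve 0 t γ).toMap 1 = γ.toMap t := by
  change γ.toMap (subI 0 t 1) = γ.toMap t
  congr 1
  simp [subI]

theorem subI_coe (t s : unitInterval) : ((subI 0 t s : unitInterval) : ℝ) = s * t := by
  simp only [subI, sub_zero, zero_add, ContinuousMap.coe_mk]
  rw [projIcc_of_mem _ (show (s : ℝ) * t ∈ Icc (0:ℝ) 1 from
    ⟨mul_nonneg s.2.1 t.2.1, mul_le_one₀ s.2.2 t.2.1 t.2.2⟩)]

theorem subI_le (t s : unitInterval) : subI 0 t s ≤ t := by
  rw [← Subtype.coe_le_coe, subI_coe]
  exact mul_le_of_le_one_left t.2.1 s.2.2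

theorem geod_subCurve {γ : UCurve X} (h : IsCSGeodesic γ) (t : unitInterval) :
    IsCSGeodesic (subCurve 0 t γ) := by
  intro r s
  rw [subCurve_zero, subCurve_one]
  change dist (γ.toMap (subI 0 t r)) (γ.toMap (subI 0 t s)) = _
  rw [h, subI_coe, subI_coe, h 0 t]
  simp only [Icc.coe_zero, zero_sub, abs_neg]
  rw [← sub_mul, abs_mul]
  ring

end Basic

section Marg

variable {X : Type*} [MetricSpace X] [MeasurableSpace X] [BorelSpace X] {m : Measure X}

theorem timeMarginal_subCurve (P : Measure (UCurve X)) (t s : unitInterval) :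
    timeMarginal (P.map (subCurve 0 t)) s = timeMarginal P (subI 0 t s) := by
  unfold timeMarginal
  rw [Measure.map_map (measurable_eval s) (continuous_subCurve 0 (t:ℝ)).measurable]
  rfl

theorem restrict_of_null {ν : Measure X} {A : Set X} (hA : MeasurableSet A) (h : ν Aᶜ = 0) :
    ν.restrict A = ν := by
  refine Measure.restrict_eq_self_of_ae_mem ?_
  rw [ae_iff]
  exact h

theorem integrable_marg {ν : Measure X} {C : ℝ≥0} (hν : ν ≤ (C : ℝ≥0∞) • m) {A : Set X}
    (hA : MeasurableSet A) (h : ν Aᶜ = 0) {w : X → ℝ} (hw : IntegrableOn w A m) :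
    Integrable w ν := by
  have h1 : ν ≤ (C : ℝ≥0∞) • m.restrict A := by
    rw [← restrict_of_null hA h, ← Measure.restrict_smul]
    exact Measure.restrict_mono le_rfl hν
  have h2 : Integrable w ((C : ℝ≥0∞) • m.restrict A) :=
    Integrable.smul_measure (μ := m.restrict A) hw ENNReal.coe_ne_top
  exact h2.mono_measure h1

theorem integral_abs_marg_le {ν : Measure X} {C : ℝ≥0} (hν : ν ≤ (C : ℝ≥0∞) • m) {A : Set X}
    (hA : MeasurableSet A) (h : ν Aᶜ = 0) {w : X → ℝ} (hw : IntegrableOn w A m) :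
    ∫ x, |w x| ∂ν ≤ C * ∫ x in A, |w x| ∂m := by
  have h1 : ν ≤ (C : ℝ≥0∞) • m.restrict A := by
    rw [← restrict_of_null hA h, ← Measure.restrict_smul]
    exact Measure.restrict_mono le_rfl hν
  calc ∫ x, |w x| ∂ν ≤ ∫ x, |w x| ∂((C : ℝ≥0∞) • m.restrict A) := by
        refine integral_mono_measure h1 (Eventually.of_forall fun x => abs_nonneg _) ?_
        exact (Integrable.abs hw).smul_measure ENNReal.coe_ne_top
    _ = C * ∫ x in A, |w x| ∂m := by
        rw [integral_smul_measure]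
        simp

theorem marg_null {P : Measure (UCurve X)} {A : Set X} (hA : MeasurableSet A)
    (hball : ∀ᵐ γ ∂P, ∀ t : unitInterval, γ.toMap t ∈ A) (t : unitInterval) :
    timeMarginal P t Aᶜ = 0 := by
  unfold timeMarginal
  rw [Measure.map_apply (measurable_eval t) hA.compl]
  refine measure_mono_null (t := {γ : UCurve X | ¬ ∀ t : unitInterval, γ.toMap t ∈ A})
    (fun γ hγ h => hγ (h t)) ?_
  exact ae_iff.1 hball

theorem l2_integrableOn [SecondCountableTopology X] [IsLocallyFiniteMeasure m] [ProperSpace X]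
    {f : X → ℝ} (hf : IsL2OnBalls m f) (o : X) (R : ℝ) :
    IntegrableOn f (Metric.closedBall o R) m := by
  have h1 : MemLp f 2 (m.restrict (Metric.closedBall o R)) :=
    (hf o (R + 1)).mono_measure
      (Measure.restrict_mono (Metric.closedBall_subset_ball (by linarith)) le_rfl)
  have : IsFiniteMeasure (m.restrict (Metric.closedBall o R)) :=
    ⟨by simpa using (isCompact_closedBall o R).measure_lt_top⟩
  exact h1.integrable (by norm_num)

theorem l2_sq_integrableOn {f : X → ℝ} (hf : IsL2OnBalls m f) (o : X) (R : ℝ) :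
    IntegrableOn (fun x => f x ^ 2) (Metric.closedBall o R) m := by
  have h1 : MemLp f 2 (m.restrict (Metric.closedBall o R)) :=
    (hf o (R + 1)).mono_measure
      (Measure.restrict_mono (Metric.closedBall_subset_ball (by linarith)) le_rfl)
  exact h1.integrable_sq

/-- the weak upper gradient inequality on the initial piece `[0,t]` of a geodesic plan. -/
theorem key_ineq [ProperSpace X] [IsLocallyFiniteMeasure m] {f D : X → ℝ}
    (hf : IsL2OnBalls m f) (hD : IsWUGLoc m f D) {P : Measure (UCurve X)}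
    [IsProbabilityMeasure P] (hgeo : ∀ᵐ γ ∂P, IsCSGeodesic γ) {C : ℝ≥0}
    (hC : ∀ t, timeMarginal P t ≤ (C : ℝ≥0∞) • m) {o : X} {R : ℝ}
    (hball : ∀ᵐ γ ∂P, ∀ t : unitInterval, γ.toMap t ∈ Metric.closedBall o R)
    {t : unitInterval} (ht : 0 < (t : ℝ)) {S : ℝ} (hS0 : 0 ≤ S)
    (hS : ∀ s : unitInterval, s ≤ t → ∫ x, D x ^ 2 ∂(timeMarginal P s) ≤ S)
    {W : ℝ} (hW0 : 0 ≤ W)
    (hW : ∫⁻ γ, ENNReal.ofReal (dist (γ.toMap 0) (γ.toMap 1) ^ 2) ∂P = ENNReal.ofReal W) :
    ∫ x, f x ∂(timeMarginal P 0) - ∫ x, f x ∂(timeMarginal P t) ≤ t / 2 * S + t / 2 * W := by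
  have hsm := (continuous_subCurve (X := X) 0 (t:ℝ)).measurable
  set Q := P.map (subCurve 0 (t:ℝ)) with hQ
  have hQp : IsProbabilityMeasure Q := Measure.isProbabilityMeasure_map hsm.aemeasurable
  have hcb : MeasurableSet (Metric.closedBall o R) := Metric.isClosed_closedBall.measurableSet
  have hQgeo : ∀ᵐ γ ∂Q, IsCSGeodesic γ := by
    refine (ae_map_iff (p := fun γ : UCurve X => IsCSGeodesic γ) hsm.aemeasurable
      isClosed_geod.measurableSet).2 ?_
    filter_upwards [hgeo] with γ h using geod_subCurve h t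
  have hQC : ∀ s, timeMarginal Q s ≤ (C : ℝ≥0∞) • m := by
    intro s
    rw [hQ, timeMarginal_subCurve]
    exact hC _
  have hclosed : IsClosed {γ : UCurve X | ∀ s : unitInterval, γ.toMap s ∈ Metric.closedBall o R} := by
    simp only [ofPred_forall]
    exact isClosed_iInter fun s => Metric.isClosed_closedBall.preimage (continuous_eval_left s)
  have hQball : ∀ᵐ γ ∂Q, ∀ s : unitInterval, γ.toMap s ∈ Metric.closedBall o R := by
    refine (ae_map_iff (p := fun γ : UCurve X => ∀ s : unitInterval,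
      γ.toMap s ∈ Metric.closedBall o R) hsm.aemeasurable hclosed.measurableSet).2 ?_
    filter_upwards [hball] with γ h s using h _
  have hDi : ∀ s, Integrable (fun x => D x ^ 2) (timeMarginal P s) := fun s =>
    integrable_marg (hC s) hcb (marg_null hcb hball s) (l2_sq_integrableOn hD.1 o R)
  have hfi : ∀ s, Integrable f (timeMarginal P s) := fun s =>
    integrable_marg (hC s) hcb (marg_null hcb hball s) (l2_integrableOn hf o R)
  have hQS : ∀ s : unitInterval,
      ∫⁻ x, ENNReal.ofReal (D x ^ 2) ∂(timeMarginal Q s) ≤ ENNReal.ofReal S := by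
    intro s
    rw [hQ, timeMarginal_subCurve, ← ofReal_integral_eq_lintegral_ofReal (hDi _)
      (Eventually.of_forall fun x => sq_nonneg _)]
    exact ENNReal.ofReal_le_ofReal (hS _ (subI_le t s))
  have hmain := plan_wug hD hQgeo hQC hQball ht hQS
  have hcost : ∫⁻ γ, ENNReal.ofReal (dist (γ.toMap 0) (γ.toMap 1) ^ 2) ∂Q =
      ENNReal.ofReal (t ^ 2) * ENNReal.ofReal W := by
    rw [hQ, lintegral_map _ hsm, ← hW, ← lintegral_const_mul]
    · refine lintegral_congr_ae ?_
      filter_upwards [hgeo] with γ h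
      rw [subCurve_zero, subCurve_one, h 0 t, ← ENNReal.ofReal_mul (by positivity)]
      congr 1
      simp [mul_pow, abs_of_pos ht]
    · exact (((continuous_eval_left 0).dist (continuous_eval_left 1)).measurable.pow_const
        2).ennreal_ofReal
    · exact (((continuous_eval_left 0).dist (continuous_eval_left 1)).measurable.pow_const
        2).ennreal_ofReal
  rw [hcost] at hmain
  have hrhs : ENNReal.ofReal ((t:ℝ) / 2) * ENNReal.ofReal S + ENNReal.ofReal (1 / (2 * t)) *
      (ENNReal.ofReal ((t:ℝ) ^ 2) * ENNReal.ofReal W) = ENNReal.ofReal (t / 2 * S + t / 2 * W) := by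
    rw [← ENNReal.ofReal_mul (by positivity), ← ENNReal.ofReal_mul (by positivity),
      ← ENNReal.ofReal_mul (by positivity), ← ENNReal.ofReal_add (by positivity) (by positivity)]
    congr 2
    field_simp
  rw [hrhs] at hmain
  -- left-hand side
  have e0 : timeMarginal Q 0 = timeMarginal P 0 := by
    rw [hQ, timeMarginal_subCurve]; congr 1; simp [subI]
  have e1 : timeMarginal Q 1 = timeMarginal P t := by
    rw [hQ, timeMarginal_subCurve]; congr 1; simp [subI]
  rw [← e0, ← e1]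
  have hf0 : Integrable f (timeMarginal Q 0) := by rw [e0]; exact hfi 0
  have hf1 : Integrable f (timeMarginal Q 1) := by rw [e1]; exact hfi t
  have i0 : Integrable (fun γ : UCurve X => f (γ.toMap 0)) Q :=
    (integrable_map_measure hf0.1 (measurable_eval 0).aemeasurable).1 hf0
  have i1 : Integrable (fun γ : UCurve X => f (γ.toMap 1)) Q :=
    (integrable_map_measure hf1.1 (measurable_eval 1).aemeasurable).1 hf1
  have j0 : ∫ x, f x ∂(timeMarginal Q 0) = ∫ γ, f (γ.toMap 0) ∂Q :=
    integral_map (measurable_eval 0).aemeasurable hf0.1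
  have j1 : ∫ x, f x ∂(timeMarginal Q 1) = ∫ γ, f (γ.toMap 1) ∂Q :=
    integral_map (measurable_eval 1).aemeasurable hf1.1
  rw [j0, j1, ← integral_sub i0 i1]
  calc ∫ γ, (f (γ.toMap 0) - f (γ.toMap 1)) ∂Q
      ≤ ∫ γ, |f (γ.toMap 1) - f (γ.toMap 0)| ∂Q := by
        refine integral_mono (i0.sub i1) (i1.sub i0).abs fun γ => ?_
        exact (le_abs_self _).trans (abs_sub_comm _ _).le
    _ = (∫⁻ γ, ENNReal.ofReal |f (γ.toMap 1) - f (γ.toMap 0)| ∂Q).toReal := by
        have i10 : Integrable (fun γ : UCurve X => |f (γ.toMap 1) - f (γ.toMap 0)|) Q :=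
          (i1.sub i0).abs
        exact integral_eq_lintegral_of_nonneg_ae (Eventually.of_forall fun _ => abs_nonneg _)
          i10.1
    _ ≤ (ENNReal.ofReal (t / 2 * S + t / 2 * W)).toReal :=
        ENNReal.toReal_mono ENNReal.ofReal_ne_top hmain
    _ = _ := ENNReal.toReal_ofReal (by positivity)

/-- the time marginals converge at `t = 0` against locally integrable functions. -/
theorem marg_cont [ProperSpace X] [IsLocallyFiniteMeasure m] {P : Measure (UCurve X)}
    [IsProbabilityMeasure P] {C : ℝ≥0} (hC : ∀ t, timeMarginal P t ≤ (C : ℝ≥0∞) • m)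
    {o : X} {R : ℝ}
    (hball : ∀ᵐ γ ∂P, ∀ t : unitInterval, γ.toMap t ∈ Metric.closedBall o R)
    {w : X → ℝ} (hw : IntegrableOn w (Metric.closedBall o R) m) {ε : ℝ} (hε : 0 < ε) :
    ∀ᶠ t : unitInterval in 𝓝 0,
      |∫ x, w x ∂(timeMarginal P t) - ∫ x, w x ∂(timeMarginal P 0)| ≤ ε := by
  have hcb : MeasurableSet (Metric.closedBall o R) := Metric.isClosed_closedBall.measurableSet
  have : IsFiniteMeasure (m.restrict (Metric.closedBall o R)) :=
    ⟨by simpa using (isCompact_closedBall o R).measure_lt_top⟩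
  have hε3 : 0 < ε / (3 * ((C:ℝ) + 1)) := by positivity
  obtain ⟨v, hv, hvi⟩ := Integrable.exists_boundedContinuous_integral_sub_le
    (μ := m.restrict (Metric.closedBall o R)) hw hε3
  have hnear : ∀ t, |∫ x, w x ∂(timeMarginal P t) - ∫ x, v x ∂(timeMarginal P t)| ≤ ε / 3 := by
    intro t
    have i1 := integrable_marg (hC t) hcb (marg_null hcb hball t) hw
    have i2 := integrable_marg (hC t) hcb (marg_null hcb hball t) hvi
    rw [← integral_sub i1 i2]
    refine (abs_integral_le_integral_abs).trans ?_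
    have h3 := integral_abs_marg_le (hC t) hcb (marg_null hcb hball t) (w := fun x => w x - v x)
      (hw.sub hvi)
    refine h3.trans ?_
    have h4 : ∫ x in Metric.closedBall o R, |w x - v x| ∂m ≤ ε / (3 * ((C:ℝ) + 1)) := hv
    calc (C:ℝ) * ∫ x in Metric.closedBall o R, |w x - v x| ∂m
        ≤ C * (ε / (3 * ((C:ℝ) + 1))) := mul_le_mul_of_nonneg_left h4 C.2
      _ ≤ ((C:ℝ) + 1) * (ε / (3 * ((C:ℝ) + 1))) :=
          mul_le_mul_of_nonneg_right (by linarith) hε3.le
      _ = ε / 3 := by field_simp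
  have hcont : Tendsto (fun t : unitInterval => ∫ x, v x ∂(timeMarginal P t)) (𝓝 0)
      (𝓝 (∫ x, v x ∂(timeMarginal P 0))) := by
    have h5 : ∀ t : unitInterval, ∫ x, v x ∂(timeMarginal P t) = ∫ γ, v (γ.toMap t) ∂P := by
      intro t
      exact integral_map (measurable_eval t).aemeasurable
        v.continuous.measurable.aestronglyMeasurable
    simp only [h5]
    refine tendsto_integral_filter_of_dominated_convergence (fun _ => ‖v‖) ?_ ?_ ?_ ?_
    · exact Eventually.of_forall fun t =>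
        (v.continuous.measurable.comp (measurable_eval t)).aestronglyMeasurable
    · exact Eventually.of_forall fun t => Eventually.of_forall fun γ => v.norm_coe_le_norm _
    · exact integrable_const _
    · refine Eventually.of_forall fun γ => ?_
      exact (v.continuous.comp γ.toMap.continuous).tendsto 0
  have h6 := Metric.tendsto_nhds.1 hcont (ε / 3) (by positivity)
  filter_upwards [h6] with t ht
  rw [Real.dist_eq] at ht
  have h7 := hnear t
  have h8 := hnear 0
  rw [abs_le] at h7 h8 ⊢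
  rw [abs_lt] at ht
  constructor <;> linarith [h7.1, h7.2, h8.1, h8.2, ht.1, ht.2]

end Marg

end Crest.Agent.R242.E1
end
end

-- ▼ part R242/E1Ent
section

/-!
Row 242, module E1, part A: the tangent-line lower bound for the relative entropy.
-/

set_option autoImplicit false

open MeasureTheory Filter Set
open scoped ENNReal NNReal Topology
open Crest.GeometryTopology.SyntheticRicci

noncomputable section

namespace Crest.Agent.R242

open InformationTheory (klFun)

lemma kl_core {a b : ℝ} (ha : 0 < a) (hb : 0 ≤ b) :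
    0 ≤ b * Real.log b - b - b * Real.log a + a := by
  rcases hb.eq_or_lt with rfl | hb
  · simp [ha.le]
  · have h1 : Real.log (a / b) ≤ a / b - 1 := Real.log_le_sub_one_of_pos (by positivity)
    rw [Real.log_div ha.ne' hb.ne'] at h1
    have h2 : b * (Real.log a - Real.log b) ≤ b * (a / b - 1) :=
      mul_le_mul_of_nonneg_left h1 hb.le
    have h3 : b * (a / b - 1) = a - b := by field_simp
    rw [h3] at h2
    nlinarith

section Ent

variable {X : Type*} [MetricSpace X] [MeasurableSpace X] {m : Measure X}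

lemma rnDeriv_le_of_le_smul [SigmaFinite m] {ν : Measure X} [SigmaFinite ν] {C : ℝ≥0∞}
    (h : ν ≤ C • m) : ∀ᵐ x ∂m, ν.rnDeriv m x ≤ C := by
  refine ae_le_of_forall_setLIntegral_le_of_sigmaFinite (Measure.measurable_rnDeriv ν m) ?_
  intro s hs _
  calc ∫⁻ x in s, ν.rnDeriv m x ∂m ≤ ν s := Measure.setLIntegral_rnDeriv_le s
    _ ≤ (C • m) s := h s
    _ = ∫⁻ _ in s, C ∂m := by simp [Measure.smul_apply]

lemma klFun_bdd (C : ℝ) : ∃ K : ℝ, 0 ≤ K ∧ ∀ r, 0 ≤ r → r ≤ C → klFun r ≤ K := by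
  obtain ⟨K, hK⟩ := (isCompact_Icc (a := (0 : ℝ)) (b := C)).exists_bound_of_continuousOn
    InformationTheory.continuous_klFun.continuousOn
  refine ⟨|K|, abs_nonneg _, fun r h0 h1 => ?_⟩
  have := hK r ⟨h0, h1⟩
  exact (le_abs_self _).trans (this.trans (le_abs_self _))

lemma ae_klFun_bdd [SigmaFinite m] {ν : Measure X} [SigmaFinite ν] {C : ℝ≥0}
    (h : ν ≤ (C : ℝ≥0∞) • m) :
    ∃ K : ℝ, 0 ≤ K ∧ ∀ᵐ x ∂m, 0 ≤ klFun (ν.rnDeriv m x).toReal ∧
      klFun (ν.rnDeriv m x).toReal ≤ K := by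
  obtain ⟨K, hK0, hK⟩ := klFun_bdd C
  refine ⟨K, hK0, ?_⟩
  filter_upwards [rnDeriv_le_of_le_smul h] with x hx
  refine ⟨InformationTheory.klFun_nonneg ENNReal.toReal_nonneg, hK _ ENNReal.toReal_nonneg ?_⟩
  exact ENNReal.toReal_le_of_le_ofReal C.2 (by simpa using hx)

lemma integrableOn_kl [SigmaFinite m] {ν : Measure X} [SigmaFinite ν] {C : ℝ≥0}
    (h : ν ≤ (C : ℝ≥0∞) • m) {B : Set X} (hB : m B < ∞) :
    IntegrableOn (fun x => klFun (ν.rnDeriv m x).toReal) B m := by
  obtain ⟨K, hK0, hK⟩ := ae_klFun_bdd h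
  have hm : Measurable (fun x => klFun (ν.rnDeriv m x).toReal) :=
    InformationTheory.measurable_klFun.comp (Measure.measurable_rnDeriv ν m).ennreal_toReal
  have : IsFiniteMeasure (m.restrict B) := ⟨by simpa using hB⟩
  refine Integrable.of_bound hm.aestronglyMeasurable K ?_
  filter_upwards [ae_restrict_of_ae hK] with x hx
  rw [Real.norm_eq_abs, abs_of_nonneg hx.1]
  exact hx.2

lemma entB_lt_top [SigmaFinite m] {ν : Measure X} [SigmaFinite ν] {C : ℝ≥0}
    (h : ν ≤ (C : ℝ≥0∞) • m) {B : Set X} (hB : m B < ∞) : entB m B ν < ∞ := by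
  have := (integrableOn_kl h hB).lintegral_lt_top
  exact this

lemma entB_toReal [SigmaFinite m] {ν : Measure X} (B : Set X) :
    (entB m B ν).toReal = ∫ x in B, klFun (ν.rnDeriv m x).toReal ∂m := by
  have hm : Measurable (fun x => klFun (ν.rnDeriv m x).toReal) :=
    InformationTheory.measurable_klFun.comp (Measure.measurable_rnDeriv ν m).ennreal_toReal
  rw [integral_eq_lintegral_of_nonneg_ae
    (Eventually.of_forall fun x => InformationTheory.klFun_nonneg ENNReal.toReal_nonneg)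
    hm.aestronglyMeasurable]
  rfl

lemma rnDeriv_zero_of_null [SigmaFinite m] {ν : Measure X} [SigmaFinite ν] {B : Set X}
    (hB : MeasurableSet B) (h : ν Bᶜ = 0) : ∀ᵐ x ∂m, x ∉ B → ν.rnDeriv m x = 0 := by
  have h1 : ∫⁻ x in Bᶜ, ν.rnDeriv m x ∂m = 0 :=
    le_antisymm ((Measure.setLIntegral_rnDeriv_le _).trans h.le) bot_le
  rw [lintegral_eq_zero_iff (Measure.measurable_rnDeriv ν m)] at h1
  have h2 := (ae_restrict_iff' hB.compl).1 h1
  filter_upwards [h2] with x hx hxB
  exact hx hxB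

lemma integral_eq_setIntegral_rnDeriv [SigmaFinite m] {ν : Measure X} [SigmaFinite ν]
    (hac : ν ≪ m) {B : Set X} (hB : MeasurableSet B) (h : ν Bᶜ = 0) (f : X → ℝ) :
    ∫ x, f x ∂ν = ∫ x in B, (ν.rnDeriv m x).toReal * f x ∂m := by
  rw [← integral_rnDeriv_smul hac, ← integral_indicator hB]
  refine integral_congr_ae ?_
  filter_upwards [rnDeriv_zero_of_null hB h] with x hx
  by_cases hxB : x ∈ B
  · simp [hxB]
  · simp [hxB, hx hxB]

/-- tangent-line lower bound for the entropy, with a truncated reference density. -/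
lemma ent_lower [SigmaFinite m] {A B' B : Set X} (hA : MeasurableSet A) (hB' : MeasurableSet B')
    (hB : MeasurableSet B) (hAB' : A ⊆ B') (hB'B : B' ⊆ B) (hBfin : m B < ∞)
    {r₀ : X → ℝ} (hr₀ : AEMeasurable r₀ (m.restrict B)) {c C : ℝ} (hc : 0 < c)
    (hcr : ∀ᵐ x ∂(m.restrict B), c ≤ r₀ x ∧ r₀ x ≤ C)
    {μ₀ : Measure X} (hμ₀ : μ₀ = (m.restrict A).withDensity (fun x => ENNReal.ofReal (r₀ x)))
    {ν : Measure X} [IsFiniteMeasure ν] {M : ℝ≥0} (hν : ν ≤ (M : ℝ≥0∞) • m)
    (hνs : ν B'ᶜ = 0) {f : X → ℝ} (hf : ∀ᵐ x ∂(m.restrict B), f x = Real.log (r₀ x)) :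
    ∫ x, f x ∂ν - ∫ x, f x ∂μ₀ - ∫ x in B' \ A, r₀ x ∂m ≤
      (entB m B ν).toReal - (entB m B μ₀).toReal := by
  have hAB : A ⊆ B := hAB'.trans hB'B
  have hr₀A : AEMeasurable r₀ (m.restrict A) := hr₀.mono_measure (Measure.restrict_mono hAB le_rfl)
  have hcrA : ∀ᵐ x ∂(m.restrict A), c ≤ r₀ x ∧ r₀ x ≤ C :=
    ae_restrict_of_ae_restrict_of_subset hAB hcr
  -- the density of `μ₀`
  have hμ₀' : μ₀ = m.withDensity (A.indicator (fun x => ENNReal.ofReal (r₀ x))) := by
    rw [hμ₀, withDensity_indicator hA]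
  have hρ₀ : ∀ᵐ x ∂m, μ₀.rnDeriv m x = A.indicator (fun x => ENNReal.ofReal (r₀ x)) x := by
    rw [hμ₀']
    exact Measure.rnDeriv_withDensity₀ m ((aemeasurable_indicator_iff hA).2 hr₀A.ennreal_ofReal)
  have hμ₀le : μ₀ ≤ ((Real.toNNReal C : ℝ≥0) : ℝ≥0∞) • m := by
    rw [hμ₀']
    refine Measure.le_intro fun s hs _ => ?_
    rw [withDensity_apply _ hs, Measure.smul_apply, smul_eq_mul, ← setLIntegral_const]
    refine lintegral_mono_ae ?_
    have h2 := (ae_restrict_iff' hA).1 hcrA
    filter_upwards [ae_restrict_of_ae h2] with x hx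
    by_cases hxA : x ∈ A
    · simp only [hxA, indicator_of_mem]
      exact ENNReal.ofReal_le_ofReal (hx hxA).2
    · simp [hxA]
  have hμ₀ac : μ₀ ≪ m := by rw [hμ₀']; exact withDensity_absolutelyContinuous _ _
  have hνac : ν ≪ m := (Measure.absolutelyContinuous_of_le hν).trans
    (Measure.smul_absolutelyContinuous)
  have hμ₀s : μ₀ Bᶜ = 0 := by
    rw [hμ₀']
    rw [withDensity_apply _ hB.compl, lintegral_eq_zero_iff' ]
    · refine (ae_restrict_iff' hB.compl).2 (Eventually.of_forall fun x hx => ?_)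
      have : x ∉ A := fun h => hx (hAB h)
      simp [this]
    · exact ((aemeasurable_indicator_iff hA).2 hr₀A.ennreal_ofReal).restrict
  have hνsB : ν Bᶜ = 0 := measure_mono_null (compl_subset_compl.2 hB'B) hνs
  have : IsFiniteMeasure μ₀ := by
    refine ⟨?_⟩
    rw [← measure_add_measure_compl hB, hμ₀s, add_zero]
    exact (hμ₀le B).trans_lt (by
      rw [Measure.smul_apply, smul_eq_mul]
      exact ENNReal.mul_lt_top ENNReal.coe_lt_top hBfin)
  have : IsFiniteMeasure (m.restrict B) := ⟨by simpa using hBfin⟩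
  rw [integral_eq_setIntegral_rnDeriv hνac hB hνsB, integral_eq_setIntegral_rnDeriv hμ₀ac hB hμ₀s,
    entB_toReal, entB_toReal]
  have hdiff : ∫ x in B' \ A, r₀ x ∂m = ∫ x in B, (B' \ A).indicator r₀ x ∂m := by
    rw [setIntegral_indicator (hB'.diff hA)]
    congr 2
    exact (inter_eq_right.2 (sdiff_subset.trans hB'B)).symm
  rw [hdiff]
  -- integrability
  have hfm : AEStronglyMeasurable f (m.restrict B) := by
    have : AEMeasurable (fun x => Real.log (r₀ x)) (m.restrict B) :=
      Real.measurable_log.comp_aemeasurable hr₀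
    exact this.aestronglyMeasurable.congr (by filter_upwards [hf] with x hx using hx.symm)
  have hfb : ∀ᵐ x ∂(m.restrict B), |f x| ≤ |Real.log c| + |Real.log C| := by
    filter_upwards [hf, hcr] with x hx hx2
    rw [hx, abs_le]
    have h1 : Real.log c ≤ Real.log (r₀ x) := Real.log_le_log hc hx2.1
    have h2 : Real.log (r₀ x) ≤ Real.log C := Real.log_le_log (hc.trans_le hx2.1) hx2.2
    constructor
    · have := neg_abs_le (Real.log c); have := abs_nonneg (Real.log C); linarith
    · have := le_abs_self (Real.log C); have := abs_nonneg (Real.log c); linarith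
  have hint : ∀ (κ : Measure X) [SigmaFinite κ] (D : ℝ≥0), κ ≤ (D : ℝ≥0∞) • m →
      IntegrableOn (fun x => (κ.rnDeriv m x).toReal * f x) B m := by
    intro κ _ D hκ
    refine Integrable.of_bound
      ((Measure.measurable_rnDeriv κ m).ennreal_toReal.aestronglyMeasurable.mul hfm)
      (D * (|Real.log c| + |Real.log C|)) ?_
    filter_upwards [hfb, ae_restrict_of_ae (rnDeriv_le_of_le_smul hκ)] with x hx hx2
    rw [Real.norm_eq_abs, abs_mul, abs_of_nonneg ENNReal.toReal_nonneg]
    refine mul_le_mul ?_ hx (abs_nonneg _) D.2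
    exact ENNReal.toReal_le_of_le_ofReal D.2 (by simpa using hx2)
  have i1 := hint ν M hν
  have i2 := hint μ₀ _ hμ₀le
  have i3 : IntegrableOn ((B' \ A).indicator r₀) B m := by
    refine Integrable.of_bound (hr₀.indicator (hB'.diff hA)).aestronglyMeasurable |C| ?_
    filter_upwards [hcr] with x hx
    by_cases hxA : x ∈ B' \ A
    · rw [indicator_of_mem hxA, Real.norm_eq_abs, abs_of_nonneg (hc.le.trans hx.1)]
      exact hx.2.trans (le_abs_self _)
    · rw [indicator_of_notMem hxA]; simp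
  have i4 := integrableOn_kl hν hBfin
  have i5 := integrableOn_kl hμ₀le hBfin
  have i12 : IntegrableOn (fun x => (ν.rnDeriv m x).toReal * f x -
    (μ₀.rnDeriv m x).toReal * f x) B m := i1.sub i2
  rw [← integral_sub i1 i2, ← integral_sub i12 i3, ← integral_sub i4 i5]
  refine integral_mono_ae (i12.sub i3) (i4.sub i5) ?_
  filter_upwards [hf, hcr, ae_restrict_of_ae hρ₀, ae_restrict_of_ae (rnDeriv_zero_of_null hB' hνs)]
    with x hfx hcx hρx hνx
  have hr0x : 0 < r₀ x := hc.trans_le hcx.1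
  have hb0 : 0 ≤ (ν.rnDeriv m x).toReal := ENNReal.toReal_nonneg
  have hkc := kl_core hr0x hb0
  simp only [hρx, hfx, InformationTheory.klFun_apply]
  by_cases hxA : x ∈ A
  · have h1 : x ∉ B' \ A := fun h => h.2 hxA
    rw [indicator_of_mem hxA, indicator_of_notMem h1, ENNReal.toReal_ofReal hr0x.le]
    nlinarith
  · rw [indicator_of_notMem hxA]
    by_cases hxB' : x ∈ B'
    · have h1 : x ∈ B' \ A := ⟨hxB', hxA⟩
      rw [indicator_of_mem h1]
      simp only [ENNReal.toReal_zero, zero_mul]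
      nlinarith
    · have h1 : x ∉ B' \ A := fun h => hxB' h.1
      rw [indicator_of_notMem h1, hνx hxB']
      simp

end Ent

end Crest.Agent.R242
end
end

-- ▼ part R242/E1Core
section

/-!
Row 242, module E1, part D: the variational core and the contact inequality.
-/

set_option autoImplicit false

open MeasureTheory Filter Set
open scoped ENNReal NNReal Topology
open Crest.GeometryTopology.SyntheticRicci

noncomputable section

namespace Crest.Agent.R242.E1

theorem dy_coe (n : ℕ) : ((dy n : unitInterval) : ℝ) = (1 / 2 : ℝ) ^ n := rfl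

theorem dy_pos (n : ℕ) : 0 < ((dy n : unitInterval) : ℝ) := by rw [dy_coe]; positivity

theorem tendsto_dy : Tendsto dy atTop (𝓝 (0 : unitInterval)) := by
  rw [tendsto_subtype_rng]
  exact tendsto_pow_atTop_nhds_zero_of_lt_one (by norm_num) (by norm_num)

section Core

variable {X : Type*} [MetricSpace X] [ProperSpace X] [MeasurableSpace X] [BorelSpace X]
  {m : Measure X} [IsLocallyFiniteMeasure m]

/-- the variational core of E1. -/
theorem core {P : Measure (UCurve X)} [IsProbabilityMeasure P]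
    (hgeo : ∀ᵐ γ ∂P, IsCSGeodesic γ) {C : ℝ≥0}
    (hC : ∀ t, timeMarginal P t ≤ (C : ℝ≥0∞) • m) {o : X} {R : ℝ}
    (hball : ∀ᵐ γ ∂P, ∀ t : unitInterval, γ.toMap t ∈ Metric.closedBall o R)
    {W : ℝ} (hW0 : 0 ≤ W)
    (hW : ∫⁻ γ, ENNReal.ofReal (dist (γ.toMap 0) (γ.toMap 1) ^ 2) ∂P = ENNReal.ofReal W)
    {φ f : X → ℝ} (hφ : IsL2OnBalls m φ) (hf : IsL2OnBalls m f) {D : ℝ → X → ℝ}
    (hD : ∀ η : ℝ, 0 < η → IsWUGLoc m (fun x => φ x + η * f x) (D η)) {A F : ℝ}
    (hDA : ∀ η : ℝ, 0 < η → ∫ x, D η x ^ 2 ∂(timeMarginal P 0) ≤ W + 2 * η * A + η ^ 2 * F)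
    (hcont : ∀ t : unitInterval, (t - t ^ 2 / 2 : ℝ) * W ≤
      ∫ x, φ x ∂(timeMarginal P 0) - ∫ x, φ x ∂(timeMarginal P t))
    {K : ℝ} (hK : ∀ᶠ n in atTop,
      ∫ x, f x ∂(timeMarginal P (dy n)) - ∫ x, f x ∂(timeMarginal P 0) ≤ (1 / 2) ^ n * K) :
    -A ≤ K := by
  have hcb : MeasurableSet (Metric.closedBall o R) := Metric.isClosed_closedBall.measurableSet
  have hint : ∀ (g : X → ℝ), IsL2OnBalls m g → ∀ s, Integrable g (timeMarginal P s) :=
    fun g hg s => integrable_marg (hC s) hcb (marg_null hcb hball s) (l2_integrableOn hg o R)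
  -- the inequality for fixed `η, ε`
  have main : ∀ η : ℝ, 0 < η → ∀ ε : ℝ, 0 < ε → -(η * K) ≤ η * A + η ^ 2 * F / 2 + ε / 2 := by
    intro η hη ε hε
    have hw : IntegrableOn (fun x => D η x ^ 2) (Metric.closedBall o R) m :=
      l2_sq_integrableOn (hD η hη).1 o R
    have hev := marg_cont hC hball hw hε
    -- a uniform neighbourhood
    have hev2 : ∀ᶠ n in atTop, ∀ s : unitInterval, s ≤ dy n →
        |∫ x, D η x ^ 2 ∂(timeMarginal P s) - ∫ x, D η x ^ 2 ∂(timeMarginal P 0)| ≤ ε := by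
      rw [Metric.eventually_nhds_iff] at hev
      obtain ⟨δ, hδ, h⟩ := hev
      have h1 := (Metric.tendsto_nhds.1 tendsto_dy) δ hδ
      filter_upwards [h1] with n hn s hs
      refine h ?_
      rw [Subtype.dist_eq, Real.dist_eq] at hn ⊢
      simp only [Icc.coe_zero, sub_zero] at hn ⊢
      rw [abs_of_nonneg s.2.1]
      rw [abs_of_pos (dy_pos n)] at hn
      exact lt_of_le_of_lt hs hn
    have hfφ : IsL2OnBalls m (fun x => φ x + η * f x) := fun o R =>
      (hφ o R).add ((hf o R).const_mul η)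
    have hlim : Tendsto (fun n : ℕ => -(((1:ℝ) / 2) ^ n * W / 2) - η * K) atTop
        (𝓝 (-(0 * W / 2) - η * K)) := by
      refine Tendsto.sub_const (Tendsto.neg ?_) _
      refine Tendsto.div_const (Tendsto.mul_const _ ?_) _
      exact tendsto_pow_atTop_nhds_zero_of_lt_one (by norm_num) (by norm_num)
    have hle : -(0 * W / 2) - η * K ≤ η * A + η ^ 2 * F / 2 + ε / 2 := by
      refine le_of_tendsto hlim ?_
      filter_upwards [hev2, hK] with n h1 h2
      set t : ℝ := (1 / 2 : ℝ) ^ n with ht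
      have ht0 : 0 < t := by positivity
      set S : ℝ := ∫ x, D η x ^ 2 ∂(timeMarginal P 0) + ε with hS
      have hS0 : 0 ≤ S := add_nonneg (integral_nonneg fun x => sq_nonneg _) hε.le
      have h3 : ∀ s : unitInterval, s ≤ dy n → ∫ x, D η x ^ 2 ∂(timeMarginal P s) ≤ S := by
        intro s hs
        have := (abs_le.1 (h1 s hs)).2
        linarith
      have h4 := key_ineq hfφ (hD η hη) hgeo hC hball (dy_pos n) hS0 h3 hW0 hW
      rw [integral_add (hint φ hφ 0) ((hint f hf 0).const_mul η),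
        integral_add (hint φ hφ _) ((hint f hf _).const_mul η), integral_const_mul,
        integral_const_mul, dy_coe, ← ht] at h4
      have h5 := hcont (dy n)
      rw [dy_coe, ← ht] at h5
      have h6 := hDA η hη
      have h7 : t * (-(t * W / 2) - η * K) ≤ t * (η * A + η ^ 2 * F / 2 + ε / 2) := by
        have h8 : η * (∫ x, f x ∂(timeMarginal P (dy n)) - ∫ x, f x ∂(timeMarginal P 0)) ≤
            η * (t * K) := mul_le_mul_of_nonneg_left h2 hη.le
        have h9 : t / 2 * S ≤ t / 2 * (W + 2 * η * A + η ^ 2 * F + ε) :=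
          mul_le_mul_of_nonneg_left (by linarith) (by positivity)
        nlinarith
      exact le_of_mul_le_mul_left h7 ht0
    linarith
  -- `ε → 0`
  have main2 : ∀ η : ℝ, 0 < η → -K ≤ A + η * F / 2 := by
    intro η hη
    have h1 : -(η * K) ≤ η * A + η ^ 2 * F / 2 := by
      refine le_of_forall_pos_le_add fun ε hε => ?_
      have := main η hη (2 * ε) (by positivity)
      linarith
    have h2 : η * (-K) ≤ η * (A + η * F / 2) := by nlinarith
    exact le_of_mul_le_mul_left h2 hη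
  have h3 : -K ≤ A := by
    refine le_of_forall_pos_le_add fun ε hε => ?_
    have hη : 0 < 2 * ε / (|F| + 1) := by positivity
    have h4 := main2 _ hη
    have h5 : 2 * ε / (|F| + 1) * F / 2 ≤ ε := by
      have h6 : 2 * ε / (|F| + 1) * F / 2 ≤ 2 * ε / (|F| + 1) * (|F| + 1) / 2 := by
        have : F ≤ |F| + 1 := (le_abs_self F).trans (by linarith)
        have := mul_le_mul_of_nonneg_left this hη.le
        linarith
      refine h6.trans (le_of_eq ?_)
      field_simp
    linarith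
  linarith

end Core

section Contact

variable {X : Type*} [MetricSpace X]

/-- pointwise contact inequality along a geodesic. -/
theorem contact_pointwise {o : X} {R : ℝ} {φ ψ : X → ℝ}
    (hle : ∀ x, ∀ y ∈ Metric.closedBall o R, φ x + ψ y ≤ dist x y ^ 2 / 2)
    {γ : UCurve X} (hγ : IsCSGeodesic γ) (h1 : γ.toMap 1 ∈ Metric.closedBall o R)
    (hc : φ (γ.toMap 0) + ψ (γ.toMap 1) = dist (γ.toMap 0) (γ.toMap 1) ^ 2 / 2)
    (t : unitInterval) :
    (t - t ^ 2 / 2 : ℝ) * dist (γ.toMap 0) (γ.toMap 1) ^ 2 ≤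
      φ (γ.toMap 0) - φ (γ.toMap t) := by
  have h2 := hle (γ.toMap t) _ h1
  have h3 := hγ t 1
  rw [h3] at h2
  have h4 : |(t:ℝ) - (1:unitInterval)| = 1 - t := by
    rw [abs_of_nonpos]
    · simp
    · have := t.2.2; simpa using this
  rw [h4] at h2
  nlinarith

/-- the ascending slope of `φ` at the starting point of a contact pair. -/
theorem ascSlope_le {o : X} {R : ℝ} {φ ψ : X → ℝ}
    (hle : ∀ x, ∀ y ∈ Metric.closedBall o R, φ x + ψ y ≤ dist x y ^ 2 / 2)
    {x y : X} (hy : y ∈ Metric.closedBall o R)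
    (hc : φ x + ψ y = dist x y ^ 2 / 2) :
    ascSlope φ x ≤ ENNReal.ofReal (dist x y) := by
  unfold ascSlope
  have hlim : Tendsto (fun z => ENNReal.ofReal ((dist z y + dist x y) / 2)) (𝓝[≠] x)
      (𝓝 (ENNReal.ofReal ((dist x y + dist x y) / 2))) := by
    refine ENNReal.tendsto_ofReal ?_
    have : Continuous (fun z => (dist z y + dist x y) / 2) := by fun_prop
    exact (this.tendsto x).mono_left nhdsWithin_le_nhds
  have h1 : limsup (fun z => ENNReal.ofReal ((φ z - φ x) / dist z x)) (𝓝[≠] x) ≤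
      limsup (fun z => ENNReal.ofReal ((dist z y + dist x y) / 2)) (𝓝[≠] x) := by
    refine limsup_le_limsup ?_ (by isBoundedDefault) (by isBoundedDefault)
    filter_upwards [self_mem_nhdsWithin] with z hz
    refine ENNReal.ofReal_le_ofReal ?_
    have hzx : 0 < dist z x := dist_pos.2 hz
    rw [div_le_iff₀ hzx]
    have h2 := hle z y hy
    have h3 : φ z - φ x ≤ (dist z y ^ 2 - dist x y ^ 2) / 2 := by linarith
    have h4 : dist z y - dist x y ≤ dist z x := by
      have := dist_triangle z x y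
      linarith
    have h5 : 0 ≤ dist z y + dist x y := by positivity
    nlinarith
  refine h1.trans ?_
  rcases (𝓝[≠] x).eq_or_neBot with hbot | hne
  · rw [hbot, limsup_bot]
    exact bot_le
  · rw [hlim.limsup_eq]
    simp

end Contact

end Crest.Agent.R242.E1
end
end

-- ▼ part R242/E1Opt
section

/-!
Row 242, module E1, part E: assembly of E1 from DYAD, the slope bound (S7) and the pairing calculus.
-/

set_option autoImplicit false

open MeasureTheory Filter Set
open scoped ENNReal NNReal Topology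
open Crest.GeometryTopology.SyntheticRicci

noncomputable section

namespace Crest.Agent.R242.E1

/-! ### truncated logarithm -/

/-- `log (max s c)`. -/
def tlog (c s : ℝ) : ℝ := Real.log (max s c)

theorem tlog_lip {c : ℝ} (hc : 0 < c) : LipschitzWith (Real.toNNReal (1 / c)) (tlog c) := by
  have key : ∀ a b : ℝ, c ≤ a → c ≤ b → Real.log a - Real.log b ≤ 1 / c * |a - b| := by
    intro a b ha hb
    have ha0 : 0 < a := hc.trans_le ha
    have hb0 : 0 < b := hc.trans_le hb
    rw [← Real.log_div ha0.ne' hb0.ne']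
    have h1 : Real.log (a / b) ≤ a / b - 1 := Real.log_le_sub_one_of_pos (by positivity)
    have h2 : a / b - 1 = (a - b) / b := by field_simp
    have h3 : (a - b) / b ≤ |a - b| / b := div_le_div_of_nonneg_right (le_abs_self _) hb0.le
    have h4 : |a - b| / b ≤ |a - b| / c := div_le_div_of_nonneg_left (abs_nonneg _) hc hb
    calc Real.log (a / b) ≤ |a - b| / c := by linarith
      _ = 1 / c * |a - b| := by ring
  refine LipschitzWith.of_dist_le_mul fun x y => ?_
  rw [Real.dist_eq, Real.dist_eq, Real.coe_toNNReal _ (by positivity)]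
  have h1 : |max x c - max y c| ≤ |x - y| := by
    have := abs_max_sub_max_le_max x c y c
    simpa using this
  have h2 := key (max x c) (max y c) (le_max_right _ _) (le_max_right _ _)
  have h3 := key (max y c) (max x c) (le_max_right _ _) (le_max_right _ _)
  have h4 : 1 / c * |max x c - max y c| ≤ 1 / c * |x - y| :=
    mul_le_mul_of_nonneg_left h1 (by positivity)
  rw [abs_sub_comm (max y c)] at h3
  unfold tlog
  rw [abs_le]
  constructor <;> linarith

theorem tlog_deriv {c s : ℝ} (hs : c < s) : deriv (tlog c) s = 1 / s := by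
  have h1 : tlog c =ᶠ[𝓝 s] Real.log := by
    filter_upwards [lt_mem_nhds hs] with r hr
    unfold tlog
    rw [max_eq_left hr.le]
  rw [h1.deriv_eq, Real.deriv_log, one_div]

theorem tlog_diff {c : ℝ} (hc : 0 < c) {s : ℝ} (hs : s ∉ ({c} : Set ℝ)) :
    DifferentiableAt ℝ (tlog c) s := by
  have hs' : s ≠ c := fun h => hs (by simp [h])
  rcases lt_or_gt_of_ne hs' with h | h
  · have h1 : tlog c =ᶠ[𝓝 s] fun _ => Real.log c := by
      filter_upwards [gt_mem_nhds h] with r hr
      unfold tlog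
      rw [max_eq_right (le_of_lt hr)]
    exact h1.differentiableAt_iff.2 (differentiableAt_const _)
  · have h1 : tlog c =ᶠ[𝓝 s] Real.log := by
      filter_upwards [lt_mem_nhds h] with r hr
      unfold tlog
      rw [max_eq_left (le_of_lt hr)]
    exact h1.differentiableAt_iff.2 (Real.differentiableAt_log (by linarith))

/-! ### optimal geodesic plans -/

section Opt

variable {X : Type*} [MetricSpace X] [ProperSpace X] [MeasurableSpace X] [BorelSpace X]

theorem measurable_ends : Measurable (fun γ : UCurve X => (γ.toMap 0, γ.toMap 1)) :=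
  (measurable_eval 0).prodMk (measurable_eval 1)

theorem opt_zero {P : Measure (UCurve X)} {μ₀ μ₁ : Measure X} (h : IsOptGeo P μ₀ μ₁) :
    timeMarginal P 0 = μ₀ := by
  rw [← h.opt.1.1]
  unfold timeMarginal endpointLaw
  rw [Measure.map_map measurable_fst measurable_ends]
  rfl

theorem opt_one {P : Measure (UCurve X)} {μ₀ μ₁ : Measure X} (h : IsOptGeo P μ₀ μ₁) :
    timeMarginal P 1 = μ₁ := by
  rw [← h.opt.1.2]
  unfold timeMarginal endpointLaw
  rw [Measure.map_map measurable_snd measurable_ends]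
  rfl

theorem opt_cost {P : Measure (UCurve X)} {μ₀ μ₁ : Measure X} (h : IsOptGeo P μ₀ μ₁) :
    ∫⁻ γ, ENNReal.ofReal (dist (γ.toMap 0) (γ.toMap 1) ^ 2) ∂P = w2sq μ₀ μ₁ := by
  have h1 : quadCost (endpointLaw P) = w2sq μ₀ μ₁ := by
    unfold w2sq
    refine le_antisymm (le_iInf₂ fun q hq => h.opt.2 q hq) (iInf₂_le
      (f := fun (q : Measure (X × X)) (_ : IsCouplingOf q μ₀ μ₁) => quadCost q)
      (endpointLaw P) h.opt.1)
  rw [← h1]
  unfold quadCost endpointLaw
  rw [lintegral_map _ measurable_ends]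
  · refine lintegral_congr fun γ => ?_
    rw [edist_dist, ENNReal.ofReal_pow dist_nonneg]
  · exact (measurable_fst.edist measurable_snd).pow_const 2

theorem ae_start {P : Measure (UCurve X)} {μ₀ : Measure X} (h : timeMarginal P 0 = μ₀)
    {p : X → Prop} (hp : ∀ᵐ x ∂μ₀, p x) : ∀ᵐ γ ∂P, p (γ.toMap 0) := by
  rw [← h] at hp
  exact ae_of_ae_map (measurable_eval 0).aemeasurable hp

theorem ae_end {P : Measure (UCurve X)} {μ₁ : Measure X} (h : timeMarginal P 1 = μ₁)
    {p : X → Prop} (hp : ∀ᵐ x ∂μ₁, p x) : ∀ᵐ γ ∂P, p (γ.toMap 1) := by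
  rw [← h] at hp
  exact ae_of_ae_map (measurable_eval 1).aemeasurable hp

theorem ae_ball {P : Measure (UCurve X)} {μ₀ μ₁ : Measure X} (h : IsOptGeo P μ₀ μ₁)
    {o : X} {R : ℝ} (h₀ : μ₀ (Metric.closedBall o R)ᶜ = 0) (h₁ : μ₁ (Metric.closedBall o R)ᶜ = 0) :
    ∀ᵐ γ ∂P, γ.toMap 0 ∈ Metric.closedBall o R ∧ γ.toMap 1 ∈ Metric.closedBall o R ∧
      ∀ t : unitInterval, γ.toMap t ∈ Metric.closedBall o (R + 2 * R * t) := by
  have a0 : ∀ᵐ x ∂μ₀, x ∈ Metric.closedBall o R := by rw [ae_iff]; exact h₀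
  have a1 : ∀ᵐ x ∂μ₁, x ∈ Metric.closedBall o R := by rw [ae_iff]; exact h₁
  filter_upwards [h.geod, ae_start (opt_zero h) a0, ae_end (opt_one h) a1] with γ hg h0 h1
  refine ⟨h0, h1, fun t => ?_⟩
  rw [Metric.mem_closedBall] at h0 h1 ⊢
  have h2 := hg t 0
  have h3 : |(t:ℝ) - (0:unitInterval)| = t := by simp [abs_of_nonneg t.2.1]
  rw [h3] at h2
  have h4 := dist_triangle_right (γ.toMap 0) (γ.toMap 1) o
  have h5 := dist_triangle (γ.toMap t) (γ.toMap 0) o
  have h6 : (t:ℝ) * dist (γ.toMap 0) (γ.toMap 1) ≤ t * (2 * R) :=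
    mul_le_mul_of_nonneg_left (by linarith) t.2.1
  linarith

end Opt

theorem isWUG_min {X : Type*} [MetricSpace X] [MeasurableSpace X] {m : Measure X} {f : X → ℝ}
    (hf : IsSobolevLoc m f) : IsWUGLoc m f (minWeakGrad m f) := by
  unfold minWeakGrad
  rw [dif_pos hf.2]
  exact (Classical.choose_spec hf.2).1

end Crest.Agent.R242.E1
end
end

-- ▼ part R242/E1Of
section

/-!
Row 242, module E1, part F: E1 from DYAD, the slope bound (S7) and the pairing calculus.
-/

set_option autoImplicit false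

open MeasureTheory Filter Set
open scoped ENNReal NNReal Topology
open Crest.GeometryTopology.SyntheticRicci

noncomputable section

namespace Crest.Agent.R242

open E1

variable {X : Type*} [MetricSpace X] [ProperSpace X] [MeasurableSpace X] [BorelSpace X]
  {m : Measure X} [IsLocallyFiniteMeasure m] [m.IsOpenPosMeasure] {k N : ℝ}

theorem ae_contact {μ₀ μ₁ : Measure X} {φ ψ : X → ℝ}
    (hcont : ∀ q : Measure (X × X), IsOptCouplingOf q μ₀ μ₁ →
      ∀ᵐ p ∂q, φ p.1 + ψ p.2 = dist p.1 p.2 ^ 2 / 2)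
    {P : Measure (UCurve X)} (hP : IsOptGeo P μ₀ μ₁) :
    ∀ᵐ γ ∂P, φ (γ.toMap 0) + ψ (γ.toMap 1) = dist (γ.toMap 0) (γ.toMap 1) ^ 2 / 2 := by
  have h := hcont _ hP.opt
  exact ae_of_ae_map (p := fun p : X × X => φ p.1 + ψ p.2 = dist p.1 p.2 ^ 2 / 2)
    measurable_ends.aemeasurable h

/-- the weak gradient of a Kantorovich potential is bounded by the transport distance. -/
theorem wg_pot_le {o : X} {R : ℝ} {μ₀ μ₁ : Measure X}
    (hac : μ₀ ≪ m) {φ ψ : X → ℝ}
    (hle : ∀ x, ∀ y ∈ Metric.closedBall o R, φ x + ψ y ≤ dist x y ^ 2 / 2)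
    (hs₁ : μ₁ (Metric.closedBall o R)ᶜ = 0)
    (hcont : ∀ q : Measure (X × X), IsOptCouplingOf q μ₀ μ₁ →
      ∀ᵐ p ∂q, φ p.1 + ψ p.2 = dist p.1 p.2 ^ 2 / 2)
    (hslope : ∀ᵐ x ∂m, ENNReal.ofReal (minWeakGrad m φ x) ≤ ascSlope φ x)
    (hnn : ∀ᵐ x ∂m, 0 ≤ minWeakGrad m φ x)
    (hmeas : AEStronglyMeasurable (minWeakGrad m φ) m)
    {P : Measure (UCurve X)} (hP : IsOptGeo P μ₀ μ₁) :
    ∫⁻ x, ENNReal.ofReal (minWeakGrad m φ x ^ 2) ∂μ₀ ≤ w2sq μ₀ μ₁ := by
  have e0 := opt_zero hP
  have hm : AEMeasurable (fun x => ENNReal.ofReal (minWeakGrad m φ x ^ 2)) μ₀ :=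
    ((hmeas.aemeasurable.mono_ac hac).pow_const 2).ennreal_ofReal
  have a1 : ∀ᵐ x ∂μ₁, x ∈ Metric.closedBall o R := by rw [ae_iff]; exact hs₁
  rw [← opt_cost hP]
  calc ∫⁻ x, ENNReal.ofReal (minWeakGrad m φ x ^ 2) ∂μ₀
      = ∫⁻ γ : UCurve X, ENNReal.ofReal (minWeakGrad m φ (γ.toMap 0) ^ 2) ∂P := by
        conv_lhs => rw [← e0]
        unfold timeMarginal
        rw [lintegral_map']
        · have : AEMeasurable (fun x => ENNReal.ofReal (minWeakGrad m φ x ^ 2))
            (timeMarginal P 0) := by rw [e0]; exact hm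
          exact this
        · exact (measurable_eval 0).aemeasurable
    _ ≤ _ := by
        refine lintegral_mono_ae ?_
        filter_upwards [ae_contact hcont hP, ae_start e0 (hac.ae_le hslope),
          ae_start e0 (hac.ae_le hnn), ae_end (opt_one hP) a1] with γ h1 h2 h3 h4
        have h5 := h2.trans (ascSlope_le hle h4 h1)
        rw [ENNReal.ofReal_le_ofReal_iff dist_nonneg] at h5
        refine ENNReal.ofReal_le_ofReal ?_
        exact pow_le_pow_left₀ h3 h5 2

theorem E1_of (H : Hyp m k N) (o : X) {R : ℝ} (hR : 0 < R) {r₀ : X → ℝ}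
    (hr₀ : IsSobolevLoc m r₀) {c C : ℝ} (hc : 0 < c)
    (hcr : ∀ᵐ x ∂(m.restrict (Metric.closedBall o (4 * R))), c ≤ r₀ x ∧ r₀ x ≤ C)
    {μ₀ μ₁ : Measure X} [IsProbabilityMeasure μ₀] [IsProbabilityMeasure μ₁]
    (hμ₀ : μ₀ = (m.restrict (Metric.closedBall o R)).withDensity
      (fun x => ENNReal.ofReal (r₀ x)))
    {M : ℝ≥0} (hμ₁ : μ₁ ≤ (M : ℝ≥0∞) • m)
    (hs₁ : μ₁ (Metric.closedBall o R)ᶜ = 0) {φ ψ : X → ℝ}
    (hle : ∀ x, ∀ y ∈ Metric.closedBall o R, φ x + ψ y ≤ dist x y ^ 2 / 2)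
    (hcont : ∀ q : Measure (X × X), IsOptCouplingOf q μ₀ μ₁ →
      ∀ᵐ p ∂q, φ p.1 + ψ p.2 = dist p.1 p.2 ^ 2 / 2)
    {e : ℝ} (he : ∀ᶠ n : ℕ in atTop,
      ∫ x in Metric.closedBall o (R + 2 * R * (1 / 2) ^ n) \ Metric.closedBall o R, r₀ x ∂m ≤
        e * (1 / 2) ^ n)
    -- S7
    (hφ : IsSobolevLoc m φ)
    (hslope : ∀ᵐ x ∂m, ENNReal.ofReal (minWeakGrad m φ x) ≤ ascSlope φ x)
    -- S5
    (hlog : IsSobolevLoc m (fun x => tlog (c / 2) (r₀ x)))
    -- DYAD
    {C' : ℝ≥0} {P : Measure (UCurve X)} (hP : IsOptGeo P μ₀ μ₁)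
    (hPC : ∀ t, timeMarginal P t ≤ (C' : ℝ≥0∞) • m)
    (hPE : ∀ n : ℕ, entB m (Metric.closedBall o (4 * R)) (timeMarginal P (dy n)) ≤
          ENNReal.ofReal (1 - (1 / 2) ^ n) * entB m (Metric.closedBall o (4 * R)) μ₀ +
          ENNReal.ofReal ((1 / 2) ^ n) * entB m (Metric.closedBall o (4 * R)) μ₁ +
          ENNReal.ofReal (k / 2 * (1 / 2) ^ n * (1 - (1 / 2) ^ n)) * w2sq μ₀ μ₁) :
    -(∫ x in Metric.closedBall o R, gradPairing m φ r₀ x ∂m) ≤
      (entB m (Metric.closedBall o (4 * R)) μ₁).toReal -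
        (entB m (Metric.closedBall o (4 * R)) μ₀).toReal +
        k / 2 * (w2sq μ₀ μ₁).toReal + e := by
  have hPp : IsProbabilityMeasure P := hP.prob
  have hcb : ∀ r, MeasurableSet (Metric.closedBall o r) :=
    fun r => Metric.isClosed_closedBall.measurableSet
  have hfinB : ∀ r, m (Metric.closedBall o r) < ∞ :=
    fun r => (isCompact_closedBall o r).measure_lt_top
  set f : X → ℝ := fun x => tlog (c / 2) (r₀ x) with hf
  have hsub4 : Metric.closedBall o R ⊆ Metric.closedBall o (4 * R) :=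
    Metric.closedBall_subset_closedBall (by linarith)
  have hcrR : ∀ᵐ x ∂(m.restrict (Metric.closedBall o R)), c ≤ r₀ x ∧ r₀ x ≤ C :=
    ae_restrict_of_ae_restrict_of_subset hsub4 hcr
  have hr₀m4 : AEMeasurable r₀ (m.restrict (Metric.closedBall o (4 * R))) :=
    ((hr₀.1 o (4 * R + 1)).1.mono_measure
      (Measure.restrict_mono (Metric.closedBall_subset_ball (by linarith)) le_rfl)).aemeasurable
  have hr₀m : AEMeasurable r₀ (m.restrict (Metric.closedBall o R)) :=
    hr₀m4.mono_measure (Measure.restrict_mono hsub4 le_rfl)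
  have hac₀ : μ₀ ≪ m := by
    rw [hμ₀]
    exact (withDensity_absolutelyContinuous _ _).trans Measure.absolutelyContinuous_restrict
  have hs₀ : μ₀ (Metric.closedBall o R)ᶜ = 0 := by
    rw [hμ₀]
    refine withDensity_absolutelyContinuous _ _ ?_
    rw [Measure.restrict_apply (hcb R).compl]
    simp
  have e0 := opt_zero hP
  have e1 := opt_one hP
  have hball := ae_ball hP hs₀ hs₁
  have hball3 : ∀ᵐ γ ∂P, ∀ t : unitInterval, γ.toMap t ∈ Metric.closedBall o (3 * R) := by
    filter_upwards [hball] with γ h t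
    refine Metric.closedBall_subset_closedBall ?_ (h.2.2 t)
    have := t.2.2
    nlinarith
  -- the transport cost
  have hWfin : w2sq μ₀ μ₁ < ∞ := by
    rw [← opt_cost hP]
    calc ∫⁻ γ, ENNReal.ofReal (dist (γ.toMap 0) (γ.toMap 1) ^ 2) ∂P
        ≤ ∫⁻ _, ENNReal.ofReal ((2 * R) ^ 2) ∂P := by
          refine lintegral_mono_ae ?_
          filter_upwards [hball] with γ h
          refine ENNReal.ofReal_le_ofReal (pow_le_pow_left₀ dist_nonneg ?_ 2)
          have h0 := h.1
          have h1 := h.2.1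
          rw [Metric.mem_closedBall] at h0 h1
          have := dist_triangle_right (γ.toMap 0) (γ.toMap 1) o
          linarith
      _ < ∞ := by simp
  set W : ℝ := (w2sq μ₀ μ₁).toReal with hWdef
  have hW0 : 0 ≤ W := ENNReal.toReal_nonneg
  have hW : ∫⁻ γ, ENNReal.ofReal (dist (γ.toMap 0) (γ.toMap 1) ^ 2) ∂P = ENNReal.ofReal W := by
    rw [opt_cost hP, ENNReal.ofReal_toReal hWfin.ne]
  have hdm : Measurable (fun γ : UCurve X => dist (γ.toMap 0) (γ.toMap 1) ^ 2) :=
    ((continuous_eval_left 0).dist (continuous_eval_left 1)).measurable.pow_const 2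
  have hdi : Integrable (fun γ : UCurve X => dist (γ.toMap 0) (γ.toMap 1) ^ 2) P := by
    refine ⟨hdm.aestronglyMeasurable, ?_⟩
    rw [hasFiniteIntegral_iff_ofReal (Eventually.of_forall fun _ => sq_nonneg _), hW]
    exact ENNReal.ofReal_lt_top
  have hWint : ∫ γ, dist (γ.toMap 0) (γ.toMap 1) ^ 2 ∂P = W := by
    rw [integral_eq_lintegral_of_nonneg_ae (Eventually.of_forall fun _ => sq_nonneg _)
      hdm.aestronglyMeasurable, hW, ENNReal.toReal_ofReal hW0]
  -- Sobolev classes
  have hηf : ∀ η : ℝ, IsSobolevLoc m (fun x => η * f x) := fun η => sobLoc_smul H η hlog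
  have hμ₀C : μ₀ ≤ (C' : ℝ≥0∞) • m := by rw [← e0]; exact hPC 0
  have hint₀ : ∀ w : X → ℝ, IntegrableOn w (Metric.closedBall o R) m → Integrable w μ₀ :=
    fun w hw => integrable_marg hμ₀C (hcb R) hs₀ hw
  have i1 : Integrable (fun x => minWeakGrad m φ x ^ 2) μ₀ :=
    hint₀ _ (l2_sq_integrableOn (isWUG_min hφ).1 o R)
  have i2 : Integrable (gradPairing m φ f) μ₀ :=
    hint₀ _ ((integrableOn_gp H hφ hlog o (R + 1)).mono_set
      (Metric.closedBall_subset_ball (by linarith)))
  have i3 : Integrable (fun x => minWeakGrad m f x ^ 2) μ₀ :=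
    hint₀ _ (l2_sq_integrableOn (isWUG_min hlog).1 o R)
  have hφW : ∫ x, minWeakGrad m φ x ^ 2 ∂μ₀ ≤ W := by
    have h1 := wg_pot_le hac₀ hle hs₁ hcont hslope (wg_nonneg H hφ) (aesm_wg H hφ) hP
    rw [integral_eq_lintegral_of_nonneg_ae (Eventually.of_forall fun _ => sq_nonneg _) i1.1]
    exact ENNReal.toReal_mono hWfin.ne h1
  set A : ℝ := ∫ x, gradPairing m φ f x ∂μ₀ with hA
  set F : ℝ := ∫ x, minWeakGrad m f x ^ 2 ∂μ₀ with hF
  have hDA : ∀ η : ℝ, 0 < η →
      ∫ x, minWeakGrad m (fun x => φ x + η * f x) x ^ 2 ∂(timeMarginal P 0) ≤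
        W + 2 * η * A + η ^ 2 * F := by
    intro η _
    rw [e0]
    have h1 := hac₀.ae_le (wg_add_sq H hφ (hηf η))
    have h2 := hac₀.ae_le (gp_smul_right H η hφ hlog)
    have h3 := hac₀.ae_le (gp_self H (hηf η))
    have h4 := hac₀.ae_le (gp_smul_left H η hlog (hηf η))
    have h5 := hac₀.ae_le (gp_smul_right H η hlog hlog)
    have h6 := hac₀.ae_le (gp_self H hlog)
    have h7 : ∫ x, minWeakGrad m (fun x => φ x + η * f x) x ^ 2 ∂μ₀ =
        ∫ x, (minWeakGrad m φ x ^ 2 + 2 * η * gradPairing m φ f x +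
          η ^ 2 * minWeakGrad m f x ^ 2) ∂μ₀ := by
      refine integral_congr_ae ?_
      filter_upwards [h1, h2, h3, h4, h5, h6] with x g1 g2 g3 g4 g5 g6
      rw [g1, g2, ← g3, g4, g5, g6]
      ring
    have i12 : Integrable (fun x => minWeakGrad m φ x ^ 2 + 2 * η * gradPairing m φ f x) μ₀ :=
      i1.add (i2.const_mul (2 * η))
    rw [h7, integral_add i12 (i3.const_mul _),
      integral_add i1 (i2.const_mul _), integral_const_mul, integral_const_mul]
    linarith
  have hD : ∀ η : ℝ, 0 < η →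
      IsWUGLoc m (fun x => φ x + η * f x) (minWeakGrad m (fun x => φ x + η * f x)) :=
    fun η _ => isWUG_min (sobLoc_add H hφ (hηf η))
  -- contact
  have hφint : ∀ t, Integrable φ (timeMarginal P t) := fun t =>
    integrable_marg (hPC t) (hcb _) (marg_null (hcb _) hball3 t) (l2_integrableOn hφ.1 o (3 * R))
  have hct : ∀ t : unitInterval, (t - t ^ 2 / 2 : ℝ) * W ≤
      ∫ x, φ x ∂(timeMarginal P 0) - ∫ x, φ x ∂(timeMarginal P t) := by
    intro t
    have j : ∀ s : unitInterval, Integrable (fun γ : UCurve X => φ (γ.toMap s)) P ∧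
        ∫ x, φ x ∂(timeMarginal P s) = ∫ γ, φ (γ.toMap s) ∂P := fun s =>
      ⟨(integrable_map_measure (hφint s).1 (measurable_eval s).aemeasurable).1 (hφint s),
        integral_map (measurable_eval s).aemeasurable (hφint s).1⟩
    rw [(j 0).2, (j t).2, ← integral_sub (j 0).1 (j t).1, ← hWint, ← integral_const_mul]
    refine integral_mono_ae (hdi.const_mul _) ((j 0).1.sub (j t).1) ?_
    filter_upwards [hP.geod, hball, ae_contact hcont hP] with γ h1 h2 h3
    exact contact_pointwise hle h1 h2.2.1 h3 t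
  -- entropy
  have hE₀ := entB_lt_top hμ₀C (hfinB (4 * R))
  have hE₁ := entB_lt_top hμ₁ (hfinB (4 * R))
  have hlogr : ∀ᵐ x ∂(m.restrict (Metric.closedBall o (4 * R))), f x = Real.log (r₀ x) := by
    filter_upwards [hcr] with x hx
    simp only [hf, tlog]
    rw [max_eq_left (by linarith [hx.1])]
  have hK : ∀ᶠ n in atTop,
      ∫ x, f x ∂(timeMarginal P (dy n)) - ∫ x, f x ∂(timeMarginal P 0) ≤
        (1 / 2) ^ n * ((entB m (Metric.closedBall o (4 * R)) μ₁).toReal -
        (entB m (Metric.closedBall o (4 * R)) μ₀).toReal + k / 2 * W + e) := by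
    filter_upwards [he] with n hn
    have ht0 : (0:ℝ) < (1 / 2) ^ n := by positivity
    have ht1 : ((1:ℝ) / 2) ^ n ≤ 1 := pow_le_one₀ (by norm_num) (by norm_num)
    set t : ℝ := (1 / 2 : ℝ) ^ n with ht
    have hsub1 : Metric.closedBall o R ⊆ Metric.closedBall o (R + 2 * R * t) :=
      Metric.closedBall_subset_closedBall (by nlinarith)
    have hsub2 : Metric.closedBall o (R + 2 * R * t) ⊆ Metric.closedBall o (4 * R) :=
      Metric.closedBall_subset_closedBall (by nlinarith)
    have hnull : timeMarginal P (dy n) (Metric.closedBall o (R + 2 * R * t))ᶜ = 0 := by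
      unfold timeMarginal
      rw [Measure.map_apply (measurable_eval _) (hcb _).compl]
      refine measure_mono_null (t := {γ : UCurve X | ¬ (γ.toMap 0 ∈ Metric.closedBall o R ∧
        γ.toMap 1 ∈ Metric.closedBall o R ∧
        ∀ t : unitInterval, γ.toMap t ∈ Metric.closedBall o (R + 2 * R * t))})
        (fun γ hγ h => hγ (h.2.2 (dy n))) ?_
      exact ae_iff.1 hball
    have hprob : IsProbabilityMeasure (timeMarginal P (dy n)) :=
      Measure.isProbabilityMeasure_map (measurable_eval _).aemeasurable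
    have h1 := ent_lower (hcb R) (hcb (R + 2 * R * t)) (hcb (4 * R)) hsub1 hsub2 (hfinB _)
      hr₀m4 hc hcr hμ₀ (hPC (dy n)) hnull hlogr
    have h2 := hPE n
    have hEn := entB_lt_top (hPC (dy n)) (hfinB (4 * R))
    have h3 : (entB m (Metric.closedBall o (4 * R)) (timeMarginal P (dy n))).toReal ≤
        (1 - t) * (entB m (Metric.closedBall o (4 * R)) μ₀).toReal +
        t * (entB m (Metric.closedBall o (4 * R)) μ₁).toReal + k / 2 * t * (1 - t) * W := by
      have hk := H.kpos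
      have hn1 : 0 ≤ 1 - t := by linarith
      have hn2 : 0 ≤ k / 2 * t * (1 - t) := by positivity
      have g1 : ENNReal.ofReal (1 - t) * entB m (Metric.closedBall o (4 * R)) μ₀ ≠ ∞ :=
        ENNReal.mul_ne_top ENNReal.ofReal_ne_top hE₀.ne
      have g2 : ENNReal.ofReal t * entB m (Metric.closedBall o (4 * R)) μ₁ ≠ ∞ :=
        ENNReal.mul_ne_top ENNReal.ofReal_ne_top hE₁.ne
      have g3 : ENNReal.ofReal (k / 2 * t * (1 - t)) * w2sq μ₀ μ₁ ≠ ∞ :=
        ENNReal.mul_ne_top ENNReal.ofReal_ne_top hWfin.ne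
      have h4 := ENNReal.toReal_mono (ENNReal.add_ne_top.2 ⟨ENNReal.add_ne_top.2 ⟨g1, g2⟩, g3⟩) h2
      rw [ENNReal.toReal_add (ENNReal.add_ne_top.2 ⟨g1, g2⟩) g3, ENNReal.toReal_add g1 g2,
        ENNReal.toReal_mul, ENNReal.toReal_mul, ENNReal.toReal_mul,
        ENNReal.toReal_ofReal hn1, ENNReal.toReal_ofReal ht0.le, ENNReal.toReal_ofReal hn2] at h4
      exact h4
    rw [e0]
    have hk := H.kpos
    have h5 : k / 2 * t * (1 - t) * W ≤ k / 2 * t * W := by
      have : 0 ≤ k / 2 * t * t * W := by positivity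
      nlinarith
    nlinarith
  have hcore := core hP.geod hPC hball3 hW0 hW hφ.1 hlog.1 hD hDA hct hK
  -- identify `A`
  have hAeq : A = ∫ x in Metric.closedBall o R, gradPairing m φ r₀ x ∂m := by
    rw [hA, hμ₀, integral_withDensity_eq_integral_toReal_smul₀ hr₀m.ennreal_ofReal
      (Eventually.of_forall fun x => ENNReal.ofReal_lt_top)]
    refine integral_congr_ae ?_
    filter_upwards [hcrR, ae_restrict_of_ae (gp_comm H hφ hlog),
      ae_restrict_of_ae (gp_comp_left_lip H (tlog_lip (c := c / 2) (by positivity))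
        (countable_singleton (c / 2)) (fun r hr => tlog_diff (by positivity) hr) hr₀ hφ),
      ae_restrict_of_ae (gp_comm H hφ hr₀)] with x h1 h2 h3 h4
    have hpos : 0 < r₀ x := hc.trans_le h1.1
    rw [ENNReal.toReal_ofReal hpos.le, smul_eq_mul]
    rw [h2]
    have h5 : gradPairing m f φ x = deriv (tlog (c / 2)) (r₀ x) * gradPairing m r₀ φ x := h3
    rw [h5, h4, tlog_deriv (by linarith [h1.1])]
    field_simp
  rw [← hAeq]
  linarith

end Crest.Agent.R242
end
end

-- ▼ part R242/E1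
section

/-!
Row 242, module E1: the first-variation inequality for the entropy (frozen statements).
-/

set_option autoImplicit false

open MeasureTheory Filter Set
open scoped ENNReal NNReal Topology
open Crest.GeometryTopology.SyntheticRicci

noncomputable section

namespace Crest.Agent.R242

open E1

variable {X : Type*} [MetricSpace X] [ProperSpace X] [MeasurableSpace X] [BorelSpace X]
  {m : Measure X} [IsLocallyFiniteMeasure m] [m.IsOpenPosMeasure] {k N : ℝ}

theorem E1.lipOnBalls_of_pot {o : X} {R : ℝ} {φ : X → ℝ}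
    (hlip : ∀ x x', |φ x - φ x'| ≤ dist x x' * ((dist x o + dist x' o) / 2 + R)) :
    LipOnBalls φ := by
  intro p r
  refine ⟨Real.toNNReal (|r| + dist p o + |R|), ?_⟩
  refine LipschitzOnWith.of_dist_le_mul fun x hx y hy => ?_
  rw [Real.dist_eq, Real.coe_toNNReal _ (by positivity), mul_comm]
  refine (hlip x y).trans (mul_le_mul_of_nonneg_left ?_ dist_nonneg)
  rw [Metric.mem_ball] at hx hy
  have h1 := dist_triangle x p o
  have h2 := dist_triangle y p o
  have h3 := le_abs_self r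
  have h4 := le_abs_self R
  linarith

/-- the weak gradient of a Kantorovich potential is bounded by the transport distance. -/
theorem wg_pot_sq_le (H : Hyp m k N) (o : X) {R : ℝ} (_hR : 0 < R)
    {μ₀ μ₁ : Measure X} [IsProbabilityMeasure μ₀] [IsProbabilityMeasure μ₁]
    {M : ℝ≥0} (hμ₀ : μ₀ ≤ (M : ℝ≥0∞) • m) (hμ₁ : μ₁ ≤ (M : ℝ≥0∞) • m)
    (hs₀ : μ₀ (Metric.closedBall o R)ᶜ = 0)
    (hs₁ : μ₁ (Metric.closedBall o R)ᶜ = 0) {φ ψ : X → ℝ}
    (hle : ∀ x, ∀ y ∈ Metric.closedBall o R, φ x + ψ y ≤ dist x y ^ 2 / 2)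
    (hcont : ∀ q : Measure (X × X), IsOptCouplingOf q μ₀ μ₁ →
      ∀ᵐ p ∂q, φ p.1 + ψ p.2 = dist p.1 p.2 ^ 2 / 2)
    (hlip : ∀ x x', |φ x - φ x'| ≤ dist x x' * ((dist x o + dist x' o) / 2 + R)) :
    ∫⁻ x, ENNReal.ofReal (minWeakGrad m φ x ^ 2) ∂μ₀ ≤ w2sq μ₀ μ₁ := by
  obtain ⟨C, -, hC⟩ := DYAD_gen H R M
  have hM : ENNReal.ofReal (M : ℝ) = (M : ℝ≥0∞) := ENNReal.ofReal_coe_nnreal
  have hs2 : Metric.closedBall o (2 * R) ⊆ Metric.closedBall o (2 * R) := subset_rfl
  obtain ⟨P, hP, -, -⟩ := hC o (Metric.closedBall o (2 * R))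
    Metric.isClosed_closedBall.measurableSet (isCompact_closedBall o (2 * R)).measure_lt_top.ne hs2
    μ₀ μ₁ inferInstance inferInstance hs₀ hs₁ (by rwa [hM]) (by rwa [hM])
  have hL := E1.lipOnBalls_of_pot hlip
  have hS := hL.isSobolevLoc H.fin
  have hac : μ₀ ≪ m := (Measure.absolutelyContinuous_of_le hμ₀).trans
    Measure.smul_absolutelyContinuous
  exact wg_pot_le hac hle hs₁ hcont (ofReal_minWeakGrad_le_ascSlope H.fin hL)
    (wg_nonneg H hS) (aesm_wg H hS) hP

theorem E1 (H : Hyp m k N) (o : X) {R : ℝ} (hR : 0 < R) {r₀ : X → ℝ}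
    (hr₀ : IsSobolevLoc m r₀) {c C : ℝ} (hc : 0 < c)
    (hcr : ∀ᵐ x ∂(m.restrict (Metric.closedBall o (4 * R))), c ≤ r₀ x ∧ r₀ x ≤ C)
    {μ₀ μ₁ : Measure X} [IsProbabilityMeasure μ₀] [IsProbabilityMeasure μ₁]
    (hμ₀ : μ₀ = (m.restrict (Metric.closedBall o R)).withDensity
      (fun x => ENNReal.ofReal (r₀ x)))
    {M : ℝ≥0} (hμ₁ : μ₁ ≤ (M : ℝ≥0∞) • m)
    (hs₁ : μ₁ (Metric.closedBall o R)ᶜ = 0) {φ ψ : X → ℝ}
    (hle : ∀ x, ∀ y ∈ Metric.closedBall o R, φ x + ψ y ≤ dist x y ^ 2 / 2)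
    (hcont : ∀ q : Measure (X × X), IsOptCouplingOf q μ₀ μ₁ →
      ∀ᵐ p ∂q, φ p.1 + ψ p.2 = dist p.1 p.2 ^ 2 / 2)
    (hlip : ∀ x x', |φ x - φ x'| ≤ dist x x' * ((dist x o + dist x' o) / 2 + R))
    {e : ℝ} (he : ∀ᶠ n : ℕ in atTop,
      ∫ x in Metric.closedBall o (R + 2 * R * (1 / 2) ^ n) \ Metric.closedBall o R, r₀ x ∂m ≤
        e * (1 / 2) ^ n) :
    -(∫ x in Metric.closedBall o R, gradPairing m φ r₀ x ∂m) ≤
      (entB m (Metric.closedBall o (4 * R)) μ₁).toReal -
        (entB m (Metric.closedBall o (4 * R)) μ₀).toReal +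
        k / 2 * (w2sq μ₀ μ₁).toReal + e := by
  have hcb : MeasurableSet (Metric.closedBall o R) := Metric.isClosed_closedBall.measurableSet
  have hsub4 : Metric.closedBall o R ⊆ Metric.closedBall o (4 * R) :=
    Metric.closedBall_subset_closedBall (by linarith)
  have hcrR : ∀ᵐ x ∂(m.restrict (Metric.closedBall o R)), c ≤ r₀ x ∧ r₀ x ≤ C :=
    ae_restrict_of_ae_restrict_of_subset hsub4 hcr
  -- bounds for `μ₀`
  have hs₀ : μ₀ (Metric.closedBall o R)ᶜ = 0 := by
    rw [hμ₀]
    refine withDensity_absolutelyContinuous _ _ ?_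
    rw [Measure.restrict_apply hcb.compl]
    simp
  have hμ₀C : μ₀ ≤ ENNReal.ofReal C • m := by
    rw [hμ₀]
    refine Measure.le_intro fun s hs _ => ?_
    rw [withDensity_apply _ hs, Measure.smul_apply, smul_eq_mul]
    calc ∫⁻ x in s, ENNReal.ofReal (r₀ x) ∂(m.restrict (Metric.closedBall o R))
        ≤ ∫⁻ _ in s, ENNReal.ofReal C ∂(m.restrict (Metric.closedBall o R)) := by
          refine lintegral_mono_ae (ae_restrict_of_ae ?_)
          filter_upwards [hcrR] with x hx using ENNReal.ofReal_le_ofReal hx.2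
      _ = ENNReal.ofReal C * (m.restrict (Metric.closedBall o R)) s := by
          rw [setLIntegral_const]
      _ ≤ ENNReal.ofReal C * m s := by
          gcongr
          exact Measure.restrict_le_self
  set M' : ℝ := max C M with hM'
  have hM0 : μ₀ ≤ ENNReal.ofReal M' • m := by
    refine hμ₀C.trans (Measure.le_intro fun s _ _ => ?_)
    rw [Measure.smul_apply, Measure.smul_apply, smul_eq_mul, smul_eq_mul]
    gcongr
    exact le_max_left _ _
  have hM1 : μ₁ ≤ ENNReal.ofReal M' • m := by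
    refine hμ₁.trans (Measure.le_intro fun s _ _ => ?_)
    rw [Measure.smul_apply, Measure.smul_apply, smul_eq_mul, smul_eq_mul]
    gcongr
    rw [← ENNReal.ofReal_coe_nnreal]
    exact ENNReal.ofReal_le_ofReal (le_max_right _ _)
  obtain ⟨C₁, hC₁, hdy⟩ := DYAD_gen H R M'
  obtain ⟨P, hP, hPC, hPE⟩ := hdy o (Metric.closedBall o (4 * R))
    Metric.isClosed_closedBall.measurableSet (isCompact_closedBall o (4 * R)).measure_lt_top.ne
    (Metric.closedBall_subset_closedBall (by linarith)) μ₀ μ₁ inferInstance inferInstance hs₀ hs₁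
    hM0 hM1
  have hL := E1.lipOnBalls_of_pot hlip
  have hS := hL.isSobolevLoc H.fin
  have hlog : IsSobolevLoc m (fun x => tlog (c / 2) (r₀ x)) :=
    ((wgCalc H.fin).comp _ _ r₀ (tlog_lip (by positivity)) hr₀).1
  have hPC' : ∀ t, timeMarginal P t ≤ ((Real.toNNReal C₁ : ℝ≥0) : ℝ≥0∞) • m := hPC
  exact E1_of H o hR hr₀ hc hcr hμ₀ hμ₁ hs₁ hle hcont he hS
    (ofReal_minWeakGrad_le_ascSlope H.fin hL) hlog hP hPC' hPE

end Crest.Agent.R242
end
end

-- ▼ part R242/Contr
section

/-!
Row 242, block C1: contraction of the resolvent in `W₂`.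
-/

set_option autoImplicit false
set_option linter.unusedSectionVars false

open MeasureTheory Filter Set
open scoped ENNReal NNReal Topology
open Crest.GeometryTopology.SyntheticRicci

noncomputable section

namespace Crest.Agent.R242

/-- bounded probability densities with bounded support. -/
structure BdDens {X : Type*} [MetricSpace X] [MeasurableSpace X] (m : Measure X) (ρ : X → ℝ) :
    Prop where
  meas : Measurable ρ
  nonneg : ∀ x, 0 ≤ ρ x
  bdd : ∃ C : ℝ, ∀ x, ρ x ≤ C
  supp : ∃ (o : X) (R : ℝ), ∀ x, x ∉ Metric.closedBall o R → ρ x = 0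
  int : ∫ x, ρ x ∂m = 1

namespace Contr

variable {X : Type*} [MetricSpace X] [ProperSpace X] [MeasurableSpace X] [BorelSpace X]
  {m : Measure X} [IsLocallyFiniteMeasure m] [m.IsOpenPosMeasure] {k N : ℝ}

/-- what is used of `r = J_h ρ`. -/
structure RData (m : Measure X) (o : X) (h : ℝ) (ρ r : X → ℝ) : Prop where
  sob : IsSobolevLoc m r
  nonneg : ∀ᵐ x ∂m, 0 ≤ r x
  bdd : ∃ C : ℝ, ∀ᵐ x ∂m, r x ≤ C
  mom : Integrable (fun x => (1 + dist x o) ^ 2 * r x) m
  gmom : Integrable (fun x => (1 + dist x o) * minWeakGrad m r x) m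
  mass : ∫ x, r x ∂m = 1
  weak : ∀ φ : X → ℝ,
    (∃ A : ℝ, ∀ x x', |φ x - φ x'| ≤ A * dist x x' * (1 + dist x o + dist x' o)) →
      h * (∫ x, gradPairing m φ r x ∂m) + ∫ x, φ x * r x ∂m = ∫ x, φ x * ρ x ∂m

/-- what is used of the weight `w`. -/
structure WData (m : Measure X) (o : X) (Lam : ℝ) (w : X → ℝ) : Prop where
  sob : IsSobolevLoc m w
  pos : ∀ x, 0 < w x
  bdd : ∃ C : ℝ, ∀ x, w x ≤ C
  low : ∀ (o' : X) (R : ℝ), ∃ c : ℝ, 0 < c ∧ ∀ x ∈ Metric.closedBall o' R, c ≤ w x
  mom : Integrable (fun x => (1 + dist x o) ^ 2 * w x) m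
  mass : ∫ x, w x ∂m = 1
  grad : ∀ᵐ x ∂m, minWeakGrad m w x ≤ Lam * w x

/-- what is used of a potential. -/
structure PData (m : Measure X) (o : X) (R C₀ : ℝ) (φ : X → ℝ) : Prop where
  cont : Continuous φ
  bd : ∀ x, |φ x| ≤ C₀ * (R + dist x o) ^ 2
  sob : IsSobolevLoc m φ
  wg : ∀ᵐ x ∂m, minWeakGrad m φ x ≤ R + dist x o
  lip : ∀ x x', |φ x - φ x'| ≤ dist x x' * ((dist x o + dist x' o) / 2 + R)

theorem int_scale {o : X} {R : ℝ} (hR : 1 ≤ R) {g : X → ℝ} (n : ℕ)
    (hg : Integrable (fun x => (1 + dist x o) ^ n * g x) m) :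
    Integrable (fun x => (R + dist x o) ^ n * g x) m := by
  have e : (fun x => (R + dist x o) ^ n * g x) =
      fun x => ((R + dist x o) / (1 + dist x o)) ^ n * ((1 + dist x o) ^ n * g x) := by
    funext x
    have : 0 < 1 + dist x o := by positivity
    rw [div_pow]; field_simp
  rw [e]
  refine hg.bdd_mul (c := R ^ n) ?_ (Filter.Eventually.of_forall fun x => ?_)
  · refine (Continuous.pow ?_ n).aestronglyMeasurable
    refine Continuous.div (by fun_prop) (by fun_prop) fun x => ?_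
    have : 0 < 1 + dist x o := by positivity
    exact this.ne'
  · have h1 : 0 < 1 + dist x o := by positivity
    have h2 : 0 ≤ (R + dist x o) / (1 + dist x o) := by positivity
    rw [Real.norm_of_nonneg (pow_nonneg h2 n)]
    refine pow_le_pow_left₀ h2 ?_ n
    rw [div_le_iff₀ h1]
    have := dist_nonneg (x := x) (y := o)
    nlinarith

theorem side_of (H : Hyp m k N) {o : X} {R C₀ h Lam : ℝ} (hR : 1 ≤ R) {ρ r w φ : X → ℝ}
    (A : RData m o h ρ r) (B : WData m o Lam w) (P : PData m o R C₀ φ) :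
    Side m o R C₀ h Lam φ r w (gradPairing m φ r) (gradPairing m φ w) (minWeakGrad m φ)
      (minWeakGrad m r) ρ where
  φm := P.cont.aestronglyMeasurable
  φb := Filter.Eventually.of_forall P.bd
  r0 := A.nonneg
  w0 := Filter.Eventually.of_forall fun x => (B.pos x).le
  rint := int_scale hR 2 A.mom
  wint := int_scale hR 2 B.mom
  grint := by
    have := int_scale (g := minWeakGrad m r) hR 1 (by simpa using A.gmom)
    simpa using this
  rm := aesm_of_sobLoc H A.sob
  wm := aesm_of_sobLoc H B.sob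
  gr0 := wg_nonneg H A.sob
  g0 := wg_nonneg H P.sob
  gb := P.wg
  gm := aesm_wg H P.sob
  pm := aesm_gp H P.sob A.sob
  pwm := aesm_gp H P.sob B.sob
  pb := gp_abs_le H P.sob A.sob
  pwb := by
    filter_upwards [gp_abs_le H P.sob B.sob, B.grad, wg_nonneg H P.sob] with x h1 h2 h3
    exact h1.trans (mul_le_mul_of_nonneg_left h2 h3)
  wone := B.mass
  weak := by
    refine A.weak φ ⟨R, fun x x' => (P.lip x x').trans ?_⟩
    have h1 := dist_nonneg (x := x) (y := x')
    have h2 := dist_nonneg (x := x) (y := o)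
    have h3 := dist_nonneg (x := x') (y := o)
    have : (dist x o + dist x' o) / 2 + R ≤ R * (1 + dist x o + dist x' o) := by nlinarith
    nlinarith

/-- the density at one end. -/
def sden (r w : X → ℝ) (ε Z : ℝ) (x : X) : ℝ := (r x + ε * w x) / Z

section Ends

variable {o : X} {R C₀ h Lam ε Z : ℝ} {ρ r w φ : X → ℝ}

theorem sob_sden (H : Hyp m k N) (A : RData m o h ρ r) (B : WData m o Lam w) :
    IsSobolevLoc m (sden r w ε Z) := by
  have h1 := sobLoc_smul H (1 / Z) (sobLoc_add H A.sob (sobLoc_smul H ε B.sob))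
  have : sden r w ε Z = fun x => 1 / Z * (r x + ε * w x) := by
    funext x; unfold sden; ring
  rw [this]; exact h1

theorem gp_sden (H : Hyp m k N) (A : RData m o h ρ r) (B : WData m o Lam w)
    (hφ : IsSobolevLoc m φ) :
    gradPairing m φ (sden r w ε Z) =ᵐ[m]
      fun x => (gradPairing m φ r x + ε * gradPairing m φ w x) / Z := by
  have e : sden r w ε Z = fun x => 1 / Z * (r x + ε * w x) := by
    funext x; unfold sden; ring
  rw [e]
  have s2 := sobLoc_smul H ε B.sob
  filter_upwards [gp_smul_right H (1 / Z) hφ (sobLoc_add H A.sob s2),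
    gp_add_right H hφ A.sob s2, gp_smul_right H ε hφ B.sob] with x h1 h2 h3
  rw [h1, h2, h3]; ring

theorem sden_nonneg (A : RData m o h ρ r) (B : WData m o Lam w) (hε : 0 < ε) (hZ : 0 < Z) :
    ∀ᵐ x ∂m, 0 ≤ sden r w ε Z x := by
  filter_upwards [A.nonneg] with x hx
  have := B.pos x
  unfold sden
  positivity

theorem int_r (H : Hyp m k N) (A : RData m o h ρ r) : Integrable r m := by
  refine A.mom.mono' (aesm_of_sobLoc H A.sob) ?_
  filter_upwards [A.nonneg] with x hx
  rw [Real.norm_of_nonneg hx]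
  have h1 := dist_nonneg (x := x) (y := o)
  nlinarith [mul_nonneg h1 hx, mul_nonneg (mul_nonneg h1 h1) hx]

theorem int_w (H : Hyp m k N) (B : WData m o Lam w) : Integrable w m := by
  refine B.mom.mono' (aesm_of_sobLoc H B.sob) ?_
  refine Filter.Eventually.of_forall fun x => ?_
  have hx := (B.pos x).le
  rw [Real.norm_of_nonneg hx]
  have h1 := dist_nonneg (x := x) (y := o)
  nlinarith [mul_nonneg h1 hx, mul_nonneg (mul_nonneg h1 h1) hx]

theorem int_sden (H : Hyp m k N) (A : RData m o h ρ r) (B : WData m o Lam w) :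
    Integrable (sden r w ε Z) m := by
  have := ((int_r H A).add ((int_w H B).const_mul ε)).div_const Z
  exact this

theorem sden_bd (A : RData m o h ρ r) (B : WData m o Lam w) (hε : 0 < ε) (hZ : 0 < Z) :
    ∃ C : ℝ≥0, ∀ᵐ x ∂m, sden r w ε Z x ≤ C := by
  obtain ⟨C1, h1⟩ := A.bdd
  obtain ⟨C2, h2⟩ := B.bdd
  refine ⟨Real.toNNReal ((C1 + ε * C2) / Z), ?_⟩
  filter_upwards [h1] with x hx
  refine le_trans ?_ (Real.le_coe_toNNReal _)
  unfold sden
  have := h2 x
  gcongr

theorem sden_low (A : RData m o h ρ r) (B : WData m o Lam w) (hε : 0 < ε) (hZ : 0 < Z) (R : ℝ) :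
    ∃ c : ℝ, 0 < c ∧ ∀ᵐ x ∂(m.restrict (Metric.closedBall o R)), c ≤ sden r w ε Z x := by
  obtain ⟨c, hc, h1⟩ := B.low o R
  refine ⟨ε * c / Z, by positivity, ?_⟩
  refine (ae_restrict_iff' Metric.isClosed_closedBall.measurableSet).mpr ?_
  filter_upwards [A.nonneg] with x hx hxB
  unfold sden
  have := h1 x hxB
  have h2 : ε * c ≤ r x + ε * w x := by nlinarith
  gcongr

end Ends

/-- the zero potential. -/
theorem pdata_zero (H : Hyp m k N) (o : X) {R : ℝ} (hR : 1 ≤ R) :
    PData m o R 8 (fun _ : X => (0 : ℝ)) where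
  cont := continuous_const
  bd := fun x => by rw [abs_zero]; positivity
  sob := sobLoc_const H 0
  wg := by
    filter_upwards [wg_eq_zero_of_eq H (sobLoc_const (m := m) H 0) 0] with x hx
    rw [hx rfl]
    have := dist_nonneg (x := x) (y := o)
    linarith
  lip := fun x x' => by
    have h1 := dist_nonneg (x := x) (y := x')
    have h2 := dist_nonneg (x := x) (y := o)
    have h3 := dist_nonneg (x := x') (y := o)
    rw [sub_zero, abs_zero]
    positivity

theorem bdDens_integrable {ρ : X → ℝ} (hρ : BdDens m ρ) : Integrable ρ m := by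
  by_contra hcon
  have := hρ.int
  rw [integral_undef hcon] at this
  exact zero_ne_one this

theorem dens_eq {ρ : X → ℝ} {B : Set X} (hB : MeasurableSet B)
    (hS : ∀ x, x ∉ B → ρ x = 0) : dens m ρ = ctrMu m B ρ := by
  unfold dens ctrMu
  rw [← withDensity_indicator hB]
  congr 1
  funext x
  by_cases hx : x ∈ B
  · rw [Set.indicator_of_mem hx]
  · rw [Set.indicator_of_notMem hx, hS x hx, ENNReal.ofReal_zero]

theorem integral_dens {ρ : X → ℝ} (hρ : BdDens m ρ) (f : X → ℝ) :
    ∫ x, f x ∂(dens m ρ) = ∫ x, f x * ρ x ∂m := by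
  rw [dens_eq_ctrMu, integral_ctrMu hρ.meas.aestronglyMeasurable
    (Filter.Eventually.of_forall hρ.nonneg), Measure.restrict_univ]

theorem dens_prob {ρ : X → ℝ} (hρ : BdDens m ρ) : IsProbabilityMeasure (dens m ρ) := by
  rw [dens_eq_ctrMu]
  refine ctrMu_prob (bdDens_integrable hρ).integrableOn
    (Filter.Eventually.of_forall hρ.nonneg) ?_
  rw [Measure.restrict_univ, hρ.int]

/-- [duality]. -/
theorem dual_le {o : X} {R : ℝ} {μ₀ μ₁ : Measure X} {φ ψ ρ ρ' : X → ℝ}
    (hpot : IsPot o R μ₀ μ₁ φ ψ) (hρ : BdDens m ρ) (hρ' : BdDens m ρ')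
    (hS : ∀ x, x ∉ Metric.closedBall o R → ρ x = 0 ∧ ρ' x = 0)
    (hfin : w2sq (dens m ρ) (dens m ρ') ≠ ⊤) :
    (∫ x, φ x * ρ x ∂m) + (∫ x, ψ x * ρ' x ∂m) ≤ (w2sq (dens m ρ) (dens m ρ')).toReal / 2 := by
  have := dens_prob hρ
  have := dens_prob hρ'
  have hBm : MeasurableSet (Metric.closedBall o R) := Metric.isClosed_closedBall.measurableSet
  have s0 : dens m ρ (Metric.closedBall o R)ᶜ = 0 := by
    rw [dens_eq hBm fun x hx => (hS x hx).1]; exact ctrMu_compl hBm ρ
  have s1 : dens m ρ' (Metric.closedBall o R)ᶜ = 0 := by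
    rw [dens_eq hBm fun x hx => (hS x hx).2]; exact ctrMu_compl hBm ρ'
  have h1 := weak_duality hpot s0 s1
  rw [integral_dens hρ, integral_dens hρ', ENNReal.ofReal_le_iff_le_toReal hfin] at h1
  linarith

theorem abs_pot_dens_le {o : X} {R C₀ : ℝ} {ψ ρ' : X → ℝ} (hC : 0 ≤ C₀) (hR : 1 ≤ R)
    (P : PData m o R C₀ ψ)
    (hρ' : BdDens m ρ') (hS : ∀ x, x ∉ Metric.closedBall o R → ρ' x = 0) :
    |∫ x, ψ x * ρ' x ∂m| ≤ C₀ * (4 * R ^ 2) := by
  have hb : ∀ x, |ψ x * ρ' x| ≤ (C₀ * (4 * R ^ 2)) * ρ' x := by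
    intro x
    rw [abs_mul, abs_of_nonneg (hρ'.nonneg x)]
    by_cases hx : x ∈ Metric.closedBall o R
    · have h1 := P.bd x
      have h2 : dist x o ≤ R := hx
      have h3 := dist_nonneg (x := x) (y := o)
      have h4 : (R + dist x o) ^ 2 ≤ 4 * R ^ 2 := by nlinarith
      exact mul_le_mul_of_nonneg_right (h1.trans (mul_le_mul_of_nonneg_left h4 hC))
        (hρ'.nonneg x)
    · rw [hS x hx, mul_zero, mul_zero]
  have hi := bdDens_integrable hρ'
  calc |∫ x, ψ x * ρ' x ∂m| ≤ ∫ x, |ψ x * ρ' x| ∂m := abs_integral_le_integral_abs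
    _ ≤ ∫ x, (C₀ * (4 * R ^ 2)) * ρ' x ∂m := by
      refine integral_mono_of_nonneg (Filter.Eventually.of_forall fun x => abs_nonneg _)
        (hi.const_mul _) (Filter.Eventually.of_forall hb)
    _ = C₀ * (4 * R ^ 2) := by rw [integral_const_mul, hρ'.int, mul_one]

/-- the gradient energy of the potential. -/
theorem grad_energy {o : X} {R C₀ h Lam ε Z : ℝ} {ρ r w φ : X → ℝ}
    (S : Side m o R C₀ h Lam φ r w (gradPairing m φ r) (gradPairing m φ w) (minWeakGrad m φ)
      (minWeakGrad m r) ρ) (hε : 0 < ε) (hZ : 0 < Z) {W : ℝ≥0∞} (hW : W ≠ ⊤)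
    (h1 : ∫⁻ x, ENNReal.ofReal (minWeakGrad m φ x ^ 2)
      ∂(ctrMu m (Metric.closedBall o R) (sden r w ε Z)) ≤ W) :
    ∫ x in Metric.closedBall o R, minWeakGrad m φ x ^ 2 * ((r x + ε * w x) / Z) ∂m ≤
      W.toReal := by
  have hint : Integrable (fun x => minWeakGrad m φ x ^ 2 * ((r x + ε * w x) / Z)) m := by
    have := (S.int_ggr.add (S.int_ggw.const_mul ε)).div_const Z
    refine this.congr (Filter.Eventually.of_forall fun x => ?_)
    simp only [Pi.add_apply]; ring
  have h0 : ∀ᵐ x ∂m, 0 ≤ sden r w ε Z x := by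
    filter_upwards [S.r0, S.w0] with x hx hx'
    unfold sden
    positivity
  rw [← ENNReal.ofReal_le_iff_le_toReal hW]
  refine le_trans (le_of_eq ?_) h1
  have hsm : AEStronglyMeasurable (sden r w ε Z) m := by
    have := (S.rm.add (S.wm.const_mul ε)).mul_const (1 / Z)
    refine this.congr (Filter.Eventually.of_forall fun x => ?_)
    simp only [Pi.add_apply, sden]; ring
  have hm2 : AEMeasurable (fun x => ENNReal.ofReal (minWeakGrad m φ x ^ 2)) m :=
    (S.gm.pow 2).aemeasurable.ennreal_ofReal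
  rw [lintegral_ctrMu hsm hm2, ofReal_integral_eq_lintegral_ofReal hint.integrableOn]
  · refine lintegral_congr_ae (ae_restrict_of_ae ?_)
    filter_upwards [h0] with x hx
    rw [← ENNReal.ofReal_mul hx, mul_comm]
    rfl
  · refine ae_restrict_of_ae ?_
    filter_upwards [h0] with x hx
    exact mul_nonneg (sq_nonneg _) hx

/-- the inequality at a good radius. -/
theorem key (H : Hyp m k N) {o : X} {h Lam : ℝ} (hh : 0 < h) (hL : 0 < Lam)
    {ρ ρ' r r' w : X → ℝ} (hρ : BdDens m ρ) (hρ' : BdDens m ρ')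
    (A : RData m o h ρ r) (A' : RData m o h ρ' r') (B : WData m o Lam w)
    {ε τ δ R : ℝ} (hε : 0 < ε) (hε1 : ε ≤ 1) (hτ1 : τ ≤ 1) (hR : 1 ≤ R)
    (hS : ∀ x, x ∉ Metric.closedBall o R → ρ x = 0 ∧ ρ' x = 0)
    (hfin : w2sq (dens m ρ) (dens m ρ') ≠ ⊤)
    (t1 : ∫ x in (Metric.closedBall o R)ᶜ, (R + dist x o) ^ 2 * r x ∂m ≤ τ)
    (t2 : ∫ x in (Metric.closedBall o R)ᶜ, (R + dist x o) ^ 2 * r' x ∂m ≤ τ)
    (t3 : ∫ x in (Metric.closedBall o R)ᶜ, (R + dist x o) ^ 2 * w x ∂m ≤ τ)
    (t4 : ∫ x in (Metric.closedBall o R)ᶜ, (R + dist x o) * minWeakGrad m r x ∂m ≤ τ)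
    (t5 : ∫ x in (Metric.closedBall o R)ᶜ, (R + dist x o) * minWeakGrad m r' x ∂m ≤ τ)
    (hrad : ∀ᶠ n : ℕ in atTop, ∫ x in Metric.closedBall o (R + 2 * R * (1 / 2) ^ n) \
      Metric.closedBall o R, (r x + r' x + w x) ∂m ≤ δ * (1 / 2) ^ n)
    {Z₀ Z₁ : ℝ} (hZ₀ : Z₀ = ∫ x in Metric.closedBall o R, (r x + ε * w x) ∂m)
    (hZ₁ : Z₁ = ∫ x in Metric.closedBall o R, (r' x + ε * w x) ∂m) :
    0 < Z₀ ∧ 0 < Z₁ ∧
    IsProbabilityMeasure (ctrMu m (Metric.closedBall o R) (sden r w ε Z₀)) ∧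
    IsProbabilityMeasure (ctrMu m (Metric.closedBall o R) (sden r' w ε Z₁)) ∧
    w2sq (ctrMu m (Metric.closedBall o R) (sden r w ε Z₀))
      (ctrMu m (Metric.closedBall o R) (sden r' w ε Z₁)) ≠ ⊤ ∧
    (1 - 2 * h * k - 2 * h * √ε) * (w2sq (ctrMu m (Metric.closedBall o R) (sden r w ε Z₀))
      (ctrMu m (Metric.closedBall o R) (sden r' w ε Z₁))).toReal ≤
    (1 + τ) * (w2sq (dens m ρ) (dens m ρ')).toReal + 4 * h * (2 * δ) + 4 * h * Lam ^ 2 * √ε +
      τ * (40 * 8 + 8 * h + 4 * 8 * (∫ x, (1 + dist x o) ^ 2 * w x ∂m)) := by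
  have hBm : MeasurableSet (Metric.closedBall o R) := Metric.isClosed_closedBall.measurableSet
  -- the normalising constants
  have SS := side_of H (h := h) hR A B (pdata_zero H o hR)
  have SS' := side_of H (h := h) hR A' B (pdata_zero H o hR)
  obtain ⟨-, hτ, m2, m3⟩ := SS.mass_tail hR hε hε1 t1 t3 A.mass
  obtain ⟨-, -, n2, n3⟩ := SS'.mass_tail hR hε hε1 t2 t3 A'.mass
  rw [← hZ₀] at m2 m3
  rw [← hZ₁] at n2 n3
  obtain ⟨p0, p1, a1, a2, b2, ab⟩ := inv_diff hR hε hτ hτ1 m2 m3 n2 n3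
  refine ⟨p0, p1, ?_⟩
  -- the measures
  have e0 : ∫ x in Metric.closedBall o R, sden r w ε Z₀ x ∂m = 1 := by
    unfold sden
    rw [integral_div, ← hZ₀, div_self p0.ne']
  have e1 : ∫ x in Metric.closedBall o R, sden r' w ε Z₁ x ∂m = 1 := by
    unfold sden
    rw [integral_div, ← hZ₁, div_self p1.ne']
  have P0 : IsProbabilityMeasure (ctrMu m (Metric.closedBall o R) (sden r w ε Z₀)) :=
    ctrMu_prob (int_sden H A B).integrableOn (sden_nonneg A B hε p0) e0
  have P1 : IsProbabilityMeasure (ctrMu m (Metric.closedBall o R) (sden r' w ε Z₁)) :=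
    ctrMu_prob (int_sden H A' B).integrableOn (sden_nonneg A' B hε p1) e1
  refine ⟨P0, P1, ?_⟩
  have q0 := ctrMu_compl (m := m) hBm (sden r w ε Z₀)
  have q1 := ctrMu_compl (m := m) hBm (sden r' w ε Z₁)
  obtain ⟨φ, ψ, hpot⟩ := exists_pot q0 q1
  obtain ⟨hb, hb', hs, hs', hw, hw'⟩ := ContrTail.pot_bounds H hpot hR q0 q1
  have Pφ : PData m o R 8 φ := ⟨hpot.continuous_left, hb, hs, hw, hpot.lipφ⟩
  have Pψ : PData m o R 8 ψ := ⟨hpot.continuous_right, hb', hs', hw', hpot.lipψ⟩
  have S₀ := side_of H (h := h) hR A B Pφ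
  have S₁ := side_of H (h := h) hR A' B Pψ
  obtain ⟨d1, d2⟩ := strong_duality hpot q0 q1
  have hWfin : w2sq (ctrMu m (Metric.closedBall o R) (sden r w ε Z₀))
      (ctrMu m (Metric.closedBall o R) (sden r' w ε Z₁)) ≠ ⊤ := by
    rw [d2]; exact ENNReal.ofReal_ne_top
  refine ⟨hWfin, ?_⟩
  have hval : (∫ x in Metric.closedBall o R, φ x * ((r x + ε * w x) / Z₀) ∂m) +
      (∫ x in Metric.closedBall o R, ψ x * ((r' x + ε * w x) / Z₁) ∂m) =
      (w2sq (ctrMu m (Metric.closedBall o R) (sden r w ε Z₀))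
      (ctrMu m (Metric.closedBall o R) (sden r' w ε Z₁))).toReal / 2 := by
    rw [d2, ENNReal.toReal_ofReal (by linarith),
      integral_ctrMu (int_sden H A B).aestronglyMeasurable (sden_nonneg A B hε p0),
      integral_ctrMu (int_sden H A' B).aestronglyMeasurable (sden_nonneg A' B hε p1)]
    unfold sden
    ring
  -- energies
  have hle : ∀ x, ∀ y ∈ Metric.closedBall o R, φ x + ψ y ≤ dist x y ^ 2 / 2 := hpot.le_left
  have hle' : ∀ x, ∀ y ∈ Metric.closedBall o R, ψ x + φ y ≤ dist x y ^ 2 / 2 := fun x y hy => by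
    have := hpot.le_right y hy x
    rw [dist_comm, add_comm]; exact this
  obtain ⟨C0, hC0⟩ := sden_bd A B hε p0
  obtain ⟨C1, hC1⟩ := sden_bd A' B hε p1
  have hM0 : ctrMu m (Metric.closedBall o R) (sden r w ε Z₀) ≤ ((max C0 C1 : ℝ≥0) : ℝ≥0∞) • m :=
    ctrMu_le (by filter_upwards [hC0] with x hx using hx.trans (by exact_mod_cast le_max_left _ _))
  have hM1 : ctrMu m (Metric.closedBall o R) (sden r' w ε Z₁) ≤ ((max C0 C1 : ℝ≥0) : ℝ≥0∞) • m :=
    ctrMu_le (by filter_upwards [hC1] with x hx using hx.trans (by exact_mod_cast le_max_right _ _))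
  have hG := grad_energy S₀ hε p0 hWfin (wg_pot_sq_le H o (by linarith) hM0 hM1 q0 q1
    hle hpot.contact hpot.lipφ)
  have hWc := ctr_w2sq_comm (ctrMu m (Metric.closedBall o R) (sden r w ε Z₀))
    (ctrMu m (Metric.closedBall o R) (sden r' w ε Z₁))
  have hG' := grad_energy S₁ hε p1 (W := w2sq (ctrMu m (Metric.closedBall o R) (sden r w ε Z₀))
      (ctrMu m (Metric.closedBall o R) (sden r' w ε Z₁))) hWfin
    (by
      rw [hWc]
      exact wg_pot_sq_le H o (by linarith) hM1 hM0 q1 q0 hle'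
        (ctr_contact_swap hpot) hpot.lipψ)
  -- first variation
  obtain ⟨c0, hc0, hl0⟩ := sden_low A B hε p0 (4 * R)
  obtain ⟨c1, hc1, hl1⟩ := sden_low A' B hε p1 (4 * R)
  have ir := int_r H A
  have ir' := int_r H A'
  have iw := int_w H B
  have shell : ∀ {f : X → ℝ} {Z : ℝ}, 0 < Z → 1 / Z ≤ 2 → Integrable f m →
      (∀ᵐ x ∂m, 0 ≤ f x) → (∀ᵐ x ∂m, f x ≤ r x + r' x + w x) →
      ∀ᶠ n : ℕ in atTop, ∫ x in Metric.closedBall o (R + 2 * R * (1 / 2) ^ n) \
        Metric.closedBall o R, f x / Z ∂m ≤ 2 * δ * (1 / 2) ^ n := by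
    intro f Z hZ hZ2 hf hf0 hfb
    filter_upwards [hrad] with n hn
    rw [integral_div]
    have h1 : ∫ x in Metric.closedBall o (R + 2 * R * (1 / 2) ^ n) \ Metric.closedBall o R,
        f x ∂m ≤ δ * (1 / 2) ^ n :=
      (integral_mono_ae hf.integrableOn ((ir.add ir').add iw).integrableOn
        (ae_restrict_of_ae hfb)).trans hn
    have h2 : 0 ≤ ∫ x in Metric.closedBall o (R + 2 * R * (1 / 2) ^ n) \ Metric.closedBall o R,
        f x ∂m := integral_nonneg_of_ae (ae_restrict_of_ae hf0)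
    calc (∫ x in Metric.closedBall o (R + 2 * R * (1 / 2) ^ n) \ Metric.closedBall o R,
        f x ∂m) / Z = (1 / Z) * ∫ x in Metric.closedBall o (R + 2 * R * (1 / 2) ^ n) \
          Metric.closedBall o R, f x ∂m := by ring
      _ ≤ 2 * ∫ x in Metric.closedBall o (R + 2 * R * (1 / 2) ^ n) \
          Metric.closedBall o R, f x ∂m := mul_le_mul_of_nonneg_right hZ2 h2
      _ ≤ 2 * (δ * (1 / 2) ^ n) := mul_le_mul_of_nonneg_left h1 (by norm_num)
      _ = 2 * δ * (1 / 2) ^ n := by ring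
  have E0 := E1 H o (by linarith) (r₀ := sden r w ε Z₀) (sob_sden H A B) hc0
    (by filter_upwards [hl0, ae_restrict_of_ae hC0] with x h1 h2 using ⟨h1, h2⟩)
    (μ₀ := ctrMu m (Metric.closedBall o R) (sden r w ε Z₀))
    (μ₁ := ctrMu m (Metric.closedBall o R) (sden r' w ε Z₁)) rfl hM1 q1 hle
    hpot.contact hpot.lipφ (e := 2 * δ)
    (shell p0 a2 (ir.add (iw.const_mul ε))
      (by
        filter_upwards [A.nonneg] with x hx
        have := B.pos x
        positivity)
      (by
        filter_upwards [A'.nonneg] with x hx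
        have := B.pos x
        nlinarith))
  have E2 := E1 H o (by linarith) (r₀ := sden r' w ε Z₁) (sob_sden H A' B) hc1
    (by filter_upwards [hl1, ae_restrict_of_ae hC1] with x h1 h2 using ⟨h1, h2⟩)
    (μ₀ := ctrMu m (Metric.closedBall o R) (sden r' w ε Z₁))
    (μ₁ := ctrMu m (Metric.closedBall o R) (sden r w ε Z₀)) rfl hM0 q0 hle'
    (ctr_contact_swap hpot) hpot.lipψ (e := 2 * δ)
    (shell p1 b2 (ir'.add (iw.const_mul ε))
      (by
        filter_upwards [A'.nonneg] with x hx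
        have := B.pos x
        positivity)
      (by
        filter_upwards [A.nonneg] with x hx
        have := B.pos x
        nlinarith))
  rw [← hWc] at E2
  have g0 : ∫ x in Metric.closedBall o R, gradPairing m φ (sden r w ε Z₀) x ∂m =
      ∫ x in Metric.closedBall o R, (gradPairing m φ r x + ε * gradPairing m φ w x) / Z₀ ∂m :=
    integral_congr_ae (ae_restrict_of_ae (gp_sden H A B hs))
  have g1 : ∫ x in Metric.closedBall o R, gradPairing m ψ (sden r' w ε Z₁) x ∂m =
      ∫ x in Metric.closedBall o R, (gradPairing m ψ r' x + ε * gradPairing m ψ w x) / Z₁ ∂m :=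
    integral_congr_ae (ae_restrict_of_ae (gp_sden H A' B hs'))
  rw [g0] at E0
  rw [g1] at E2
  -- duality
  have hdual := dual_le hpot hρ hρ' hS hfin
  have hψρ := abs_pot_dens_le (C₀ := 8) (by norm_num) hR Pψ hρ' fun x hx => (hS x hx).2
  have hneg : ∀ x ∈ Metric.closedBall o R, φ x + ψ x ≤ 0 := by
    intro x hx
    have := hle x x hx
    simpa using this
  have hM₂ : 0 ≤ ∫ x, (1 + dist x o) ^ 2 * w x ∂m :=
    integral_nonneg fun x => mul_nonneg (sq_nonneg _) (B.pos x).le
  have hM : ∫ x, (R + dist x o) ^ 2 * w x ∂m ≤ (∫ x, (1 + dist x o) ^ 2 * w x ∂m) * R ^ 2 := by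
    rw [mul_comm, ← integral_const_mul]
    refine integral_mono (int_scale hR 2 B.mom) (B.mom.const_mul _) fun x => ?_
    simp only
    rw [← mul_assoc]
    refine mul_le_mul_of_nonneg_right ?_ (B.pos x).le
    rw [← mul_pow]
    refine pow_le_pow_left₀ (by positivity) ?_ 2
    have := dist_nonneg (x := x) (y := o)
    nlinarith
  have T := two_sided (k := k) (e := 2 * δ) S₀ S₁ hR hL.le (by norm_num) hh.le hε hε1 hτ1
    ENNReal.toReal_nonneg hM₂ A.mass A'.mass hZ₀ hZ₁ t1 t2 t3 t4 t5 hM hval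
    (by linarith) hG hG' hdual hψρ hneg
  exact T

/-- tails outside large balls. -/
theorem tail_tendsto {o : X} {g : X → ℝ} (n : ℕ) (hg0 : ∀ᵐ x ∂m, 0 ≤ g x)
    (hg : Integrable (fun x => (1 + dist x o) ^ n * g x) m) :
    Tendsto (fun R : ℝ => ∫ x in (Metric.closedBall o R)ᶜ, (R + dist x o) ^ n * g x ∂m)
      atTop (𝓝 0) := by
  have h1 : Tendsto (fun R : ℝ => ∫ x in (Metric.closedBall o R)ᶜ, (1 + dist x o) ^ n * g x ∂m)
      atTop (𝓝 0) := by
    have h2 := tendsto_setIntegral_of_antitone (μ := m)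
      (s := fun R : ℝ => (Metric.closedBall o R)ᶜ) (f := fun x => (1 + dist x o) ^ n * g x)
      (fun R => Metric.isClosed_closedBall.measurableSet.compl)
      (fun a b hab => compl_subset_compl.mpr (Metric.closedBall_subset_closedBall hab))
      ⟨0, hg.integrableOn⟩
    have h3 : (⋂ R : ℝ, (Metric.closedBall o R)ᶜ) = ∅ := by
      rw [← compl_iUnion, compl_empty_iff]
      exact iUnion_eq_univ_iff.mpr fun x => ⟨dist x o, by simp [Metric.mem_closedBall]⟩
    rw [h3] at h2
    simpa using h2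
  have h4 := h1.const_mul ((2 : ℝ) ^ n)
  rw [mul_zero] at h4
  refine squeeze_zero' ?_ ?_ h4
  · filter_upwards [eventually_ge_atTop (0 : ℝ)] with R hR
    refine integral_nonneg_of_ae (ae_restrict_of_ae ?_)
    filter_upwards [hg0] with x hx
    have := dist_nonneg (x := x) (y := o)
    exact mul_nonneg (pow_nonneg (by linarith) n) hx
  · filter_upwards [eventually_ge_atTop (1 : ℝ)] with R hR
    rw [← integral_const_mul]
    refine setIntegral_mono_ae_restrict (int_scale hR n hg).integrableOn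
      (hg.const_mul _).integrableOn ?_
    refine (ae_restrict_iff' Metric.isClosed_closedBall.measurableSet.compl).mpr ?_
    filter_upwards [hg0] with x hx hxB
    have hd : R < dist x o := by simpa [Metric.mem_closedBall] using hxB
    rw [← mul_assoc, ← mul_pow]
    refine mul_le_mul_of_nonneg_right ?_ hx
    exact pow_le_pow_left₀ (by linarith) (by linarith) n

/-- `L¹` distance of the normalised truncated density to `r`. -/
theorem l1_close (H : Hyp m k N) {o : X} {h Lam : ℝ} {ρ r w : X → ℝ}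
    (A : RData m o h ρ r) (B : WData m o Lam w) {ε τ R Z : ℝ} (hε : 0 < ε)
    (hτ : 0 ≤ τ) (hR : 1 ≤ R)
    (t1 : ∫ x in (Metric.closedBall o R)ᶜ, (R + dist x o) ^ 2 * r x ∂m ≤ τ)
    (hZ0 : 0 < Z) (hZ1 : Z ≤ 1 + ε) (hZ2 : 1 - τ ≤ Z) (hZ3 : 1 / Z ≤ 2) :
    ∫ x, |(Metric.closedBall o R).indicator (sden r w ε Z) x - r x| ∂m ≤ 4 * ε + 3 * τ := by
  have hBm : MeasurableSet (Metric.closedBall o R) := Metric.isClosed_closedBall.measurableSet
  have ir := int_r H A
  have iw := int_w H B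
  have is := int_sden (ε := ε) (Z := Z) H A B
  have hi : Integrable (fun x => (Metric.closedBall o R).indicator (sden r w ε Z) x - r x) m :=
    (is.indicator hBm).sub ir
  rw [← integral_add_compl hBm hi.abs]
  have e1 : ∫ x in Metric.closedBall o R,
      |(Metric.closedBall o R).indicator (sden r w ε Z) x - r x| ∂m ≤ 2 * (ε + τ) + 2 * ε := by
    have hb : ∀ᵐ x ∂m, x ∈ Metric.closedBall o R →
        |(Metric.closedBall o R).indicator (sden r w ε Z) x - r x| ≤
          2 * (ε + τ) * r x + 2 * ε * w x := by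
      filter_upwards [A.nonneg] with x hx hxB
      have hw := (B.pos x).le
      rw [Set.indicator_of_mem hxB]
      have e : sden r w ε Z x - r x = (1 - Z) * (1 / Z) * r x + ε * (1 / Z) * w x := by
        unfold sden; field_simp; ring
      rw [e]
      have hz : |1 - Z| ≤ ε + τ := by rw [abs_le]; constructor <;> linarith
      have hz' : 0 < 1 / Z := by positivity
      calc |(1 - Z) * (1 / Z) * r x + ε * (1 / Z) * w x| ≤
          |(1 - Z) * (1 / Z) * r x| + |ε * (1 / Z) * w x| := abs_add_le _ _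
        _ = |1 - Z| * (1 / Z) * r x + ε * (1 / Z) * w x := by
            rw [abs_mul, abs_mul, abs_of_pos hz', abs_of_nonneg hx,
              abs_of_nonneg (by positivity : 0 ≤ ε * (1 / Z) * w x)]
        _ ≤ (ε + τ) * 2 * r x + ε * 2 * w x := by
            refine add_le_add ?_ ?_
            · refine mul_le_mul_of_nonneg_right ?_ hx
              exact mul_le_mul hz hZ3 hz'.le (by positivity)
            · refine mul_le_mul_of_nonneg_right ?_ hw
              exact mul_le_mul_of_nonneg_left hZ3 hε.le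
        _ = _ := by ring
    have i2 : Integrable (fun x => 2 * (ε + τ) * r x + 2 * ε * w x) m :=
      (ir.const_mul _).add (iw.const_mul _)
    calc ∫ x in Metric.closedBall o R,
        |(Metric.closedBall o R).indicator (sden r w ε Z) x - r x| ∂m ≤
        ∫ x in Metric.closedBall o R, (2 * (ε + τ) * r x + 2 * ε * w x) ∂m := by
          refine setIntegral_mono_ae_restrict hi.abs.integrableOn i2.integrableOn ?_
          exact (ae_restrict_iff' hBm).mpr hb
      _ ≤ ∫ x, (2 * (ε + τ) * r x + 2 * ε * w x) ∂m := by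
          refine setIntegral_le_integral i2 ?_
          filter_upwards [A.nonneg] with x hx
          have hw := (B.pos x).le
          simp only [Pi.zero_apply]
          positivity
      _ = 2 * (ε + τ) + 2 * ε := by
          rw [integral_add (ir.const_mul _) (iw.const_mul _), integral_const_mul,
            integral_const_mul, A.mass, B.mass]
          ring
  have e2 : ∫ x in (Metric.closedBall o R)ᶜ,
      |(Metric.closedBall o R).indicator (sden r w ε Z) x - r x| ∂m ≤ τ := by
    refine le_trans ?_ t1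
    refine setIntegral_mono_ae_restrict hi.abs.integrableOn
      (int_scale hR 2 A.mom).integrableOn ?_
    refine (ae_restrict_iff' hBm.compl).mpr ?_
    filter_upwards [A.nonneg] with x hx hxB
    rw [Set.indicator_of_notMem hxB, zero_sub, abs_neg, abs_of_nonneg hx]
    have := dist_nonneg (x := x) (y := o)
    have h1 : 1 ≤ (R + dist x o) ^ 2 := by nlinarith
    nlinarith
  linarith

/-- approximation of both ends. -/
theorem approx (H : Hyp m k N) {o : X} {h Lam : ℝ} (hh : 0 < h) (hL : 0 < Lam)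
    {ρ ρ' r r' w : X → ℝ} (hρ : BdDens m ρ) (hρ' : BdDens m ρ')
    (A : RData m o h ρ r) (A' : RData m o h ρ' r') (B : WData m o Lam w)
    (hfin : w2sq (dens m ρ) (dens m ρ') ≠ ⊤) {η : ℝ} (hη : 0 < η) :
    ∃ (s s' : X → ℝ) (μ ν : Measure X), IsProbabilityMeasure μ ∧ IsProbabilityMeasure ν ∧
      (∀ f : X → ℝ, ∫ x, f x ∂μ = ∫ x, f x * s x ∂m) ∧
      (∀ f : X → ℝ, ∫ x, f x ∂ν = ∫ x, f x * s' x ∂m) ∧
      Integrable s m ∧ Integrable s' m ∧
      ∫ x, |s x - r x| ∂m ≤ η ∧ ∫ x, |s' x - r' x| ∂m ≤ η ∧ w2sq μ ν ≠ ⊤ ∧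
      (1 - 2 * h * k - η) * (w2sq μ ν).toReal ≤
        (1 + η) * (w2sq (dens m ρ) (dens m ρ')).toReal + η := by
  -- choice of `ε`
  have hcont : ∀ c : ℝ, Tendsto (fun ε : ℝ => c * √ε) (𝓝[>] 0) (𝓝 0) := by
    intro c
    have h1 : Continuous (fun ε : ℝ => c * √ε) := by fun_prop
    have h2 := (h1.tendsto 0).mono_left (nhdsWithin_le_nhds (s := Set.Ioi (0 : ℝ)))
    simpa using h2
  have hid : ∀ c : ℝ, Tendsto (fun ε : ℝ => c * ε) (𝓝[>] 0) (𝓝 0) := by
    intro c
    have h1 : Continuous (fun ε : ℝ => c * ε) := by fun_prop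
    have h2 := (h1.tendsto 0).mono_left (nhdsWithin_le_nhds (s := Set.Ioi (0 : ℝ)))
    simpa using h2
  have hpos : ∀ᶠ ε : ℝ in 𝓝[>] 0, 0 < ε := self_mem_nhdsWithin
  obtain ⟨ε, hε, x1, x2, x3, x4⟩ := (hpos.and (((hcont (2 * h)).eventually_le_const hη).and
    (((hcont (4 * h * Lam ^ 2)).eventually_le_const (by positivity : 0 < η / 3)).and
    (((hid 4).eventually_le_const (by positivity : 0 < η / 2)).and
    ((hid 1).eventually_le_const one_pos))))).exists
  have hε1 : ε ≤ 1 := by linarith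
  set M₂ := ∫ x, (1 + dist x o) ^ 2 * w x ∂m with hM₂
  obtain ⟨τ, hτ, y1, y2, y3, y4⟩ := (hpos.and
    (((hid (40 * 8 + 8 * h + 4 * 8 * M₂)).eventually_le_const (by positivity : 0 < η / 3)).and
    (((hid 1).eventually_le_const hη).and
    (((hid 3).eventually_le_const (by positivity : 0 < η / 2)).and
    ((hid 1).eventually_le_const one_pos))))).exists
  have hτ1 : τ ≤ 1 := by linarith
  set δ : ℝ := η / (24 * h) with hδ
  have hδ0 : 0 < δ := by positivity
  -- the radius
  obtain ⟨o1, R1, hS1⟩ := hρ.supp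
  obtain ⟨o2, R2, hS2⟩ := hρ'.supp
  have gr1 : Integrable (fun x => (1 + dist x o) ^ 1 * minWeakGrad m r x) m := by
    simpa using A.gmom
  have gr2 : Integrable (fun x => (1 + dist x o) ^ 1 * minWeakGrad m r' x) m := by
    simpa using A'.gmom
  have T1 := (tail_tendsto 2 A.nonneg A.mom).eventually_le_const hτ
  have T2 := (tail_tendsto 2 A'.nonneg A'.mom).eventually_le_const hτ
  have T3 := (tail_tendsto 2 (Filter.Eventually.of_forall fun x => (B.pos x).le)
    B.mom).eventually_le_const hτ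
  have T4 := (tail_tendsto 1 (wg_nonneg H A.sob) gr1).eventually_le_const hτ
  have T5 := (tail_tendsto 1 (wg_nonneg H A'.sob) gr2).eventually_le_const hτ
  obtain ⟨a, ha⟩ := (T1.and (T2.and (T3.and (T4.and (T5.and
    ((eventually_ge_atTop (R1 + dist o1 o)).and (eventually_ge_atTop (R2 + dist o2 o)))))))).exists_forall_of_atTop
  have ir := int_r H A
  have ir' := int_r H A'
  have iw := int_w H B
  obtain ⟨R, haR, hR, hrad⟩ := ContrTail.exists_radius (m := m) ((ir.add ir').add iw)
    (by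
      filter_upwards [A.nonneg, A'.nonneg] with x h1 h2
      have := (B.pos x).le
      simp only [Pi.add_apply]; positivity) o hδ0 a
  obtain ⟨t1, t2, t3, t4, t5, t6, t7⟩ := ha R haR
  simp only [pow_one] at t4 t5
  have hS : ∀ x, x ∉ Metric.closedBall o R → ρ x = 0 ∧ ρ' x = 0 := by
    intro x hx
    have hx' : R < dist x o := by simpa [Metric.mem_closedBall] using hx
    refine ⟨hS1 x fun hc => ?_, hS2 x fun hc => ?_⟩
    · have h1 : dist x o1 ≤ R1 := hc
      have := dist_triangle x o1 o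
      linarith
    · have h1 : dist x o2 ≤ R2 := hc
      have := dist_triangle x o2 o
      linarith
  obtain ⟨Z₀, hZ₀⟩ : ∃ Z : ℝ, Z = ∫ x in Metric.closedBall o R, (r x + ε * w x) ∂m := ⟨_, rfl⟩
  obtain ⟨Z₁, hZ₁⟩ : ∃ Z : ℝ, Z = ∫ x in Metric.closedBall o R, (r' x + ε * w x) ∂m := ⟨_, rfl⟩
  obtain ⟨p0, p1, P0, P1, hW, hkey⟩ := key H hh hL hρ hρ' A A' B hε hε1 hτ1 hR hS hfin t1 t2 t3 t4
    t5 hrad hZ₀ hZ₁
  -- constants
  have SS := side_of H (h := h) hR A B (pdata_zero H o hR)
  have SS' := side_of H (h := h) hR A' B (pdata_zero H o hR)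
  obtain ⟨-, -, m2, m3⟩ := SS.mass_tail hR hε hε1 t1 t3 A.mass
  obtain ⟨-, -, n2, n3⟩ := SS'.mass_tail hR hε hε1 t2 t3 A'.mass
  rw [← hZ₀] at m2 m3
  rw [← hZ₁] at n2 n3
  obtain ⟨-, -, -, a2, b2, -⟩ := inv_diff hR hε hτ.le hτ1 m2 m3 n2 n3
  have hq : τ / (2 * R ^ 2) ≤ τ := by
    rw [div_le_iff₀ (by positivity)]
    have : 1 ≤ 2 * R ^ 2 := by nlinarith
    nlinarith
  have hBm : MeasurableSet (Metric.closedBall o R) := Metric.isClosed_closedBall.measurableSet
  refine ⟨(Metric.closedBall o R).indicator (sden r w ε Z₀),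
    (Metric.closedBall o R).indicator (sden r' w ε Z₁), _, _, P0, P1, ?_, ?_,
    (int_sden H A B).indicator hBm, (int_sden H A' B).indicator hBm, ?_, ?_, hW, ?_⟩
  · intro f
    rw [integral_ctrMu (int_sden H A B).aestronglyMeasurable (sden_nonneg A B hε p0),
      ← integral_indicator hBm]
    congr 1; funext x
    by_cases hx : x ∈ Metric.closedBall o R
    · rw [Set.indicator_of_mem hx, Set.indicator_of_mem hx]
    · rw [Set.indicator_of_notMem hx, Set.indicator_of_notMem hx, mul_zero]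
  · intro f
    rw [integral_ctrMu (int_sden H A' B).aestronglyMeasurable (sden_nonneg A' B hε p1),
      ← integral_indicator hBm]
    congr 1; funext x
    by_cases hx : x ∈ Metric.closedBall o R
    · rw [Set.indicator_of_mem hx, Set.indicator_of_mem hx]
    · rw [Set.indicator_of_notMem hx, Set.indicator_of_notMem hx, mul_zero]
  · refine (l1_close H A B hε hτ.le hR t1 p0 m2 (by linarith) a2).trans ?_
    linarith
  · refine (l1_close H A' B hε hτ.le hR t2 p1 n2 (by linarith) b2).trans ?_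
    linarith
  · have hD := ENNReal.toReal_nonneg (a := w2sq (dens m ρ) (dens m ρ'))
    have hW0 := ENNReal.toReal_nonneg (a := w2sq
      (ctrMu m (Metric.closedBall o R) (sden r w ε Z₀))
      (ctrMu m (Metric.closedBall o R) (sden r' w ε Z₁)))
    have z1 : 4 * h * (2 * δ) = η / 3 := by rw [hδ]; field_simp; norm_num
    rw [z1] at hkey
    have z2 := mul_le_mul_of_nonneg_right x1 hW0
    have z3 : τ * (w2sq (dens m ρ) (dens m ρ')).toReal ≤
        η * (w2sq (dens m ρ) (dens m ρ')).toReal :=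
      mul_le_mul_of_nonneg_right (by linarith) hD
    have z4 : (40 * 8 + 8 * h + 4 * 8 * M₂) * τ = τ * (40 * 8 + 8 * h + 4 * 8 * M₂) := by ring
    rw [z4] at y1
    linarith

theorem rdata_of (H : Hyp m k N) {h₀ : ℝ}
    (hJ : ∀ h, 0 < h → h ≤ h₀ → ∀ f : X → ℝ, MemLp f 2 m → BddSupp m f → ∀ o : X,
      Integrable (fun x => (1 + dist x o ^ 2) * |J m h f x|) m ∧
      Integrable (fun x => (1 + dist x o) * minWeakGrad m (J m h f) x) m ∧
      ∫ x, J m h f x ∂m = ∫ x, f x ∂m ∧
      ∀ φ : X → ℝ, (∃ A : ℝ, ∀ x x', |φ x - φ x'| ≤ A * dist x x' * (1 + dist x o + dist x' o)) →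
        Integrable (fun x => gradPairing m φ (J m h f) x) m ∧
        h * ∫ x, gradPairing m φ (J m h f) x ∂m + ∫ x, φ x * J m h f x ∂m =
          ∫ x, φ x * f x ∂m)
    {h : ℝ} (hh : 0 < h) (hh0 : h ≤ h₀) {ρ : X → ℝ} (hρ : BdDens m ρ) (o : X) :
    RData m o h ρ (J m h ρ) := by
  obtain ⟨C, hC⟩ := hρ.bdd
  obtain ⟨o1, R1, hS⟩ := hρ.supp
  have hi := bdDens_integrable hρ
  have hL2 : MemLp ρ 2 m := by
    rw [memLp_two_iff_integrable_sq hρ.meas.aestronglyMeasurable]
    refine (hi.const_mul C).mono' (hρ.meas.pow_const 2).aestronglyMeasurable ?_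
    refine Filter.Eventually.of_forall fun x => ?_
    rw [Real.norm_of_nonneg (sq_nonneg _), sq]
    exact mul_le_mul_of_nonneg_right (hC x) (hρ.nonneg x)
  have hsupp : BddSupp m ρ := ⟨o1, R1, Filter.Eventually.of_forall hS⟩
  have hV : BddLip (fun _ : X => (0 : ℝ)) :=
    ⟨⟨0, fun x => by simp⟩, 0, LipschitzWith.const 0⟩
  obtain ⟨j1, j2, j3, j4⟩ := hJ h hh hh0 ρ hL2 hsupp o
  have hnn : ∀ᵐ x ∂m, 0 ≤ J m h ρ x :=
    Jr_nonneg H hV hh hL2 (Filter.Eventually.of_forall hρ.nonneg)
  have hsob : IsSobolev m (J m h ρ) := Jr_sob H hV hh hL2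
  refine ⟨hsob.2.1, hnn, ?_, ?_, j2, ?_, fun φ hφ => (j4 φ hφ).2⟩
  · refine ⟨max C 0, ?_⟩
    exact Jr_le_const H hV hh hL2 (le_max_right _ _)
      (Filter.Eventually.of_forall fun x => (hC x).trans (le_max_left _ _))
  · refine (j1.const_mul 2).mono' ?_ ?_
    · have h1 : Continuous (fun x : X => (1 + dist x o) ^ 2) := by fun_prop
      exact h1.aestronglyMeasurable.mul (aesm_of_sobLoc H hsob.2.1)
    · filter_upwards [hnn] with x hx
      rw [Real.norm_of_nonneg (mul_nonneg (sq_nonneg _) hx), abs_of_nonneg hx]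
      have h1 : (1 + dist x o) ^ 2 ≤ 2 * (1 + dist x o ^ 2) := by
        nlinarith [sq_nonneg (1 - dist x o)]
      nlinarith [mul_le_mul_of_nonneg_right h1 hx]
  · rw [j3, hρ.int]

/-- the contraction, for given data. -/
theorem contraction_aux (H : Hyp m k N) {o : X} {h Lam : ℝ} (hh : 0 < h) (h2 : 2 * h * k < 1)
    (hL : 0 < Lam) {ρ ρ' r r' w : X → ℝ} (hρ : BdDens m ρ) (hρ' : BdDens m ρ')
    (A : RData m o h ρ r) (A' : RData m o h ρ' r') (B : WData m o Lam w) :
    ENNReal.ofReal (1 - 2 * h * k) * w2sq (dens m r) (dens m r') ≤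
      w2sq (dens m ρ) (dens m ρ') := by
  by_cases hfin : w2sq (dens m ρ) (dens m ρ') = ⊤
  · rw [hfin]; exact le_top
  set D := (w2sq (dens m ρ) (dens m ρ')).toReal with hD
  have hη : ∀ n : ℕ, 0 < 1 / ((n : ℝ) + 1) := fun n => by positivity
  choose s s' μ ν hμ hν hfμ hfν hs hs' hcl hcl' hW hle using
    fun n : ℕ => approx H hh hL hρ hρ' A A' B hfin (hη n)
  have hprob : ∀ {o : X} {ρ r : X → ℝ}, RData m o h ρ r → IsProbabilityMeasure (dens m r) := by
    intro o ρ r A
    rw [dens_eq_ctrMu]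
    refine ctrMu_prob (int_r H A).integrableOn A.nonneg ?_
    rw [Measure.restrict_univ, A.mass]
  have hint : ∀ {o : X} {ρ r : X → ℝ}, RData m o h ρ r → ∀ f : X → ℝ,
      ∫ x, f x ∂(dens m r) = ∫ x, f x * r x ∂m := by
    intro o ρ r A f
    rw [dens_eq_ctrMu, integral_ctrMu (int_r H A).aestronglyMeasurable A.nonneg,
      Measure.restrict_univ]
  have hη0 : Tendsto (fun n : ℕ => 1 / ((n : ℝ) + 1)) atTop (𝓝 0) :=
    tendsto_one_div_add_atTop_nhds_zero_nat
  set M : ℕ → ProbabilityMeasure X := fun n => ⟨μ n, hμ n⟩ with hMdef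
  set M' : ℕ → ProbabilityMeasure X := fun n => ⟨ν n, hν n⟩ with hM'def
  set Q : ProbabilityMeasure X := ⟨dens m r, hprob A⟩ with hQ
  set Q' : ProbabilityMeasure X := ⟨dens m r', hprob A'⟩ with hQ'
  have hlim : Tendsto M atTop (𝓝 Q) :=
    tendsto_of_l1 (m := m) (s := s) (r := r) (fun n f => hfμ n f) (hint A) hs (int_r H A)
      (squeeze_zero (fun n => integral_nonneg fun x => abs_nonneg _) hcl hη0)
  have hlim' : Tendsto M' atTop (𝓝 Q') :=
    tendsto_of_l1 (m := m) (s := s') (r := r') (fun n f => hfν n f) (hint A') hs' (int_r H A')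
      (squeeze_zero (fun n => integral_nonneg fun x => abs_nonneg _) hcl' hη0)
  have ha : 0 < 1 - 2 * h * k := by linarith
  have hbound : ∀ c : ℝ, D / (1 - 2 * h * k) < c →
      w2sq (dens m r) (dens m r') ≤ ENNReal.ofReal c := by
    intro c hc
    have hlim2 : Tendsto (fun n : ℕ => ((1 + 1 / ((n : ℝ) + 1)) * D + 1 / ((n : ℝ) + 1)) /
        (1 - 2 * h * k - 1 / ((n : ℝ) + 1))) atTop (𝓝 (D / (1 - 2 * h * k))) := by
      have h1 : Tendsto (fun n : ℕ => (1 + 1 / ((n : ℝ) + 1)) * D + 1 / ((n : ℝ) + 1)) atTop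
          (𝓝 ((1 + 0) * D + 0)) := ((hη0.const_add 1).mul_const D).add hη0
      have h2 : Tendsto (fun n : ℕ => 1 - 2 * h * k - 1 / ((n : ℝ) + 1)) atTop
          (𝓝 (1 - 2 * h * k - 0)) := hη0.const_sub _
      have h3 := h1.div h2 (by linarith)
      have e : ((1 + 0) * D + 0) / (1 - 2 * h * k - 0) = D / (1 - 2 * h * k) := by simp
      rw [e] at h3
      exact h3
    have hev := hlim2.eventually_lt_const hc
    have hev2 : ∀ᶠ n : ℕ in atTop, 0 < 1 - 2 * h * k - 1 / ((n : ℝ) + 1) := by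
      have h2 : Tendsto (fun n : ℕ => 1 - 2 * h * k - 1 / ((n : ℝ) + 1)) atTop
          (𝓝 (1 - 2 * h * k - 0)) := hη0.const_sub _
      exact h2.eventually_const_lt (by linarith)
    refine w2sq_lsc hlim hlim' ?_
    filter_upwards [hev, hev2] with n h1 h2
    have h3 := hle n
    have h4 : (w2sq (μ n) (ν n)).toReal ≤ ((1 + 1 / ((n : ℝ) + 1)) * D + 1 / ((n : ℝ) + 1)) /
        (1 - 2 * h * k - 1 / ((n : ℝ) + 1)) := by
      rw [le_div_iff₀ h2, mul_comm]
      exact h3
    have h5 : w2sq (μ n) (ν n) = ENNReal.ofReal (w2sq (μ n) (ν n)).toReal :=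
      (ENNReal.ofReal_toReal (hW n)).symm
    change w2sq (μ n) (ν n) ≤ ENNReal.ofReal c
    rw [h5]
    exact ENNReal.ofReal_le_ofReal (by linarith)
  have hfinal : w2sq (dens m r) (dens m r') ≤ ENNReal.ofReal (D / (1 - 2 * h * k)) := by
    refine le_of_forall_gt_imp_ge_of_dense fun c hc => ?_
    by_cases hct : c = ⊤
    · rw [hct]; exact le_top
    · have h1 : D / (1 - 2 * h * k) < c.toReal := by
        rwa [ENNReal.ofReal_lt_iff_lt_toReal (div_nonneg ENNReal.toReal_nonneg ha.le) hct] at hc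
      have := hbound _ h1
      rwa [ENNReal.ofReal_toReal hct] at this
  calc ENNReal.ofReal (1 - 2 * h * k) * w2sq (dens m r) (dens m r') ≤
      ENNReal.ofReal (1 - 2 * h * k) * ENNReal.ofReal (D / (1 - 2 * h * k)) := by gcongr
    _ = ENNReal.ofReal D := by
        rw [← ENNReal.ofReal_mul ha.le]
        congr 1; field_simp
    _ = w2sq (dens m ρ) (dens m ρ') := ENNReal.ofReal_toReal hfin

end Contr

variable {X : Type*} [MetricSpace X] [ProperSpace X] [MeasurableSpace X] [BorelSpace X]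
  {m : Measure X} [IsLocallyFiniteMeasure m] [m.IsOpenPosMeasure] {k N : ℝ}

/-- [C1] `W₂`-contraction of the resolvent. -/
theorem C1 (H : Hyp m k N) : ∃ h0 : ℝ, 0 < h0 ∧ 4 * h0 * k ≤ 1 ∧ ∀ h, 0 < h → h ≤ h0 →
    ∀ ρ ρ' : X → ℝ, BdDens m ρ → BdDens m ρ' →
      ENNReal.ofReal (1 - 2 * h * k) * w2sq (dens m (J m h ρ)) (dens m (J m h ρ')) ≤
        w2sq (dens m ρ) (dens m ρ') := by
  obtain ⟨h₁, hh1, hJ⟩ := J_mass H
  have hk := H.kpos
  refine ⟨min h₁ (1 / (4 * k)), lt_min hh1 (by positivity), ?_, ?_⟩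
  · have h1 : min h₁ (1 / (4 * k)) ≤ 1 / (4 * k) := min_le_right _ _
    rw [le_div_iff₀ (by positivity)] at h1
    linarith
  · intro h hh hle ρ ρ' hρ hρ'
    have h1 : h ≤ h₁ := hle.trans (min_le_left _ _)
    have h2 : h ≤ 1 / (4 * k) := hle.trans (min_le_right _ _)
    have h3 : 2 * h * k < 1 := by
      rw [le_div_iff₀ (by positivity)] at h2
      linarith
    obtain ⟨o, -, -⟩ := hρ.supp
    obtain ⟨Lam, w, hL, hb, hlow, hmom, hint, hsob, hgrad⟩ := ContrTail.exists_w H o
    have B : Contr.WData m o Lam w := by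
      obtain ⟨C, hC⟩ := hb
      exact ⟨hsob, fun x => (hC x).1, ⟨C, fun x => (hC x).2⟩, hlow, hmom, hint, hgrad⟩
    exact Contr.contraction_aux H hh h3 hL hρ hρ' (Contr.rdata_of H hJ hh h1 hρ o)
      (Contr.rdata_of H hJ hh h1 hρ' o) B


end Crest.Agent.R242
end
end

-- ▼ part R242/GoodJEx
section

/-!
# Row 242, PART B: existence of `h₀` with all good properties of the resolvents (helper216)
-/

set_option autoImplicit false
open MeasureTheory Filter Set
open scoped ENNReal NNReal Topology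
open Crest.GeometryTopology.SyntheticRicci

noncomputable section
namespace Crest.Agent.R242

variable {X : Type*} [MetricSpace X] [ProperSpace X] [MeasurableSpace X] [BorelSpace X]
  {m : Measure X} [IsLocallyFiniteMeasure m] [m.IsOpenPosMeasure] {k N : ℝ}

theorem exists_goodJ' (H : Hyp m k N) :
    ∃ h₀ : ℝ, GoodJ m k h₀ ∧ ∀ h, 0 < h → h ≤ h₀ → JFacts m (1 - 2 * h * k)⁻¹ (J m h) := by
  obtain ⟨h₀, h0, -, hc⟩ := C1 H
  refine exists_goodJ_of_contr H ⟨h₀, h0, fun h hh hh0 _ ρ ρ' hρ hρ' => hc h hh hh0 ρ ρ' ?_ ?_⟩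
  · exact ⟨hρ.meas, hρ.nonneg, hρ.bdd, hρ.supp, hρ.int⟩
  · exact ⟨hρ'.meas, hρ'.nonneg, hρ'.bdd, hρ'.supp, hρ'.int⟩

/-- there is `h₀` with all the good properties. -/
theorem exists_goodJ (H : Hyp m k N) : ∃ h₀ : ℝ, GoodJ m k h₀ := by
  obtain ⟨h₀, h, -⟩ := exists_goodJ' H
  exact ⟨h₀, h⟩


end Crest.Agent.R242
end
end

-- ▼ part R242/FinAll

/-!
Row 242 (S0375): the final assembly.
-/

set_option autoImplicit false
set_option linter.unusedSectionVars false

open MeasureTheory Filter Set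
open scoped ENNReal NNReal Topology
open Crest.GeometryTopology.SyntheticRicci

noncomputable section

namespace Crest.Agent.R242
namespace Fin

/-- the result for a measure satisfying `Hyp`, in a proper space -/
theorem secondDeriv_of_hyp {X : Type*} [MetricSpace X] [ProperSpace X] [MeasurableSpace X]
    [BorelSpace X] {m : Measure X} [IsLocallyFiniteMeasure m] [m.IsOpenPosMeasure] {k N : ℝ}
    (H : Hyp m k N) {F G : X → ℝ} (hFb : ∃ B : ℝ, ∀ x, |F x| ≤ B)
    (hFl : ∃ L : ℝ≥0, LipschitzWith L F) (hGb : ∃ B : ℝ, ∀ x, |G x| ≤ B) (hGc : Continuous G)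
    (hH : HasWeakHessLe m F G) (γ : UCurve X) (hγ : IsCSGeodesic γ) :
    SecondDerivAlongLe F G γ := by
  have hud : IsUnifLocDoublingMeasure m := isUnifLocDoubling_of_hyp H
  obtain ⟨h₀, GJ⟩ := exists_goodJ H
  have hgeo : HasBddGeoPlans m := hasBddGeoPlans H
  obtain ⟨h1, CD, CV, Cd, G3F⟩ := g3Facts_of_hyp H GJ hgeo
  have hG3 : G3Concl m := g3Concl_of_facts G3F
  have hC : Calc m := calc_of_hyp H
  have hCG : CalcG m := calcG_of H hC GJ hgeo hG3
  have GF : GFacts m k := gFacts_of H hC GJ hCG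
  obtain ⟨h₂, C3', hh₂, hC3', hJ⟩ := exists_jApprox H GJ hG3
  refine second_deriv_reduce H (fun F' G' hF'b hF'l hG'b hG'l hH' γ' hγ' => ?_) hFb hFl hGb hGc hH
    γ hγ
  obtain ⟨MF, hMF⟩ := hF'b
  obtain ⟨LF, hLF⟩ := hF'l
  obtain ⟨B, hB⟩ := hG'b
  obtain ⟨LG, hLG⟩ := hG'l
  exact second_deriv_lip H
    (fun f L hf => ofReal_minWeakGrad_le_descSlope H.fin (LipschitzWith.lipOnBalls hf))
    hMF hLF hB hLG.continuous (lamFam_of H GJ hgeo hG3 GF hMF hLF hB hLG hH') hh₂ hC3' hJ hγ'

/-- the result in the form of the statement -/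
theorem secondDeriv_of_rcd {X : Type*} [MetricSpace X] [CompleteSpace X] [MeasurableSpace X]
    [BorelSpace X] (m : Measure X) [m.IsOpenPosMeasure] (hfin : IsFiniteOnBalls m)
    {K N : ℝ} (hN : 1 < N) (hRCD : IsRCD m K N)
    {F G : X → ℝ} (hFb : ∃ B : ℝ, ∀ x, |F x| ≤ B)
    (hFl : ∃ L : ℝ≥0, LipschitzWith L F) (hGb : ∃ B : ℝ, ∀ x, |G x| ≤ B) (hGc : Continuous G)
    (hH : HasWeakHessLe m F G) (γ : UCurve X) (hγ : IsCSGeodesic γ) :
    SecondDerivAlongLe F G γ := by
  obtain ⟨k, H⟩ := exists_hyp hfin hN hRCD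
  have : ProperSpace X := properSpace_of_hyp H
  have : IsLocallyFiniteMeasure m := isLocallyFinite_of_hyp H
  exact secondDeriv_of_hyp H hFb hFl hGb hGc hH γ hγ

end Fin
end Crest.Agent.R242
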