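import Crest.Agent.R242.Sob2Lip
import Crest.Agent.R242.ResCore
import Crest.Agent.R242.SobMin
import Mathlib
import Crest.Prelude.Def_SyntheticRicci
import Crest.Agent.R242.Defs
import Crest.Agent.R242.CurveTop
import Crest.Agent.R242.Opt

-- ▼ part R242/BECore
section

/-!
# Row 242, PART B, [BE]: Bakry-Emery inequality for the resolvent (helper216)

Everything is deduced from the list `JFacts` of facts on the resolvent `J_h` (for one `h`) and the
list `BECalc` of facts on weak upper gradients and on curves of measures.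
-/

set_option autoImplicit false
set_option linter.unusedSectionVars false
open MeasureTheory Filter Set
open scoped ENNReal NNReal Topology
open Crest.GeometryTopology.SyntheticRicci

noncomputable section
namespace Crest.Agent.R242

section Defs

variable {X : Type*} [MetricSpace X] [MeasurableSpace X]

/-- bounded probability density with bounded support. -/
structure BEDens (m : Measure X) (ρ : X → ℝ) : Prop where
  meas : Measurable ρ
  nonneg : ∀ x, 0 ≤ ρ x
  bdd : ∃ C : ℝ, ∀ x, ρ x ≤ C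
  supp : ∃ (o : X) (R : ℝ), ∀ x, x ∉ Metric.closedBall o R → ρ x = 0
  int : ∫ x, ρ x ∂m = 1

/-- facts on the operator `T = J_h` used in this file. -/
structure JFacts (m : Measure X) (c : ℝ) (T : (X → ℝ) → (X → ℝ)) : Prop where
  sob : ∀ f, MemLp f 2 m → IsSobolev m (T f)
  nonneg : ∀ f, MemLp f 2 m → 0 ≤ᵐ[m] f → 0 ≤ᵐ[m] T f
  mono : ∀ f g, MemLp f 2 m → MemLp g 2 m → f ≤ᵐ[m] g → T f ≤ᵐ[m] T g
  le_const : ∀ f, MemLp f 2 m → ∀ b : ℝ, 0 ≤ b → (∀ᵐ x ∂m, f x ≤ b) → ∀ᵐ x ∂m, T f x ≤ b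
  symm : ∀ f g, MemLp f 2 m → MemLp g 2 m → ∫ x, T f x * g x ∂m = ∫ x, f x * T g x ∂m
  l1 : ∀ f, MemLp f 2 m → Integrable f m → Integrable (T f) m ∧ ∫ x, |T f x| ∂m ≤ ∫ x, |f x| ∂m
  mass : ∀ f, MemLp f 2 m → BddSupp m f → ∫ x, T f x ∂m = ∫ x, f x ∂m
  mom : ∀ f, MemLp f 2 m → BddSupp m f → ∀ o : X,
    Integrable (fun x => (1 + dist x o ^ 2) * |T f x|) m
  contr : ∀ ρ ρ', BEDens m ρ → BEDens m ρ' →
    w2sq (dens m (T ρ)) (dens m (T ρ')) ≤ ENNReal.ofReal c * w2sq (dens m ρ) (dens m ρ')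

theorem JFacts.memLp {m : Measure X} {c : ℝ} {T : (X → ℝ) → (X → ℝ)} (hT : JFacts m c T)
    (f : X → ℝ) (hf : MemLp f 2 m) : MemLp (T f) 2 m := (hT.sob f hf).1

/-- facts on weak upper gradients and test plans used in this file. -/
structure BECalc (m : Measure X) : Prop where
  young : ∀ f D : X → ℝ, IsL2OnBalls m f → IsWUGLoc m f D → ∀ P : Measure (UCurve X),
    IsTestPlan2 m P → ∀ a : ℝ, 0 < a →
    (∫⁻ γ, ENNReal.ofReal |f (γ.toMap 1) - f (γ.toMap 0)| ∂P) ≤
      ENNReal.ofReal (a / 2) *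
        (∫⁻ γ, (∫⁻ t in Set.Icc (0 : ℝ) 1, ENNReal.ofReal (D (γ.ext t) ^ 2)) ∂P) +
      ENNReal.ofReal (1 / (2 * a)) *
        (∫⁻ γ, (∫⁻ t in Set.Icc (0 : ℝ) 1, upperSpeed γ t ^ 2) ∂P)
  quad : ∀ g D : X → ℝ, IsL2OnBalls m g → IsL2OnBalls m D → (∀ᵐ x ∂m, 0 ≤ D x) →
    (∀ P : Measure (UCurve X), IsTestPlan2 m P → HasBoundedTracks P → ∀ a : ℝ, 0 < a →
      (∫ γ, (g (γ.toMap 1) - g (γ.toMap 0)) ∂P) ≤
        (a / 2) * (∫⁻ γ, (∫⁻ t in Set.Icc (0 : ℝ) 1, ENNReal.ofReal (D (γ.ext t) ^ 2)) ∂P).toReal +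
        (1 / (2 * a)) *
          (∫⁻ γ, (∫⁻ t in Set.Icc (0 : ℝ) 1, upperSpeed γ t ^ 2) ∂P).toReal) →
    IsWUGLoc m g D
  marg : ∀ P : Measure (UCurve X), (∀ᵐ γ ∂P, HasL2Speed γ) → ∀ s t : unitInterval,
    (s : ℝ) ≤ t → w2sq (timeMarginal P s) (timeMarginal P t) ≤
      ENNReal.ofReal ((t : ℝ) - s) *
        ∫⁻ γ, (∫⁻ r in Set.Icc (s : ℝ) (t : ℝ), upperSpeed γ r ^ 2) ∂P
  sup : ∀ ν : unitInterval → Measure X, (∀ t, IsProbabilityMeasure (ν t)) → ∀ C : ℝ≥0,
    (∀ t, ν t ≤ (C : ℝ≥0∞) • m) → (∀ t, HasFiniteSecondMoment (ν t)) →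
    ∀ A : ℝ → ℝ, MonotoneOn A (Icc 0 1) →
    (∀ s t : unitInterval, (s : ℝ) ≤ (t : ℝ) →
      w2sq (ν s) (ν t) ≤ ENNReal.ofReal (((t : ℝ) - s) * (A t - A s))) →
    ∃ P : Measure (UCurve X), IsTestPlan2 m P ∧ (∀ t, timeMarginal P t = ν t) ∧
      (∫⁻ γ, (∫⁻ t in Icc (0 : ℝ) 1, upperSpeed γ t ^ 2) ∂P) ≤ ENNReal.ofReal (A 1 - A 0)
  meas : Measurable (fun p : UCurve X × ℝ => upperSpeed p.1 p.2)

end Defs

section Dens

variable {X : Type*} [MetricSpace X] [ProperSpace X] [MeasurableSpace X] [BorelSpace X]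
  {m : Measure X} [IsLocallyFiniteMeasure m]

theorem be_lintegral_dens {ρ : X → ℝ} (hρ : AEMeasurable ρ m) (g : X → ℝ≥0∞) :
    ∫⁻ x, g x ∂(dens m ρ) = ∫⁻ x, ENNReal.ofReal (ρ x) * g x ∂m := by
  unfold dens
  rw [lintegral_withDensity_eq_lintegral_mul_non_measurable₀ m hρ.ennreal_ofReal
    (Filter.Eventually.of_forall fun x => ENNReal.ofReal_lt_top)]
  rfl

theorem be_integral_dens {ρ : X → ℝ} (hρ : AEMeasurable ρ m) (h0 : 0 ≤ᵐ[m] ρ) (g : X → ℝ) :
    ∫ x, g x ∂(dens m ρ) = ∫ x, g x * ρ x ∂m := by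
  unfold dens
  rw [integral_withDensity_eq_integral_toReal_smul₀ hρ.ennreal_ofReal
    (Filter.Eventually.of_forall fun x => ENNReal.ofReal_lt_top)]
  refine integral_congr_ae ?_
  filter_upwards [h0] with x hx
  rw [ENNReal.toReal_ofReal hx, smul_eq_mul, mul_comm]

theorem be_dens_le {ρ : X → ℝ} {C : ℝ≥0} (hC : ∀ᵐ x ∂m, ρ x ≤ C) :
    dens m ρ ≤ (C : ℝ≥0∞) • m := by
  unfold dens
  rw [← withDensity_const]
  refine withDensity_mono ?_
  filter_upwards [hC] with x hx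
  exact (ENNReal.ofReal_le_ofReal hx).trans (by rw [ENNReal.ofReal_coe_nnreal])

theorem be_dens_prob {ρ : X → ℝ} (hρ : Integrable ρ m) (h0 : 0 ≤ᵐ[m] ρ) (h1 : ∫ x, ρ x ∂m = 1) :
    IsProbabilityMeasure (dens m ρ) := by
  constructor
  unfold dens
  rw [withDensity_apply _ MeasurableSet.univ, Measure.restrict_univ,
    ← ofReal_integral_eq_lintegral_ofReal hρ h0, h1, ENNReal.ofReal_one]

/-- a measure `≤ C m` living in a ball has a density as required. -/
theorem exists_beDens {μ : Measure X} [IsProbabilityMeasure μ] {C : ℝ≥0}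
    (hC : μ ≤ (C : ℝ≥0∞) • m) {o : X} {R : ℝ} (hs : μ (Metric.closedBall o R)ᶜ = 0) :
    ∃ ρ : X → ℝ, BEDens m ρ ∧ (∀ x, ρ x ≤ C) ∧ (∀ x, x ∉ Metric.closedBall o R → ρ x = 0) ∧
      dens m ρ = μ := by
  have hac : μ ≪ m := Measure.absolutelyContinuous_of_le_smul hC
  have hm := Measure.measurable_rnDeriv μ m
  have hle : ∀ᵐ x ∂m, μ.rnDeriv m x ≤ C := by
    refine ae_le_of_forall_setLIntegral_le_of_sigmaFinite hm fun s hs _ => ?_
    rw [Measure.setLIntegral_rnDeriv hac, setLIntegral_const]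
    exact (hC s).trans (by simp)
  have hz : ∀ᵐ x ∂m, x ∈ (Metric.closedBall o R)ᶜ → μ.rnDeriv m x = 0 := by
    have h1 : ∫⁻ x in (Metric.closedBall o R)ᶜ, μ.rnDeriv m x ∂m = 0 := by
      rw [Measure.setLIntegral_rnDeriv hac, hs]
    have h2 := (lintegral_eq_zero_iff hm).1 h1
    exact (ae_restrict_iff' Metric.isClosed_closedBall.measurableSet.compl).1 h2
  set ρ : X → ℝ := (Metric.closedBall o R).indicator fun x => (min (μ.rnDeriv m x) C).toReal
    with hρdef
  have hρm : Measurable ρ :=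
    (Measurable.indicator (hm.min measurable_const).ennreal_toReal
      Metric.isClosed_closedBall.measurableSet)
  have hρ0 : ∀ x, 0 ≤ ρ x := fun x => Set.indicator_nonneg (fun _ _ => ENNReal.toReal_nonneg) x
  have hρC : ∀ x, ρ x ≤ C := by
    intro x
    refine Set.indicator_le' (fun x _ => ?_) (fun x _ => C.2) x
    exact ENNReal.toReal_le_coe_of_le_coe (min_le_right _ _)
  have hρs : ∀ x, x ∉ Metric.closedBall o R → ρ x = 0 := fun x hx => Set.indicator_of_notMem hx _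
  have hρe : ∀ᵐ x ∂m, ENNReal.ofReal (ρ x) = μ.rnDeriv m x := by
    filter_upwards [hle, hz] with x h1 h2
    by_cases hx : x ∈ Metric.closedBall o R
    · rw [hρdef, Set.indicator_of_mem hx, min_eq_left h1, ENNReal.ofReal_toReal
        (ne_top_of_le_ne_top ENNReal.coe_ne_top h1)]
    · rw [hρs x hx, h2 hx, ENNReal.ofReal_zero]
  have hd : dens m ρ = μ := by
    unfold dens
    rw [withDensity_congr_ae hρe, Measure.withDensity_rnDeriv_eq _ _ hac]
  refine ⟨ρ, ⟨hρm, hρ0, ⟨C, hρC⟩, ⟨o, R, hρs⟩, ?_⟩, hρC, hρs, hd⟩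
  have h3 : (∫⁻ x, ENNReal.ofReal (ρ x) ∂m) = 1 := by
    have h4 : dens m ρ univ = 1 := by rw [hd]; exact measure_univ
    unfold dens at h4
    rwa [withDensity_apply _ MeasurableSet.univ, Measure.restrict_univ] at h4
  rw [integral_eq_lintegral_of_nonneg_ae (Filter.Eventually.of_forall hρ0)
    hρm.aestronglyMeasurable, h3, ENNReal.toReal_one]

theorem BEDens.memLp {ρ : X → ℝ} (h : BEDens m ρ) (p : ℝ≥0∞) : MemLp ρ p m := by
  obtain ⟨C, hC⟩ := h.bdd
  obtain ⟨o, R, hs⟩ := h.supp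
  have hind : ρ = (Metric.closedBall o R).indicator ρ := by
    funext x
    by_cases hx : x ∈ Metric.closedBall o R
    · rw [Set.indicator_of_mem hx]
    · rw [Set.indicator_of_notMem hx, hs x hx]
  rw [hind, memLp_indicator_iff_restrict Metric.isClosed_closedBall.measurableSet]
  have : IsFiniteMeasure (m.restrict (Metric.closedBall o R)) :=
    ⟨by rw [Measure.restrict_apply_univ]; exact (isCompact_closedBall o R).measure_lt_top⟩
  refine MemLp.of_bound h.meas.aestronglyMeasurable C (Filter.Eventually.of_forall fun x => ?_)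
  rw [Real.norm_of_nonneg (h.nonneg x)]
  exact hC x

theorem BEDens.bddSupp {ρ : X → ℝ} (h : BEDens m ρ) : BddSupp m ρ := by
  obtain ⟨o, R, hs⟩ := h.supp
  exact ⟨o, R, Filter.Eventually.of_forall hs⟩

/-- the image of a density under `T`. -/
theorem be_T_prob {c : ℝ} {T : (X → ℝ) → (X → ℝ)} (hT : JFacts m c T) {ρ : X → ℝ}
    (h : BEDens m ρ) : IsProbabilityMeasure (dens m (T ρ)) := by
  have h2 := h.memLp 2
  refine be_dens_prob (hT.l1 ρ h2 (memLp_one_iff_integrable.1 (h.memLp 1))).1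
    (hT.nonneg ρ h2 (Filter.Eventually.of_forall h.nonneg)) ?_
  rw [hT.mass ρ h2 h.bddSupp, h.int]

theorem be_T_le {c : ℝ} {T : (X → ℝ) → (X → ℝ)} (hT : JFacts m c T) {ρ : X → ℝ}
    (h : BEDens m ρ) {C : ℝ≥0} (hC : ∀ x, ρ x ≤ C) : dens m (T ρ) ≤ (C : ℝ≥0∞) • m :=
  be_dens_le (hT.le_const ρ (h.memLp 2) C C.2 (Filter.Eventually.of_forall hC))

theorem be_T_mom {c : ℝ} {T : (X → ℝ) → (X → ℝ)} (hT : JFacts m c T) {ρ : X → ℝ}
    (h : BEDens m ρ) : HasFiniteSecondMoment (dens m (T ρ)) := by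
  obtain ⟨o, R, hs⟩ := h.supp
  have h2 := h.memLp 2
  have hmeas : AEMeasurable (T ρ) m := (hT.memLp ρ h2).aestronglyMeasurable.aemeasurable
  refine ⟨o, ?_⟩
  rw [be_lintegral_dens hmeas]
  have h3 := hT.mom ρ h2 h.bddSupp o
  refine lt_of_le_of_lt ?_ h3.lintegral_lt_top
  refine lintegral_mono fun x => ?_
  rw [edist_dist, ← ENNReal.ofReal_pow dist_nonneg, mul_comm, ← ENNReal.ofReal_mul (sq_nonneg _)]
  refine ENNReal.ofReal_le_ofReal ?_
  calc dist x o ^ 2 * T ρ x ≤ dist x o ^ 2 * |T ρ x| :=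
        mul_le_mul_of_nonneg_left (le_abs_self _) (sq_nonneg _)
    _ ≤ (1 + dist x o ^ 2) * |T ρ x| :=
        mul_le_mul_of_nonneg_right (by linarith) (abs_nonneg _)

/-- energy of a plan on a time interval -/
def beEn (P : Measure (UCurve X)) (a b : ℝ) : ℝ≥0∞ :=
  ∫⁻ γ, (∫⁻ r in Icc a b, upperSpeed γ r ^ 2) ∂P

theorem beEn_mono {P : Measure (UCurve X)} {a b a' b' : ℝ} (h : Icc a b ⊆ Icc a' b') :
    beEn P a b ≤ beEn P a' b' :=
  lintegral_mono fun _ => lintegral_mono_set h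

theorem beEn_add (hB : BECalc m) {P : Measure (UCurve X)} {s t : ℝ} (hs : 0 ≤ s) (hst : s ≤ t) :
    beEn P 0 t = beEn P 0 s + beEn P s t := by
  unfold beEn
  have hm : ∀ a b : ℝ, Measurable fun γ : UCurve X => ∫⁻ r in Icc a b, upperSpeed γ r ^ 2 :=
    fun a b => Measurable.lintegral_prod_right' (hB.meas.pow_const 2)
  rw [← lintegral_add_left (hm _ _)]
  refine lintegral_congr fun γ => ?_
  have h1 : (∫⁻ r in Icc s t, upperSpeed γ r ^ 2) = ∫⁻ r in Ioc s t, upperSpeed γ r ^ 2 :=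
    setLIntegral_congr Ioc_ae_eq_Icc.symm
  rw [h1, ← lintegral_union measurableSet_Ioc]
  · congr 2
    exact (Icc_union_Ioc_eq_Icc hs hst).symm
  · exact Set.disjoint_left.2 fun x hx hx' => absurd hx'.1 (not_lt.2 hx.2)

/-- the lift of a test plan. -/
theorem be_lift (hB : BECalc m) {c : ℝ} (hc : 0 ≤ c) {T : (X → ℝ) → (X → ℝ)}
    (hT : JFacts m c T) {P : Measure (UCurve X)} (hP : IsTestPlan2 m P)
    (hb : HasBoundedTracks P) :
    ∃ (ρ : unitInterval → X → ℝ) (Q : Measure (UCurve X)), (∀ t, BEDens m (ρ t)) ∧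
      (∀ t, dens m (ρ t) = timeMarginal P t) ∧ IsTestPlan2 m Q ∧
      (∀ t, timeMarginal Q t = dens m (T (ρ t))) ∧
      beEn Q 0 1 ≤ ENNReal.ofReal c * beEn P 0 1 := by
  obtain ⟨hP1, ⟨C, hC⟩, hsp, hen⟩ := hP
  obtain ⟨o, R, hoR⟩ := hb
  have hprob : ∀ t, IsProbabilityMeasure (timeMarginal P t) := fun t =>
    Measure.isProbabilityMeasure_map (measurable_ucurve_eval t).aemeasurable
  have hsupp : ∀ t, timeMarginal P t (Metric.closedBall o R)ᶜ = 0 := by
    intro t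
    unfold timeMarginal
    rw [Measure.map_apply (measurable_ucurve_eval t)
      Metric.isClosed_closedBall.measurableSet.compl]
    refine measure_mono_null (fun γ hγ => ?_) (ae_iff.1 hoR)
    exact fun h => hγ (h t)
  have hex : ∀ t, ∃ ρ : X → ℝ, BEDens m ρ ∧ (∀ x, ρ x ≤ C) ∧
      (∀ x, x ∉ Metric.closedBall o R → ρ x = 0) ∧ dens m ρ = timeMarginal P t := fun t => by
    have := hprob t
    exact exists_beDens (hC t) (hsupp t)
  choose ρ hρ hρC hρs hρd using hex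
  set A : ℝ → ℝ := fun t => c * (beEn P 0 t).toReal with hA
  have hfin : ∀ t : ℝ, t ≤ 1 → beEn P 0 t ≠ ⊤ := fun t ht =>
    ne_top_of_le_ne_top hen.ne (beEn_mono (Icc_subset_Icc le_rfl ht))
  have hAdiff : ∀ s t : ℝ, 0 ≤ s → s ≤ t → t ≤ 1 →
      A t - A s = c * (beEn P s t).toReal := by
    intro s t hs hst ht
    have h1 := beEn_add hB (P := P) hs hst
    have h2 : beEn P s t ≠ ⊤ := fun h => hfin t ht (by rw [h1, h, add_top])
    simp only [hA]
    rw [h1, ENNReal.toReal_add (hfin s (hst.trans ht)) h2]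
    ring
  have hAm : MonotoneOn A (Icc 0 1) := by
    intro s hs t ht hst
    have := hAdiff s t hs.1 hst ht.2
    have h2 : 0 ≤ c * (beEn P s t).toReal := mul_nonneg hc ENNReal.toReal_nonneg
    linarith
  obtain ⟨Q, hQ, hQm, hQe⟩ := hB.sup (fun t => dens m (T (ρ t))) (fun t => be_T_prob hT (hρ t)) C
    (fun t => be_T_le hT (hρ t) (hρC t)) (fun t => be_T_mom hT (hρ t)) A hAm (by
      intro s t hst
      refine (hT.contr _ _ (hρ s) (hρ t)).trans ?_
      rw [hρd s, hρd t, hAdiff s t s.2.1 hst t.2.2]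
      refine (mul_le_mul_right (hB.marg P hsp s t hst) _).trans ?_
      rw [ENNReal.ofReal_mul (sub_nonneg.2 hst), ENNReal.ofReal_mul hc, ENNReal.ofReal_toReal]
      · unfold beEn
        rw [← mul_assoc, ← mul_assoc, mul_comm (ENNReal.ofReal c)]
      · exact ne_top_of_le_ne_top hen.ne (beEn_mono (Icc_subset_Icc s.2.1 t.2.2)))
  refine ⟨ρ, Q, hρ, hρd, hQ, hQm, ?_⟩
  unfold beEn at *
  refine hQe.trans ?_
  rw [hAdiff 0 1 le_rfl zero_le_one le_rfl, ENNReal.ofReal_mul hc, ENNReal.ofReal_toReal hen.ne]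

/-! ### `T` of an integrable function -/

/-- truncations of a measurable `[0,∞]`-valued function. -/
def beTr (o : X) (w : X → ℝ≥0∞) (n : ℕ) : X → ℝ :=
  (Metric.closedBall o n).indicator fun x => (min (w x) n).toReal

theorem beTr_meas (o : X) {w : X → ℝ≥0∞} (hw : Measurable w) (n : ℕ) :
    Measurable (beTr o w n) :=
  Measurable.indicator (hw.min measurable_const).ennreal_toReal
    Metric.isClosed_closedBall.measurableSet

theorem beTr_nonneg (o : X) (w : X → ℝ≥0∞) (n : ℕ) (x : X) : 0 ≤ beTr o w n x :=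
  Set.indicator_nonneg (fun _ _ => ENNReal.toReal_nonneg) x


theorem beTr_ofReal_le (o : X) (w : X → ℝ≥0∞) (n : ℕ) (x : X) :
    ENNReal.ofReal (beTr o w n x) ≤ w x := by
  unfold beTr
  by_cases hx : x ∈ Metric.closedBall o n
  · rw [Set.indicator_of_mem hx, ENNReal.ofReal_toReal
      (ne_top_of_le_ne_top (ENNReal.natCast_ne_top n) (min_le_right _ _))]
    exact min_le_left _ _
  · rw [Set.indicator_of_notMem hx, ENNReal.ofReal_zero]
    exact bot_le

theorem beTr_mono (o : X) (w : X → ℝ≥0∞) (x : X) : Monotone fun n => beTr o w n x := by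
  intro i j hij
  have hij' : (i : ℝ) ≤ j := Nat.cast_le.2 hij
  simp only
  by_cases hx : x ∈ Metric.closedBall o i
  · have hx' : x ∈ Metric.closedBall o j := Metric.closedBall_subset_closedBall hij' hx
    unfold beTr
    rw [Set.indicator_of_mem hx, Set.indicator_of_mem hx']
    refine ENNReal.toReal_mono
      (ne_top_of_le_ne_top (ENNReal.natCast_ne_top j) (min_le_right _ _)) ?_
    exact min_le_min le_rfl (Nat.cast_le.2 hij)
  · have h0 : beTr o w i x = 0 := Set.indicator_of_notMem hx _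
    rw [h0]
    exact beTr_nonneg o w j x

theorem beTr_sup (o : X) (w : X → ℝ≥0∞) (x : X) :
    ⨆ n, ENNReal.ofReal (beTr o w n x) = w x := by
  refine le_antisymm (iSup_le fun n => beTr_ofReal_le o w n x) ?_
  refine le_of_forall_lt fun a ha => ?_
  obtain ⟨N, hN⟩ := exists_nat_ge (dist x o)
  have ha' : a ≠ ⊤ := ne_top_of_lt ha
  obtain ⟨N', hN'⟩ := ENNReal.exists_nat_gt ha'
  have hx : x ∈ Metric.closedBall o ((max N N' : ℕ) : ℝ) := by
    rw [Metric.mem_closedBall]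
    exact hN.trans (Nat.cast_le.2 (le_max_left _ _))
  refine lt_of_lt_of_le ?_ (le_iSup _ (max N N'))
  unfold beTr
  rw [Set.indicator_of_mem hx, ENNReal.ofReal_toReal
      (ne_top_of_le_ne_top (ENNReal.natCast_ne_top _) (min_le_right _ _))]
  exact lt_min ha (hN'.trans_le (Nat.cast_le.2 (le_max_right _ _)))

theorem beTr_memLp (o : X) {w : X → ℝ≥0∞} (hw : Measurable w) (n : ℕ) (p : ℝ≥0∞) :
    MemLp (beTr o w n) p m := by
  unfold beTr
  rw [memLp_indicator_iff_restrict Metric.isClosed_closedBall.measurableSet]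
  have : IsFiniteMeasure (m.restrict (Metric.closedBall o n)) :=
    ⟨by rw [Measure.restrict_apply_univ]; exact (isCompact_closedBall o n).measure_lt_top⟩
  refine MemLp.of_bound (hw.min measurable_const).ennreal_toReal.aestronglyMeasurable n
    (Filter.Eventually.of_forall fun x => ?_)
  rw [Real.norm_of_nonneg ENNReal.toReal_nonneg]
  have h := ENNReal.toReal_mono (ENNReal.natCast_ne_top n) (min_le_right (w x) (n : ℝ≥0∞))
  simpa using h

theorem be_lintegral_mul {f g : X → ℝ} (hf : MemLp f 2 m) (hg : MemLp g 2 m)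
    (hf0 : 0 ≤ᵐ[m] f) (hg0 : 0 ≤ᵐ[m] g) :
    ∫⁻ x, ENNReal.ofReal (f x) * ENNReal.ofReal (g x) ∂m = ENNReal.ofReal (∫ x, f x * g x ∂m) := by
  have hi : Integrable (fun x => f x * g x) m := hf.integrable_mul hg
  rw [ofReal_integral_eq_lintegral_ofReal hi]
  · refine lintegral_congr_ae ?_
    filter_upwards [hf0] with x hx
    exact (ENNReal.ofReal_mul hx).symm
  · filter_upwards [hf0, hg0] with x hx hx'
    exact mul_nonneg hx hx'

/-- `T w` for `w` measurable with values in `[0,∞]` and finite integral. -/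
theorem exists_beExt {c : ℝ} {T : (X → ℝ) → (X → ℝ)} (hT : JFacts m c T) {w : X → ℝ≥0∞}
    (hw : Measurable w) [Nonempty X] :
    ∃ G : X → ℝ≥0∞, Measurable G ∧ (∫⁻ x, G x ∂m ≤ ∫⁻ x, w x ∂m) ∧
      ∀ q : X → ℝ, MemLp q 2 m → 0 ≤ᵐ[m] q →
        ∫⁻ x, G x * ENNReal.ofReal (q x) ∂m = ∫⁻ x, w x * ENNReal.ofReal (T q x) ∂m := by
  obtain ⟨o⟩ := ‹Nonempty X›
  have hu2 : ∀ n, MemLp (beTr o w n) 2 m := fun n => beTr_memLp o hw n 2
  have hu1 : ∀ n, Integrable (beTr o w n) m := fun n => memLp_one_iff_integrable.1 (beTr_memLp o hw n 1)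
  have hu0 : ∀ n, 0 ≤ᵐ[m] beTr o w n := fun n => Filter.Eventually.of_forall (beTr_nonneg o w n)
  have hT2 : ∀ n, MemLp (T (beTr o w n)) 2 m := fun n => hT.memLp _ (hu2 n)
  have hT0 : ∀ n, 0 ≤ᵐ[m] T (beTr o w n) := fun n => hT.nonneg _ (hu2 n) (hu0 n)
  set g : ℕ → X → ℝ := fun n => (hT2 n).aestronglyMeasurable.mk _ with hg
  have hgm : ∀ n, Measurable (g n) := fun n =>
    (hT2 n).aestronglyMeasurable.stronglyMeasurable_mk.measurable
  have hge : ∀ n, T (beTr o w n) =ᵐ[m] g n := fun n => (hT2 n).aestronglyMeasurable.ae_eq_mk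
  have hgmono : ∀ᵐ x ∂m, Monotone fun n => ENNReal.ofReal (g n x) := by
    have h1 : ∀ n, ∀ᵐ x ∂m, T (beTr o w n) x ≤ T (beTr o w (n + 1)) x := fun n =>
      hT.mono _ _ (hu2 n) (hu2 (n + 1))
        (Filter.Eventually.of_forall fun x => beTr_mono o w x (Nat.le_succ n))
    filter_upwards [ae_all_iff.2 h1, ae_all_iff.2 hge] with x h2 h3
    refine monotone_nat_of_le_succ fun n => ENNReal.ofReal_le_ofReal ?_
    rw [← h3 n, ← h3 (n + 1)]
    exact h2 n
  have hGi : ∀ φ : X → ℝ≥0∞, Measurable φ →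
      ∫⁻ x, (⨆ n, ENNReal.ofReal (g n x)) * φ x ∂m = ⨆ n, ∫⁻ x, ENNReal.ofReal (g n x) * φ x ∂m := by
    intro φ hφ
    rw [← lintegral_iSup']
    · refine lintegral_congr fun x => ?_
      rw [ENNReal.iSup_mul]
    · exact fun n => ((hgm n).ennreal_ofReal.mul hφ).aemeasurable
    · filter_upwards [hgmono] with x hx
      exact fun i j hij => mul_le_mul_left (hx hij) _
  refine ⟨fun x => ⨆ n, ENNReal.ofReal (g n x), Measurable.iSup fun n => (hgm n).ennreal_ofReal,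
    ?_, ?_⟩
  · have h1 := hGi (fun _ => 1) measurable_const
    simp only [mul_one] at h1
    rw [h1]
    refine iSup_le fun n => ?_
    have h2 := (hT.l1 _ (hu2 n) (hu1 n))
    have h3 : ∫⁻ x, ENNReal.ofReal (g n x) ∂m = ENNReal.ofReal (∫ x, T (beTr o w n) x ∂m) := by
      rw [ofReal_integral_eq_lintegral_ofReal h2.1 (hT0 n)]
      refine lintegral_congr_ae ?_
      filter_upwards [hge n] with x hx
      rw [hx]
    rw [h3]
    calc ENNReal.ofReal (∫ x, T (beTr o w n) x ∂m) ≤ ENNReal.ofReal (∫ x, |beTr o w n x| ∂m) := by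
          refine ENNReal.ofReal_le_ofReal ?_
          refine le_trans ?_ h2.2
          exact integral_mono h2.1 h2.1.abs fun x => le_abs_self _
      _ = ENNReal.ofReal (∫ x, beTr o w n x ∂m) := by
          congr 1
          exact integral_congr_ae (Filter.Eventually.of_forall fun x =>
            abs_of_nonneg (beTr_nonneg o w n x))
      _ = ∫⁻ x, ENNReal.ofReal (beTr o w n x) ∂m :=
          ofReal_integral_eq_lintegral_ofReal (hu1 n) (hu0 n)
      _ ≤ ∫⁻ x, w x ∂m := lintegral_mono fun x => beTr_ofReal_le o w n x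
  · intro q hq hq0
    have hTq := hT.memLp q hq
    have hTq0 := hT.nonneg q hq hq0
    set q' := hq.aestronglyMeasurable.mk q with hq'
    have hqe : q =ᵐ[m] q' := hq.aestronglyMeasurable.ae_eq_mk
    have hqm : Measurable q' := hq.aestronglyMeasurable.stronglyMeasurable_mk.measurable
    set r := hTq.aestronglyMeasurable.mk (T q) with hr
    have hre : T q =ᵐ[m] r := hTq.aestronglyMeasurable.ae_eq_mk
    have hrm : Measurable r := hTq.aestronglyMeasurable.stronglyMeasurable_mk.measurable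
    have h1 : ∫⁻ x, (⨆ n, ENNReal.ofReal (g n x)) * ENNReal.ofReal (q x) ∂m =
        ∫⁻ x, (⨆ n, ENNReal.ofReal (g n x)) * ENNReal.ofReal (q' x) ∂m := by
      refine lintegral_congr_ae ?_
      filter_upwards [hqe] with x hx
      rw [hx]
    have h2 : ∫⁻ x, w x * ENNReal.ofReal (T q x) ∂m =
        ∫⁻ x, (⨆ n, ENNReal.ofReal (beTr o w n x)) * ENNReal.ofReal (r x) ∂m := by
      refine lintegral_congr_ae ?_
      filter_upwards [hre] with x hx
      rw [hx, beTr_sup]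
    have h3 : ∫⁻ x, (⨆ n, ENNReal.ofReal (beTr o w n x)) * ENNReal.ofReal (r x) ∂m =
        ⨆ n, ∫⁻ x, ENNReal.ofReal (beTr o w n x) * ENNReal.ofReal (r x) ∂m := by
      rw [← lintegral_iSup']
      · refine lintegral_congr fun x => ?_
        rw [ENNReal.iSup_mul]
      · exact fun n => ((beTr_meas o hw n).ennreal_ofReal.mul hrm.ennreal_ofReal).aemeasurable
      · refine Filter.Eventually.of_forall fun x i j hij => mul_le_mul_left ?_ _
        exact ENNReal.ofReal_le_ofReal (beTr_mono o w x hij)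
    rw [h1, h2, h3, hGi _ hqm.ennreal_ofReal]
    congr 1
    funext n
    have h4 : ∫⁻ x, ENNReal.ofReal (g n x) * ENNReal.ofReal (q' x) ∂m =
        ∫⁻ x, ENNReal.ofReal (T (beTr o w n) x) * ENNReal.ofReal (q x) ∂m := by
      refine lintegral_congr_ae ?_
      filter_upwards [hqe, hge n] with x hx hx'
      rw [hx, hx']
    have h5 : ∫⁻ x, ENNReal.ofReal (beTr o w n x) * ENNReal.ofReal (r x) ∂m =
        ∫⁻ x, ENNReal.ofReal (beTr o w n x) * ENNReal.ofReal (T q x) ∂m := by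
      refine lintegral_congr_ae ?_
      filter_upwards [hre] with x hx
      rw [hx]
    rw [h4, h5, be_lintegral_mul (hT2 n) hq (hT0 n) hq0, be_lintegral_mul (hu2 n) hTq (hu0 n) hTq0,
      hT.symm _ _ (hu2 n) hq]

theorem be_isMin {f : X → ℝ} (hf : IsSobolevLoc m f) : IsMinWUGLoc m f (minWeakGrad m f) := by
  have h := hf.2
  unfold minWeakGrad
  rw [dif_pos h]
  exact Classical.choose_spec h

theorem be_isL2OnBalls {f : X → ℝ} (hf : MemLp f 2 m) : IsL2OnBalls m f :=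
  fun _ _ => hf.restrict _

/-- time integrals along a plan. -/
theorem be_lintegral_plan {P : Measure (UCurve X)} [IsProbabilityMeasure P] {g : X → ℝ≥0∞}
    (hg : Measurable g) :
    ∫⁻ γ, (∫⁻ t in Set.Icc (0 : ℝ) 1, g (γ.ext t)) ∂P =
      ∫⁻ t in Set.Icc (0 : ℝ) 1,
        (∫⁻ x, g x ∂(timeMarginal P (Set.projIcc (0 : ℝ) 1 zero_le_one t))) := by
  rw [lintegral_lintegral_swap]
  · refine lintegral_congr fun t => ?_
    unfold timeMarginal
    rw [lintegral_map hg (measurable_ucurve_eval _)]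
    rfl
  · exact (hg.comp measurable_ext_prod).aemeasurable

theorem be_eval {Q : Measure (UCurve X)} [IsProbabilityMeasure Q] {C : ℝ≥0}
    (hC : ∀ t, timeMarginal Q t ≤ (C : ℝ≥0∞) • m) {u : X → ℝ} (hu : MemLp u 2 m)
    (t : unitInterval) :
    Integrable (fun γ : UCurve X => u (γ.toMap t)) Q ∧
      ∫ γ, u (γ.toMap t) ∂Q = ∫ x, u x ∂(timeMarginal Q t) := by
  have hprob : IsProbabilityMeasure (timeMarginal Q t) :=
    Measure.isProbabilityMeasure_map (measurable_ucurve_eval t).aemeasurable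
  have h1 : MemLp u 2 (timeMarginal Q t) := hu.of_measure_le_smul ENNReal.coe_ne_top (hC t)
  have h2 : Integrable u (timeMarginal Q t) := h1.integrable one_le_two
  unfold timeMarginal at *
  refine ⟨(integrable_map_measure h2.aestronglyMeasurable
    (measurable_ucurve_eval t).aemeasurable).1 h2, ?_⟩
  rw [integral_map (measurable_ucurve_eval t).aemeasurable h2.aestronglyMeasurable]

theorem be_wug (hB : BECalc m) {c : ℝ} (hc : 0 < c) {T : (X → ℝ) → (X → ℝ)}
    (hT : JFacts m c T) {f : X → ℝ} (hf : IsSobolev m f) [Nonempty X] :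
    ∃ G : X → ℝ≥0∞, Measurable G ∧
      (∫⁻ x, G x ∂m ≤ ∫⁻ x, ENNReal.ofReal (minWeakGrad m f x ^ 2) ∂m) ∧
      (∀ q : X → ℝ, MemLp q 2 m → 0 ≤ᵐ[m] q → ∫⁻ x, G x * ENNReal.ofReal (q x) ∂m =
        ∫⁻ x, ENNReal.ofReal (minWeakGrad m f x ^ 2) * ENNReal.ofReal (T q x) ∂m) ∧
      IsWUGLoc m (T f) (fun x => Real.sqrt (c * (G x).toReal)) := by
  obtain ⟨hf2, hfl, hD2⟩ := hf
  have hmin := be_isMin hfl
  set D := minWeakGrad m f with hD
  have hwa : AEMeasurable (fun x => ENNReal.ofReal (D x ^ 2)) m :=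
    (hD2.aestronglyMeasurable.aemeasurable.pow_const 2).ennreal_ofReal
  set w := hwa.mk _ with hw
  have hwm : Measurable w := hwa.measurable_mk
  have hwe : ∀ᵐ x ∂m, ENNReal.ofReal (D x ^ 2) = w x := hwa.ae_eq_mk
  obtain ⟨G, hGm, hGi, hG⟩ := exists_beExt hT hwm
  have hwfin : ∫⁻ x, ENNReal.ofReal (D x ^ 2) ∂m < ⊤ := hD2.integrable_sq.lintegral_lt_top
  have hGi' : ∫⁻ x, G x ∂m ≤ ∫⁻ x, ENNReal.ofReal (D x ^ 2) ∂m := by
    rw [lintegral_congr_ae hwe]; exact hGi
  have hGfin : ∀ᵐ x ∂m, G x < ⊤ := ae_lt_top hGm (hGi'.trans_lt hwfin).ne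
  have hGq : ∀ q : X → ℝ, MemLp q 2 m → 0 ≤ᵐ[m] q → ∫⁻ x, G x * ENNReal.ofReal (q x) ∂m =
        ∫⁻ x, ENNReal.ofReal (D x ^ 2) * ENNReal.ofReal (T q x) ∂m := by
    intro q hq hq0
    rw [hG q hq hq0]
    refine lintegral_congr_ae ?_
    filter_upwards [hwe] with x hx
    rw [hx]
  refine ⟨G, hGm, hGi', hGq, ?_⟩
  set D0 : X → ℝ := fun x => Real.sqrt (c * (G x).toReal) with hD0
  have hD0m : Measurable D0 := (hGm.ennreal_toReal.const_mul c).sqrt
  have hD0sq : ∀ x, D0 x ^ 2 = c * (G x).toReal := fun x =>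
    Real.sq_sqrt (mul_nonneg hc.le ENNReal.toReal_nonneg)
  have hD0e : ∀ᵐ x ∂m, ENNReal.ofReal (D0 x ^ 2) = ENNReal.ofReal c * G x := by
    filter_upwards [hGfin] with x hx
    rw [hD0sq, ENNReal.ofReal_mul hc.le, ENNReal.ofReal_toReal hx.ne]
  have hD0fin : ∫⁻ x, ENNReal.ofReal (D0 x ^ 2) ∂m < ⊤ := by
    rw [lintegral_congr_ae hD0e, lintegral_const_mul _ hGm]
    exact ENNReal.mul_lt_top ENNReal.ofReal_lt_top (hGi'.trans_lt hwfin)
  have hD0L : MemLp D0 2 m := by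
    rw [memLp_two_iff_integrable_sq hD0m.aestronglyMeasurable]
    refine ⟨(hD0m.pow_const 2).aestronglyMeasurable, ?_⟩
    rw [hasFiniteIntegral_iff_ofReal (Filter.Eventually.of_forall fun x => sq_nonneg _)]
    exact hD0fin
  refine hB.quad (T f) D0 (be_isL2OnBalls (hT.memLp f hf2)) (be_isL2OnBalls hD0L)
    (Filter.Eventually.of_forall fun x => Real.sqrt_nonneg _) ?_
  intro P hP hPb a ha
  obtain ⟨ρ, Q, hρ, hρd, hQ, hQm, hQe⟩ := be_lift hB hc.le hT hP hPb
  have hP1 := hP.1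
  have hQ1 := hQ.1
  obtain ⟨C, hC⟩ := hP.2.1
  obtain ⟨C', hC'⟩ := hQ.2.1
  have hTρ : ∀ t, MemLp (T (ρ t)) 2 m := fun t => hT.memLp _ ((hρ t).memLp 2)
  have hTρ0 : ∀ t, 0 ≤ᵐ[m] T (ρ t) := fun t =>
    hT.nonneg _ ((hρ t).memLp 2) (Filter.Eventually.of_forall (hρ t).nonneg)
  have hTf := hT.memLp f hf2
  -- the left side
  have hmarg : ∀ t, ∫ γ, T f (γ.toMap t) ∂P = ∫ γ, f (γ.toMap t) ∂Q := by
    intro t
    rw [(be_eval hC hTf t).2, (be_eval hC' hf2 t).2, ← hρd t, hQm t,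
      be_integral_dens (hρ t).meas.aemeasurable (Filter.Eventually.of_forall (hρ t).nonneg),
      be_integral_dens (hTρ t).aestronglyMeasurable.aemeasurable (hTρ0 t),
      hT.symm _ _ hf2 ((hρ t).memLp 2)]
  have hleft : ∫ γ, (T f (γ.toMap 1) - T f (γ.toMap 0)) ∂P =
      ∫ γ, (f (γ.toMap 1) - f (γ.toMap 0)) ∂Q := by
    rw [integral_sub (be_eval hC hTf 1).1 (be_eval hC hTf 0).1,
      integral_sub (be_eval hC' hf2 1).1 (be_eval hC' hf2 0).1, hmarg 1, hmarg 0]
  -- the first term on the right side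
  have hG1 : ∀ t, ∫⁻ x, w x ∂(timeMarginal Q t) = ∫⁻ x, G x ∂(timeMarginal P t) := by
    intro t
    rw [hQm t, ← hρd t, be_lintegral_dens (hTρ t).aestronglyMeasurable.aemeasurable,
      be_lintegral_dens (hρ t).meas.aemeasurable]
    have h1 := hG (ρ t) ((hρ t).memLp 2) (Filter.Eventually.of_forall (hρ t).nonneg)
    simp only [mul_comm (ENNReal.ofReal _)]
    exact h1.symm
  have hDw : ∫⁻ γ, (∫⁻ t in Set.Icc (0 : ℝ) 1, ENNReal.ofReal (D (γ.ext t) ^ 2)) ∂Q =
      ∫⁻ γ, (∫⁻ t in Set.Icc (0 : ℝ) 1, w (γ.ext t)) ∂Q := by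
    have h1 := ae_ae_notMem_of_null hC' (ae_iff.1 hwe)
    refine lintegral_congr_ae ?_
    filter_upwards [h1] with γ hγ
    refine lintegral_congr_ae ?_
    filter_upwards [hγ] with t ht
    exact not_not.1 ht
  have hDG : ∫⁻ γ, (∫⁻ t in Set.Icc (0 : ℝ) 1, ENNReal.ofReal (D0 (γ.ext t) ^ 2)) ∂P =
      ENNReal.ofReal c * ∫⁻ γ, (∫⁻ t in Set.Icc (0 : ℝ) 1, G (γ.ext t)) ∂P := by
    have h1 := ae_ae_notMem_of_null hC (ae_iff.1 hD0e)
    rw [← lintegral_const_mul]
    · refine lintegral_congr_ae ?_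
      filter_upwards [h1] with γ hγ
      have hmγ : Measurable fun t : ℝ => G (γ.ext t) :=
        hGm.comp (s2l_continuous_ext γ).measurable
      rw [← lintegral_const_mul _ hmγ]
      refine lintegral_congr_ae ?_
      filter_upwards [hγ] with t ht
      exact not_not.1 ht
    · exact Measurable.lintegral_prod_right' (hGm.comp measurable_ext_prod)
  have hmain : ENNReal.ofReal c *
      ∫⁻ γ, (∫⁻ t in Set.Icc (0 : ℝ) 1, ENNReal.ofReal (D (γ.ext t) ^ 2)) ∂Q =
      ∫⁻ γ, (∫⁻ t in Set.Icc (0 : ℝ) 1, ENNReal.ofReal (D0 (γ.ext t) ^ 2)) ∂P := by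
    rw [hDG, hDw, be_lintegral_plan hwm, be_lintegral_plan hGm]
    congr 1
    exact lintegral_congr fun t => hG1 _
  have hfin : ∫⁻ γ, (∫⁻ t in Set.Icc (0 : ℝ) 1, ENNReal.ofReal (D0 (γ.ext t) ^ 2)) ∂P ≠ ⊤ := by
    rw [be_lintegral_plan (hD0m.pow_const 2).ennreal_ofReal]
    have h1 : ∀ t, ∫⁻ x, ENNReal.ofReal (D0 x ^ 2) ∂(timeMarginal P t) ≤
        C * ∫⁻ x, ENNReal.ofReal (D0 x ^ 2) ∂m := by
      intro t
      refine (lintegral_mono' (hC t) le_rfl).trans ?_
      rw [lintegral_smul_measure]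
      rfl
    refine ((lintegral_mono fun t => h1 _).trans_lt ?_).ne
    rw [lintegral_const, Measure.restrict_apply_univ, Real.volume_Icc]
    exact ENNReal.mul_lt_top (ENNReal.mul_lt_top ENNReal.coe_lt_top hD0fin) ENNReal.ofReal_lt_top
  have hen := hP.2.2.2
  have hy := hB.young f D (be_isL2OnBalls hf2) hmin.1 Q hQ (c * a) (mul_pos hc ha)
  have h1 : ENNReal.ofReal (c * a / 2) *
      ∫⁻ γ, (∫⁻ t in Set.Icc (0 : ℝ) 1, ENNReal.ofReal (D (γ.ext t) ^ 2)) ∂Q =
      ENNReal.ofReal (a / 2) *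
        ∫⁻ γ, (∫⁻ t in Set.Icc (0 : ℝ) 1, ENNReal.ofReal (D0 (γ.ext t) ^ 2)) ∂P := by
    rw [← hmain, ← mul_assoc, ← ENNReal.ofReal_mul (by positivity)]
    congr 2
    ring
  have h2 : ENNReal.ofReal (1 / (2 * (c * a))) * beEn Q 0 1 ≤
      ENNReal.ofReal (1 / (2 * a)) * beEn P 0 1 := by
    refine (mul_le_mul_right hQe _).trans ?_
    rw [← mul_assoc, ← ENNReal.ofReal_mul (by positivity)]
    refine le_of_eq ?_
    congr 2
    field_simp
  have hbound : (∫⁻ γ, ENNReal.ofReal |f (γ.toMap 1) - f (γ.toMap 0)| ∂Q) ≤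
      ENNReal.ofReal (a / 2) *
        ∫⁻ γ, (∫⁻ t in Set.Icc (0 : ℝ) 1, ENNReal.ofReal (D0 (γ.ext t) ^ 2)) ∂P +
      ENNReal.ofReal (1 / (2 * a)) * beEn P 0 1 := by
    refine hy.trans ?_
    rw [h1]
    exact add_le_add le_rfl h2
  have hen' : beEn P 0 1 ≠ ⊤ := hen.ne
  have hi : Integrable (fun γ : UCurve X => f (γ.toMap 1) - f (γ.toMap 0)) Q :=
    (be_eval hC' hf2 1).1.sub (be_eval hC' hf2 0).1
  rw [hleft]
  calc ∫ γ, (f (γ.toMap 1) - f (γ.toMap 0)) ∂Q ≤ ∫ γ, |f (γ.toMap 1) - f (γ.toMap 0)| ∂Q :=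
        integral_mono hi hi.abs fun γ => le_abs_self _
    _ = (∫⁻ γ, ENNReal.ofReal |f (γ.toMap 1) - f (γ.toMap 0)| ∂Q).toReal := by
        rw [integral_eq_lintegral_of_nonneg_ae (Filter.Eventually.of_forall fun γ => abs_nonneg _)
          hi.abs.aestronglyMeasurable]
    _ ≤ (ENNReal.ofReal (a / 2) *
        ∫⁻ γ, (∫⁻ t in Set.Icc (0 : ℝ) 1, ENNReal.ofReal (D0 (γ.ext t) ^ 2)) ∂P +
      ENNReal.ofReal (1 / (2 * a)) * beEn P 0 1).toReal := by
        refine ENNReal.toReal_mono ?_ hbound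
        exact ENNReal.add_ne_top.2 ⟨ENNReal.mul_ne_top ENNReal.ofReal_ne_top hfin,
          ENNReal.mul_ne_top ENNReal.ofReal_ne_top hen'⟩
    _ = _ := by
        rw [ENNReal.toReal_add (ENNReal.mul_ne_top ENNReal.ofReal_ne_top hfin)
          (ENNReal.mul_ne_top ENNReal.ofReal_ne_top hen'), ENNReal.toReal_mul, ENNReal.toReal_mul,
          ENNReal.toReal_ofReal (by positivity), ENNReal.toReal_ofReal (by positivity)]
        rfl

theorem be_memLp_two {q : X → ℝ} (h1 : MemLp q 1 m) (h2 : MemLp q ⊤ m) : MemLp q 2 m := by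
  rw [memLp_two_iff_integrable_sq h1.aestronglyMeasurable]
  have hi := (memLp_one_iff_integrable.1 h1).abs
  have hb : ∀ᵐ x ∂m, |q x| ≤ (eLpNormEssSup q m).toReal := by
    filter_upwards [ae_le_eLpNormEssSup (f := q) (μ := m)] with x hx
    have h3 : eLpNormEssSup q m ≠ ⊤ := by
      have := h2.eLpNorm_ne_top
      rwa [eLpNorm_exponent_top] at this
    have h4 := ENNReal.toReal_mono h3 hx
    simpa using h4
  refine Integrable.mono' (hi.const_mul (eLpNormEssSup q m).toReal)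
    (h1.aestronglyMeasurable.pow 2) ?_
  filter_upwards [hb] with x hx
  rw [Real.norm_of_nonneg (sq_nonneg _), ← sq_abs, sq]
  exact mul_le_mul_of_nonneg_right hx (abs_nonneg _)

/-- [BEw] -/
theorem be_weak (hB : BECalc m) {c : ℝ} (hc : 0 < c) {T : (X → ℝ) → (X → ℝ)}
    (hT : JFacts m c T) {f : X → ℝ} (hf : IsSobolev m f) {q : X → ℝ} (hq0 : 0 ≤ᵐ[m] q)
    (hq1 : MemLp q 1 m) (hqt : MemLp q ⊤ m) :
    ∫ x, q x * minWeakGrad m (T f) x ^ 2 ∂m ≤ c * ∫ x, T q x * minWeakGrad m f x ^ 2 ∂m := by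
  rcases isEmpty_or_nonempty X with hX | hX
  · simp [integral_of_isEmpty]
  obtain ⟨G, hGm, hGi, hGq, hwug⟩ := be_wug hB hc hT hf
  have hq2 := be_memLp_two hq1 hqt
  have hTf := hT.sob f hf.1
  have hle : ∀ᵐ x ∂m, minWeakGrad m (T f) x ≤ Real.sqrt (c * (G x).toReal) :=
    (be_isMin hTf.2.1).2 _ hwug
  have h0 : ∀ᵐ x ∂m, 0 ≤ minWeakGrad m (T f) x := (be_isMin hTf.2.1).1.2.1
  have hTq := hT.memLp q hq2
  have hTq0 := hT.nonneg q hq2 hq0
  have hGfin : ∀ᵐ x ∂m, G x < ⊤ :=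
    ae_lt_top hGm (hGi.trans_lt hf.2.2.integrable_sq.lintegral_lt_top).ne
  obtain ⟨B, hB0, hBq⟩ : ∃ B : ℝ, 0 ≤ B ∧ ∀ᵐ x ∂m, q x ≤ B := by
    refine ⟨(eLpNormEssSup q m).toReal, ENNReal.toReal_nonneg, ?_⟩
    filter_upwards [ae_le_eLpNormEssSup (f := q) (μ := m)] with x hx
    have h3 : eLpNormEssSup q m ≠ ⊤ := by
      have := hqt.eLpNorm_ne_top
      rwa [eLpNorm_exponent_top] at this
    have h4 := ENNReal.toReal_mono h3 hx
    refine (le_abs_self _).trans ?_
    simpa using h4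
  have hTqB := hT.le_const q hq2 B hB0 hBq
  have hD1 : Integrable (fun x => minWeakGrad m f x ^ 2) m := hf.2.2.integrable_sq
  have hint : Integrable (fun x => T q x * minWeakGrad m f x ^ 2) m := by
    refine Integrable.mono' (hD1.const_mul B)
      (hTq.aestronglyMeasurable.mul hD1.aestronglyMeasurable) ?_
    filter_upwards [hTqB, hTq0] with x h1 h2
    rw [Real.norm_of_nonneg (mul_nonneg h2 (sq_nonneg _))]
    exact mul_le_mul_of_nonneg_right h1 (sq_nonneg _)
  have hr0 : 0 ≤ c * ∫ x, T q x * minWeakGrad m f x ^ 2 ∂m := by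
    refine mul_nonneg hc.le (integral_nonneg_of_ae ?_)
    filter_upwards [hTq0] with x h2
    exact mul_nonneg h2 (sq_nonneg _)
  rw [integral_eq_lintegral_of_nonneg_ae]
  · refine ENNReal.toReal_le_of_le_ofReal hr0 ?_
    calc ∫⁻ x, ENNReal.ofReal (q x * minWeakGrad m (T f) x ^ 2) ∂m
        ≤ ∫⁻ x, ENNReal.ofReal c * (G x * ENNReal.ofReal (q x)) ∂m := by
          refine lintegral_mono_ae ?_
          filter_upwards [hle, h0, hq0, hGfin] with x h1 h2 h3 h4
          have h5 : minWeakGrad m (T f) x ^ 2 ≤ c * (G x).toReal := by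
            refine (pow_le_pow_left₀ h2 h1 2).trans ?_
            rw [Real.sq_sqrt (mul_nonneg hc.le ENNReal.toReal_nonneg)]
          calc ENNReal.ofReal (q x * minWeakGrad m (T f) x ^ 2)
              ≤ ENNReal.ofReal (q x * (c * (G x).toReal)) :=
                ENNReal.ofReal_le_ofReal (mul_le_mul_of_nonneg_left h5 h3)
            _ = _ := by
                rw [ENNReal.ofReal_mul h3, ENNReal.ofReal_mul hc.le, ENNReal.ofReal_toReal h4.ne]
                ring
      _ = ENNReal.ofReal c * ∫⁻ x, G x * ENNReal.ofReal (q x) ∂m :=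
          lintegral_const_mul' _ _ ENNReal.ofReal_ne_top
      _ = ENNReal.ofReal c * ∫⁻ x, ENNReal.ofReal (minWeakGrad m f x ^ 2) *
            ENNReal.ofReal (T q x) ∂m := by rw [hGq q hq2 hq0]
      _ = ENNReal.ofReal c * ∫⁻ x, ENNReal.ofReal (T q x * minWeakGrad m f x ^ 2) ∂m := by
          congr 1
          refine lintegral_congr_ae ?_
          filter_upwards [hTq0] with x h2
          rw [ENNReal.ofReal_mul h2, mul_comm]
      _ = ENNReal.ofReal (c * ∫ x, T q x * minWeakGrad m f x ^ 2 ∂m) := by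
          rw [ENNReal.ofReal_mul hc.le, ofReal_integral_eq_lintegral_ofReal hint]
          filter_upwards [hTq0] with x h2
          exact mul_nonneg h2 (sq_nonneg _)
  · filter_upwards [hq0] with x h2
    exact mul_nonneg h2 (sq_nonneg _)
  · exact hq1.aestronglyMeasurable.mul (hTf.2.2.aestronglyMeasurable.pow 2)


/-- [BE] for the resolvents, with the constants of `GoodJ`. -/
theorem goodJ_of_jfacts (hB : BECalc m) {k h₀ : ℝ} (hpos : 0 < h₀) (hsmall : 4 * h₀ * k ≤ 1)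
    (hk : 0 < k) (hT : ∀ h, 0 < h → h ≤ h₀ → JFacts m (1 - 2 * h * k)⁻¹ (J m h)) :
    GoodJ m k h₀ where
  pos := hpos
  small := hsmall
  be := by
    intro h hh hh0 f hf q hq0 hq1 hqt
    have h1 : h * k ≤ h₀ * k := mul_le_mul_of_nonneg_right hh0 hk.le
    have hc : 0 < (1 - 2 * h * k)⁻¹ := inv_pos.2 (by nlinarith)
    exact be_weak hB hc (hT h hh hh0) hf hq0 hq1 hqt
  mass := by
    intro h hh hh0 f hf hs
    refine ⟨?_, (hT h hh hh0).mass f hf hs⟩
    have hs' := hs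
    obtain ⟨o, R, -⟩ := hs
    have h1 := (hT h hh hh0).mom f hf hs' o
    have h2 := (hT h hh hh0).memLp f hf
    refine Integrable.mono' h1 h2.aestronglyMeasurable (Filter.Eventually.of_forall fun x => ?_)
    rw [Real.norm_eq_abs]
    nlinarith [abs_nonneg (J m h f x), sq_nonneg (dist x o),
      mul_nonneg (sq_nonneg (dist x o)) (abs_nonneg (J m h f x))]

/-- from the constant `1 - 2hk` on the left to its inverse on the right. -/
theorem be_contr_swap {a : ℝ} (ha : 0 < a) {x y : ℝ≥0∞} (h : ENNReal.ofReal a * x ≤ y) :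
    x ≤ ENNReal.ofReal a⁻¹ * y := by
  calc x = ENNReal.ofReal a⁻¹ * (ENNReal.ofReal a * x) := by
        rw [← mul_assoc, ← ENNReal.ofReal_mul (inv_nonneg.2 ha.le), inv_mul_cancel₀ ha.ne',
          ENNReal.ofReal_one, one_mul]
    _ ≤ _ := mul_le_mul_right h _

end Dens

end Crest.Agent.R242
end
end

-- ▼ part R242/BE
section

/-!
# Row 242, PART B, [BE]: assembly (helper216)
-/

set_option autoImplicit false
open MeasureTheory Filter Set
open scoped ENNReal NNReal Topology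
open Crest.GeometryTopology.SyntheticRicci

noncomputable section
namespace Crest.Agent.R242

variable {X : Type*} [MetricSpace X] [ProperSpace X] [MeasurableSpace X] [BorelSpace X]
  {m : Measure X} [IsLocallyFiniteMeasure m]

/-- all the properties of small resolvents from the calculus, mass conservation (R3) and the
contraction (C1). -/
theorem goodJ_assembly (hB : BECalc m) (C : Calc m) {k : ℝ} (hk : 0 < k)
    (hmass : ∃ h₀ : ℝ, 0 < h₀ ∧ ∀ h, 0 < h → h ≤ h₀ → ∀ f : X → ℝ, MemLp f 2 m → BddSupp m f →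
      ∀ o : X, Integrable (fun x => (1 + dist x o ^ 2) * |J m h f x|) m ∧
        ∫ x, J m h f x ∂m = ∫ x, f x ∂m)
    (hcontr : ∃ h₀ : ℝ, 0 < h₀ ∧ ∀ h, 0 < h → h ≤ h₀ → 2 * h * k < 1 →
      ∀ ρ ρ' : X → ℝ, BEDens m ρ → BEDens m ρ' →
        ENNReal.ofReal (1 - 2 * h * k) * w2sq (dens m (J m h ρ)) (dens m (J m h ρ')) ≤
          w2sq (dens m ρ) (dens m ρ')) :
    ∃ h₀ : ℝ, GoodJ m k h₀ ∧ ∀ h, 0 < h → h ≤ h₀ → JFacts m (1 - 2 * h * k)⁻¹ (J m h) := by
  obtain ⟨h₁, hp1, hm1⟩ := hmass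
  obtain ⟨h₂, hp2, hm2⟩ := hcontr
  have hV : BddM (fun _ : X => (0 : ℝ)) := ⟨measurable_const, 0, fun _ => by simp⟩
  set h₀ := min (min h₁ h₂) (1 / (4 * k)) with hh₀
  have hp : 0 < h₀ := lt_min (lt_min hp1 hp2) (by positivity)
  have hs : 4 * h₀ * k ≤ 1 := by
    have h3 : h₀ ≤ 1 / (4 * k) := min_le_right _ _
    rw [le_div_iff₀ (by positivity)] at h3
    linarith
  have hJ : ∀ h, 0 < h → h ≤ h₀ → JFacts m (1 - 2 * h * k)⁻¹ (J m h) := by
    intro h hh hh0
    have hle1 : h ≤ h₁ := hh0.trans ((min_le_left _ _).trans (min_le_left _ _))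
    have hle2 : h ≤ h₂ := hh0.trans ((min_le_left _ _).trans (min_le_right _ _))
    have hk1 : h * k ≤ h₀ * k := mul_le_mul_of_nonneg_right hh0 hk.le
    have hlt : 2 * h * k < 1 := by nlinarith
    refine ⟨fun f hf => C.Jr_sob hV hh hf, fun f hf h0 => C.Jr_nonneg hV hh hf h0,
      fun f g hf hg hfg => C.Jr_mono hV hh hf hg hfg,
      fun f hf b hb hfb => C.Jr_le_const hV hh hf hb hfb, fun f g hf hg => ?_, fun f hf hf1 => ?_,
      ?_, fun f hf hfs o => (hm1 h hh hle1 f hf hfs o).1, fun ρ ρ' hρ hρ' =>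
        be_contr_swap (by linarith) (hm2 h hh hle2 hlt ρ ρ' hρ hρ')⟩
    · have h3 := C.Jr_symm hV hh hf hg
      rwa [wm_zero] at h3
    · have h3 := C.Jr_l1 hV hh hf hf1
      rwa [wm_zero] at h3
    · intro f hf hfs
      obtain ⟨o, R, h⟩ := id hfs
      exact (hm1 _ hh hle1 f hf hfs o).2
  exact ⟨h₀, goodJ_of_jfacts hB hp hs hk hJ, hJ⟩

end Crest.Agent.R242
end
end

-- ▼ part R242/SobQuad
section

/-!
Row 242, part S: S10 (a weak upper gradient from a quadratic inequality along test plans).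
-/

set_option autoImplicit false

open MeasureTheory Filter Set
open Crest.GeometryTopology.SyntheticRicci
open scoped ENNReal NNReal Topology

namespace Crest.Agent.R242

/-- optimisation of the parameter -/
theorem le_mul_of_forall_quadratic {x d s : ℝ} (hd : 0 ≤ d) (hs : 0 ≤ s)
    (h : ∀ a : ℚ, 0 < a → x ≤ (a : ℝ) / 2 * d ^ 2 + 1 / (2 * (a : ℝ)) * s ^ 2) : x ≤ d * s := by
  -- all positive reals
  have h1 : ∀ a : ℝ, 0 < a → x ≤ a / 2 * d ^ 2 + 1 / (2 * a) * s ^ 2 := by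
    intro a ha
    by_contra hcon
    rw [not_le] at hcon
    have hcont : ContinuousAt (fun a : ℝ => a / 2 * d ^ 2 + 1 / (2 * a) * s ^ 2) a := by
      apply ContinuousAt.add
      · fun_prop
      · apply ContinuousAt.mul _ continuousAt_const
        apply ContinuousAt.div continuousAt_const (by fun_prop) (by positivity)
    have hev : ∀ᶠ b in 𝓝 a, b / 2 * d ^ 2 + 1 / (2 * b) * s ^ 2 < x := hcont.eventually_lt_const hcon
    have hev2 : ∀ᶠ b in 𝓝 a, 0 < b := lt_mem_nhds ha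
    obtain ⟨U, hUs, hUo, haU⟩ := mem_nhds_iff.mp (hev.and hev2)
    obtain ⟨y, hyU, q, hq⟩ := (Rat.denseRange_cast (𝕜 := ℝ)).inter_open_nonempty U hUo ⟨a, haU⟩
    have hy := hUs hyU
    rw [← hq] at hy
    have hq0 : (0 : ℚ) < q := by exact_mod_cast hy.2
    exact absurd (h q hq0) (not_le.mpr hy.1)
  -- choose a = (s + ε) / (d + ε)
  have h2 : ∀ ε : ℝ, 0 < ε → x ≤ (d + ε) * (s + ε) := by
    intro ε hε
    have hd' : 0 < d + ε := by linarith
    have hs' : 0 < s + ε := by linarith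
    have h3 := h1 ((s + ε) / (d + ε)) (by positivity)
    have h4 : (s + ε) / (d + ε) / 2 * d ^ 2 ≤ (s + ε) * (d + ε) / 2 := by
      have : (s + ε) / (d + ε) / 2 * d ^ 2 ≤ (s + ε) / (d + ε) / 2 * (d + ε) ^ 2 := by
        apply mul_le_mul_of_nonneg_left _ (by positivity)
        exact pow_le_pow_left₀ hd (by linarith) 2
      refine this.trans (le_of_eq ?_)
      field_simp
    have h5 : 1 / (2 * ((s + ε) / (d + ε))) * s ^ 2 ≤ (s + ε) * (d + ε) / 2 := by
      have : 1 / (2 * ((s + ε) / (d + ε))) * s ^ 2 ≤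
          1 / (2 * ((s + ε) / (d + ε))) * (s + ε) ^ 2 := by
        apply mul_le_mul_of_nonneg_left _ (by positivity)
        exact pow_le_pow_left₀ hs (by linarith) 2
      refine this.trans (le_of_eq ?_)
      field_simp
    linarith
  have h3 : Tendsto (fun ε : ℝ => (d + ε) * (s + ε)) (𝓝[>] 0) (𝓝 ((d + 0) * (s + 0))) := by
    apply Tendsto.mono_left _ nhdsWithin_le_nhds
    exact Continuous.tendsto (by fun_prop) 0
  rw [add_zero, add_zero] at h3
  refine ge_of_tendsto h3 ?_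
  filter_upwards [self_mem_nhdsWithin] with ε hε
  exact h2 ε hε

theorem ofReal_le_mul_of_forall_quadratic {x d : ℝ} {s : ℝ≥0∞} (hd : 0 ≤ d) (hs : s ≠ ⊤)
    (h : ∀ a : {a : ℚ // 0 < a}, ENNReal.ofReal x ≤
      ENNReal.ofReal ((a : ℚ) / 2) * ENNReal.ofReal (d ^ 2) +
        ENNReal.ofReal (1 / (2 * ((a : ℚ) : ℝ))) * s ^ 2) :
    ENNReal.ofReal x ≤ ENNReal.ofReal d * s := by
  obtain ⟨r, hr⟩ : ∃ r : ℝ≥0, s = r := ⟨s.toNNReal, (ENNReal.coe_toNNReal hs).symm⟩
  subst hr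
  have hr0 : (0 : ℝ) ≤ r := r.2
  have e1 : (r : ℝ≥0∞) = ENNReal.ofReal (r : ℝ) := (ENNReal.ofReal_coe_nnreal).symm
  rw [e1, ← ENNReal.ofReal_mul hd]
  by_cases hx : x ≤ 0
  · rw [ENNReal.ofReal_of_nonpos hx]; exact zero_le
  rw [not_le] at hx
  apply ENNReal.ofReal_le_ofReal
  apply le_mul_of_forall_quadratic hd hr0
  intro a ha
  have h1 := h ⟨a, ha⟩
  have ha' : (0 : ℝ) < a := by exact_mod_cast ha
  simp only at h1
  rw [e1, ← ENNReal.ofReal_pow hr0, ← ENNReal.ofReal_mul (by positivity),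
    ← ENNReal.ofReal_mul (by positivity),
    ← ENNReal.ofReal_add (by positivity) (by positivity)] at h1
  exact (ENNReal.ofReal_le_ofReal_iff (by positivity)).mp h1

section Main

variable {X : Type*} [MetricSpace X] [SecondCountableTopology X] [MeasurableSpace X] [BorelSpace X]
variable {m : Measure X}

theorem integrable_eval_of_isL2OnBalls {g : X → ℝ} (hg : IsL2OnBalls m g)
    {P : Measure (UCurve X)} (hP : IsTestPlan2 m P) (hb : HasBoundedTracks P)
    (t : unitInterval) : Integrable (fun γ : UCurve X => g (γ.toMap t)) P := by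
  have hprob : IsProbabilityMeasure P := hP.1
  obtain ⟨C, hC⟩ := hP.2.1
  obtain ⟨o, R, hR⟩ := hb
  have hgm := isL2OnBalls_aestronglyMeasurable hg
  have hac : timeMarginal P t ≪ m :=
    (Measure.absolutelyContinuous_of_le (hC t)).trans (Measure.smul_absolutelyContinuous)
  have hmeas : AEStronglyMeasurable (fun γ : UCurve X => g (γ.toMap t)) P := by
    have h1 : AEStronglyMeasurable g (timeMarginal P t) := hgm.mono_ac hac
    exact h1.comp_measurable (measurable_eval t)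
  have hL2 : MemLp (fun γ : UCurve X => g (γ.toMap t)) 2 P := by
    refine ⟨hmeas, ?_⟩
    rw [eLpNorm_lt_top_iff_lintegral_rpow_enorm_lt_top (by norm_num) (by norm_num)]
    simp only [ENNReal.toReal_ofNat, ENNReal.rpow_ofNat]
    have hgm2 : AEMeasurable (fun x => ‖g x‖ₑ ^ 2) (m.restrict (Metric.closedBall o R)) :=
      (hgm.enorm.pow_const 2).restrict
    have h2 := lintegral_toMap_le_ball hC hR hgm2 t
    refine h2.trans_lt ?_
    refine ENNReal.mul_lt_top ENNReal.coe_lt_top ?_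
    have h3 := (hg o (R + 1)).2
    rw [eLpNorm_lt_top_iff_lintegral_rpow_enorm_lt_top (by norm_num) (by norm_num)] at h3
    simp only [ENNReal.toReal_ofNat, ENNReal.rpow_ofNat] at h3
    refine (lintegral_mono_set ?_).trans_lt h3
    exact Metric.closedBall_subset_ball (by linarith)
  exact hL2.integrable (by norm_num)

theorem lintegral_lintegral_sq_lt_top {D : X → ℝ} (hD : IsL2OnBalls m D)
    {P : Measure (UCurve X)} (hP : IsTestPlan2 m P) (hb : HasBoundedTracks P) :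
    (∫⁻ γ, (∫⁻ t in Set.Icc (0 : ℝ) 1, ENNReal.ofReal (D (γ.ext t) ^ 2)) ∂P) < ⊤ := by
  have hprob : IsProbabilityMeasure P := hP.1
  obtain ⟨C, hC⟩ := hP.2.1
  obtain ⟨o, R, hR⟩ := hb
  have hDm := isL2OnBalls_aestronglyMeasurable hD
  have hDm2 : AEMeasurable (fun x => ENNReal.ofReal (D x ^ 2))
      (m.restrict (Metric.closedBall o R)) :=
    ((hDm.aemeasurable.pow_const 2).ennreal_ofReal).restrict
  refine (lintegral_lintegral_ext_le_ball hC hR hDm2).trans_lt ?_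
  refine ENNReal.mul_lt_top ENNReal.coe_lt_top ?_
  have h3 := (hD o (R + 1)).2
  rw [eLpNorm_lt_top_iff_lintegral_rpow_enorm_lt_top (by norm_num) (by norm_num)] at h3
  simp only [ENNReal.toReal_ofNat, ENNReal.rpow_ofNat] at h3
  refine lt_of_le_of_lt ?_ h3
  calc ∫⁻ x in Metric.closedBall o R, ENNReal.ofReal (D x ^ 2) ∂m
      ≤ ∫⁻ x in Metric.ball o (R + 1), ENNReal.ofReal (D x ^ 2) ∂m :=
        lintegral_mono_set (Metric.closedBall_subset_ball (by linarith))
    _ = _ := by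
        congr 1
        ext x
        rw [← enorm_pow, Real.enorm_eq_ofReal (sq_nonneg _)]

/-- **S10** -/
theorem isWUGLoc_of_quadratic (_hfin : IsFiniteOnBalls m) {g D : X → ℝ} (hg : IsL2OnBalls m g)
    (hD : IsL2OnBalls m D) (hD0 : ∀ᵐ x ∂m, 0 ≤ D x)
    (h : ∀ P : Measure (UCurve X), IsTestPlan2 m P → HasBoundedTracks P → ∀ a : ℝ, 0 < a →
      (∫ γ, (g (γ.toMap 1) - g (γ.toMap 0)) ∂P) ≤
        (a / 2) * (∫⁻ γ, (∫⁻ t in Set.Icc (0 : ℝ) 1, ENNReal.ofReal (D (γ.ext t) ^ 2)) ∂P).toReal +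
        (1 / (2 * a)) * (∫⁻ γ, (∫⁻ t in Set.Icc (0 : ℝ) 1, upperSpeed γ t ^ 2) ∂P).toReal) :
    IsWUGLoc m g D := by
  -- replace g and D by Borel versions
  obtain ⟨g', hg'm, hgg'⟩ := exists_measurable_rep (isL2OnBalls_aestronglyMeasurable hg)
  obtain ⟨D', hD'm, hDD'⟩ := exists_measurable_rep (isL2OnBalls_aestronglyMeasurable hD)
  have hg' : IsL2OnBalls m g' := isL2OnBalls_congr hgg' hg
  have hD' : IsL2OnBalls m D' := isL2OnBalls_congr hDD' hD
  have hD'0 : ∀ᵐ x ∂m, 0 ≤ D' x := by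
    filter_upwards [hD0, hDD'] with x h1 h2
    rwa [← h2]
  suffices hmain : IsWUGLoc m g' D' from IsWUGLoc.congr hgg'.symm hDD'.symm hmain
  have h' : ∀ P : Measure (UCurve X), IsTestPlan2 m P → HasBoundedTracks P → ∀ a : ℝ, 0 < a →
      (∫ γ, (g' (γ.toMap 1) - g' (γ.toMap 0)) ∂P) ≤
        (a / 2) * (∫⁻ γ, (∫⁻ t in Set.Icc (0 : ℝ) 1, ENNReal.ofReal (D' (γ.ext t) ^ 2)) ∂P).toReal +
        (1 / (2 * a)) * (∫⁻ γ, (∫⁻ t in Set.Icc (0 : ℝ) 1, upperSpeed γ t ^ 2) ∂P).toReal := by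
    intro P hP hb a ha
    have hprob : IsProbabilityMeasure P := hP.1
    obtain ⟨C, hC⟩ := hP.2.1
    have e0 := ae_toMap_of_ae hC hgg' 0
    have e1 := ae_toMap_of_ae hC hgg' 1
    have e2 := ae_ae_ext_of_ae hC hDD'
    have h1 : (∫ γ, (g' (γ.toMap 1) - g' (γ.toMap 0)) ∂P) =
        ∫ γ, (g (γ.toMap 1) - g (γ.toMap 0)) ∂P := by
      apply integral_congr_ae
      filter_upwards [e0, e1] with γ h0 h1
      rw [h0, h1]
    have h2 : (∫⁻ γ, (∫⁻ t in Set.Icc (0 : ℝ) 1, ENNReal.ofReal (D' (γ.ext t) ^ 2)) ∂P) =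
        ∫⁻ γ, (∫⁻ t in Set.Icc (0 : ℝ) 1, ENNReal.ofReal (D (γ.ext t) ^ 2)) ∂P := by
      apply lintegral_congr_ae
      filter_upwards [e2] with γ h2
      apply lintegral_congr_ae
      filter_upwards [h2] with t ht
      rw [ht]
    rw [h1, h2]
    exact h P hP hb a ha
  clear h
  rw [isWUGLoc_iff_curveUG' hg'm.aestronglyMeasurable]
  refine ⟨hD', hD'0, fun P hP hb => ?_⟩
  have hprob : IsProbabilityMeasure P := hP.1
  -- the bound functions
  set G : {a : ℚ // 0 < a} → UCurve X × ℝ → ℝ≥0∞ := fun a p =>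
    ENNReal.ofReal ((a : ℚ) / 2) * ENNReal.ofReal (D' (p.1.ext p.2) ^ 2) +
      ENNReal.ofReal (1 / (2 * ((a : ℚ) : ℝ))) * upperSpeed p.1 p.2 ^ 2 with hGdef
  have hGm : ∀ a, Measurable (G a) := by
    intro a
    exact ((ENNReal.measurable_ofReal.comp
      ((hD'm.comp measurable_evalExt).pow_const 2)).const_mul _).add
      ((measurable_upperSpeed.pow_const 2).const_mul _)
  have hmD : Measurable (fun p : UCurve X × ℝ => ENNReal.ofReal (D' (p.1.ext p.2) ^ 2)) :=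
    ENNReal.measurable_ofReal.comp ((hD'm.comp measurable_evalExt).pow_const 2)
  have hmS : Measurable (fun p : UCurve X × ℝ => upperSpeed p.1 p.2 ^ 2) :=
    measurable_upperSpeed.pow_const 2
  have hDfin : (∫⁻ γ, (∫⁻ t in Set.Icc (0 : ℝ) 1, ENNReal.ofReal (D' (γ.ext t) ^ 2)) ∂P) < ⊤ :=
    lintegral_lintegral_sq_lt_top hD' hP hb
  have hSfin : (∫⁻ γ, (∫⁻ t in Set.Icc (0 : ℝ) 1, upperSpeed γ t ^ 2) ∂P) < ⊤ := hP.2.2.2
  have hDγ : ∀ᵐ γ ∂P, (∫⁻ t in Set.Icc (0 : ℝ) 1, ENNReal.ofReal (D' (γ.ext t) ^ 2)) < ⊤ :=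
    ae_lt_top (Measurable.lintegral_prod_right' hmD) hDfin.ne
  have hSγ : ∀ᵐ γ ∂P, (∫⁻ t in Set.Icc (0 : ℝ) 1, upperSpeed γ t ^ 2) < ⊤ :=
    ae_lt_top (Measurable.lintegral_prod_right' hmS) hSfin.ne
  have hGsplit : ∀ (a : {a : ℚ // 0 < a}) (γ : UCurve X) (s t : ℝ),
      ∫⁻ r in Icc s t, G a (γ, r) =
        ENNReal.ofReal ((a : ℚ) / 2) * (∫⁻ r in Icc s t, ENNReal.ofReal (D' (γ.ext r) ^ 2)) +
        ENNReal.ofReal (1 / (2 * ((a : ℚ) : ℝ))) * (∫⁻ r in Icc s t, upperSpeed γ r ^ 2) := by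
    intro a γ s t
    have hm2 : Measurable (fun r : ℝ =>
        ENNReal.ofReal (1 / (2 * ((a : ℚ) : ℝ))) * upperSpeed γ r ^ 2) :=
      ((measurable_upperSpeed_right γ).pow_const 2).const_mul _
    rw [← lintegral_const_mul' _ _ ENNReal.ofReal_ne_top,
      ← lintegral_const_mul' _ _ ENNReal.ofReal_ne_top, ← lintegral_add_right _ hm2]
  have hfinG : ∀ a, ∀ᵐ γ ∂P, ∫⁻ r in Icc (0 : ℝ) 1, G a (γ, r) < ⊤ := by
    intro a
    filter_upwards [hDγ, hSγ] with γ h1 h2
    rw [hGsplit]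
    exact ENNReal.add_lt_top.mpr ⟨ENNReal.mul_lt_top ENNReal.ofReal_lt_top h1,
      ENNReal.mul_lt_top ENNReal.ofReal_lt_top h2⟩
  -- one-sided increments for arbitrary ordered or reversed pairs of times
  have hone : ∀ (a : {a : ℚ // 0 < a}) (s t : ℝ), s ∈ Icc (0 : ℝ) 1 → t ∈ Icc (0 : ℝ) 1 → s ≠ t →
      ∀ᵐ γ ∂P, ENNReal.ofReal (g' (γ.ext t) - g' (γ.ext s)) ≤
        ENNReal.ofReal ((a : ℚ) / 2) * (∫⁻ r in uIcc s t, ENNReal.ofReal (D' (γ.ext r) ^ 2)) +
        ENNReal.ofReal (1 / (2 * ((a : ℚ) : ℝ))) * (∫⁻ r in uIcc s t, upperSpeed γ r ^ 2) := by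
    intro a s t hs ht hst
    have ha0 : (0 : ℝ) < (a : ℚ) := by exact_mod_cast a.2
    have hlen : 0 < |t - s| := abs_pos.mpr (sub_ne_zero.mpr (Ne.symm hst))
    set B : UCurve X → ℝ≥0∞ := fun γ =>
      ENNReal.ofReal ((a : ℚ) / 2) * (∫⁻ r in uIcc s t, ENNReal.ofReal (D' (γ.ext r) ^ 2)) +
        ENNReal.ofReal (1 / (2 * ((a : ℚ) : ℝ))) * (∫⁻ r in uIcc s t, upperSpeed γ r ^ 2) with hB
    have hBm : Measurable B := by
      apply Measurable.add
      · exact (Measurable.lintegral_prod_right' hmD).const_mul _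
      · exact (Measurable.lintegral_prod_right' hmS).const_mul _
    have husub : uIcc s t ⊆ Icc (0 : ℝ) 1 := by
      rcases le_total s t with h | h
      · rw [uIcc_of_le h]; exact Icc_subset_Icc hs.1 ht.2
      · rw [uIcc_of_ge h]; exact Icc_subset_Icc ht.1 hs.2
    have hBfin : ∫⁻ γ, B γ ∂P < ⊤ := by
      have h1 : ∫⁻ γ, B γ ∂P ≤
          ENNReal.ofReal ((a : ℚ) / 2) *
            (∫⁻ γ, (∫⁻ t in Set.Icc (0 : ℝ) 1, ENNReal.ofReal (D' (γ.ext t) ^ 2)) ∂P) +
          ENNReal.ofReal (1 / (2 * ((a : ℚ) : ℝ))) *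
            (∫⁻ γ, (∫⁻ t in Set.Icc (0 : ℝ) 1, upperSpeed γ t ^ 2) ∂P) := by
        rw [hB, lintegral_add_right _ ((Measurable.lintegral_prod_right' hmS).const_mul _),
          lintegral_const_mul' _ _ ENNReal.ofReal_ne_top,
          lintegral_const_mul' _ _ ENNReal.ofReal_ne_top]
        gcongr
      exact h1.trans_lt (ENNReal.add_lt_top.mpr ⟨ENNReal.mul_lt_top ENNReal.ofReal_lt_top hDfin,
        ENNReal.mul_lt_top ENNReal.ofReal_lt_top hSfin⟩)
    have hBint : Integrable (fun γ => (B γ).toReal) P :=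
      integrable_toReal_of_lintegral_ne_top hBm.aemeasurable hBfin.ne
    have hgs : Integrable (fun γ : UCurve X => g' (γ.ext s)) P := by
      have := integrable_eval_of_isL2OnBalls hg' hP hb ⟨s, hs⟩
      refine this.congr (Eventually.of_forall fun γ => ?_)
      simp only
      rw [ext_of_mem γ hs]
    have hgt : Integrable (fun γ : UCurve X => g' (γ.ext t)) P := by
      have := integrable_eval_of_isL2OnBalls hg' hP hb ⟨t, ht⟩
      refine this.congr (Eventually.of_forall fun γ => ?_)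
      simp only
      rw [ext_of_mem γ ht]
    have hae : (fun γ : UCurve X => g' (γ.ext t) - g' (γ.ext s)) ≤ᵐ[P] fun γ => (B γ).toReal := by
      refine ae_le_of_forall_setIntegral_le (hgt.sub hgs) hBint fun A hA _ => ?_
      by_cases hPA : P A = 0
      · rw [Measure.restrict_eq_zero.mpr hPA]; simp
      have hPAtop : P A ≠ ⊤ := measure_ne_top P A
      have hcs : Measurable (subCurve s t : UCurve X → UCurve X) :=
        (cu_continuous_subCurve s t).measurable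
      have hQ := isTestPlan2_map_subCurve (isTestPlan2_cond hP hPA) s t hs ht
      have hQb := hasBoundedTracks_map_subCurve (hasBoundedTracks_cond hb A (P A)⁻¹) s t
      have h1 := h' _ hQ hQb ((a : ℚ) * |t - s|) (by positivity)
      have hi1 : (∫ γ, (g' (γ.toMap 1) - g' (γ.toMap 0))
          ∂(((P A)⁻¹ • P.restrict A).map (subCurve s t))) =
          (P A)⁻¹.toReal * ∫ γ in A, (g' (γ.ext t) - g' (γ.ext s)) ∂P := by
        rw [integral_map hcs.aemeasurable, integral_smul_measure, smul_eq_mul]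
        · congr 1
          apply integral_congr_ae
          refine Eventually.of_forall fun γ => ?_
          simp only
          rw [subCurve_toMap, subCurve_toMap]
          congr 3 <;> simp
        · exact ((hg'm.comp (measurable_eval 1)).sub
            (hg'm.comp (measurable_eval 0))).aestronglyMeasurable
      have hi2 : (∫⁻ γ, (∫⁻ r in Set.Icc (0 : ℝ) 1, ENNReal.ofReal (D' (γ.ext r) ^ 2))
          ∂(((P A)⁻¹ • P.restrict A).map (subCurve s t))) =
          (P A)⁻¹ * ∫⁻ γ in A, (∫⁻ r in Set.Icc (0 : ℝ) 1,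
            ENNReal.ofReal (D' ((subCurve s t γ).ext r) ^ 2)) ∂P := by
        rw [lintegral_map (Measurable.lintegral_prod_right' hmD) hcs, lintegral_smul_measure,
          smul_eq_mul]
      have hi3 : (∫⁻ γ, (∫⁻ r in Set.Icc (0 : ℝ) 1, upperSpeed γ r ^ 2)
          ∂(((P A)⁻¹ • P.restrict A).map (subCurve s t))) =
          (P A)⁻¹ * ∫⁻ γ in A, (∫⁻ r in Set.Icc (0 : ℝ) 1,
            upperSpeed (subCurve s t γ) r ^ 2) ∂P := by
        rw [lintegral_map (Measurable.lintegral_prod_right' hmS) hcs, lintegral_smul_measure,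
          smul_eq_mul]
      rw [hi1, hi2, hi3] at h1
      have hc2 : ∀ γ : UCurve X, ENNReal.ofReal |t - s| * (∫⁻ r in Set.Icc (0 : ℝ) 1,
            ENNReal.ofReal (D' ((subCurve s t γ).ext r) ^ 2)) =
          ∫⁻ r in uIcc s t, ENNReal.ofReal (D' (γ.ext r) ^ 2) := fun γ =>
        lintegral_subCurve_ext s t hs ht γ (fun x => ENNReal.ofReal (D' x ^ 2))
      have hc3 : ∀ γ : UCurve X, (∫⁻ r in Set.Icc (0 : ℝ) 1,
            upperSpeed (subCurve s t γ) r ^ 2) =
          ENNReal.ofReal |t - s| * ∫⁻ r in uIcc s t, upperSpeed γ r ^ 2 := fun γ =>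
        lintegral_subCurve_sq s t hs ht γ
      simp only [hc3] at h1
      set U : ℝ≥0∞ := ∫⁻ γ in A, (∫⁻ r in Set.Icc (0 : ℝ) 1,
            ENNReal.ofReal (D' ((subCurve s t γ).ext r) ^ 2)) ∂P with hU
      set V : ℝ≥0∞ := ∫⁻ γ in A, (∫⁻ r in uIcc s t, ENNReal.ofReal (D' (γ.ext r) ^ 2)) ∂P with hV
      set W : ℝ≥0∞ := ∫⁻ γ in A, (∫⁻ r in uIcc s t, upperSpeed γ r ^ 2) ∂P with hW
      have hUV : ENNReal.ofReal |t - s| * U = V := by
        rw [hU, hV, ← lintegral_const_mul' _ _ ENNReal.ofReal_ne_top]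
        simp only [hc2]
      have hWeq : (∫⁻ γ in A, (ENNReal.ofReal |t - s| *
          (∫⁻ r in uIcc s t, upperSpeed γ r ^ 2)) ∂P) =
          ENNReal.ofReal |t - s| * W := by
        rw [hW, lintegral_const_mul' _ _ ENNReal.ofReal_ne_top]
      rw [hWeq] at h1
      have hVfin : V ≠ ⊤ := by
        refine (lt_of_le_of_lt ?_ hDfin).ne
        rw [hV]
        refine (setLIntegral_le_lintegral _ _).trans ?_
        exact lintegral_mono fun γ => lintegral_mono_set husub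
      have hWfin : W ≠ ⊤ := by
        refine (lt_of_le_of_lt ?_ hSfin).ne
        rw [hW]
        refine (setLIntegral_le_lintegral _ _).trans ?_
        exact lintegral_mono fun γ => lintegral_mono_set husub
      have hUVr : |t - s| * U.toReal = V.toReal := by
        rw [← hUV, ENNReal.toReal_mul, ENNReal.toReal_ofReal (abs_nonneg _)]
      have hp0 : 0 < (P A)⁻¹.toReal :=
        ENNReal.toReal_pos (ENNReal.inv_ne_zero.mpr hPAtop) (ENNReal.inv_ne_top.mpr hPA)
      rw [ENNReal.toReal_mul, ENNReal.toReal_mul, ENNReal.toReal_mul,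
        ENNReal.toReal_ofReal (abs_nonneg _)] at h1
      have h2 : (∫ γ in A, (g' (γ.ext t) - g' (γ.ext s)) ∂P) ≤
          ((a : ℚ) : ℝ) / 2 * V.toReal + 1 / (2 * ((a : ℚ) : ℝ)) * W.toReal := by
        have h3 : (P A)⁻¹.toReal * ∫ γ in A, (g' (γ.ext t) - g' (γ.ext s)) ∂P ≤
            (P A)⁻¹.toReal * (((a : ℚ) : ℝ) / 2 * V.toReal +
              1 / (2 * ((a : ℚ) : ℝ)) * W.toReal) := by
          refine h1.trans (le_of_eq ?_)
          rw [← hUVr]
          field_simp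
        exact le_of_mul_le_mul_left h3 hp0
      refine h2.trans (le_of_eq ?_)
      have hBA : ∫⁻ γ in A, B γ ∂P = ENNReal.ofReal ((a : ℚ) / 2) * V +
          ENNReal.ofReal (1 / (2 * ((a : ℚ) : ℝ))) * W := by
        rw [hB, lintegral_add_right _ ((Measurable.lintegral_prod_right' hmS).const_mul _),
          lintegral_const_mul' _ _ ENNReal.ofReal_ne_top,
          lintegral_const_mul' _ _ ENNReal.ofReal_ne_top]
      have hBlt : ∀ᵐ γ ∂(P.restrict A), B γ < ⊤ := by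
        apply ae_restrict_of_ae
        exact ae_lt_top hBm hBfin.ne
      rw [integral_toReal hBm.aemeasurable hBlt, hBA,
        ENNReal.toReal_add (ENNReal.mul_ne_top ENNReal.ofReal_ne_top hVfin)
          (ENNReal.mul_ne_top ENNReal.ofReal_ne_top hWfin),
        ENNReal.toReal_mul, ENNReal.toReal_mul, ENNReal.toReal_ofReal (by positivity),
        ENNReal.toReal_ofReal (by positivity)]
    have hBlt : ∀ᵐ γ ∂P, B γ < ⊤ := ae_lt_top hBm hBfin.ne
    filter_upwards [hae, hBlt] with γ h1 h2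
    calc ENNReal.ofReal (g' (γ.ext t) - g' (γ.ext s)) ≤ ENNReal.ofReal (B γ).toReal :=
          ENNReal.ofReal_le_ofReal h1
      _ = B γ := ENNReal.ofReal_toReal h2.ne
  have hinc : ∀ (a : {a : ℚ // 0 < a}) (s t : ℝ), 0 ≤ s → s ≤ t → t ≤ 1 →
      ∀ᵐ γ ∂P, ENNReal.ofReal |g' (γ.ext t) - g' (γ.ext s)| ≤ ∫⁻ r in Icc s t, G a (γ, r) := by
    intro a s t hs hst ht
    rcases eq_or_lt_of_le hst with heq | hlt
    · subst heq
      exact Eventually.of_forall fun γ => by simp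
    have hsI : s ∈ Icc (0 : ℝ) 1 := ⟨hs, hst.trans ht⟩
    have htI : t ∈ Icc (0 : ℝ) 1 := ⟨hs.trans hst, ht⟩
    filter_upwards [hone a s t hsI htI hlt.ne, hone a t s htI hsI hlt.ne'] with γ h1 h2
    rw [hGsplit]
    rw [uIcc_of_le hst] at h1
    rw [uIcc_of_ge hst] at h2
    rcases abs_cases (g' (γ.ext t) - g' (γ.ext s)) with ⟨h3, -⟩ | ⟨h3, -⟩
    · rw [h3]; exact h1
    · rw [h3, neg_sub]; exact h2
  have : Nonempty {a : ℚ // 0 < a} := ⟨⟨1, one_pos⟩⟩
  have key := ae_exists_AC_rep hg'm hGm hfinG hinc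
  obtain ⟨C, hC⟩ := hP.2.1
  have hnn := ae_ae_ext_of_ae hC hD'0
  filter_upwards [key, hP.2.2.1, hnn] with γ hγ hγ2 hγ3
  obtain ⟨u, hu, hu0, hu1, hu2, hu3⟩ := hγ
  refine ⟨u, hu, hu0, hu1, hu2, ?_⟩
  have hsp' : ∀ᵐ t ∂(volume.restrict (Icc (0 : ℝ) 1)), upperSpeed γ t < ⊤ :=
    ae_lt_top (measurable_upperSpeed_right γ) (lintegral_upperSpeed_lt_top hγ2).ne
  have hu3' := ae_all_iff.mpr hu3
  filter_upwards [hu3', hsp', hγ3] with t h1 h2 h3
  exact ofReal_le_mul_of_forall_quadratic h3 h2.ne h1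

end Main

end Crest.Agent.R242
end

-- ▼ part R242/Sup

/-!
Row 242, [SUP]: a `W_2`-absolutely continuous curve of measures with bounded densities is the
curve of time marginals of a test plan.  Owner: helper720.
-/

set_option autoImplicit false

open MeasureTheory Filter Set TopologicalSpace
open scoped ENNReal NNReal Topology BoundedContinuousFunction
open Crest.GeometryTopology.SyntheticRicci

noncomputable section

namespace Crest.Agent.R242

section W2

variable {X : Type*} [MetricSpace X] [ProperSpace X] [MeasurableSpace X] [BorelSpace X]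

omit [MetricSpace X] [ProperSpace X] [BorelSpace X] in
theorem sup_isProb_coupling {q : Measure (X × X)} {μ ν : Measure X} [IsProbabilityMeasure μ]
    (h : IsCouplingOf q μ ν) : IsProbabilityMeasure q := by
  constructor
  have h1 : (q.map Prod.fst) univ = 1 := by rw [h.1]; exact measure_univ
  rwa [Measure.map_apply measurable_fst MeasurableSet.univ, preimage_univ] at h1

/-- Lipschitz test functions and the Wasserstein distance. -/
theorem ofReal_sq_integral_sub_le {μ ν : Measure X}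
    [IsProbabilityMeasure μ] [IsProbabilityMeasure ν]
    {f : X → ℝ} {L : ℝ≥0} (hf : LipschitzWith L f) {B : ℝ} (hB : ∀ x, |f x| ≤ B) :
    ENNReal.ofReal |∫ x, f x ∂μ - ∫ x, f x ∂ν| ^ 2 ≤ ((L : ℝ≥0∞) + 1) ^ 2 * w2sq μ ν := by
  have hne0 : ((L : ℝ≥0∞) + 1) ^ 2 ≠ 0 := by simp
  have hnet : ((L : ℝ≥0∞) + 1) ^ 2 ≠ ⊤ := by
    exact ENNReal.pow_ne_top (by simp)
  rw [mul_comm, ← ENNReal.div_le_iff_le_mul (Or.inl hne0) (Or.inl hnet)]
  refine le_iInf₂ fun q hq => ?_
  rw [ENNReal.div_le_iff_le_mul (Or.inl hne0) (Or.inl hnet), mul_comm]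
  have := sup_isProb_coupling hq
  have hfm : Measurable f := hf.continuous.measurable
  have e1 : ∫ x, f x ∂μ = ∫ p, f p.1 ∂q := by
    rw [← hq.1, integral_map measurable_fst.aemeasurable hfm.aestronglyMeasurable]
  have e2 : ∫ x, f x ∂ν = ∫ p, f p.2 ∂q := by
    rw [← hq.2, integral_map measurable_snd.aemeasurable hfm.aestronglyMeasurable]
  have i1 : Integrable (fun p : X × X => f p.1) q :=
    Integrable.of_bound (hfm.comp measurable_fst).aestronglyMeasurable B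
      (Eventually.of_forall fun p => hB p.1)
  have i2 : Integrable (fun p : X × X => f p.2) q :=
    Integrable.of_bound (hfm.comp measurable_snd).aestronglyMeasurable B
      (Eventually.of_forall fun p => hB p.2)
  rw [e1, e2, ← integral_sub i1 i2]
  have h1 : ENNReal.ofReal |∫ p, (f p.1 - f p.2) ∂q| ≤ ∫⁻ p, ‖f p.1 - f p.2‖ₑ ∂q := by
    rw [← Real.enorm_eq_ofReal_abs]
    exact enorm_integral_le_lintegral_enorm _
  have h2 : ∀ p : X × X, ‖f p.1 - f p.2‖ₑ ≤ ((L : ℝ≥0∞) + 1) * edist p.1 p.2 := by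
    intro p
    have := hf.edist_le_mul p.1 p.2
    rw [edist_eq_enorm_sub] at this
    exact this.trans (mul_le_mul' le_self_add le_rfl)
  have h3 : ∫⁻ p, ‖f p.1 - f p.2‖ₑ ∂q ≤ ((L : ℝ≥0∞) + 1) * ∫⁻ p, edist p.1 p.2 ∂q := by
    rw [← lintegral_const_mul' _ _ (by simp)]
    exact lintegral_mono h2
  have h4 : (∫⁻ p, edist p.1 p.2 ∂q) ^ 2 ≤ quadCost q := by
    have hm : AEMeasurable (fun p : X × X => edist p.1 p.2) q := measurable_edist.aemeasurable
    have h := ENNReal.lintegral_mul_le_Lp_mul_Lq q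
      (Real.HolderConjugate.two_two) (f := fun _ => 1) (g := fun p : X × X => edist p.1 p.2)
      aemeasurable_const hm
    simp only [Pi.mul_apply, one_mul, ENNReal.one_rpow, lintegral_const, measure_univ] at h
    calc (∫⁻ p, edist p.1 p.2 ∂q) ^ 2
        ≤ ((∫⁻ p, edist p.1 p.2 ^ (2 : ℝ) ∂q) ^ (1 / (2 : ℝ))) ^ 2 := pow_le_pow_left' h 2
      _ = quadCost q := by
          rw [← ENNReal.rpow_natCast, ← ENNReal.rpow_mul]
          norm_num [quadCost]
  calc ENNReal.ofReal |∫ p, (f p.1 - f p.2) ∂q| ^ 2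
      ≤ (((L : ℝ≥0∞) + 1) * ∫⁻ p, edist p.1 p.2 ∂q) ^ 2 := pow_le_pow_left' (h1.trans h3) 2
    _ = ((L : ℝ≥0∞) + 1) ^ 2 * (∫⁻ p, edist p.1 p.2 ∂q) ^ 2 := by rw [mul_pow]
    _ ≤ ((L : ℝ≥0∞) + 1) ^ 2 * quadCost q := mul_le_mul' le_rfl h4

/-- Wasserstein convergence implies weak convergence. -/
theorem tendsto_of_w2sq {ι : Type*} {l : Filter ι}
    [l.IsCountablyGenerated]
    {P : ι → ProbabilityMeasure X} {Q : ProbabilityMeasure X}
    (h : Tendsto (fun i => w2sq (P i : Measure X) Q) l (𝓝 0)) : Tendsto P l (𝓝 Q) := by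
  rw [tendsto_iff_forall_lipschitz_integral_tendsto]
  rintro f ⟨B, hB⟩ ⟨L, hL⟩
  rcases isEmpty_or_nonempty X with hX | ⟨⟨x₀⟩⟩
  · have : (fun i => ∫ ω, f ω ∂(P i : Measure X)) = fun _ => ∫ ω, f ω ∂(Q : Measure X) := by
      ext i
      rw [integral_of_isEmpty, integral_of_isEmpty]
    rw [this]
    exact tendsto_const_nhds
  have hB' : ∀ x, |f x| ≤ |f x₀| + B := by
    intro x
    have := hB x x₀
    rw [Real.dist_eq] at this
    have h2 := abs_sub_abs_le_abs_sub (f x) (f x₀)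
    linarith
  rw [tendsto_iff_dist_tendsto_zero]
  have h1 : Tendsto (fun i => ENNReal.ofReal
      |∫ x, f x ∂(P i : Measure X) - ∫ x, f x ∂(Q : Measure X)| ^ 2) l (𝓝 0) := by
    have h2 : Tendsto (fun i => ((L : ℝ≥0∞) + 1) ^ 2 * w2sq (P i : Measure X) Q) l (𝓝 0) := by
      have := ENNReal.Tendsto.const_mul (a := ((L : ℝ≥0∞) + 1) ^ 2) h
        (Or.inr (ENNReal.pow_ne_top (by simp)))
      rwa [mul_zero] at this
    refine tendsto_of_tendsto_of_tendsto_of_le_of_le tendsto_const_nhds h2 (fun _ => bot_le) ?_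
    intro i
    exact ofReal_sq_integral_sub_le hL hB'
  have h3 : Tendsto (fun i => |∫ x, f x ∂(P i : Measure X) - ∫ x, f x ∂(Q : Measure X)| ^ 2) l
      (𝓝 0) := by
    have := (ENNReal.tendsto_toReal (by simp : (0 : ℝ≥0∞) ≠ ⊤)).comp h1
    simp only [ENNReal.toReal_zero] at this
    refine this.congr fun i => ?_
    simp only [Function.comp_apply, ENNReal.toReal_pow]
    rw [ENNReal.toReal_ofReal (abs_nonneg _)]
  have h4 := (Real.continuous_sqrt.tendsto 0).comp h3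
  rw [Real.sqrt_zero] at h4
  refine h4.congr fun i => ?_
  simp only [Function.comp_apply, Real.sqrt_sq_eq_abs, abs_abs]
  rfl

theorem continuous_of_w2sq {ν : unitInterval → ProbabilityMeasure X}
    {c : ℝ≥0∞} (hc : c ≠ ⊤)
    (h : ∀ s t : unitInterval, (s : ℝ) ≤ t →
      w2sq (ν s : Measure X) (ν t) ≤ c * ENNReal.ofReal ((t : ℝ) - s)) :
    Continuous ν := by
  have h' : ∀ s t : unitInterval, w2sq (ν s : Measure X) (ν t) ≤
      c * ENNReal.ofReal |(s : ℝ) - t| := by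
    intro s t
    rcases le_total (s : ℝ) t with hst | hst
    · rw [abs_sub_comm, abs_of_nonneg (by linarith)]
      exact h s t hst
    · rw [abs_of_nonneg (by linarith), w2sq_comm]
      exact h t s hst
  rw [continuous_iff_continuousAt]
  intro t
  refine tendsto_of_w2sq ?_
  have h2 : Tendsto (fun s : unitInterval => c * ENNReal.ofReal |(s : ℝ) - t|) (𝓝 t) (𝓝 0) := by
    have hcont : Continuous fun s : unitInterval => ENNReal.ofReal |(s : ℝ) - t| :=
      ENNReal.continuous_ofReal.comp (by fun_prop)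
    have := ENNReal.Tendsto.const_mul (a := c) (hcont.tendsto t) (Or.inr hc)
    simpa using this
  exact tendsto_of_tendsto_of_tendsto_of_le_of_le tendsto_const_nhds h2 (fun _ => bot_le)
    (fun s => h' s t)

end W2

section Halves

variable {X : Type*} [MetricSpace X]

theorem ext_subCurve (a b : ℝ)
    (γ : UCurve X) {t : ℝ} (ht : t ∈ Icc (0 : ℝ) 1) :
    (subCurve a b γ).ext t = γ.ext (a + t * (b - a)) := by
  rw [ext_eq_of_mem _ ht]
  rfl

theorem dyEn_succ_eq (n : ℕ) (γ : UCurve X) :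
    dyEn (n + 1) γ = 2 * dyEn n (subCurve 0 (1 / 2) γ) + 2 * dyEn n (subCurve (1 / 2) 1 γ) := by
  have hp : (0 : ℝ) < 2 ^ n := by positivity
  have e0 : 2 ^ (n + 1) = 2 ^ n + 2 ^ n := by rw [pow_succ]; ring
  unfold dyEn
  rw [e0, Finset.sum_range_add, Finset.mul_sum, Finset.mul_sum]
  congr 1
  · refine Finset.sum_congr rfl fun j hj => ?_
    have hj' : (j : ℝ) + 1 ≤ 2 ^ n := by exact_mod_cast Finset.mem_range.1 hj
    have hm1 : (j : ℝ) / 2 ^ n ∈ Icc (0 : ℝ) 1 := ⟨by positivity, by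
      rw [div_le_one hp]; linarith⟩
    have hm2 : ((j : ℝ) + 1) / 2 ^ n ∈ Icc (0 : ℝ) 1 := ⟨by positivity, by
      rw [div_le_one hp]; linarith⟩
    rw [ext_subCurve _ _ γ hm1,
      ext_subCurve _ _ γ hm2]
    rw [show (0 : ℝ) + (j : ℝ) / 2 ^ n * (1 / 2 - 0) = (j : ℝ) / 2 ^ (n + 1) by
        rw [pow_succ]; field_simp; ring,
      show (0 : ℝ) + ((j : ℝ) + 1) / 2 ^ n * (1 / 2 - 0) = ((j : ℝ) + 1) / 2 ^ (n + 1) by
        rw [pow_succ]; field_simp; ring]
    rw [pow_succ]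
    ring
  · refine Finset.sum_congr rfl fun j hj => ?_
    have hj' : (j : ℝ) + 1 ≤ 2 ^ n := by exact_mod_cast Finset.mem_range.1 hj
    have hm1 : (j : ℝ) / 2 ^ n ∈ Icc (0 : ℝ) 1 := ⟨by positivity, by
      rw [div_le_one hp]; linarith⟩
    have hm2 : ((j : ℝ) + 1) / 2 ^ n ∈ Icc (0 : ℝ) 1 := ⟨by positivity, by
      rw [div_le_one hp]; linarith⟩
    rw [ext_subCurve _ _ γ hm1,
      ext_subCurve _ _ γ hm2]
    push_cast
    rw [show (1 / 2 : ℝ) + (j : ℝ) / 2 ^ n * (1 - 1 / 2) = (2 ^ n + (j : ℝ)) / 2 ^ (n + 1) by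
        rw [pow_succ]; field_simp; ring,
      show (1 / 2 : ℝ) + ((j : ℝ) + 1) / 2 ^ n * (1 - 1 / 2) =
          (2 ^ n + (j : ℝ) + 1) / 2 ^ (n + 1) by
        rw [pow_succ]; field_simp; ring]
    rw [pow_succ]
    ring

theorem cEn_le_halves (γ : UCurve X) :
    cEn γ ≤ 2 * cEn (subCurve 0 (1 / 2) γ) + 2 * cEn (subCurve (1 / 2) 1 γ) := by
  refine iSup_le fun n => ?_
  refine (dyEn_mono γ (Nat.le_succ n)).trans ?_
  rw [Nat.succ_eq_add_one]
  show dyEn (n + 1) γ ≤ _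
  rw [dyEn_succ_eq]
  exact add_le_add (mul_le_mul' le_rfl (le_iSup (fun n => dyEn n (subCurve 0 (1 / 2) γ)) n))
    (mul_le_mul' le_rfl (le_iSup (fun n => dyEn n (subCurve (1 / 2) 1 γ)) n))

end Halves

section Main

variable {X : Type*} [MetricSpace X] [ProperSpace X] [MeasurableSpace X] [BorelSpace X]

omit [ProperSpace X] [BorelSpace X] in
/-- law at a real time (clamped). -/
theorem timeMarginal_mk (P : Measure (UCurve X)) {t : ℝ} (ht : t ∈ Icc (0 : ℝ) 1) :
    timeMarginal P ⟨t, ht⟩ = P.map (fun γ => γ.ext t) := by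
  unfold timeMarginal
  congr 1
  ext γ
  rw [ext_eq_of_mem γ ht]

omit [ProperSpace X] in
theorem map_ext_subCurve (P : Measure (UCurve X)) (a b : ℝ) {t : ℝ} (ht : t ∈ Icc (0 : ℝ) 1) :
    (P.map (subCurve a b)).map (fun γ => γ.ext t) =
      P.map (fun γ => γ.ext (a + t * (b - a))) := by
  rw [Measure.map_map (measurable_ext t) (measurable_subCurve a b)]
  congr 1
  ext γ
  exact ext_subCurve a b γ ht

/-- the approximating plans. -/
theorem exists_dyadic_plan {m : Measure X} {K N : ℝ} (hcd : IsCD m K N) (n : ℕ) :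
    ∀ (ν : ℝ → Measure X) (A : ℝ → ℝ), (∀ t ∈ Icc (0 : ℝ) 1, IsProbabilityMeasure (ν t)) →
      (∀ t ∈ Icc (0 : ℝ) 1, ν t ≪ m) → (∀ t ∈ Icc (0 : ℝ) 1, HasFiniteSecondMoment (ν t)) →
      MonotoneOn A (Icc 0 1) →
      (∀ s ∈ Icc (0 : ℝ) 1, ∀ t ∈ Icc (0 : ℝ) 1, s ≤ t →
        w2sq (ν s) (ν t) ≤ ENNReal.ofReal ((t - s) * (A t - A s))) →
      ∃ P : Measure (UCurve X), IsProbabilityMeasure P ∧
        (∀ j : ℕ, j ≤ 2 ^ n → P.map (fun γ => γ.ext ((j : ℝ) / 2 ^ n)) = ν ((j : ℝ) / 2 ^ n)) ∧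
        ∫⁻ γ, cEn γ ∂P ≤ ENNReal.ofReal (A 1 - A 0) := by
  induction n with
  | zero =>
    intro ν A hp hac hm hA hW
    have h0 : (0 : ℝ) ∈ Icc (0 : ℝ) 1 := by norm_num
    have h1 : (1 : ℝ) ∈ Icc (0 : ℝ) 1 := by norm_num
    obtain ⟨P, hP, hgeo, hopt, -⟩ := hcd (ν 0) (ν 1) (hp 0 h0) (hp 1 h1) (hm 0 h0) (hm 1 h1)
      (hac 0 h0) (hac 1 h1)
    refine ⟨P, hP, ?_, ?_⟩
    · intro j hj
      have hj' : j = 0 ∨ j = 1 := by simp at hj; omega
      rcases hj' with rfl | rfl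
      · simp only [Nat.cast_zero, zero_div]
        rw [← timeMarginal_mk P h0]
        have := map_fst_endpointLaw P
        rw [hopt.1.1] at this
        rw [this]
        rfl
      · simp only [Nat.cast_one, pow_zero, div_one]
        rw [← timeMarginal_mk P h1]
        have := map_snd_endpointLaw P
        rw [hopt.1.2] at this
        rw [this]
        rfl
    · have e1 : ∫⁻ γ, cEn γ ∂P = ∫⁻ γ, edist (γ.toMap 0) (γ.toMap 1) ^ 2 ∂P := by
        refine lintegral_congr_ae ?_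
        filter_upwards [hgeo] with γ hγ
        exact cEn_csGeodesic hγ
      have e2 : quadCost (endpointLaw P) = ∫⁻ γ, edist (γ.toMap 0) (γ.toMap 1) ^ 2 ∂P := by
        unfold quadCost endpointLaw
        rw [lintegral_map (by fun_prop) measurable_endpoints]
      rw [e1, ← e2]
      have e3 : quadCost (endpointLaw P) ≤ w2sq (ν 0) (ν 1) :=
        le_iInf₂ fun q hq => hopt.2 q hq
      refine e3.trans ((hW 0 h0 1 h1 zero_le_one).trans (le_of_eq ?_))
      rw [sub_zero, one_mul]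
  | succ n ih =>
    intro ν A hp hac hm hA hW
    have hl : ∀ t ∈ Icc (0 : ℝ) 1, t / 2 ∈ Icc (0 : ℝ) 1 := fun t ht =>
      ⟨by linarith [ht.1], by linarith [ht.2]⟩
    have hr : ∀ t ∈ Icc (0 : ℝ) 1, (1 + t) / 2 ∈ Icc (0 : ℝ) 1 := fun t ht =>
      ⟨by linarith [ht.1], by linarith [ht.2]⟩
    obtain ⟨P₁, hP₁, hm₁, hE₁⟩ := ih (fun t => ν (t / 2)) (fun t => A (t / 2) / 2)
      (fun t ht => hp _ (hl t ht)) (fun t ht => hac _ (hl t ht)) (fun t ht => hm _ (hl t ht))
      (fun s hs t ht hst => by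
        have := hA (hl s hs) (hl t ht) (by linarith)
        simp only; linarith)
      (fun s hs t ht hst => by
        refine (hW _ (hl s hs) _ (hl t ht) (by linarith)).trans (le_of_eq ?_)
        congr 1; ring)
    obtain ⟨P₂, hP₂, hm₂, hE₂⟩ := ih (fun t => ν ((1 + t) / 2)) (fun t => A ((1 + t) / 2) / 2)
      (fun t ht => hp _ (hr t ht)) (fun t ht => hac _ (hr t ht)) (fun t ht => hm _ (hr t ht))
      (fun s hs t ht hst => by
        have := hA (hr s hs) (hr t ht) (by linarith)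
        simp only; linarith)
      (fun s hs t ht hst => by
        refine (hW _ (hr s hs) _ (hr t ht) (by linarith)).trans (le_of_eq ?_)
        congr 1; ring)
    have hpn : (0 : ℝ) < 2 ^ n := by positivity
    have hglue : timeMarginal P₁ 1 = timeMarginal P₂ 0 := by
      have a1 := hm₁ (2 ^ n) le_rfl
      have a2 := hm₂ 0 (Nat.zero_le _)
      simp only [Nat.cast_pow, Nat.cast_ofNat, div_self hpn.ne', Nat.cast_zero, zero_div,
        add_zero] at a1 a2
      have b1 := timeMarginal_mk P₁ (show (1 : ℝ) ∈ Icc (0 : ℝ) 1 by norm_num)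
      have b2 := timeMarginal_mk P₂ (show (0 : ℝ) ∈ Icc (0 : ℝ) 1 by norm_num)
      exact (b1.trans a1).trans (b2.trans a2).symm
    obtain ⟨P, hPf, hPl, hPr⟩ := exists_glue_curves P₁ P₂ hglue
    have hPp : IsProbabilityMeasure P := by
      constructor
      have : (P.map (subCurve 0 (1 / 2))) univ = 1 := by rw [hPl]; exact measure_univ
      rwa [Measure.map_apply (measurable_subCurve _ _) MeasurableSet.univ, preimage_univ] at this
    refine ⟨P, hPp, ?_, ?_⟩
    · intro j hj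
      have hpn1 : (0 : ℝ) < 2 ^ (n + 1) := by positivity
      rcases le_total j (2 ^ n) with hjn | hjn
      · have hm' : (j : ℝ) / 2 ^ n ∈ Icc (0 : ℝ) 1 := ⟨by positivity, by
          rw [div_le_one hpn]; exact_mod_cast hjn⟩
        have := hm₁ j hjn
        rw [← hPl, map_ext_subCurve P _ _ hm'] at this
        have e : (0 : ℝ) + (j : ℝ) / 2 ^ n * (1 / 2 - 0) = (j : ℝ) / 2 ^ (n + 1) := by
          rw [pow_succ]; field_simp; ring
        have e' : (j : ℝ) / 2 ^ n / 2 = (j : ℝ) / 2 ^ (n + 1) := by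
          rw [pow_succ]; field_simp
        rw [e] at this
        simp only [e'] at this
        exact this
      · obtain ⟨i, rfl⟩ := Nat.exists_eq_add_of_le hjn
        have hin : i ≤ 2 ^ n := by rw [pow_succ] at hj; omega
        have hm' : (i : ℝ) / 2 ^ n ∈ Icc (0 : ℝ) 1 := ⟨by positivity, by
          rw [div_le_one hpn]; exact_mod_cast hin⟩
        have := hm₂ i hin
        rw [← hPr, map_ext_subCurve P _ _ hm'] at this
        have e : (1 / 2 : ℝ) + (i : ℝ) / 2 ^ n * (1 - 1 / 2) =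
            (((2 ^ n + i : ℕ)) : ℝ) / 2 ^ (n + 1) := by
          push_cast; rw [pow_succ]; field_simp; ring
        have e' : (1 + (i : ℝ) / 2 ^ n) / 2 = (((2 ^ n + i : ℕ)) : ℝ) / 2 ^ (n + 1) := by
          push_cast; rw [pow_succ]; field_simp
        rw [e] at this
        simp only [e'] at this
        exact this
    · have i1 : ∫⁻ γ, cEn (subCurve 0 (1 / 2) γ) ∂P = ∫⁻ γ, cEn γ ∂P₁ := by
        rw [← hPl, lintegral_map measurable_cEn (measurable_subCurve _ _)]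
      have i2 : ∫⁻ γ, cEn (subCurve (1 / 2) 1 γ) ∂P = ∫⁻ γ, cEn γ ∂P₂ := by
        rw [← hPr, lintegral_map measurable_cEn (measurable_subCurve _ _)]
      have hmid : (1 / 2 : ℝ) ∈ Icc (0 : ℝ) 1 := by norm_num
      have hA1 : 0 ≤ A (1 / 2) - A 0 := sub_nonneg.2 (hA (by norm_num) hmid (by norm_num))
      have hA2 : 0 ≤ A 1 - A (1 / 2) := sub_nonneg.2 (hA hmid (by norm_num) (by norm_num))
      calc ∫⁻ γ, cEn γ ∂P
          ≤ ∫⁻ γ, (2 * cEn (subCurve 0 (1 / 2) γ) + 2 * cEn (subCurve (1 / 2) 1 γ)) ∂P :=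
            lintegral_mono cEn_le_halves
        _ = 2 * ∫⁻ γ, cEn γ ∂P₁ + 2 * ∫⁻ γ, cEn γ ∂P₂ := by
            have hm1 : Measurable fun γ : UCurve X => 2 * cEn (subCurve 0 (1 / 2) γ) :=
              (measurable_cEn.comp (measurable_subCurve _ _)).const_mul 2
            rw [lintegral_add_left hm1,
              lintegral_const_mul' _ _ (by simp), lintegral_const_mul' _ _ (by simp), i1, i2]
        _ ≤ 2 * ENNReal.ofReal (A (1 / 2) / 2 - A 0 / 2) +
              2 * ENNReal.ofReal (A 1 / 2 - A (1 / 2) / 2) := by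
            refine add_le_add (mul_le_mul' le_rfl ?_) (mul_le_mul' le_rfl ?_)
            · simpa using hE₁
            · refine hE₂.trans (le_of_eq ?_)
              norm_num
        _ = ENNReal.ofReal (A 1 - A 0) := by
            rw [show (2 : ℝ≥0∞) = ENNReal.ofReal 2 by simp, ← ENNReal.ofReal_mul (by norm_num),
              ← ENNReal.ofReal_mul (by norm_num), ← ENNReal.ofReal_add (by linarith)
              (by linarith)]
            congr 1; ring

/-- dyadic times are dense in the unit interval. -/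
theorem dense_dyadic :
    Dense {t : unitInterval | ∃ n j : ℕ, j ≤ 2 ^ n ∧ (t : ℝ) = (j : ℝ) / 2 ^ n} := by
  intro t
  have hmem : ∀ n : ℕ, (dyFl n t : ℝ) / 2 ^ n ∈ Icc (0 : ℝ) 1 := fun n =>
    ⟨by positivity, (dyFl_le t.2.1).trans t.2.2⟩
  refine mem_closure_of_tendsto (f := fun n => (⟨(dyFl n t : ℝ) / 2 ^ n, hmem n⟩ : unitInterval))
    (b := atTop) ?_ (Eventually.of_forall fun n => ⟨n, dyFl n t, dyFl_le_pow t.2.2, rfl⟩)
  rw [tendsto_subtype_rng]
  exact tendsto_dyFl t.2.1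

/-- [SUP] -/
theorem sup_plan {m : Measure X} {K N : ℝ} (hcd : IsCD m K N)
    (ν : unitInterval → Measure X) (hprob : ∀ t, IsProbabilityMeasure (ν t)) (C : ℝ≥0)
    (hC : ∀ t, ν t ≤ (C : ℝ≥0∞) • m) (hmom : ∀ t, HasFiniteSecondMoment (ν t))
    (A : ℝ → ℝ) (hA : MonotoneOn A (Icc 0 1))
    (hW : ∀ s t : unitInterval, (s : ℝ) ≤ (t : ℝ) →
      w2sq (ν s) (ν t) ≤ ENNReal.ofReal (((t : ℝ) - s) * (A t - A s))) :
    ∃ P : Measure (UCurve X), IsTestPlan2 m P ∧ (∀ t, timeMarginal P t = ν t) ∧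
      (∫⁻ γ, (∫⁻ t in Icc (0 : ℝ) 1, upperSpeed γ t ^ 2) ∂P) ≤ ENNReal.ofReal (A 1 - A 0) := by
  set ν' : ℝ → Measure X := fun t => ν (projIcc 0 1 zero_le_one t) with hν'
  have hν'eq : ∀ t : unitInterval, ν' t = ν t := fun t => by rw [hν']; simp only [projIcc_val]
  have hac : ∀ t, ν t ≪ m := fun t =>
    (Measure.absolutelyContinuous_of_le (hC t)).trans Measure.smul_absolutelyContinuous
  have hpl : ∀ n : ℕ, ∃ P : Measure (UCurve X), IsProbabilityMeasure P ∧
        (∀ j : ℕ, j ≤ 2 ^ n → P.map (fun γ => γ.ext ((j : ℝ) / 2 ^ n)) = ν' ((j : ℝ) / 2 ^ n)) ∧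
        ∫⁻ γ, cEn γ ∂P ≤ ENNReal.ofReal (A 1 - A 0) := by
    intro n
    refine exists_dyadic_plan hcd n ν' A (fun t ht => hprob _) (fun t ht => hac _)
      (fun t ht => hmom _) hA ?_
    intro s hs t ht hst
    have h1 := hW ⟨s, hs⟩ ⟨t, ht⟩ hst
    rw [← hν'eq, ← hν'eq] at h1
    exact h1
  choose P hP hmarg hE using hpl
  set PP : ℕ → ProbabilityMeasure (UCurve X) := fun n => ⟨P n, hP n⟩ with hPP
  have hP0 : ∀ n, timeMarginal (P n) 0 = ν 0 := by
    intro n
    have h1 := hmarg n 0 (Nat.zero_le _)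
    simp only [Nat.cast_zero, zero_div] at h1
    have h2 := timeMarginal_mk (P n) (show (0 : ℝ) ∈ Icc (0 : ℝ) 1 by norm_num)
    have h3 : ν' 0 = ν 0 := hν'eq 0
    rw [← h3, ← h1, ← h2]
    rfl
  obtain ⟨Q, φ, hφ, hQ⟩ : ∃ (Q : ProbabilityMeasure (UCurve X)) (φ : ℕ → ℕ), StrictMono φ ∧
      Tendsto (fun n => PP (φ n)) atTop (𝓝 Q) := by
    refine exists_subseq_tendsto PP fun ε hε => ?_
    have := hprob 0
    obtain ⟨K', hK', h⟩ := tight_of_energy (ν 0) (A 1 - A 0).toNNReal ε hε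
    exact ⟨K', hK', fun n => h (P n) (hP n) (hP0 n) (hE n)⟩
  have hQE : ∫⁻ γ, cEn γ ∂(Q : Measure (UCurve X)) ≤ ENNReal.ofReal (A 1 - A 0) := by
    refine (lintegral_le_liminf_of_lsc lowerSemicontinuous_cEn hQ).trans ?_
    refine liminf_le_of_le (by isBoundedDefault) fun b hb => ?_
    obtain ⟨n, hn⟩ := hb.exists
    exact hn.trans (hE (φ n))
  -- time marginals
  set νP : unitInterval → ProbabilityMeasure X := fun t => ⟨ν t, hprob t⟩ with hνP
  have hdy : ∀ t ∈ {t : unitInterval | ∃ n j : ℕ, j ≤ 2 ^ n ∧ (t : ℝ) = (j : ℝ) / 2 ^ n},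
      tmP t Q = νP t := by
    rintro t ⟨n, j, hj, htj⟩
    have hlim : Tendsto (fun i => tmP t (PP (φ i))) atTop (𝓝 (tmP t Q)) :=
      ((continuous_tmP t).tendsto Q).comp hQ
    refine tendsto_nhds_unique hlim ?_
    refine tendsto_const_nhds.congr' ?_
    filter_upwards [hφ.tendsto_atTop.eventually_ge_atTop n] with i hi
    refine Subtype.ext ?_
    obtain ⟨k, hk⟩ := Nat.exists_eq_add_of_le hi
    have e : (t : ℝ) = ((j * 2 ^ k : ℕ) : ℝ) / 2 ^ (φ i) := by
      rw [htj, hk, pow_add]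
      push_cast
      field_simp
    have h1 := hmarg (φ i) (j * 2 ^ k) (by
      rw [hk, pow_add]; exact Nat.mul_le_mul_right _ hj)
    rw [← e] at h1
    show ν t = timeMarginal (P (φ i)) t
    rw [← hν'eq t, ← h1, ← timeMarginal_mk (P (φ i)) t.2]
  have hcontν : Continuous νP := by
    refine continuous_of_w2sq (c := ENNReal.ofReal (A 1 - A 0)) ENNReal.ofReal_ne_top ?_
    intro s t hst
    refine (hW s t hst).trans ?_
    have hAst : A t - A s ≤ A 1 - A 0 := by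
      have h1 := hA t.2 (by norm_num : (1 : ℝ) ∈ Icc (0 : ℝ) 1) t.2.2
      have h2 := hA (by norm_num : (0 : ℝ) ∈ Icc (0 : ℝ) 1) s.2 s.2.1
      linarith
    have hAst0 : 0 ≤ A t - A s := sub_nonneg.2 (hA s.2 t.2 hst)
    rw [← ENNReal.ofReal_mul (hAst0.trans hAst)]
    refine ENNReal.ofReal_le_ofReal ?_
    rw [mul_comm]
    exact mul_le_mul_of_nonneg_right hAst (by linarith)
  have hall : (fun t : unitInterval => tmP t Q) = νP :=
    Continuous.ext_on dense_dyadic (continuous_time_tmP Q) hcontν hdy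
  have hmargQ : ∀ t, timeMarginal (Q : Measure (UCurve X)) t = ν t := by
    intro t
    have := congrFun hall t
    exact congrArg Subtype.val this
  have hfin : ∀ᵐ γ ∂(Q : Measure (UCurve X)), cEn γ < ⊤ :=
    ae_lt_top measurable_cEn (lt_of_le_of_lt hQE ENNReal.ofReal_lt_top).ne
  have hkin : (∫⁻ γ, (∫⁻ t in Icc (0 : ℝ) 1, upperSpeed γ t ^ 2) ∂(Q : Measure (UCurve X))) ≤
      ENNReal.ofReal (A 1 - A 0) := by
    refine (lintegral_mono_ae ?_).trans hQE
    filter_upwards [hfin] with γ hγ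
    exact lintegral_upperSpeed_sq_le_cEn γ hγ
  refine ⟨Q, ⟨inferInstance, ⟨C, fun t => ?_⟩, ?_, ?_⟩, hmargQ, hkin⟩
  · rw [hmargQ t]; exact hC t
  · filter_upwards [hfin] with γ hγ
    exact hasL2Speed_of_cEn hγ
  · exact lt_of_le_of_lt hkin ENNReal.ofReal_lt_top

end Main

end Crest.Agent.R242
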